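import Crest.Agent.R136.Rg0_501

/-!
# R136: **[RIG-0]**, main theorem (helper501)

`rig0_ex`: chart free.  `a < s < σ` and the K3core data imply that `f` is affine in `z` up to a
power `ρ^(θ x)` on a `ρ^(η x)`-part of the heights; `θ` depends on `(σ, s, a, η)` only.
-/

set_option autoImplicit false
set_option linter.unusedVariables false
set_option linter.unusedSectionVars false

open Filter Topology Finset

namespace Crest.Agent.R136.Rg1_501

open Crest.Agent.R138.Ex926 (Base U)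
open Crest.Agent.R138.TwA501 (ev_const ev_const_mul dpow_pos dpow_anti dpow_add dpow_le_one
  energy pair_sum_le)
open Crest.Agent.R136.Rg0_501

open Classical in
/-- the finite Kaufman inequality at one pin -/
theorem kauf_fin (Z K S : Finset ℕ) (z f : ℕ → ℝ) (al : ℕ → ℕ → Prop) (F : ℕ → ℕ → ℝ)
    (P X : ℕ → ℝ) {k₀ : ℕ} {J : ℕ} {r M m : ℝ} (tt aa bb : ℕ → ℝ) (hKZ : K ⊆ Z)
    (hr : 0 < r) (hm : 0 ≤ m) (hM0 : 0 ≤ M)
    (hF : ∀ k ∈ K, ∀ i ∈ S, ∀ i' ∈ S, al i k → al i' k →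
      |F k i - F k i' - ((z k - z k₀) * (P i - P i') - (f k - f k₀) * (X i - X i'))| ≤ r)
    (hcell : ∀ k ∈ K, (((S.filter fun i => al i k).image fun i => ⌊F k i / r⌋).card : ℝ) ≤ M)
    (hal : ∀ i ∈ S, m * (Z.card : ℝ) ≤ ((K.filter fun k => al i k).card : ℝ))
    (h0 : ∀ i ∈ S, ∀ i' ∈ S, max |P i - P i'| |X i - X i'| ≤ tt 0)
    (hb : ∀ j ≤ J, 0 ≤ bb j)
    (h1 : ∀ j < J, ∀ i ∈ S, ∀ i' ∈ S, tt (j + 1) < max |P i - P i'| |X i - X i'| →
      ((K.filter fun k => |(z k - z k₀) * (P i - P i') - (f k - f k₀) * (X i - X i')| ≤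
        2 * r).card : ℝ) ≤ bb j * Z.card)
    (h2 : (1 : ℝ) ≤ bb J)
    (hnear : ∀ j ≤ J, ∀ i ∈ S, ((S.filter fun i' => max |P i - P i'| |X i - X i'| ≤
      tt j).card : ℝ) ≤ aa j * S.card) (hS : S.Nonempty) (hZ : Z.Nonempty) :
    m ^ 2 ≤ M * ∑ j ∈ range (J + 1), aa j * bb j := by
  have hZc : (0 : ℝ) < Z.card := by exact_mod_cast card_pos.2 hZ
  have hSc : (0 : ℝ) < S.card := by exact_mod_cast card_pos.2 hS
  have e1 := energy (S := S) (K := K) (fun k => S.filter fun i => al i k)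
    (fun k _ => filter_subset _ _) (fun k i => ⌊F k i / r⌋)
    (fun k i i' => |(z k - z k₀) * (P i - P i') - (f k - f k₀) * (X i - X i')| ≤ 2 * r) M (by
      intro k hk i hi i' hi' hl
      rw [mem_filter] at hi hi'
      have g1 := Int.abs_sub_lt_one_of_floor_eq_floor hl
      rw [← sub_div, abs_div, abs_of_pos hr, div_lt_one hr] at g1
      have g2 := hF k hk i hi.1 i' hi'.1 hi.2 hi'.2
      rw [abs_le] at g2 ⊢
      rw [abs_lt] at g1
      constructor <;> linarith [g1.1, g1.2, g2.1, g2.2]) hcell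
  have e2 := pair_sum_le (S := S)
    (fun i i' => ((K.filter fun k => |(z k - z k₀) * (P i - P i') -
      (f k - f k₀) * (X i - X i')| ≤ 2 * r).card : ℝ))
    (fun i i' => max |P i - P i'| |X i - X i'|) tt (fun j => bb j * Z.card) J
    (fun j hj => mul_nonneg (hb j hj) hZc.le) h0
    (fun j hj i hi i' hi' hD => h1 j hj i hi i' hi' hD)
    (fun i hi i' hi' => by
      calc ((K.filter fun k => |(z k - z k₀) * (P i - P i') -
            (f k - f k₀) * (X i - X i')| ≤ 2 * r).card : ℝ) ≤ Z.card := by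
            exact_mod_cast card_le_card ((filter_subset _ _).trans hKZ)
        _ = 1 * Z.card := (one_mul _).symm
        _ ≤ _ := mul_le_mul_of_nonneg_right h2 hZc.le)
    (fun j => aa j * S.card) hnear
  have e3 : ∑ k ∈ K, (((S.filter fun i => al i k).card : ℕ) : ℝ) =
      ∑ i ∈ S, ((K.filter fun k => al i k).card : ℝ) := by
    have g1 : ∀ k ∈ K, (((S.filter fun i => al i k).card : ℕ) : ℝ) =
        ∑ i ∈ S, (if al i k then (1 : ℝ) else 0) := by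
      intro k _
      rw [card_filter]; push_cast; rfl
    have g2 : ∀ i ∈ S, (((K.filter fun k => al i k).card : ℕ) : ℝ) =
        ∑ k ∈ K, (if al i k then (1 : ℝ) else 0) := by
      intro i _
      rw [card_filter]; push_cast; rfl
    rw [sum_congr rfl g1, sum_congr rfl g2, sum_comm]
  have e4 : m * Z.card * S.card ≤ ∑ k ∈ K, (((S.filter fun i => al i k).card : ℕ) : ℝ) := by
    rw [e3]
    calc m * Z.card * S.card = ∑ i ∈ S, m * (Z.card : ℝ) := by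
          rw [sum_const, nsmul_eq_mul]; ring
      _ ≤ _ := sum_le_sum hal
  have hsum : ∑ j ∈ range (J + 1), aa j * (S.card : ℝ) * (bb j * Z.card) =
      (S.card : ℝ) * Z.card * ∑ j ∈ range (J + 1), (aa j * bb j) := by
    rw [mul_sum]
    refine sum_congr rfl fun j _ => ?_
    ring
  rw [hsum] at e2
  have e5 : (m * Z.card * S.card) ^ 2 ≤ (Z.card : ℝ) * (M *
      (S.card * ((S.card : ℝ) * Z.card * ∑ j ∈ range (J + 1), (aa j * bb j)))) := by
    refine (pow_le_pow_left₀ (by positivity) e4 2).trans (e1.trans ?_)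
    have g1 : (K.card : ℝ) ≤ Z.card := by exact_mod_cast card_le_card hKZ
    refine mul_le_mul g1 (mul_le_mul_of_nonneg_left e2 hM0) ?_ hZc.le
    refine mul_nonneg hM0 (sum_nonneg fun i _ => sum_nonneg fun i' _ => Nat.cast_nonneg _)
  have e6 : m ^ 2 * ((Z.card : ℝ) * S.card) ^ 2 ≤
      (M * ∑ j ∈ range (J + 1), aa j * bb j) * ((Z.card : ℝ) * S.card) ^ 2 := by
    calc _ = (m * Z.card * S.card) ^ 2 := by ring
      _ ≤ _ := e5
      _ = _ := by ring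
  exact le_of_mul_le_mul_right e6 (by positivity)

theorem cast_sub {J j : ℕ} (hj : j < J) : ((J - 1 - j : ℕ) : ℝ) = (J : ℝ) - 1 - j := by
  have h1 : J - 1 - j + (j + 1) = J := by omega
  have h2 : ((J - 1 - j : ℕ) : ℝ) + ((j : ℝ) + 1) = J := by exact_mod_cast h1
  linarith

/-- the parameters of the proof -/
theorem params {σ s a c x C : ℝ} {J : ℕ} (ha : 0 ≤ a) (has : a < s) (hσ0 : 0 < σ) (hσ1 : σ ≤ 1)
    (hs1 : s < 1) (hc0 : 0 < c) (hc10 : c ≤ 1 / 10) (hx : 0 < x) (hC0 : 0 ≤ C)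
    (hJ4 : 4 < (J : ℝ) * (s - a)) :
    ∃ ε : ℝ, 0 < ε ∧ 0 < x / ((J : ℝ) + 1) ∧ ((J : ℝ) + 1) * (x / ((J : ℝ) + 1)) = x ∧
      ε < σ * (c * (x / ((J : ℝ) + 1))) - ε ∧ ε < c * (x / ((J : ℝ) + 1)) / 2 ∧
      ε + 2 * (c * (x / ((J : ℝ) + 1))) + x / ((J : ℝ) + 1) / 2 ≤ x / ((J : ℝ) + 1) ∧
      (s - a) * x / 4 + 4 * ε ≤
        s * (((J : ℝ) - 1) * (x / ((J : ℝ) + 1))) - a * x - (C + 1) * ε ∧
      c * (x / ((J : ℝ) + 1)) ≤ x := by
  have hsa : 0 < s - a := sub_pos.2 has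
  have hJ0 : (0 : ℝ) < (J : ℝ) + 1 := by positivity
  set hh : ℝ := x / ((J : ℝ) + 1) with hhh
  have hh0 : 0 < hh := by positivity
  have hyh : ((J : ℝ) + 1) * hh = x := by rw [hhh]; field_simp
  set ε : ℝ := min (σ * c * hh / 8) ((s - a) * x / (4 * (C + 5))) with hε
  have hC5 : 0 < C + 5 := by linarith
  have hε0 : 0 < ε := lt_min (by positivity) (by positivity)
  have hεa : ε ≤ σ * c * hh / 8 := min_le_left _ _
  have hεb : (C + 5) * ε ≤ (s - a) * x / 4 := by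
    have h1 : ε ≤ (s - a) * x / (4 * (C + 5)) := min_le_right _ _
    calc (C + 5) * ε ≤ (C + 5) * ((s - a) * x / (4 * (C + 5))) :=
          mul_le_mul_of_nonneg_left h1 hC5.le
      _ = _ := by field_simp
  clear_value ε hh
  have hch0 : 0 < c * hh := by positivity
  have hσch : σ * (c * hh) ≤ 1 * (c * hh) := mul_le_mul_of_nonneg_right hσ1 hch0.le
  have hσch0 : 0 < σ * (c * hh) := by positivity
  have hch : c * hh ≤ 1 / 10 * hh := mul_le_mul_of_nonneg_right hc10 hh0.le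
  have hεa' : ε ≤ σ * (c * hh) / 8 := by linarith
  have g0 : 4 * hh ≤ (J : ℝ) * (s - a) * hh := mul_le_mul_of_nonneg_right hJ4.le hh0.le
  have g1 : (s - a) * x = (J : ℝ) * (s - a) * hh + (s - a) * hh := by rw [← hyh]; ring
  have g2 : 0 < (s - a) * hh := by positivity
  have g3 : s * (((J : ℝ) - 1) * hh) = s * x - 2 * (s * hh) := by rw [← hyh]; ring
  have g4 : s * hh ≤ 1 * hh := mul_le_mul_of_nonneg_right hs1.le hh0.le
  have g5 : (s - a) * x = s * x - a * x := by ring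
  have g6 : hh ≤ x := by
    rw [← hyh]
    have : 0 ≤ (J : ℝ) * hh := by positivity
    linarith
  refine ⟨ε, hε0, hh0, hyh, by linarith, by linarith, by linarith, by linarith, by linarith⟩

open Classical in
/-- at all scales of the mesh there are few bad pairs, or there is a heavy strip -/
theorem few_bad' {σ s η : ℝ} (hσ0 : 0 < σ) (hs0 : 0 < s) (hsσ : s < σ) (hσ1 : σ ≤ 1)
    (hη : 0 < η) :
    ∃ α c : ℝ, 0 < α ∧ α ≤ 1 ∧ 0 < c ∧ c ≤ 1 / 10 ∧ ∀ (B : Base) (Z : ℕ → Finset ℕ)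
      (z f : ℕ → ℕ → ℝ) (x hh : ℝ) (J : ℕ), 0 < hh → ((J : ℝ) + 1) * hh = x →
      (∀ᶠ n in (U : Filter ℕ), ∀ k ∈ Z n, |z n k| ≤ 1 ∧ |f n k| ≤ 1) →
      (∀ y : ℝ, 0 ≤ y → y ≤ x → ∀ ε : ℝ, 0 < ε → ∀ᶠ n in (U : Filter ℕ), ∀ k ∈ Z n,
        (((Z n).filter fun k' => |z n k' - z n k| ≤ B.d n ^ y).card : ℝ) ≤
          B.d n ^ (σ * y - ε) * ((Z n).card : ℝ)) →
      (∀ᶠ n in (U : Filter ℕ), ¬ ∃ w μ : ℝ, B.d n ^ x ≤ w ∧ w ≤ B.d n ^ (α * hh) ∧
        |μ| ≤ B.d n ^ (-(η * x)) ∧ ∃ k₁ ∈ Z n, w ^ η * ((Z n).card : ℝ) ≤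
          (((Z n).filter fun k => |f n k - f n k₁ - μ * (z n k - z n k₁)| ≤ w).card : ℝ)) →
      ∀ᶠ n in (U : Filter ℕ), ∀ l ∈ range J,
        ((bpr (Z n) (z n) (f n) (B.d n ^ (((l + 1 : ℕ) : ℝ) * hh)) c s).card : ℝ) ≤
          (B.d n ^ (c * hh / 2)) ^ 2 * ((Z n).card : ℝ) ^ 2 := by
  have hs1 : s < 1 := hsσ.trans_le hσ1
  obtain ⟨α, c₀, hα, hα1, hc₀, HT⟩ :=
    Crest.Agent.R138.Pl187.thin_graph (s := σ) (σ := s) hσ0 hsσ hs1 hη
  set c : ℝ := min c₀ (min (1 / 10) (η / 2)) with hcdef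
  have hc0 : 0 < c := lt_min hc₀ (lt_min (by norm_num) (by positivity))
  have hcc : c ≤ c₀ := min_le_left _ _
  have hc10 : c ≤ 1 / 10 := (min_le_right _ _).trans (min_le_left _ _)
  have hcη : c ≤ η / 2 := (min_le_right _ _).trans (min_le_right _ _)
  clear_value c
  obtain ⟨r₀, hr₀, HR⟩ := HT c hc0 hcc
  refine ⟨α, c, hα, hα1, hc0, hc10, ?_⟩
  intro B Z z f x hh J hh0 hyh hzf hfr hcon
  rw [Filter.eventually_all_finset]
  intro l hl
  have hlJ : ((l + 1 : ℕ) : ℝ) ≤ J := by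
    have : l + 1 ≤ J := by simpa using hl
    exact_mod_cast this
  have hl2 : (1 : ℝ) ≤ ((l + 1 : ℕ) : ℝ) := by
    push_cast; linarith [Nat.cast_nonneg (α := ℝ) l]
  set y : ℝ := ((l + 1 : ℕ) : ℝ) * hh with hy
  have hy0 : 0 < y := by positivity
  have hyh1 : 1 * hh ≤ y := mul_le_mul_of_nonneg_right hl2 hh0.le
  have hyl : y ≤ x := by
    rw [← hyh, hy]
    exact mul_le_mul_of_nonneg_right (by linarith) hh0.le
  have hx : 0 < x := hy0.trans_le hyl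
  clear_value y
  have hcy : 0 < c * y := by positivity
  have hexp : -(η * x) < -(c * y) := by
    have g1 : c * y ≤ η / 2 * x := mul_le_mul hcη hyl hy0.le (by positivity)
    have g2 : 0 < η * x := by positivity
    linarith
  filter_upwards [hcon, ev_const B r₀⁻¹ hy0, ev_const_mul B 2 hexp,
    frost_all' B Z z hσ0.le hσ1 hx hfr hcy, hzf] with n hN hr h2 hfrn hzfn
  have hpos := dpow_pos B n y
  have hr' : B.d n ^ y ≤ r₀ := by
    rw [inv_mul_le_iff₀ hr₀, mul_one] at hr; exact hr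
  have hsplit := HR (B.d n ^ y) hpos hr' (Z n) (z n) (f n) hzfn (by
      intro ρ h1 h2 k hk
      refine (hfrn ρ ((dpow_anti B n hyl).trans h1) h2 k hk).trans (le_of_eq ?_)
      rw [← Real.rpow_mul (B.pos n).le]
      congr 2; congr 1; ring)
  rcases hsplit with hstrip | hbad
  · exfalso
    obtain ⟨k₁, hk₁, k₂, hk₂, hsep, μ, w, hμ, hμ2, hw1, hw2, hmass⟩ := hstrip
    refine hN ⟨w, μ, (dpow_anti B n hyl).trans hw1, hw2.trans ?_, hμ2.trans ?_, k₁, hk₁, hmass⟩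
    · rw [← Real.rpow_mul (B.pos n).le]
      refine dpow_anti B n ?_
      rw [mul_comm α hh]
      exact mul_le_mul_of_nonneg_right (by linarith) hα.le
    · rw [← Real.rpow_mul (B.pos n).le]
      have g1 : y * -c = -(c * y) := by ring
      rw [g1]
      exact h2
  · unfold bpr
    refine hbad.trans ?_
    refine mul_le_mul_of_nonneg_right ?_ (by positivity)
    rw [← Real.rpow_mul (B.pos n).le, sq, ← dpow_add]
    refine dpow_anti B n ?_
    have : c * (1 * hh) ≤ c * y := mul_le_mul_of_nonneg_left hyh1 hc0.le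
    linarith

open Classical in
/-- the good pin and the good heights seen from it -/
theorem good_pin (Z P0 : Finset ℕ) (z f : ℕ → ℝ) (J : ℕ) (bad : ℕ → Finset (ℕ × ℕ))
    {θ de s1 : ℝ} (hθ : 0 < θ) (hde : 0 < de) (hZ : Z.Nonempty) (hPZ : P0 ⊆ Z)
    (hbad : ∀ l ∈ range J, ((bad l).card : ℝ) ≤ θ ^ 2 * (Z.card : ℝ) ^ 2)
    (hJθ : 4 * (J : ℝ) * θ ≤ de) (hP0 : de * (Z.card : ℝ) ≤ (P0.card : ℝ))
    (hfr : ∀ k ∈ Z, ((Z.filter fun k' => |z k' - z k| ≤ s1).card : ℝ) ≤ de / 4 * Z.card) :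
    ∃ k₀ ∈ P0, ∃ K ⊆ Z, ((Z \ K).card : ℝ) ≤ de / 2 * Z.card ∧
      ∀ k ∈ K, s1 < |z k - z k₀| ∧ ∀ l ∈ range J, (k₀, k) ∉ bad l := by
  have hZc : (0 : ℝ) < Z.card := by exact_mod_cast card_pos.2 hZ
  set Z' := Z.filter fun k₀ => ∀ l ∈ range J,
    ((Z.filter fun k => (k₀, k) ∈ bad l).card : ℝ) ≤ θ * Z.card with hZ'
  have hmk : ((Z \ Z').card : ℝ) ≤ J * (θ * Z.card) := by
    have := markov_compl Z J bad hθ hbad
    convert this using 3
  have hJ1 : (J : ℝ) * (θ * Z.card) ≤ de / 4 * Z.card := by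
    have : 4 * (J : ℝ) * θ * Z.card ≤ de * Z.card := mul_le_mul_of_nonneg_right hJθ hZc.le
    linarith
  obtain ⟨k₀, hk₀P, hk₀Z'⟩ : ∃ k₀ ∈ P0, k₀ ∈ Z' := by
    by_contra hno
    push Not at hno
    have g1 : P0 ⊆ Z \ Z' := fun k hk => Finset.mem_sdiff.2 ⟨hPZ hk, hno k hk⟩
    have g2 : (P0.card : ℝ) ≤ (Z \ Z').card := by exact_mod_cast card_le_card g1
    have g3 : 0 < de * Z.card := by positivity
    linarith
  have hpin : ∀ l ∈ range J, ((Z.filter fun k => (k₀, k) ∈ bad l).card : ℝ) ≤ θ * Z.card := by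
    rw [hZ', mem_filter] at hk₀Z'; exact hk₀Z'.2
  refine ⟨k₀, hk₀P, Z.filter fun k => s1 < |z k - z k₀| ∧ ∀ l ∈ range J, (k₀, k) ∉ bad l,
    filter_subset _ _, ?_, fun k hk => (mem_filter.1 hk).2⟩
  have hcard := Crest.Agent.R138.TwF501.sdiff_count Z
    (Z.filter fun k' => |z k' - z k₀| ≤ s1) J
    (fun l => Z.filter fun k => (k₀, k) ∈ bad l)
    (fun k => s1 < |z k - z k₀| ∧ ∀ l ∈ range J, (k₀, k) ∉ bad l) (by
      intro k hk hgood
      by_cases hz : s1 < |z k - z k₀|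
      · right
        have h3 : ¬ ∀ l ∈ range J, (k₀, k) ∉ bad l := fun h4 => hgood ⟨hz, h4⟩
        push Not at h3
        obtain ⟨l, hl, h4⟩ := h3
        exact ⟨l, hl, mem_filter.2 ⟨hk, h4⟩⟩
      · left
        rw [mem_filter]
        exact ⟨hk, not_lt.1 hz⟩) hpin
  have h1 := hfr k₀ (hPZ hk₀P)
  refine le_trans (le_of_eq ?_) (hcard.trans ?_)
  · congr
  · linarith

open Classical in
/-- few common heights, on the mesh -/
theorem few_common_mesh (B : Base) (n : ℕ) (Z K : Finset ℕ) (z f : ℕ → ℝ)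
    (hzf : ∀ k ∈ Z, |z k| ≤ 1 ∧ |f k| ≤ 1) {k₀ : ℕ} (hk₀ : k₀ ∈ Z) (hKZ : K ⊆ Z)
    {J j : ℕ} (hj : j < J) {hh c s x ε DP DX : ℝ} (hh0 : 0 < hh) (hc0 : 0 < c)
    (hyh : ((J : ℝ) + 1) * hh = x)
    (hex : ε + 2 * (c * hh) + hh / 2 ≤ hh) (hc16 : 16 * B.d n ^ (hh / 2) ≤ 1)
    (hK : ∀ k ∈ K, B.d n ^ (c * hh) < |z k - z k₀| ∧ ∀ l ∈ range J,
      (k₀, k) ∉ bpr Z z f (B.d n ^ (((l + 1 : ℕ) : ℝ) * hh)) c s)
    (hD : B.d n ^ (((j + 1 : ℕ) : ℝ) * hh) < max |DP| |DX|) :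
    ((K.filter fun k => |(z k - z k₀) * DP - (f k - f k₀) * DX| ≤
      2 * B.d n ^ (x - ε)).card : ℝ) ≤
        B.d n ^ (s * (((J - 1 - j : ℕ) : ℝ) * hh)) * Z.card := by
  set w := B.d n ^ (((j + 1 : ℕ) : ℝ) * hh) with hw
  set t := B.d n ^ (((J - 1 - j : ℕ) : ℝ) * hh) with ht
  set s1 := B.d n ^ (c * hh) with hs1def
  have hs10 : 0 < s1 := dpow_pos B n _
  have hs11 : s1 ≤ 1 := dpow_le_one B n (by positivity)
  have hw0 : 0 < w := dpow_pos B n _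
  have ht0 : 0 < t := dpow_pos B n _
  have ht1 : t ≤ 1 := dpow_le_one B n (by positivity)
  have hexp : B.d n ^ (s * (((J - 1 - j : ℕ) : ℝ) * hh)) = t ^ s := by
    rw [ht, ← Real.rpow_mul (B.pos n).le]
    congr 1; ring
  rw [hexp]
  rcases Nat.lt_or_ge (j + 1) J with hj1 | hj1
  · have hl : J - 2 - j ∈ range J := by simp; omega
    have hl1 : J - 2 - j + 1 = J - 1 - j := by omega
    have hbig : 8 * (2 * B.d n ^ (x - ε)) ≤ t * (s1 ^ 2 * w) := by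
      have g1 : t * (s1 ^ 2 * w) = B.d n ^ ((J : ℝ) * hh + 2 * (c * hh)) := by
        rw [ht, hs1def, hw, sq, ← dpow_add, ← dpow_add, ← dpow_add, cast_sub hj]
        congr 1
        push_cast
        ring
      rw [g1]
      have g2 : B.d n ^ (x - ε) ≤ B.d n ^ (hh / 2) * B.d n ^ ((J : ℝ) * hh + 2 * (c * hh)) := by
        rw [← dpow_add]
        refine dpow_anti B n ?_
        rw [← hyh]
        linarith
      have g3 := dpow_pos B n ((J : ℝ) * hh + 2 * (c * hh))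
      calc 8 * (2 * B.d n ^ (x - ε)) ≤
            16 * (B.d n ^ (hh / 2) * B.d n ^ ((J : ℝ) * hh + 2 * (c * hh))) := by linarith
        _ = (16 * B.d n ^ (hh / 2)) * B.d n ^ ((J : ℝ) * hh + 2 * (c * hh)) := by ring
        _ ≤ 1 * B.d n ^ ((J : ℝ) * hh + 2 * (c * hh)) :=
            mul_le_mul_of_nonneg_right hc16 g3.le
        _ = _ := one_mul _
    have hrp := dpow_pos B n (x - ε)
    refine few_common Z K z f hzf hk₀ hKZ
      (fun k => |(z k - z k₀) * DP - (f k - f k₀) * DX| ≤ 2 * B.d n ^ (x - ε))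
      (e := 2 * B.d n ^ (x - ε)) (s1 := s1) (w := w) (t := t) (c := c) (s := s)
      (fun k _ h => h) hs10 hs11 hw0 ht0.le hD ?_ hbig ?_ ?_
    · have g1 : t * (s1 ^ 2 * w) ≤ 1 * (s1 * 1 * w) := by
        refine mul_le_mul ht1 ?_ (by positivity) zero_le_one
        refine mul_le_mul_of_nonneg_right ?_ hw0.le
        rw [sq]
        exact mul_le_mul_of_nonneg_left hs11 hs10.le
      linarith
    · rw [ht, hs1def, ← Real.rpow_mul (B.pos n).le]
      refine dpow_anti B n ?_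
      rw [cast_sub hj]
      have g1 : (1 : ℝ) ≤ (J : ℝ) - 1 - j := by
        have : ((j + 1 + 1 : ℕ) : ℝ) ≤ J := by exact_mod_cast hj1
        push_cast at this; linarith
      have g2 : 0 < c * hh := by positivity
      have g3 : 1 * (c * hh) ≤ ((J : ℝ) - 1 - j) * (c * hh) :=
        mul_le_mul_of_nonneg_right g1 g2.le
      linarith
    · intro k hk
      refine ⟨(hK k hk).1, ?_⟩
      have := (hK k hk).2 (J - 2 - j) hl
      rw [hl1] at this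
      exact this
  · have hj2 : J - 1 - j = 0 := by omega
    have ht2 : t = 1 := by rw [ht, hj2]; simp
    rw [ht2, Real.one_rpow, one_mul]
    exact_mod_cast card_le_card ((filter_subset _ _).trans hKZ)

/-- the final comparison -/
theorem final_cmp (B : Base) (n : ℕ) {J : ℕ} {s a x C ε hh : ℝ} (hs0 : 0 < s) (hh0 : 0 < hh)
    (hJs : (s - a) * x / 4 + 4 * ε ≤ s * (((J : ℝ) - 1) * hh) - a * x - (C + 1) * ε)
    (hc2 : 2 * B.d n ^ ε ≤ 1) (hc5 : 2 * ((J : ℝ) + 1) * B.d n ^ ((s - a) * x / 4) ≤ 1)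
    (key : (B.d n ^ ε / 2) ^ 2 ≤ B.d n ^ (-(a * x) - C * ε) * ∑ j ∈ range (J + 1),
      B.d n ^ (s * ((j : ℝ) * hh) - ε) *
        (if j < J then B.d n ^ (s * (((J - 1 - j : ℕ) : ℝ) * hh)) else 1)) : False := by
  have hJ0 : (0 : ℝ) < (J : ℝ) + 1 := by positivity
  have hterm : ∀ j ∈ range (J + 1), B.d n ^ (s * ((j : ℝ) * hh) - ε) *
      (if j < J then B.d n ^ (s * (((J - 1 - j : ℕ) : ℝ) * hh)) else 1) ≤
        B.d n ^ (s * (((J : ℝ) - 1) * hh) - ε) := by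
    intro j hj
    by_cases hjJ : j < J
    · rw [if_pos hjJ, ← dpow_add]
      refine dpow_anti B n (le_of_eq ?_)
      rw [cast_sub hjJ]; ring
    · rw [if_neg hjJ, mul_one]
      have : j = J := by
        have : j < J + 1 := by simpa using hj
        omega
      rw [this]
      refine dpow_anti B n ?_
      have : 0 ≤ s * hh := by positivity
      linarith
  have hsum := sum_le_sum hterm
  rw [sum_const, card_range, nsmul_eq_mul] at hsum
  have k1 : (B.d n ^ ε / 2) ^ 2 ≤ B.d n ^ (-(a * x) - C * ε) *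
      (((J + 1 : ℕ) : ℝ) * B.d n ^ (s * (((J : ℝ) - 1) * hh) - ε)) :=
    key.trans (mul_le_mul_of_nonneg_left hsum (dpow_pos B n _).le)
  have k2 : B.d n ^ (-(a * x) - C * ε) *
      (((J + 1 : ℕ) : ℝ) * B.d n ^ (s * (((J : ℝ) - 1) * hh) - ε)) =
      ((J : ℝ) + 1) * B.d n ^ (s * (((J : ℝ) - 1) * hh) - a * x - (C + 1) * ε) := by
    have : s * (((J : ℝ) - 1) * hh) - a * x - (C + 1) * ε =
      (-(a * x) - C * ε) + (s * (((J : ℝ) - 1) * hh) - ε) := by ring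
    rw [this, dpow_add]
    push_cast
    ring
  rw [k2] at k1
  have k4 : B.d n ^ (s * (((J : ℝ) - 1) * hh) - a * x - (C + 1) * ε) ≤
      B.d n ^ ((s - a) * x / 4) * B.d n ^ (4 * ε) := by
    rw [← dpow_add]
    exact dpow_anti B n hJs
  have k5 : ((J : ℝ) + 1) * B.d n ^ (s * (((J : ℝ) - 1) * hh) - a * x - (C + 1) * ε) ≤
      1 / 2 * B.d n ^ (4 * ε) := by
    have g1 := dpow_pos B n (4 * ε)
    calc _ ≤ ((J : ℝ) + 1) * (B.d n ^ ((s - a) * x / 4) * B.d n ^ (4 * ε)) :=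
          mul_le_mul_of_nonneg_left k4 hJ0.le
      _ = 1 / 2 * ((2 * ((J : ℝ) + 1) * B.d n ^ ((s - a) * x / 4)) * B.d n ^ (4 * ε)) := by ring
      _ ≤ 1 / 2 * (1 * B.d n ^ (4 * ε)) := by
          refine mul_le_mul_of_nonneg_left ?_ (by norm_num)
          exact mul_le_mul_of_nonneg_right hc5 g1.le
      _ = _ := by ring
  have k6 : B.d n ^ (4 * ε) = (B.d n ^ ε) ^ 4 := by
    rw [← Real.rpow_natCast, ← Real.rpow_mul (B.pos n).le]
    congr 1; push_cast; ring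
  rw [k6] at k5
  have k8 := k1.trans k5
  have hpos := dpow_pos B n ε
  generalize B.d n ^ ε = u at hpos hc2 k8
  have k9 : u ^ 2 ≤ 1 / 4 := by nlinarith
  have k10 : 0 < u ^ 2 := by positivity
  nlinarith

open Classical in
/-- **[RIG-0]** -/
theorem rig0_ex {σ s a η : ℝ} (ha : 0 ≤ a) (has : a < s) (hsσ : s < σ) (hσ1 : σ ≤ 1)
    (hη : 0 < η) :
    ∃ θ : ℝ, 0 < θ ∧ θ ≤ 1 ∧ ∀ (B : Base) (Z P0 : ℕ → Finset ℕ) (z f : ℕ → ℕ → ℝ)
      (S : ℕ → ℕ → Finset ℕ) (al : ℕ → ℕ → ℕ → Prop) (F : ℕ → ℕ → ℕ → ℕ → ℝ)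
      (P X : ℕ → ℕ → ℕ → ℝ) (x C : ℝ), 0 < x → 0 ≤ C →
      (∀ᶠ n in (U : Filter ℕ), ∀ k ∈ Z n, |z n k| ≤ 1 ∧ |f n k| ≤ 1) →
      (∀ y : ℝ, 0 ≤ y → y ≤ x → ∀ ε : ℝ, 0 < ε → ∀ᶠ n in (U : Filter ℕ), ∀ k ∈ Z n,
        (((Z n).filter fun k' => |z n k' - z n k| ≤ B.d n ^ y).card : ℝ) ≤
          B.d n ^ (σ * y - ε) * ((Z n).card : ℝ)) →
      (∀ᶠ n in (U : Filter ℕ), (Z n).Nonempty ∧ P0 n ⊆ Z n) →
      (∀ ε : ℝ, 0 < ε → ∀ᶠ n in (U : Filter ℕ),
        B.d n ^ ε * ((Z n).card : ℝ) ≤ ((P0 n).card : ℝ)) →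
      (∀ᶠ n in (U : Filter ℕ), ∀ k₀ ∈ P0 n, (S n k₀).Nonempty ∧ ∀ i ∈ S n k₀, ∀ i' ∈ S n k₀,
        |P n k₀ i - P n k₀ i'| ≤ 1 ∧ |X n k₀ i - X n k₀ i'| ≤ 1) →
      (∀ ε : ℝ, 0 < ε → ∀ᶠ n in (U : Filter ℕ), ∀ k₀ ∈ P0 n, ∀ i ∈ S n k₀,
        B.d n ^ ε * ((Z n).card : ℝ) ≤ (((Z n).filter fun k => al n i k).card : ℝ)) →
      (∀ ε : ℝ, 0 < ε → ∀ᶠ n in (U : Filter ℕ), ∀ k₀ ∈ P0 n, ∀ k ∈ Z n, ∀ i ∈ S n k₀,
        ∀ i' ∈ S n k₀, al n i k → al n i' k →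
        |F n k₀ k i - F n k₀ k i' - ((z n k - z n k₀) * (P n k₀ i - P n k₀ i') -
          (f n k - f n k₀) * (X n k₀ i - X n k₀ i'))| ≤ B.d n ^ (x - ε)) →
      (∀ ε : ℝ, 0 < ε → ∀ᶠ n in (U : Filter ℕ), ∀ k₀ ∈ P0 n, ∀ k ∈ Z n,
        ((((S n k₀).filter fun i => al n i k).image
          fun i => ⌊F n k₀ k i / B.d n ^ (x - ε)⌋).card : ℝ) ≤ B.d n ^ (-(a * x) - C * ε)) →
      (∀ t : ℝ, 0 ≤ t → t ≤ x → ∀ ε : ℝ, 0 < ε → ∀ᶠ n in (U : Filter ℕ), ∀ k₀ ∈ P0 n,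
        ∀ i ∈ S n k₀, (((S n k₀).filter fun i' => |P n k₀ i' - P n k₀ i| ≤ B.d n ^ t ∧
          |X n k₀ i' - X n k₀ i| ≤ B.d n ^ t).card : ℝ) ≤
            B.d n ^ (s * t - ε) * ((S n k₀).card : ℝ)) →
      ∀ᶠ n in (U : Filter ℕ), ∃ w μ : ℝ, B.d n ^ x ≤ w ∧ w ≤ B.d n ^ (θ * x) ∧
        |μ| ≤ B.d n ^ (-(η * x)) ∧ ∃ k₁ ∈ Z n, w ^ η * ((Z n).card : ℝ) ≤
          (((Z n).filter fun k => |f n k - f n k₁ - μ * (z n k - z n k₁)| ≤ w).card : ℝ) := by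
  have hs0 : 0 < s := ha.trans_lt has
  have hσ0 : 0 < σ := hs0.trans hsσ
  have hs1 : s < 1 := hsσ.trans_le hσ1
  obtain ⟨α, c, hα, hα1, hc0, hc10, HB⟩ := few_bad' hσ0 hs0 hsσ hσ1 hη
  obtain ⟨J, hJ⟩ : ∃ J : ℕ, 4 / (s - a) < J := exists_nat_gt _
  have hsa : 0 < s - a := sub_pos.2 has
  have hJ0 : (0 : ℝ) < (J : ℝ) + 1 := by positivity
  have hJ4 : 4 < (J : ℝ) * (s - a) := by rwa [div_lt_iff₀ hsa] at hJ
  refine ⟨α / (J + 1), by positivity, ?_, ?_⟩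
  · rw [div_le_one hJ0]
    linarith [Nat.cast_nonneg (α := ℝ) J]
  intro B Z P0 z f S al F P X x C hx hC0 hzf hfr hZP hP0 hSPX hal hF hcell hnear
  by_contra hcon
  rw [← Ultrafilter.eventually_not] at hcon
  obtain ⟨ε, hε0, hh0, hyh, hp1, hp2, hp3, hp4, hp5⟩ :=
    params ha has hσ0 hσ1 hs1 hc0 hc10 hx hC0 hJ4
  have hθx : α / ((J : ℝ) + 1) * x = α * (x / ((J : ℝ) + 1)) := by ring
  rw [hθx] at hcon
  set hh : ℝ := x / ((J : ℝ) + 1) with hhh
  clear_value hh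
  have hbadAll := HB B Z z f x hh J hh0 hyh hzf hfr hcon
  have hnearAll : ∀ᶠ n in (U : Filter ℕ), ∀ j ∈ range (J + 1), ∀ k₀ ∈ P0 n,
      ∀ i ∈ S n k₀, (((S n k₀).filter fun i' => |P n k₀ i' - P n k₀ i| ≤ B.d n ^ ((j : ℝ) * hh) ∧
          |X n k₀ i' - X n k₀ i| ≤ B.d n ^ ((j : ℝ) * hh)).card : ℝ) ≤
            B.d n ^ (s * ((j : ℝ) * hh) - ε) * ((S n k₀).card : ℝ) := by
    rw [Filter.eventually_all_finset]
    intro j hj
    have h1 : (j : ℝ) ≤ J := by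
      have : j ≤ J := by simpa [Nat.lt_succ_iff] using hj
      exact_mod_cast this
    refine hnear _ (by positivity) ?_ ε hε0
    rw [← hyh]
    exact mul_le_mul_of_nonneg_right (by linarith) hh0.le
  have hchh : 0 ≤ c * hh := by positivity
  have hsx : 0 < (s - a) * x / 4 := by positivity
  suffices hfalse : ∀ᶠ n in (U : Filter ℕ), False by
    obtain ⟨n, hn⟩ := hfalse.exists
    exact hn
  filter_upwards [hbadAll, hnearAll, hfr (c * hh) hchh hp5 ε hε0, hzf, hZP,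
    hP0 ε hε0, hSPX, hal ε hε0, hF ε hε0, hcell ε hε0, ev_const_mul B 4 hp1,
    ev_const_mul B (4 * (J : ℝ)) hp2, ev_const B 16 (half_pos hh0), ev_const B 2 hε0,
    ev_const B (2 * ((J : ℝ) + 1)) hsx]
    with n hbad hnr hfrn hzfn hZPn hP0n hSPXn haln hFn hcelln hc1 hc2 hc3 hc4 hc5
  obtain ⟨hZne, hPZ⟩ := hZPn
  have hZc : (0 : ℝ) < (Z n).card := by exact_mod_cast card_pos.2 hZne
  have hde : 0 < B.d n ^ ε := dpow_pos B n ε
  obtain ⟨k₀, hk₀P, K, hKZ, hKc, hK⟩ := good_pin (Z n) (P0 n) (z n) (f n) J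
    (fun l => bpr (Z n) (z n) (f n) (B.d n ^ (((l + 1 : ℕ) : ℝ) * hh)) c s)
    (θ := B.d n ^ (c * hh / 2)) (de := B.d n ^ ε) (s1 := B.d n ^ (c * hh)) (dpow_pos B n _) hde
    hZne hPZ hbad hc2 hP0n (fun k hk => by
      refine (hfrn k hk).trans ?_
      refine mul_le_mul_of_nonneg_right ?_ hZc.le
      linarith)
  obtain ⟨hSne, hPX⟩ := hSPXn k₀ hk₀P
  have hk₀ : k₀ ∈ Z n := hPZ hk₀P
  have halK : ∀ i ∈ S n k₀, B.d n ^ ε / 2 * ((Z n).card : ℝ) ≤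
      ((K.filter fun k => al n i k).card : ℝ) := by
    intro i hi
    have g1 := haln k₀ hk₀P i hi
    have g2 : (Z n).filter (fun k => al n i k) ⊆ (K.filter fun k => al n i k) ∪ (Z n \ K) := by
      intro k hk
      rw [mem_filter] at hk
      rw [Finset.mem_union, mem_filter, Finset.mem_sdiff]
      by_cases hkK : k ∈ K
      · exact Or.inl ⟨hkK, hk.2⟩
      · exact Or.inr ⟨hk.1, hkK⟩
    have g3 : (((Z n).filter fun k => al n i k).card : ℝ) ≤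
        ((K.filter fun k => al n i k).card : ℝ) + (((Z n) \ K).card : ℝ) := by
      exact_mod_cast (card_le_card g2).trans (card_union_le _ _)
    linarith
  have key := kauf_fin (Z n) K (S n k₀) (z n) (f n) (al n) (F n k₀) (P n k₀) (X n k₀) (k₀ := k₀)
    (J := J) (r := B.d n ^ (x - ε)) (M := B.d n ^ (-(a * x) - C * ε)) (m := B.d n ^ ε / 2)
    (fun j => B.d n ^ ((j : ℝ) * hh)) (fun j => B.d n ^ (s * ((j : ℝ) * hh) - ε))
    (fun j => if j < J then B.d n ^ (s * (((J - 1 - j : ℕ) : ℝ) * hh)) else 1) hKZ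
    (dpow_pos B n _) (by positivity) (dpow_pos B n _).le
    (fun k hk i hi i' hi' h1 h2 => hFn k₀ hk₀P k (hKZ hk) i hi i' hi' h1 h2)
    (fun k hk => hcelln k₀ hk₀P k (hKZ hk)) halK
    (by
      intro i hi i' hi'
      simp only [Nat.cast_zero, zero_mul, Real.rpow_zero]
      exact max_le (hPX i hi i' hi').1 (hPX i hi i' hi').2)
    (by
      intro j hj
      split_ifs
      · exact (dpow_pos B n _).le
      · exact zero_le_one)
    (by
      intro j hj i hi i' hi' hD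
      rw [if_pos hj]
      exact few_common_mesh B n (Z n) K (z n) (f n) hzfn hk₀ hKZ hj hh0 hc0 hyh hp3 hc3 hK hD)
    (by simp)
    (by
      intro j hj i hi
      have g1 := hnr j (by simp; omega) k₀ hk₀P i hi
      refine le_trans ?_ g1
      have : ((S n k₀).filter fun i' => max |P n k₀ i - P n k₀ i'| |X n k₀ i - X n k₀ i'| ≤
          B.d n ^ ((j : ℝ) * hh)) ⊆ (S n k₀).filter fun i' =>
          |P n k₀ i' - P n k₀ i| ≤ B.d n ^ ((j : ℝ) * hh) ∧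
          |X n k₀ i' - X n k₀ i| ≤ B.d n ^ ((j : ℝ) * hh) := by
        intro i' hi'
        rw [mem_filter, max_le_iff] at hi'
        rw [mem_filter, abs_sub_comm, abs_sub_comm (X n k₀ i')]
        exact hi'
      exact_mod_cast card_le_card this)
    hSne hZne
  exact final_cmp B n hs0 hh0 hp4 hc4 hc5 key

end Crest.Agent.R136.Rg1_501
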