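import Crest.Agent.R136.Aly_500
import Crest.Agent.R136.Plw_571
import Crest.Agent.R136.V7b_818
import Crest.Agent.R136.LWe_467

/-!
# R136 (S0187), PLAN 2 (AL), balanced case: the proved leaves plugged (helper500)
-/

set_option autoImplicit false

namespace Crest.Agent.R136.Al500

/-- **`AlkFalse` from the three open leaves** -/
theorem alkFalse_of3 (l2 : LeafHull) (l3 : LeafNd) (l6 : LeafV6) : Cfo877.AlkFalse :=
  alkFalse_of' Plx571.leafPL l2 l3 Gen467.leafWedge V7818.leafV7 l6

/-- **`AlCore` from the three open leaves** -/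
theorem alCore_of3 (l2 : LeafHull) (l3 : LeafNd) (l6 : LeafV6) : Alr877.AlCore :=
  Cfo877.alCore_of (alkFalse_of3 l2 l3 l6)

end Crest.Agent.R136.Al500
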