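import Crest.Agent.R136.Kcl3_44
import Crest.Agent.R138.KMs_630

/-!
# R136 (S0187), PLAN 2 (AL) (A): `UBalA Al1` from the three leaves PLMx, HullMx, NdMx (helper44)
-/

set_option autoImplicit false

namespace Crest.Agent.R136.Kcl44

/-- outer part of case (A) with `KM32` and `KapClose` plugged in -/
theorem ubalA_of (hPL : Amx325.PLMx) (hHu : Amx325.HullMx) (hNd : Amx325.NdMx) :
    Alr877.UBalA Pl2.Al1 :=
  Amx325.ubalA_of Crest.Agent.R138.KMs630.km32 kapClose hPL hHu hNd

end Crest.Agent.R136.Kcl44
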