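import Crest.Agent.R136.Cfo_877
import Crest.Agent.R136.Kcl4_44
import Crest.Agent.R136.Plw_571
import Crest.Agent.R136.Clb_208
import Crest.Agent.R136.Hmx_104
import Crest.Agent.R136.Alz_500
import Crest.Agent.R136.Hul5_412

/-!
# R136, PLAN 2 (AL): assembly (helper877)

`alr_open` : the alignment theorem `ALR Al1` from its open leaves.
-/

set_option autoImplicit false
set_option linter.unusedVariables false

namespace Crest.Agent.R136.ALf877

open Crest.Agent.R136.Pl2 Crest.Agent.R136.Alr877 Crest.Agent.R136.Cfo877

/-- **(AL) from the open leaves** -/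
theorem alr_open (hPL : Amx325.PLMx) (hHu : Amx325.HullMx) (hNd : Amx325.NdMx) (hC : CloseBack)
    (hF : AlkFalse) : ALR Al1 :=
  alr_of (Kcl44.ubalA_of hPL hHu hNd) hC (alCore_of hF)

/-- (closeness in the other direction) -/
theorem closeBack : CloseBack := Clb208.close_back

/-- **(AL)** from the hull and the volume count of case (A), and from case (B) -/
theorem alr_open3 (hHu : Amx325.HullMx) (hNd : Amx325.NdMx) (hF : AlkFalse) : ALR Al1 :=
  alr_open Plx571.plMx hHu hNd closeBack hF

/-- **(AL)** from the volume count of case (A), and from case (B) -/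
theorem alr_open2 (hNd : Amx325.NdMx) (hF : AlkFalse) : ALR Al1 :=
  alr_open3 Hmx104.hullMx hNd hF

/-- **(AL)** from its last leaves -/
theorem alr_last (hNd : Amx325.NdMx) (l3 : Al500.LeafNd) (l6 : Al500.LeafV6) : ALR Al1 :=
  alr_open2 hNd (Al500.alkFalse_of3 Hul412.leafHull l3 l6)

end Crest.Agent.R136.ALf877
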