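import Crest.Agent.R136.Adj3_214
import Crest.Agent.R136.KapP_335

/-!
# R136 (S0187), U4 (AL): the chart of a curved sheet around one of its lines (helper982)

`cx S z0 ρ T ζ y u v` : point of height `z0 + ρ ζ`, base coordinates `u, v` in units of `w k / 256`,
normal coordinate `y` sheared along the tangent plane and in units of `kapP / 256`.
`chart` : jet of `S.q` in this chart, with absolute bounds.  `points` : points near the sheet and near
the line are points of the chart.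
-/

set_option autoImplicit false
set_option linter.unusedVariables false

namespace Crest.Agent.R136.Adc982

open Crest.Agent.R136.Sh605 Crest.Agent.R136.K4 Crest.Agent.R136.KapP335
open Crest.Agent.R136.Tl102 (QF Fq bz shB0 scB1 scG shG shB1 kap NrmC IsExp StP fr cmb unsh
  exists_isExp)
open Crest.Agent.R136.Rk601 (Jt dp qf)
open Crest.Agent.R136.Adj214 (ev NJ)

/-- the point with chart coordinates `(ζ, y, u, v)` -/
noncomputable def cx (S : Plk4) (z0 ρ : ℝ) (T : Ln4) (ζ y u v : ℝ) : V3 :=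
  T.pos (z0 + ρ * ζ) + cmb (fr S.e S.w)
    (unsh (expP S z0 ρ T).1
      (kap (expP S z0 ρ T).1 (expP S z0 ρ T).2.1 (expP S z0 ρ T).2.2 * (1 / 256 * y))
      (1 / 256 * u) (1 / 256 * v))

/-- values of a quadratic function along a line -/
theorem line_quad {q : ℝ → V3 → ℝ} (hq : IsQ q) (T : Ln4) (z0 ρ : ℝ) :
    ∃ α β γ : ℝ, ∀ ζ, q (z0 + ρ * ζ) (T.pos (z0 + ρ * ζ)) = α + β * ζ + γ * ζ ^ 2 := by
  obtain ⟨c0, c1, c2, b, d, g, h⟩ := hq
  refine ⟨c0 + c1 * z0 + c2 * z0 ^ 2 + ∑ i, (b i + d i * z0) * (T.p i + z0 * T.v i) +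
    ∑ i, ∑ j, g i j * ((T.p i + z0 * T.v i) * (T.p j + z0 * T.v j)),
    ρ * (c1 + 2 * c2 * z0 + ∑ i, (d i * (T.p i + z0 * T.v i) + (b i + d i * z0) * T.v i) +
      ∑ i, ∑ j, g i j * ((T.p i + z0 * T.v i) * T.v j + T.v i * (T.p j + z0 * T.v j))),
    ρ ^ 2 * (c2 + ∑ i, d i * T.v i + ∑ i, ∑ j, g i j * (T.v i * T.v j)), fun ζ => ?_⟩
  rw [h]
  simp only [Fin.sum_univ_three, Ln4.pos]
  ring

/-- coefficients of a small quadratic function -/
theorem small_quad {α β γ a : ℝ} (h : ∀ ζ : ℝ, 0 ≤ ζ → ζ ≤ 1 → |α + β * ζ + γ * ζ ^ 2| ≤ a) :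
    |α| ≤ a ∧ |β| ≤ 8 * a ∧ |γ| ≤ 8 * a := by
  have h0 := abs_le.1 (h 0 le_rfl zero_le_one)
  have h1 := abs_le.1 (h (1 / 2) (by norm_num) (by norm_num))
  have h2 := abs_le.1 (h 1 zero_le_one le_rfl)
  norm_num at h0 h1 h2
  refine ⟨abs_le.2 ⟨by linarith, by linarith⟩, abs_le.2 ⟨by linarith, by linarith⟩,
    abs_le.2 ⟨by linarith, by linarith⟩⟩

/-- the jet of the sheet in the chart -/
noncomputable def jc (κ w0 : ℝ) (b0 b1 : V3) (G : QF) (β γ : ℝ) : Jt where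
  a0 := b0 0
  a := ![β / (κ * (1 / 256) * w0), 0, 0]
  h00 := 2 * (1 / 256) * (scG κ b0 G).yy
  h0 := ![scB1 κ b0 b1 0, 1 / 256 * (scG κ b0 G).yu, 1 / 256 * (scG κ b0 G).yv]
  h := ![![2 * (γ / (κ * (1 / 256) * w0)), scB1 κ b0 b1 1, scB1 κ b0 b1 2],
    ![scB1 κ b0 b1 1, 2 * (1 / 256) * (scG κ b0 G).uu, 1 / 256 * (scG κ b0 G).uv],
    ![scB1 κ b0 b1 2, 1 / 256 * (scG κ b0 G).uv, 2 * (1 / 256) * (scG κ b0 G).vv]]

theorem jc_eq {q : ℝ → V3 → ℝ} {e : Fin 3 → V3} {w : V3} {T : Ln4} {z0 ρ : ℝ} {b0 b1 : V3}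
    {G : QF} (h : IsExp q e w T z0 ρ b0 b1 G) {κ : ℝ} (hb : b0 0 ≠ 0) (hκ : κ ≠ 0) (hw : w 0 ≠ 0)
    {α β γ : ℝ} (hq : ∀ ζ, q (z0 + ρ * ζ) (T.pos (z0 + ρ * ζ)) = α + β * ζ + γ * ζ ^ 2)
    (ζ y u v : ℝ) :
    q (z0 + ρ * ζ) (T.pos (z0 + ρ * ζ) + cmb (fr e w)
      (unsh b0 (κ * (1 / 256 * y)) (1 / 256 * u) (1 / 256 * v))) =
      κ * (1 / 256) * w 0 * (α / (κ * (1 / 256) * w 0) +
        ev (jc κ (w 0) b0 b1 G β γ) y ![ζ, u, v]) := by
  rw [h ζ _, Tl102.Fq_scaled hb hκ, hq]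
  simp only [Fq, dt, bz, QF.ev, ev, dp, qf, jc, shB0, Fin.sum_univ_three, Matrix.cons_val]
  field_simp
  ring

/-- data of a sheet around one of its lines: `c + ev J` in the chart, normal form -/
structure Ch (S : Plk4) (z0 ρ : ℝ) (T : Ln4) (c : ℝ) (J : Jt) : Prop where
  eq : ∀ ζ y u v, S.q (z0 + ρ * ζ) (cx S z0 ρ T ζ y u v) =
    kapP S z0 ρ T * (1 / 256) * (c + ev J y ![ζ, u, v])
  nj : NJ c J
  a0 : |J.a0| ≤ 2
  cc : |c| ≤ 20 * S.a / (kapP S z0 ρ T * (1 / 256))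
  ca : |J.a 0| ≤ 20 * S.a / (kapP S z0 ρ T * (1 / 256))
  ch : |J.h 0 0| ≤ 20 * S.a / (kapP S z0 ρ T * (1 / 256))

theorem absmul {x y X Y : ℝ} (hx : |x| ≤ X) (hy : |y| ≤ Y) : |x * y| ≤ X * Y := by
  rw [abs_mul]
  exact mul_le_mul hx hy (abs_nonneg _) ((abs_nonneg _).trans hx)

/-- **the chart** -/
theorem chart {S : Plk4} {z0 ρ r : ℝ} {T : Ln4} (hS : ShN S.e S.c S.w S.q S.a z0 ρ r) (hρ : 0 ≤ ρ)
    (ha : 0 < S.a) (hT : InSheet T S.e S.c S.w S.q S.a z0 ρ)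
    (hk : 10 ^ 6 * S.a ≤ kapP S z0 ρ T) : ∃ c J, Ch S z0 ρ T c J := by
  have hw0 : 0 < S.w 0 := ha.trans_le hS.a_le0
  have hE := expP_spec hS.isQ hw0.ne' z0 ρ T
  set b0 := (expP S z0 ρ T).1 with hb0
  set b1 := (expP S z0 ρ T).2.1 with hb1
  set G := (expP S z0 ρ T).2.2 with hG
  have hSt := StP.of_shN hS hw0
  have N : NrmC b0 b1 G := IsExp.nrmC hSt hρ (fun z h1 h2 => (hT z h1 h2).1) hE
  set κ := kap b0 b1 G with hκd
  have hkap : kapP S z0 ρ T = S.w 0 * κ := rfl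
  have hκ : 0 < κ := by
    have h1 : 0 < S.w 0 * κ := by rw [← hkap]; nlinarith
    exact (pos_iff_pos_of_mul_pos h1).1 hw0
  obtain ⟨n1, n2, -, -, n3, -, -, s1, s2⟩ := N.b1_le
  have hb : b0 0 ≠ 0 := by linarith
  obtain ⟨α, β, γ, hq⟩ := line_quad hS.isQ T z0 ρ
  have hs : |α| ≤ S.a ∧ |β| ≤ 8 * S.a ∧ |γ| ≤ 8 * S.a := by
    apply small_quad
    intro ζ h1 h2
    rw [← hq ζ]
    exact (hT _ (by nlinarith) (by nlinarith)).2
  obtain ⟨hα, hβ, hγ⟩ := hs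
  have hD : 0 < kapP S z0 ρ T * (1 / 256) := by nlinarith
  have hDe : κ * (1 / 256) * S.w 0 = kapP S z0 ρ T * (1 / 256) := by rw [hkap]; ring
  obtain ⟨k0, k1, k11, k12, m1, m2, m3, m4, m5, m6⟩ := N.sc_le hκ
  have hd : ∀ x A : ℝ, |x| ≤ A * S.a → |x / (κ * (1 / 256) * S.w 0)| ≤
      A * S.a / (kapP S z0 ρ T * (1 / 256)) := by
    intro x A hx
    rw [hDe, abs_div, abs_of_pos hD]
    exact div_le_div_of_nonneg_right hx hD.le
  have hsm : 20 * S.a / (kapP S z0 ρ T * (1 / 256)) ≤ 1 / 10 := by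
    rw [div_le_iff₀ hD]; linarith
  have e1 : |β / (κ * (1 / 256) * S.w 0)| ≤ 20 * S.a / (kapP S z0 ρ T * (1 / 256)) :=
    (hd β 8 hβ).trans (div_le_div_of_nonneg_right (by linarith) hD.le)
  have e2 : |2 * (γ / (κ * (1 / 256) * S.w 0))| ≤ 20 * S.a / (kapP S z0 ρ T * (1 / 256)) := by
    rw [← mul_div_assoc]
    refine (hd (2 * γ) 16 ?_).trans (div_le_div_of_nonneg_right (by linarith) hD.le)
    rw [abs_mul, abs_two]; linarith
  have r256 : |(1 / 256 : ℝ)| ≤ 1 / 256 := by rw [abs_of_pos (by norm_num)]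
  have t256 : |(2 * (1 / 256) : ℝ)| ≤ 1 / 128 := by rw [abs_of_pos (by norm_num)]; norm_num
  have f1 := absmul r256 m2
  have f2 := absmul r256 m3
  have f3 := absmul r256 m5
  have f4 := absmul t256 m1
  have f5 := absmul t256 m4
  have f6 := absmul t256 m6
  have hc1 : |α / (κ * (1 / 256) * S.w 0)| ≤ 1 * S.a / (kapP S z0 ρ T * (1 / 256)) :=
    hd α 1 (by linarith)
  have hc2 : 1 * S.a / (kapP S z0 ρ T * (1 / 256)) ≤ 1 / 3000 := by
    rw [div_le_iff₀ hD]; linarith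
  have hb2 : 8 * S.a / (kapP S z0 ρ T * (1 / 256)) ≤ 1 / 400 := by
    rw [div_le_iff₀ hD]; linarith
  refine ⟨α / (κ * (1 / 256) * S.w 0), jc κ (S.w 0) b0 b1 G β γ, ?_⟩
  refine ⟨?_, ⟨?_, ?_, ?_, ?_, ?_, ?_, ?_, ?_, rfl, rfl, hc1.trans hc2, ?_⟩, k0 0,
    hc1.trans (div_le_div_of_nonneg_right (by linarith) hD.le), e1, e2⟩
  · intro ζ y u v
    rw [← hDe]
    exact jc_eq hE hb hκ.ne' hw0.ne' hq ζ y u v
  · intro i j
    fin_cases i <;> fin_cases j <;> rfl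
  · intro y ξ hy hζ hζ' hu hv
    have hk13 := Tl102.kap_le N
    have hG1 := N.G_le.1
    have ha1 : |κ * (1 / 256 * y)| ≤ 13 * (1 / 256) := by
      refine absmul (by rw [abs_of_pos hκ]; exact hk13) ?_
      exact (absmul r256 hy).trans (by norm_num)
    have ha2 : |b0 1 / b0 0 * (1 / 256 * ξ 1)| ≤ 2 * (1 / 256) :=
      absmul s1 ((absmul r256 hu).trans (by norm_num))
    have ha3 : |b0 2 / b0 0 * (1 / 256 * ξ 2)| ≤ 2 * (1 / 256) :=
      absmul s2 ((absmul r256 hv).trans (by norm_num))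
    have hst := N.st (ξ 0) hζ hζ'
      (2 * (κ * (1 / 256 * y)) - 2 * (b0 1 / b0 0 * (1 / 256 * ξ 1)) -
        2 * (b0 2 / b0 0 * (1 / 256 * ξ 2))) (1 / 256 * ξ 1) (1 / 256 * ξ 2)
      (by rw [abs_le] at *; constructor <;> linarith [ha1.1, ha1.2, ha2.1, ha2.2, ha3.1, ha3.2])
      ((absmul r256 hu).trans (by norm_num)) ((absmul r256 hv).trans (by norm_num))
    have e : (jc κ (S.w 0) b0 b1 G β γ).a0 + (jc κ (S.w 0) b0 b1 G β γ).h00 * y +
        dp (jc κ (S.w 0) b0 b1 G β γ).h0 ξ =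
        b0 0 + ξ 0 * b1 0 + G.yy * (2 * (κ * (1 / 256 * y)) -
        2 * (b0 1 / b0 0 * (1 / 256 * ξ 1)) -
        2 * (b0 2 / b0 0 * (1 / 256 * ξ 2))) + G.yu * (1 / 256 * ξ 1) +
          G.yv * (1 / 256 * ξ 2) := by
      simp only [jc, dp, scG, scB1, shG, Fin.sum_univ_three, Matrix.cons_val]
      ring
    rw [e]
    exact hst
  · exact f4.trans (by norm_num)
  · exact k1 0
  · exact f1.trans (by norm_num)
  · exact f2.trans (by norm_num)
  · intro i j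
    fin_cases i <;> fin_cases j
    · exact e2.trans (by linarith)
    · exact k11.trans (by norm_num)
    · exact k12.trans (by norm_num)
    · exact k11.trans (by norm_num)
    · exact f5.trans (by norm_num)
    · exact f3.trans (by norm_num)
    · exact k12.trans (by norm_num)
    · exact f3.trans (by norm_num)
    · exact f6.trans (by norm_num)
  · exact (hd β 8 hβ).trans hb2
  · have hdd : ∀ x, |x| = κ → |x / κ| = 1 := by
      intro x hx
      rw [abs_div, hx, abs_of_pos hκ, div_self hκ.ne']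
    have hmax : |shB1 b0 b1 1| = κ ∨ |shB1 b0 b1 2| = κ ∨ |(shG b0 G).uu| = κ ∨
        |(shG b0 G).uv| = κ ∨ |(shG b0 G).vv| = κ := by
      simp only [hκd, kap]
      rcases max_choice (max |shB1 b0 b1 1| |shB1 b0 b1 2|)
        (max (max |(shG b0 G).uu| |(shG b0 G).uv|) |(shG b0 G).vv|) with h | h
      · rw [h]
        rcases max_choice |shB1 b0 b1 1| |shB1 b0 b1 2| with h' | h'
        · left; rw [h']
        · right; left; rw [h']
      · rw [h]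
        rcases max_choice (max |(shG b0 G).uu| |(shG b0 G).uv|) |(shG b0 G).vv| with h' | h'
        · rw [h']
          rcases max_choice |(shG b0 G).uu| |(shG b0 G).uv| with h'' | h''
          · right; right; left; rw [h'']
          · right; right; right; left; rw [h'']
        · right; right; right; right; rw [h']
    rcases hmax with h | h | h | h | h
    · refine Or.inl ⟨1, by decide, ?_⟩
      have : |(jc κ (S.w 0) b0 b1 G β γ).h 0 1| = 1 := hdd _ h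
      rw [this]; norm_num
    · refine Or.inl ⟨2, by decide, ?_⟩
      have : |(jc κ (S.w 0) b0 b1 G β γ).h 0 2| = 1 := hdd _ h
      rw [this]; norm_num
    · refine Or.inr ⟨1, 1, by decide, by decide, ?_⟩
      have : |(jc κ (S.w 0) b0 b1 G β γ).h 1 1| = 2 * (1 / 256) * 1 := by
        show |2 * (1 / 256) * ((shG b0 G).uu / κ)| = _
        rw [abs_mul, hdd _ h, abs_of_pos (by norm_num)]
      rw [this]; norm_num
    · refine Or.inr ⟨1, 2, by decide, by decide, ?_⟩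
      have : |(jc κ (S.w 0) b0 b1 G β γ).h 1 2| = 1 / 256 * 1 := by
        show |1 / 256 * ((shG b0 G).uv / κ)| = _
        rw [abs_mul, hdd _ h, abs_of_pos (by norm_num)]
      rw [this]; norm_num
    · refine Or.inr ⟨2, 2, by decide, by decide, ?_⟩
      have : |(jc κ (S.w 0) b0 b1 G β γ).h 2 2| = 2 * (1 / 256) * 1 := by
        show |2 * (1 / 256) * ((shG b0 G).vv / κ)| = _
        rw [abs_mul, hdd _ h, abs_of_pos (by norm_num)]
      rw [this]; norm_num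

/-- expansion of a vector in the frame of a plank -/
theorem cmb_fr {e : Fin 3 → V3} (he : Ortho e) {w : V3} (hw : ∀ i, w i ≠ 0) (x : V3) :
    cmb (fr e w) ![dt (e 0) x / w 0, dt (e 1) x / w 1, dt (e 2) x / w 2] = x := by
  funext j
  have h := he.expand x j
  simp only [cmb, fr, Pi.smul_apply, smul_eq_mul, Matrix.cons_val]
  have h0 := hw 0
  have h1 := hw 1
  have h2 := hw 2
  rw [h]
  field_simp

set_option maxHeartbeats 800000 in
/-- **points near the sheet and near the line are points of the chart** -/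
theorem points {S : Plk4} {z0 ρ r : ℝ} {T : Ln4} (hS : ShN S.e S.c S.w S.q S.a z0 ρ r)
    (hρ : 0 ≤ ρ) (ha : 0 < S.a) (hT : InSheet T S.e S.c S.w S.q S.a z0 ρ)
    (hk : 10 ^ 6 * S.a ≤ kapP S z0 ρ T) {A ζ : ℝ} (hζ : 0 ≤ ζ) (hζ' : ζ ≤ 1) {X : V3}
    (hX : |S.q (z0 + ρ * ζ) X| ≤ A) (hA : 4096 * A ≤ kapP S z0 ρ T)
    (h0 : |dt (S.e 0) (X - T.pos (z0 + ρ * ζ))| ≤ S.w 0 / 8)
    (h1 : |dt (S.e 1) (X - T.pos (z0 + ρ * ζ))| ≤ 1 / 8 * (1 / 256 * S.w 1))
    (h2 : |dt (S.e 2) (X - T.pos (z0 + ρ * ζ))| ≤ 1 / 8 * (1 / 256 * S.w 2)) :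
    ∃ y u v : ℝ, |y| ≤ 1 ∧ |u| ≤ 1 / 8 ∧ |v| ≤ 1 / 8 ∧
      dt (S.e 1) (X - T.pos (z0 + ρ * ζ)) = u * (1 / 256 * S.w 1) ∧
      dt (S.e 2) (X - T.pos (z0 + ρ * ζ)) = v * (1 / 256 * S.w 2) ∧
      X = cx S z0 ρ T ζ y u v := by
  have hw0 : 0 < S.w 0 := ha.trans_le hS.a_le0
  have hw2 : 0 < S.w 2 := hw0.trans_le hS.w0_le
  have hw1 : 0 < S.w 1 := hw2.trans_le hS.w_le
  have hE := expP_spec hS.isQ hw0.ne' z0 ρ T
  set Tz := T.pos (z0 + ρ * ζ) with hTz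
  have hcx : ∀ y u v, cx S z0 ρ T ζ y u v = Tz + cmb (fr S.e S.w) (unsh (expP S z0 ρ T).1
      (kap (expP S z0 ρ T).1 (expP S z0 ρ T).2.1 (expP S z0 ρ T).2.2 * (1 / 256 * y))
      (1 / 256 * u) (1 / 256 * v)) := fun y u v => rfl
  set b0 := (expP S z0 ρ T).1 with hb0
  set b1 := (expP S z0 ρ T).2.1 with hb1
  set G := (expP S z0 ρ T).2.2 with hG
  have hSt := StP.of_shN hS hw0
  have N : NrmC b0 b1 G := IsExp.nrmC hSt hρ (fun z h1 h2 => (hT z h1 h2).1) hE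
  set κ := kap b0 b1 G with hκd
  have hkap : kapP S z0 ρ T = S.w 0 * κ := rfl
  have hκ : 0 < κ := by
    have h1 : 0 < S.w 0 * κ := by rw [← hkap]; nlinarith
    exact (pos_iff_pos_of_mul_pos h1).1 hw0
  obtain ⟨n1, n2, -, -, n3, -, -, s1, s2⟩ := N.b1_le
  have hb : b0 0 ≠ 0 := by linarith
  -- plank coordinates
  set x0 := dt (S.e 0) (X - Tz) / S.w 0 with hx0
  set x1 := dt (S.e 1) (X - Tz) / S.w 1 with hx1
  set x2 := dt (S.e 2) (X - Tz) / S.w 2 with hx2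
  have q0 : |x0| ≤ 1 / 8 := by
    rw [hx0, abs_div, abs_of_pos hw0, div_le_iff₀ hw0]; linarith
  have q1 : |x1| ≤ 1 / 2048 := by
    rw [hx1, abs_div, abs_of_pos hw1, div_le_iff₀ hw1]; linarith
  have q2 : |x2| ≤ 1 / 2048 := by
    rw [hx2, abs_div, abs_of_pos hw2, div_le_iff₀ hw2]; linarith
  have hXe : X = Tz + cmb (fr S.e S.w) ![x0, x1, x2] := by
    rw [cmb_fr hSt.ortho (fun i => (hSt.pos i).ne')]; abel
  set s := b0 1 / b0 0 with hs
  set s' := b0 2 / b0 0 with hs'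
  -- values
  have hval : S.q (z0 + ρ * ζ) X = S.q (z0 + ρ * ζ) Tz + S.w 0 * Fq b0 b1 G ζ ![x0, x1, x2] := by
    rw [hXe]; exact hE ζ _
  have hz1 : z0 ≤ z0 + ρ * ζ := by nlinarith
  have hz2 : z0 + ρ * ζ ≤ z0 + ρ := by nlinarith
  have hqT : |S.q (z0 + ρ * ζ) Tz| ≤ S.a := (hT _ hz1 hz2).2
  have hF : S.w 0 * |Fq b0 b1 G ζ ![x0, x1, x2]| ≤ A + S.a := by
    have e : S.w 0 * Fq b0 b1 G ζ ![x0, x1, x2] = S.q (z0 + ρ * ζ) X - S.q (z0 + ρ * ζ) Tz := by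
      rw [hval]; ring
    have e' : S.w 0 * |Fq b0 b1 G ζ ![x0, x1, x2]| = |S.w 0 * Fq b0 b1 G ζ ![x0, x1, x2]| := by
      rw [abs_mul, abs_of_pos hw0]
    rw [e', e]
    exact (abs_sub _ _).trans (add_le_add hX hqT)
  have e1 := absmul s1 q1
  have e2 := absmul s2 q2
  -- difference with the point of the tangent plane
  have hdiff : Fq b0 b1 G ζ ![x0, x1, x2] - Fq b0 b1 G ζ ![-(s * x1) - s' * x2, x1, x2] =
      (x0 + s * x1 + s' * x2) * (b0 0 + ζ * b1 0 + G.yy * (x0 - s * x1 - s' * x2) + G.yu * x1 +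
        G.yv * x2) := by
    simp only [Fq, dt, bz, QF.ev, Matrix.cons_val]
    ring
  have hst := (N.st ζ hζ hζ' (x0 - s * x1 - s' * x2) x1 x2
    (by rw [abs_le] at *; constructor <;> linarith [q0.1, q0.2, e1.1, e1.2, e2.1, e2.2])
    (q1.trans (by norm_num)) (q2.trans (by norm_num))).1
  have hFs : |Fq b0 b1 G ζ ![-(s * x1) - s' * x2, x1, x2]| ≤ κ * (1 / 1000) := by
    have e3 : (![-(s * x1) - s' * x2, x1, x2] : V3) = unsh b0 0 x1 x2 := by
      funext i; fin_cases i <;> simp [unsh, hs, hs']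
    rw [e3, Tl102.Fq_unsh hb]
    have k1 : |shB1 b0 b1 1| ≤ κ := (le_max_left _ _).trans (le_max_left _ _)
    have k2 : |shB1 b0 b1 2| ≤ κ := (le_max_right _ _).trans (le_max_left _ _)
    have k3 : |(shG b0 G).uu| ≤ κ :=
      (le_max_left _ _).trans ((le_max_left _ _).trans (le_max_right _ _))
    have k4 : |(shG b0 G).uv| ≤ κ :=
      (le_max_right _ _).trans ((le_max_left _ _).trans (le_max_right _ _))
    have k5 : |(shG b0 G).vv| ≤ κ := (le_max_right _ _).trans (le_max_right _ _)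
    have hζa : |ζ| ≤ 1 := by rw [abs_of_nonneg hζ]; exact hζ'
    have l1 := absmul (absmul hζa k1) q1
    have l2 := absmul (absmul hζa k2) q2
    have l3 := absmul k3 (absmul q1 q1)
    have l4 := absmul k4 (absmul q1 q2)
    have l5 := absmul k5 (absmul q2 q2)
    have e4 : Fq (shB0 b0) (shB1 b0 b1) (shG b0 G) ζ ![0, x1, x2] =
        ζ * shB1 b0 b1 1 * x1 + ζ * shB1 b0 b1 2 * x2 + (shG b0 G).uu * (x1 * x1) +
          (shG b0 G).uv * (x1 * x2) + (shG b0 G).vv * (x2 * x2) := by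
      simp only [Fq, dt, bz, QF.ev, shB0, Matrix.cons_val]
      ring
    rw [e4]
    rw [abs_le] at l1 l2 l3 l4 l5 ⊢
    constructor <;> linarith [l1.1, l1.2, l2.1, l2.2, l3.1, l3.2, l4.1, l4.2, l5.1, l5.2]
  set d := x0 + s * x1 + s' * x2 with hd
  have hdle : S.w 0 * (|d| / 2) ≤ A + S.a + kapP S z0 ρ T * (1 / 1000) := by
    have e5 : |d| / 2 ≤ |Fq b0 b1 G ζ ![x0, x1, x2] -
        Fq b0 b1 G ζ ![-(s * x1) - s' * x2, x1, x2]| := by
      rw [hdiff, abs_mul]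
      have : 1 / 2 ≤ |b0 0 + ζ * b1 0 + G.yy * (x0 - s * x1 - s' * x2) + G.yu * x1 +
        G.yv * x2| := hst.trans (le_abs_self _)
      have := mul_le_mul_of_nonneg_left this (abs_nonneg d)
      linarith
    have e6 := e5.trans (abs_sub _ _)
    rw [hkap]
    have e7 := mul_le_mul_of_nonneg_left e6 hw0.le
    have e8 := mul_le_mul_of_nonneg_left hFs hw0.le
    rw [mul_add] at e7
    linarith
  have hdκ : |d| ≤ κ * (1 / 256) := by
    have e7 : S.w 0 * |d| ≤ S.w 0 * (κ * (1 / 256)) := by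
      have e8 : S.w 0 * (κ * (1 / 256)) = kapP S z0 ρ T * (1 / 256) := by rw [hkap]; ring
      have e9 : S.w 0 * (|d| / 2) = S.w 0 * |d| / 2 := by ring
      rw [e8]
      rw [e9] at hdle
      linarith
    exact le_of_mul_le_mul_left e7 hw0
  refine ⟨d / (κ * (1 / 256)), 256 * x1, 256 * x2, ?_, ?_, ?_, ?_, ?_, ?_⟩
  · rw [abs_div, abs_of_pos (by positivity : 0 < κ * (1 / 256)), div_le_one (by positivity)]
    exact hdκ
  · rw [abs_mul, abs_of_pos (by norm_num : (0 : ℝ) < 256)]; linarith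
  · rw [abs_mul, abs_of_pos (by norm_num : (0 : ℝ) < 256)]; linarith
  · rw [hx1]; field_simp
  · rw [hx2]; field_simp
  · rw [hcx, hXe]
    congr 2
    have e8 : κ * (1 / 256 * (d / (κ * (1 / 256)))) = d := by field_simp
    rw [e8]
    funext i
    fin_cases i
    · simp only [unsh, hd, hs, hs', Fin.zero_eta, Matrix.cons_val_zero]; ring
    · simp [unsh]
    · simp [unsh]

end Crest.Agent.R136.Adc982
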