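import Crest.Agent.R136.Amd_84
import Crest.Agent.R136.Kcl4_44
import Crest.Agent.R136.Hcp4_208

/-!
# R136, PLAN 2 (AL), mixed curvatures: 84's leaves give 325's leaves (helper877)
-/

set_option autoImplicit false
set_option linter.unusedVariables false

open Finset

namespace Crest.Agent.R136.Adm877

open Crest.Agent.R136.Sh605 Crest.Agent.R136.Pl2
open Crest.Agent.R136.K4 (Plk4)
open Crest.Agent.R136.Tlt51 (Shp InP)
open Crest.Agent.R136.KapP335 (kapP DetP)
open Crest.Agent.R136.Pl2W102 (Near Ex2 Two1)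
open Crest.Agent.R136.Amx325 (MixD)
open Crest.Agent.R136.Hcp208 (Dims dims_U dims_V)
open Crest.Agent.R136.Alr877 (pw_le)

section

variable {qm qp : Fin 3 → ℝ} {L : ℕ → Ln4} {P : Finset ℕ} {cu cv : ℕ → ℕ} {Uf Vf : ℕ → Plk4}
  {K W M a w1 w2 z0 ρ zL ρL r Y : ℝ}

theorem near_Y (h : MixD qm qp K L P cu cv Uf Vf W M a w1 w2 z0 ρ zL ρL r Y) (hY : 0 ≤ Y) :
    ∀ t ∈ P, Near 4 Y (kp (Uf (cu t)) z0 ρ (L t)) := by
  intro t ht
  have h1 := h.lo t ht
  have h2 := h.hi t ht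
  constructor <;> linarith

end

theorem hullMx_of (h : Amx84.HullMx) : Amx325.HullMx := by
  intro η qm qp hE
  obtain ⟨C, hC, key⟩ := h η qm qp hE
  refine ⟨0, C, le_rfl, hC, ?_⟩
  intro L P cu cv Uf Vf W M a w1 w2 z0 ρ zL ρL r Y hM c
  have hb := hM.big
  rw [Real.rpow_zero, one_mul] at hb
  exact key L P cu cv Uf Vf W M a w1 w2 z0 ρ zL ρL r Y hM.two hb
    (near_Y hM (hM.two.to1.a0.le.trans hb)) (fun t ht => (hM.ty t ht).le) hM.al c

theorem plMx_of (h : Amx84.PLMx) : Amx325.PLMx := by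
  intro η qm qp hE
  obtain ⟨C, hC, key⟩ := h η qm qp hE
  refine ⟨C + 1, C, by linarith, hC, ?_⟩
  intro L P cu cv Uf Vf W M a w1 w2 z0 ρ zL ρL r Y hM H hH hHY
  have W1 := hM.two.to1.W1
  have a0 := hM.two.to1.a0
  have hC1 : (2 * W) ^ C * a ≤ Y :=
    (mul_le_mul_of_nonneg_right (pw_le W1 (by linarith)) a0.le).trans hM.big
  have h11 : (2 * W) ^ (1:ℝ) * a ≤ Y :=
    (mul_le_mul_of_nonneg_right (pw_le W1 (by linarith)) a0.le).trans hM.big
  rw [Real.rpow_one] at h11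
  have hWa : 0 < W * a := mul_pos (by linarith) a0
  have hY : 0 ≤ Y := by nlinarith
  exact key L P cu cv Uf Vf W M a w1 w2 z0 ρ zL ρL r Y H hM.two (near_Y hM hY)
    (fun t ht => (hM.ty t ht).det (by
      have := hM.lo t ht
      nlinarith)) hC1 hH hHY

open Classical in
theorem ndMx_of (h : Amx84.NdMx) : Amx325.NdMx := by
  intro c1 η qm qp hc1 hE
  obtain ⟨C, hC, key⟩ := h
  refine ⟨C + 1, C, by linarith, hC, ?_⟩
  intro L P cu cv Uf Vf W M a w1 w2 z0 ρ zL ρL r Y hM H hH hHY hYH c c' T hT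
  have h1 := hM.two.to1
  have W1 := h1.W1
  have a0 := h1.a0
  have hC1 : (2 * W) ^ C * a ≤ Y :=
    (mul_le_mul_of_nonneg_right (pw_le W1 (by linarith)) a0.le).trans hM.big
  have h11 : (2 * W) ^ (1:ℝ) * a ≤ Y :=
    (mul_le_mul_of_nonneg_right (pw_le W1 (by linarith)) a0.le).trans hM.big
  rw [Real.rpow_one] at h11
  have hWa : 0 < W * a := mul_pos (by linarith) a0
  have hY : 0 ≤ Y := by nlinarith
  rcases T.eq_empty_or_nonempty with rfl | ⟨y0, hy0⟩
  · have hlog : 0 ≤ Real.log H := Real.log_natCast_nonneg H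
    have : 0 ≤ (2 * W) ^ C := Real.rpow_nonneg (by linarith) _
    simp only [card_empty, Nat.cast_zero]
    positivity
  · obtain ⟨t0, ht0, -, hc, hc', -⟩ := hT y0 hy0
    have hin : ∀ t ∈ P.filter (fun t => cv t = c ∧ cu t = c'), t ∈ P ∧ cv t = c ∧ cu t = c' :=
      fun t ht => ⟨(mem_filter.1 ht).1, (mem_filter.1 ht).2⟩
    have dU := dims_U h1 le_rfl ht0
    have dV := dims_V h1 le_rfl ht0
    have sU := h1.shU t0 ht0
    have sV := h1.shV t0 ht0
    rw [hc'] at dU sU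
    rw [hc] at dV sV
    refine key W Y a w1 w2 z0 ρ r H (Uf c') (Vf c) (P.filter fun t => cv t = c ∧ cu t = c') L
      W1 h1.r0 h1.ρ0 hM.two.rρ a0 sU sV (fun t ht => ?_) dU dV (fun t ht => ?_) (fun t ht => ?_)
      (fun t ht => ?_) (fun t ht => ?_) hC1 (by omega) hHY T (fun y hy => ?_)
    · obtain ⟨htP, e1, e2⟩ := hin t ht
      have i1 := h1.inU t htP
      have i2 := h1.inV t htP
      rw [e2] at i1
      rw [e1] at i2
      exact ⟨i1, i2⟩
    · obtain ⟨htP, e1, e2⟩ := hin t ht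
      have := hM.al t htP
      rwa [e1, e2] at this
    · obtain ⟨htP, e1, e2⟩ := hin t ht
      have h2 := (hM.ty t htP).det (by
        have := hM.lo t htP
        nlinarith)
      rwa [e2] at h2
    · obtain ⟨htP, e1, e2⟩ := hin t ht
      have := near_Y hM hY t htP
      rwa [e2] at this
    · obtain ⟨htP, e1, e2⟩ := hin t ht
      have h2 := hM.fl t htP
      have p0 : 0 ≤ kp (Vf (cv t)) z0 ρ (L t) := by
        obtain ⟨-, p0, -, -⟩ := Bl5667.shp_pos h1.r0 (h1.shV t htP)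
        exact Bl5667.kp_nonneg p0.le z0 ρ (L t)
      have h3 := (mul_le_mul_of_nonneg_right (pw_le W1 (show C ≤ C + 1 by linarith)) p0).trans h2
      rwa [e1] at h3
    · obtain ⟨t, ht, k1, k2, k3, k4⟩ := hT y hy
      exact ⟨t, mem_filter.2 ⟨ht, k2, k3⟩, k1, k4⟩

end Crest.Agent.R136.Adm877
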