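import Crest.Agent.R136.Alz_500
import Crest.Agent.R136.Hul5_412

/-!
# R136 (S0187), PLAN 2 (AL), balanced case: `LeafHull` plugged (helper500)
-/

set_option autoImplicit false

namespace Crest.Agent.R136.Al500

/-- **`AlkFalse` from the two open leaves** -/
theorem alkFalse_of2 (l3 : LeafNd) (l6 : LeafV6) : Cfo877.AlkFalse :=
  alkFalse_of3 Hul412.leafHull l3 l6

end Crest.Agent.R136.Al500
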