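import Crest.Agent.R136.AlQ_500
import Crest.Agent.R136.Lnz_876

/-!
# R136 (S0187), PLAN 2 (AL), balanced case: `LeafNd` plugged (helper500)
-/

set_option autoImplicit false

namespace Crest.Agent.R136.Al500

/-- **`AlkFalse` from the last open leaf** -/
theorem alkFalse_of1 (l6 : LeafV6) : Cfo877.AlkFalse :=
  alkFalse_of2 Adp876.leafNd l6

end Crest.Agent.R136.Al500
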