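import Crest.Agent.R136.AlR_500
import Crest.Agent.R136.Lw6_500

/-!
# R136 (S0187), PLAN 2 (AL), balanced case: closed (helper500)
-/

set_option autoImplicit false

namespace Crest.Agent.R136.Al500

/-- **no configuration** -/
theorem alkFalse : Cfo877.AlkFalse := alkFalse_of1 Lv6500.leafV6

/-- **balanced curvatures** -/
theorem alCore : Alr877.AlCore := Cfo877.alCore_of alkFalse

end Crest.Agent.R136.Al500
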