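import Crest.Agent.R136.AlX_500
import Crest.Agent.R138.KMs_630

/-!
# R136 (S0187), PLAN 2 (AL), balanced case: `AlkFalse` from the six leaves (helper500)
-/

set_option autoImplicit false

namespace Crest.Agent.R136.Al500

/-- `KM32` plugged in -/
theorem alkFalse_of' (l1 : LeafPL) (l2 : LeafHull) (l3 : LeafNd) (l4 : LeafWedge) (l5 : LeafV7)
    (l6 : LeafV6) : Cfo877.AlkFalse :=
  alkFalse_of Crest.Agent.R138.KMs630.km32 l1 l2 l3 l4 l5 l6

/-- **`AlCore` from the six leaves** -/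
theorem alCore_of' (l1 : LeafPL) (l2 : LeafHull) (l3 : LeafNd) (l4 : LeafWedge) (l5 : LeafV7)
    (l6 : LeafV6) : Alr877.AlCore :=
  Cfo877.alCore_of (alkFalse_of' l1 l2 l3 l4 l5 l6)

end Crest.Agent.R136.Al500
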