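import Crest.Agent.R136.Amd_84
import Crest.Agent.R136.Kcl4_44

/-!
# R136 (S0187), PLAN 2 (AL), mixed curvatures: adapters between the two texts of the leaves (helper624)

`Amd_84` (Near 4 Y, one pair in [ND]) ⊢ `Amx3_325` (`MixD`): whichever text is proved plugs in.
-/

set_option autoImplicit false
set_option linter.unusedVariables false

open Finset

namespace Crest.Agent.R136.Amo624

open Crest.Agent.R136.Sh605 Crest.Agent.R136.Pl2
open Crest.Agent.R136.K4 (Plk4)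
open Crest.Agent.R136.Tlt51 (Shp InP)
open Crest.Agent.R136.KapP335 (kapP DetP)
open Crest.Agent.R136.Pl2W102 (Near Ex2 Two1)
open Crest.Agent.R136.Alr877 (UBalA)
open Crest.Agent.R136.Gbx862 (gb)
open Crest.Agent.R136.Amx325 (MixD)

section

variable {qm qp : Fin 3 → ℝ} {K : ℝ} {L : ℕ → Ln4} {P : Finset ℕ} {cu cv : ℕ → ℕ}
  {Uf Vf : ℕ → Plk4} {W M a w1 w2 z0 ρ zL ρL r Y : ℝ}

theorem mix_Y0 (h : MixD qm qp K L P cu cv Uf Vf W M a w1 w2 z0 ρ zL ρL r Y) (hK : 0 ≤ K) :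
    0 ≤ Y := (mul_nonneg hK h.two.to1.a0.le).trans h.big

theorem mix_near (h : MixD qm qp K L P cu cv Uf Vf W M a w1 w2 z0 ρ zL ρL r Y) (hK : 0 ≤ K) :
    ∀ t ∈ P, Near 4 Y (kp (Uf (cu t)) z0 ρ (L t)) := by
  intro t ht
  have h1 := h.lo t ht
  have h2 := h.hi t ht
  have h3 := mix_Y0 h hK
  exact ⟨by linarith, by linarith⟩

/-- `DetP` of the curved sheet, from `W a ≤ Y` -/
theorem mix_det (h : MixD qm qp K L P cu cv Uf Vf W M a w1 w2 z0 ρ zL ρL r Y) (hW : W * a ≤ Y) :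
    ∀ t ∈ P, DetP W⁻¹ (Uf (cu t)) z0 ρ (L t) := fun t ht =>
  (h.ty t ht).det (hW.trans (h.lo t ht))

end

/-- **[HULL]** -/
theorem hull_ad (h : Amx84.HullMx) : Amx325.HullMx := by
  intro η qm qp hE
  obtain ⟨C, hC, key⟩ := h η qm qp hE
  refine ⟨0, C, le_rfl, hC, ?_⟩
  intro L P cu cv Uf Vf W M a w1 w2 z0 ρ zL ρL r Y hD
  have e0 : (2 * W) ^ (0 : ℝ) = 1 := Real.rpow_zero _
  have hY : a ≤ Y := by
    have := hD.big
    rwa [e0, one_mul] at this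
  have hn := mix_near hD (by rw [e0]; norm_num)
  refine key L P cu cv Uf Vf W M a w1 w2 z0 ρ zL ρL r Y hD.two hY hn ?_ hD.al
  intro t ht
  have := hD.fl t ht
  rw [e0, one_mul] at this
  exact this.trans (hD.lo t ht)

/-- **[PL]** -/
theorem pl_ad (h : Amx84.PLMx) : Amx325.PLMx := by
  intro η qm qp hE
  obtain ⟨C, hC, key⟩ := h η qm qp hE
  refine ⟨C + 1, C, by linarith, hC, ?_⟩
  intro L P cu cv Uf Vf W M a w1 w2 z0 ρ zL ρL r Y hD H hH hHa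
  have W1 := hD.two.to1.W1
  have a0 := hD.two.to1.a0
  have b1 : (1:ℝ) ≤ 2 * W := by linarith
  have b0 : (0:ℝ) < 2 * W := by linarith
  have p : (0:ℝ) ≤ (2 * W) ^ (C + 1) := (Real.rpow_pos_of_pos b0 _).le
  have e1 : (2 * W) ^ (1:ℝ) ≤ (2 * W) ^ (C + 1) :=
    Real.rpow_le_rpow_of_exponent_le b1 (by linarith)
  rw [Real.rpow_one] at e1
  have e2 : (2 * W) ^ C ≤ (2 * W) ^ (C + 1) :=
    Real.rpow_le_rpow_of_exponent_le b1 (by linarith)
  have hWa : W * a ≤ Y :=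
    (mul_le_mul_of_nonneg_right (by linarith : W ≤ (2 * W) ^ (C + 1)) a0.le).trans hD.big
  exact key L P cu cv Uf Vf W M a w1 w2 z0 ρ zL ρL r Y H hD.two (mix_near hD p)
    (mix_det hD hWa) ((mul_le_mul_of_nonneg_right e2 a0.le).trans hD.big) hH hHa

/-- **[ND]** -/
theorem nd_ad (h : Amx84.NdMx) : Amx325.NdMx := by
  classical
  intro c1 η qm qp hc1 hE
  obtain ⟨C, hC, key⟩ := h
  refine ⟨C + 1, C, by linarith, hC, ?_⟩
  intro L P cu cv Uf Vf W M a w1 w2 z0 ρ zL ρL r Y hD H hH hHa hYH c c' T hT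
  have h1 := hD.two.to1
  have W1 := h1.W1
  have a0 := h1.a0
  have b1 : (1:ℝ) ≤ 2 * W := by linarith
  have b0 : (0:ℝ) < 2 * W := by linarith
  have p : (0:ℝ) ≤ (2 * W) ^ (C + 1) := (Real.rpow_pos_of_pos b0 _).le
  have e1 : (2 * W) ^ (1:ℝ) ≤ (2 * W) ^ (C + 1) :=
    Real.rpow_le_rpow_of_exponent_le b1 (by linarith)
  rw [Real.rpow_one] at e1
  have e2 : (2 * W) ^ C ≤ (2 * W) ^ (C + 1) :=
    Real.rpow_le_rpow_of_exponent_le b1 (by linarith)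
  have hWa : W * a ≤ Y :=
    (mul_le_mul_of_nonneg_right (by linarith : W ≤ (2 * W) ^ (C + 1)) a0.le).trans hD.big
  have hH1 : 1 ≤ H := by omega
  have hlog : 0 ≤ Real.log H := Real.log_nonneg (by exact_mod_cast hH1)
  rcases T.eq_empty_or_nonempty with rfl | ⟨y, hy⟩
  · have : (0:ℝ) ≤ (2 * W) ^ C := (Real.rpow_pos_of_pos b0 _).le
    simp only [Finset.card_empty, Nat.cast_zero]
    positivity
  obtain ⟨t0, ht0, -, hcv0, hcu0, -⟩ := hT y hy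
  set Q : Finset ℕ := P.filter fun t => cv t = c ∧ cu t = c' with hQ
  have mQ : ∀ {t}, t ∈ Q ↔ t ∈ P ∧ cv t = c ∧ cu t = c' := by
    intro t; rw [hQ, Finset.mem_filter]
  refine key W Y a w1 w2 z0 ρ r H (Uf c') (Vf c) Q L W1 h1.r0 h1.ρ0 hD.two.rρ a0 ?_ ?_ ?_ ?_ ?_
    ?_ ?_ ?_ ?_ ?_ hH1 hHa T ?_
  · have := h1.shU t0 ht0; rwa [hcu0] at this
  · have := h1.shV t0 ht0; rwa [hcv0] at this
  · intro t ht
    obtain ⟨htP, hcv, hcu⟩ := mQ.1 ht
    have i1 := h1.inU t htP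
    have i2 := h1.inV t htP
    rw [hcu] at i1
    rw [hcv] at i2
    exact ⟨i1, i2⟩
  · have := h1.dimU t0 ht0; rwa [hcu0] at this
  · have := h1.dimV t0 ht0; rwa [hcv0] at this
  · intro t ht
    obtain ⟨htP, hcv, hcu⟩ := mQ.1 ht
    have := hD.al t htP
    rwa [hcu, hcv] at this
  · intro t ht
    obtain ⟨htP, hcv, hcu⟩ := mQ.1 ht
    have := mix_det hD hWa t htP
    rwa [hcu] at this
  · intro t ht
    obtain ⟨htP, hcv, hcu⟩ := mQ.1 ht
    have := mix_near hD p t htP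
    rwa [hcu] at this
  · intro t ht
    obtain ⟨htP, hcv, hcu⟩ := mQ.1 ht
    have h5 := hD.fl t htP
    rw [hcv] at h5
    have h6 : 0 ≤ kp (Vf c) z0 ρ (L t) := by
      obtain ⟨-, p0, -, -⟩ := Bl5667.shp_pos h1.r0 (h1.shV t htP)
      rw [hcv] at p0
      exact Bl5667.kp_nonneg p0.le z0 ρ (L t)
    exact (mul_le_mul_of_nonneg_right e2 h6).trans h5
  · exact (mul_le_mul_of_nonneg_right e2 a0.le).trans hD.big
  · intro z hz
    obtain ⟨t, ht, hlt, hcv, hcu, hg⟩ := hT z hz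
    exact ⟨t, mQ.2 ⟨ht, hcv, hcu⟩, hlt, hg⟩

/-- **outer part of case (A)** over the leaves of `Amd_84` -/
theorem ubalA_of (hP : Amx84.PLMx) (hH : Amx84.HullMx) (hN : Amx84.NdMx) : UBalA Al1 :=
  Kcl44.ubalA_of (pl_ad hP) (hull_ad hH) (nd_ad hN)

end Crest.Agent.R136.Amo624
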