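import Crest.Agent.R136.Amx3_325
import Crest.Agent.R136.Kcl2_44
import Crest.Agent.R138.KMs_630

/-!
# R136 (S0187), PLAN 2, mixed curvatures: `KapClose` from helper44's `kap_of_close` (helper325)

`ubalA_of3 : PLMx → HullMx → NdMx → UBalA Al1`.
-/

set_option autoImplicit false
set_option linter.unusedVariables false

namespace Crest.Agent.R136.Amx325

open Crest.Agent.R136.Sh605 Crest.Agent.R136.Pl2
open Crest.Agent.R136.K4 (Plk4)
open Crest.Agent.R136.Tlt51 (Shp InP)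
open Crest.Agent.R136.Deep51 (CloseC)
open Crest.Agent.R136.Tl102 (angC)
open Crest.Agent.R136.KapP335 (kapP DetP)
open Crest.Agent.R136.Hcp208 (Dims)
open Crest.Agent.R136.Bl5667 (shp_pos kp_nonneg)

theorem kapClose : KapClose := by
  refine ⟨75, by norm_num, ?_⟩
  intro U V T K E a w1 w2 z0 ρ r hK hr hρ ha hw1 hw2 hU hV hTU hTV dU dV hang hE hcl
  have K0 : 0 < K := by linarith
  obtain ⟨ua, uw0, u2, u1⟩ := shp_pos hr hU
  obtain ⟨va, vw0, v2, v1⟩ := shp_pos hr hV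
  obtain ⟨⟨a1, a2⟩, ⟨b1, b2⟩, ⟨c1, c2⟩⟩ := dU
  obtain ⟨⟨a1', a2'⟩, ⟨b1', b2'⟩, ⟨c1', c2'⟩⟩ := dV
  have two : ∀ x y X : ℝ, y ≤ K * X → X ≤ K * x → y ≤ K ^ 2 * x := by
    intro x y X h1 h2
    have := mul_le_mul_of_nonneg_left h2 K0.le
    nlinarith
  have hang0 : 0 ≤ angC U V := (abs_nonneg (dt (U.e 1) (V.e 0))).trans
    ((le_max_left _ _).trans (le_max_left _ _))
  have hA : angC U V * U.w 1 ≤ K ^ 3 * U.w 2 := by
    calc angC U V * U.w 1 ≤ angC U V * (K * w1) := mul_le_mul_of_nonneg_left b2 hang0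
      _ = K * (angC U V * w1) := by ring
      _ ≤ K * (K * w2) := mul_le_mul_of_nonneg_left hang K0.le
      _ ≤ K * (K * (K * U.w 2)) :=
        mul_le_mul_of_nonneg_left (mul_le_mul_of_nonneg_left c1 K0.le) K0.le
      _ = _ := by ring
  have h := Kcl44.kap_of_close (B := K ^ 2) (lam := K ^ 3) hr hr hρ.le hU hV hTU hTV
    (one_le_pow₀ hK) (one_le_pow₀ hK) (two _ _ _ b2' b1) (two _ _ _ c2' c1) (two _ _ _ b2 b1')
    (two _ _ _ c2 c1') hA hcl
  have hkV : 0 ≤ kapP V z0 ρ T := kp_nonneg vw0.le z0 ρ T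
  refine h.trans ?_
  have e1 : E + U.a + kapP V z0 ρ T ≤ K * (E + a + kapP V z0 ρ T) := by nlinarith
  have e2 : (2 * K) ^ (75:ℝ) = (2 * K) ^ 75 := by exact_mod_cast Real.rpow_natCast (2 * K) 75
  have hs : 0 ≤ E + a + kapP V z0 ρ T := by linarith
  calc 10 ^ 16 * (K ^ 2 * K ^ 3) ^ 4 * (E + U.a + kapP V z0 ρ T)
      ≤ 10 ^ 16 * (K ^ 2 * K ^ 3) ^ 4 * (K * (E + a + kapP V z0 ρ T)) :=
        mul_le_mul_of_nonneg_left e1 (by positivity)
    _ = 10 ^ 16 * K ^ 21 * (E + a + kapP V z0 ρ T) := by ring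
    _ ≤ 2 ^ 75 * K ^ 75 * (E + a + kapP V z0 ρ T) := by
        refine mul_le_mul_of_nonneg_right ?_ hs
        exact mul_le_mul (by norm_num) (pow_le_pow_right₀ hK (by norm_num)) (by positivity)
          (by norm_num)
    _ = _ := by rw [e2]; ring

/-- **case (A)** from its three leaves -/
theorem ubalA_of3 (hPL : PLMx) (hHu : HullMx) (hNd : NdMx) : Alr877.UBalA Al1 :=
  ubalA_of Crest.Agent.R138.KMs630.km32 kapClose hPL hHu hNd

end Crest.Agent.R136.Amx325
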