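import Crest.Agent.R136.Amx4_325
import Crest.Agent.R136.Amd_84

/-!
# R136 (S0187), PLAN 2, mixed curvatures: the leaves of `Amd_84` ⊢ the leaves of `Amx3_325`
(helper325)

`ubalA_of84 : Amx84.HullMx → Amx84.PLMx → Amx84.NdMx → UBalA Al1`.
-/

set_option autoImplicit false
set_option linter.unusedVariables false

open Finset

namespace Crest.Agent.R136.Amx325

open Crest.Agent.R136.Sh605 Crest.Agent.R136.Pl2
open Crest.Agent.R136.K4 (Plk4)
open Crest.Agent.R136.Tlt51 (Shp InP)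
open Crest.Agent.R136.KapP335 (kapP DetP)
open Crest.Agent.R136.Pl2W102 (Near Ex2 Two1)
open Crest.Agent.R136.Bl5667 (shp_pos kp_nonneg)
open Crest.Agent.R136.Gbx862 (gb)

section

variable {qm qp : Fin 3 → ℝ} {K : ℝ} {L : ℕ → Ln4} {P : Finset ℕ} {cu cv : ℕ → ℕ}
  {Uf Vf : ℕ → Plk4} {W M a w1 w2 z0 ρ zL ρL r Y : ℝ}

theorem MixD.near (h : MixD qm qp K L P cu cv Uf Vf W M a w1 w2 z0 ρ zL ρL r Y) {t : ℕ}
    (ht : t ∈ P) : Near 4 Y (kp (Uf (cu t)) z0 ρ (L t)) := by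
  obtain ⟨-, p0, -, -⟩ := shp_pos h.two.to1.r0 (h.two.to1.shU t ht)
  have h0 := kp_nonneg p0.le z0 ρ (L t)
  have h1 := h.lo t ht
  have h2 := h.hi t ht
  have hY : 0 ≤ Y := by linarith
  exact ⟨by linarith, by linarith⟩

theorem MixD.det (h : MixD qm qp K L P cu cv Uf Vf W M a w1 w2 z0 ρ zL ρL r Y) (hK : W ≤ K) {t : ℕ}
    (ht : t ∈ P) : DetP W⁻¹ (Uf (cu t)) z0 ρ (L t) :=
  (h.ty t ht).det (((mul_le_mul_of_nonneg_right hK h.two.to1.a0.le).trans h.big).trans (h.lo t ht))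

end

theorem hullMx_of (h : Amx84.HullMx) : HullMx := by
  intro η qm qp hE
  obtain ⟨C, hC, key⟩ := h η qm qp hE
  refine ⟨0, C, le_rfl, hC, ?_⟩
  intro L P cu cv Uf Vf W M a w1 w2 z0 ρ zL ρL r Y hM c
  have hb := hM.big
  rw [Real.rpow_zero, one_mul] at hb
  exact key L P cu cv Uf Vf W M a w1 w2 z0 ρ zL ρL r Y hM.two hb (fun t ht => hM.near ht)
    (fun t ht => (hM.ty t ht).le) hM.al c

theorem plMx_of (h : Amx84.PLMx) : PLMx := by
  intro η qm qp hE
  obtain ⟨C, hC, key⟩ := h η qm qp hE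
  refine ⟨C + 1, C, by linarith, hC, ?_⟩
  intro L P cu cv Uf Vf W M a w1 w2 z0 ρ zL ρL r Y hM H hH hHa
  have W1 := hM.two.to1.W1
  have b1 : (1:ℝ) ≤ 2 * W := by linarith
  have hWK : W ≤ (2 * W) ^ (C + 1) := by
    have : (2 * W) ^ (1:ℝ) ≤ (2 * W) ^ (C + 1) :=
      Real.rpow_le_rpow_of_exponent_le b1 (by linarith)
    rw [Real.rpow_one] at this
    linarith
  refine key L P cu cv Uf Vf W M a w1 w2 z0 ρ zL ρL r Y H hM.two (fun t ht => hM.near ht)
    (fun t ht => hM.det hWK ht) ?_ hH hHa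
  exact (mul_le_mul_of_nonneg_right (Real.rpow_le_rpow_of_exponent_le b1 (by linarith))
    hM.two.to1.a0.le).trans hM.big

theorem ndMx_of (h : Amx84.NdMx) : NdMx := by
  classical
  obtain ⟨C, hC, key⟩ := h
  intro c1 η qm qp hc1 hE
  refine ⟨C + 1, C, by linarith, hC, ?_⟩
  intro L P cu cv Uf Vf W M a w1 w2 z0 ρ zL ρL r Y hM H hH hHa hYH c c' T hT
  have h1 := hM.two.to1
  have W1 := h1.W1
  have b1 : (1:ℝ) ≤ 2 * W := by linarith
  have hWK : W ≤ (2 * W) ^ (C + 1) := by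
    have : (2 * W) ^ (1:ℝ) ≤ (2 * W) ^ (C + 1) :=
      Real.rpow_le_rpow_of_exponent_le b1 (by linarith)
    rw [Real.rpow_one] at this
    linarith
  have hCC : (2 * W) ^ C ≤ (2 * W) ^ (C + 1) :=
    Real.rpow_le_rpow_of_exponent_le b1 (by linarith)
  rcases T.eq_empty_or_nonempty with h0 | h0
  · subst h0
    have hHr : (4:ℝ) ≤ H := by exact_mod_cast hH
    have hl : 0 ≤ Real.log H := Real.log_nonneg (by linarith)
    have : 0 ≤ (2 * W) ^ C := Real.rpow_nonneg (by linarith) _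
    simp only [card_empty, Nat.cast_zero]
    positivity
  · obtain ⟨y0, hy0⟩ := h0
    obtain ⟨t0, ht0, -, e1, e2, -⟩ := hT y0 hy0
    set P' := P.filter fun t => cv t = c ∧ cu t = c' with hP'
    have mem : ∀ t ∈ P', t ∈ P ∧ cv t = c ∧ cu t = c' := fun t ht => by
      rw [hP', mem_filter] at ht; exact ht
    have sU := h1.shU t0 ht0
    have sV := h1.shV t0 ht0
    have dU := h1.dimU t0 ht0
    have dV := h1.dimV t0 ht0
    rw [e2] at sU dU
    rw [e1] at sV dV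
    refine key W Y a w1 w2 z0 ρ r H (Uf c') (Vf c) P' L W1 h1.r0 h1.ρ0 hM.two.rρ h1.a0 sU sV
      (fun t ht => ?_) dU dV (fun t ht => ?_) (fun t ht => ?_) (fun t ht => ?_) (fun t ht => ?_)
      ((mul_le_mul_of_nonneg_right hCC h1.a0.le).trans hM.big) (by omega) hHa T (fun y hy => ?_)
    · obtain ⟨m1, m2, m3⟩ := mem t ht
      have a1 := h1.inU t m1
      have a2 := h1.inV t m1
      rw [m3] at a1
      rw [m2] at a2
      exact ⟨a1, a2⟩
    · obtain ⟨m1, m2, m3⟩ := mem t ht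
      have a1 := hM.al t m1
      rw [m3, m2] at a1
      exact a1
    · obtain ⟨m1, m2, m3⟩ := mem t ht
      have a1 := hM.det hWK m1
      rw [m3] at a1
      exact a1
    · obtain ⟨m1, m2, m3⟩ := mem t ht
      have a1 := hM.near m1
      rw [m3] at a1
      exact a1
    · obtain ⟨m1, m2, m3⟩ := mem t ht
      have a1 := hM.fl t m1
      obtain ⟨-, p0, -, -⟩ := shp_pos h1.r0 (h1.shV t m1)
      have a2 := mul_le_mul_of_nonneg_right hCC (kp_nonneg p0.le z0 ρ (L t))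
      rw [m2] at a1 a2
      exact a2.trans a1
    · obtain ⟨t, t1, t2, t3, t4, t5⟩ := hT y hy
      exact ⟨t, by rw [hP', mem_filter]; exact ⟨t1, t3, t4⟩, t2, t5⟩

/-- **case (A)** from the leaves of `Amd_84` -/
theorem ubalA_of84 (hH : Amx84.HullMx) (hP : Amx84.PLMx) (hN : Amx84.NdMx) :
    Alr877.UBalA Al1 :=
  ubalA_of3 (plMx_of hP) (hullMx_of hH) (ndMx_of hN)

end Crest.Agent.R136.Amx325
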