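import Crest.Agent.R136.CD5_366
import Crest.Agent.R136.Fe1_355

/-!
# R136: **every `κ = 1` line** over relative models (helper366)

`kappa_one_R`: `N` decoupled with rate `a`, `C` decoupled with a positive rate, `(P, X)` arbitrarily
coupled with `X` full, slope function with raw twist: `σ ≤ a` or `1 ≤ a`.
-/

set_option autoImplicit false
set_option linter.unusedVariables false
set_option linter.unusedSectionVars false

open Filter Topology Finset

namespace Crest.Agent.R136.CD366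

open Crest.Agent.R138.Ex926 (Base U)
open Crest.Agent.R136.Gf356
open Crest.Agent.R136.Fe1355 (RawTw shift_R)

variable {κ : Type} [DecidableEq κ] {B : Base} {G : ℕ → RCfg κ} {Leg : Set (κ → ℝ)}
  {ν : (κ → ℝ) → ℝ} {σ R D : ℝ} {Fz : Finset κ} {sN sP sX sC : κ} {f : ℕ → ℕ → ℝ}
  {R0 C1 a m : ℝ}

/-- the data of `kappa_one_R`: `ν` splits over `N`, `(P, X)`, `C` -/
structure K1 (B : Base) (G : ℕ → RCfg κ) (Leg : Set (κ → ℝ)) (ν : (κ → ℝ) → ℝ) (Fz : Finset κ)
    (sN sP sX sC : κ) (f : ℕ → ℕ → ℝ) (R0 C1 a m : ℝ) (β : ℝ → ℝ → ℝ → ℝ) (γ : ℝ → ℝ → ℝ) : Prop where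
  R0_pos : 0 < R0
  C1_one : 1 ≤ C1
  m_pos : 0 < m
  NP : sN ≠ sP
  NX : sN ≠ sX
  NC : sN ≠ sC
  PX : sP ≠ sX
  PC : sP ≠ sC
  XC : sX ≠ sC
  leg : ∀ y n p x c' : ℝ, 0 ≤ y → y ≤ R0 → 0 ≤ n → n ≤ y → 0 ≤ p → p ≤ y → 0 ≤ x → x ≤ y →
    0 ≤ c' → c' ≤ y → bx Fz sN sP sX sC y n p x c' ∈ Leg
  bd : ∀ᶠ n in (U : Filter ℕ), ∀ k ∈ (G n).Z, |(G n).z k| ≤ 1 ∧ |f n k| ≤ 1
  ev : ∀ y : ℝ, 0 ≤ y → y ≤ R0 → ∀ ε : ℝ, 0 < ε → ∀ᶠ n in (U : Filter ℕ), ∀ k₀ k i i',
    (i, k₀) ∈ (G n).I → (i', k₀) ∈ (G n).I → (i, k) ∈ (G n).I → (i', k) ∈ (G n).I →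
    (G n).loose (bx Fz sN sP sX sC y 0 0 0 0) ε k₀ i i' →
    (G n).loose (bx Fz sN sP sX sC y 0 0 0 0) (C1 * ε) k i i' ∧
    |(G n).rel k i i' sN - ((G n).rel k₀ i i' sN + ((G n).z k - (G n).z k₀) * (G n).rel k₀ i i' sP
      - (f n k - f n k₀) * ((G n).rel k₀ i i' sX +
        ((G n).z k - (G n).z k₀) * (G n).rel k₀ i i' sC))| ≤ B.d n ^ (y - C1 * ε)
  /-- splitting, `β y p x` = loss of `(P, X)`, `γ y c` = loss of `C` -/
  nu : ∀ y n p x c' : ℝ, 0 ≤ y → y ≤ R0 → 0 ≤ n → n ≤ y → 0 ≤ p → p ≤ y → 0 ≤ x → x ≤ y →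
    0 ≤ c' → c' ≤ y → ν (bx Fz sN sP sX sC y n p x c') =
      ν (bx Fz sN sP sX sC y 0 0 0 0) - a * n - β y p x - γ y c'
  X_full : ∀ y t : ℝ, 0 ≤ t → t ≤ y → y ≤ R0 → t ≤ β y 0 t
  C_rate : ∀ y t : ℝ, 0 ≤ t → t ≤ y → y ≤ R0 → m * t ≤ γ y t

theorem K1.a_nonneg {β : ℝ → ℝ → ℝ → ℝ} {γ : ℝ → ℝ → ℝ} (H : RModel B G σ R Leg ν D)
    (K : K1 B G Leg ν Fz sN sP sX sC f R0 C1 a m β γ) : 0 ≤ a := by
  have hR := K.R0_pos
  have h1 := K.nu R0 R0 0 0 0 hR.le le_rfl hR.le le_rfl le_rfl hR.le le_rfl hR.le le_rfl hR.le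
  have h0 := K.nu R0 0 0 0 0 hR.le le_rfl le_rfl hR.le le_rfl hR.le le_rfl hR.le le_rfl hR.le
  have h2 := H.nu_anti (p := bx Fz sN sP sX sC R0 0 0 0 0) (p' := bx Fz sN sP sX sC R0 R0 0 0 0)
    (K.leg R0 0 0 0 0 hR.le le_rfl le_rfl hR.le le_rfl hR.le le_rfl hR.le le_rfl hR.le)
    (K.leg R0 R0 0 0 0 hR.le le_rfl hR.le le_rfl le_rfl hR.le le_rfl hR.le le_rfl hR.le)
    (fun s => bx_mono le_rfl hR.le le_rfl le_rfl le_rfl s)
  by_contra hcon
  push Not at hcon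
  have : a * R0 < 0 := mul_neg_of_neg_of_pos hcon hR
  linarith

/-- loose is additive in the tolerance: `ρ^(-ε)`-small slots -/
theorem loose_zero_slot {n : ℕ} (hb : (G n).ρ = B.d n) {p : κ → ℝ} {ε : ℝ} {k i l : ℕ} {s : κ}
    (h : (G n).loose p ε k i l) (hs : p s = 0) : |(G n).rel k i l s| ≤ B.d n ^ (-ε) := by
  have := h s
  rw [hb, hs, zero_sub] at this
  exact this

/-- the visible shift inside K1: loss of `X` given `(N, P, C)` is at most the loss of `N` -/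
theorem K1.shift {β : ℝ → ℝ → ℝ → ℝ} {γ : ℝ → ℝ → ℝ} (H : RModel B G σ R Leg ν D)
    (K : K1 B G Leg ν Fz sN sP sX sC f R0 C1 a m β γ)
    (htw : RawTw B G fun n k k' => f n k' - f n k) {y t : ℝ} (ht : 0 ≤ t) (hty : t ≤ y)
    (hy : y ≤ R0) : β y t t - β y t 0 ≤ a * t := by
  have hy0 : 0 ≤ y := ht.trans hty
  have hC1 := K.C1_one
  have hC10 : 0 < C1 := by linarith
  have key := shift_R H (bx Fz sN sP sX sC y t t 0 t) (bx Fz sN sP sX sC y t t t t)
    (bx Fz sN sP sX sC y 0 0 0 0) (bx Fz sN sP sX sC y t 0 0 0)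
    (K.leg y t t 0 t hy0 hy ht hty ht hty le_rfl hy0 ht hty)
    (K.leg y t t t t hy0 hy ht hty ht hty ht hty ht hty)
    (K.leg y 0 0 0 0 hy0 hy le_rfl hy0 le_rfl hy0 le_rfl hy0 le_rfl hy0)
    (K.leg y t 0 0 0 hy0 hy ht hty le_rfl hy0 le_rfl hy0 le_rfl hy0)
    (fun s => bx_mono le_rfl ht le_rfl le_rfl le_rfl s) sX sN (y := t)
    (by rw [bx_X K.NX K.PX])
    (by
      intro s hs
      unfold bx
      by_cases h1 : s = sN
      · rw [if_pos h1, if_pos h1]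
      · rw [if_neg h1, if_neg h1]
        by_cases h2 : s = sP
        · rw [if_pos h2, if_pos h2]
        · rw [if_neg h2, if_neg h2, if_neg hs, if_neg hs])
    (by rw [bx_N]) (fun n k k' => -(f n k' - f n k)) (by
      intro ε hε
      filter_upwards [htw ε hε] with n hn i hi T hT hq
      refine hn i hi T hT fun q hq' => ?_
      have := hq q hq'
      rwa [abs_neg] at this) (by
      intro C0 hC0
      refine ⟨(C1 * C0 + C0 + 1), by positivity, fun ε hε => ?_⟩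
      have hC0ε : 0 < C0 * ε := by positivity
      filter_upwards [K.ev y hy0 hy (C0 * ε) hC0ε, K.bd, ev_const_le B hε 8] with n hev hbd hc8
        k hk k' hk' i i' hi hi' hl hl' hlo
      have hpow : ∀ t : ℝ, 0 < B.d n ^ t := fun t => rpos B n t
      have hlo0 : (G n).loose (bx Fz sN sP sX sC y 0 0 0 0) (C0 * ε) k i i' :=
        H.loose_mono (fun s => bx_mono le_rfl ht ht le_rfl ht s) le_rfl hlo
      obtain ⟨g1, g2⟩ := hev k k' i i' hi hl hi' hl' hlo0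
      refine ⟨H.loose_mono (fun _ => le_rfl) (by nlinarith) g1, ?_⟩
      have gN := hlo sN
      have gP := hlo sP
      have gC := hlo sC
      rw [bx_N, H.base n] at gN
      rw [bx_P K.NP, H.base n] at gP
      rw [bx_C K.NC K.PC K.XC, H.base n] at gC
      have hu : |(G n).z k' - (G n).z k| ≤ 2 := by
        refine (abs_sub _ _).trans ?_
        have := (hbd k' hk').1; have := (hbd k hk).1; linarith
      have hg : |f n k' - f n k| ≤ 2 := by
        refine (abs_sub _ _).trans ?_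
        have := (hbd k' hk').2; have := (hbd k hk).2; linarith
      set b := B.d n ^ (t - (C1 * C0 + C0) * ε) with hb
      have hb0 : 0 < b := hpow _
      have hCC : 0 ≤ C1 * C0 * ε := by positivity
      have k1 : B.d n ^ (y - C1 * (C0 * ε)) ≤ b := rpow_anti B n (by
        have : 0 ≤ C0 * ε := hC0ε.le
        nlinarith)
      have k2 : B.d n ^ (t - C0 * ε) ≤ b := rpow_anti B n (by nlinarith)
      have m1 : |((G n).z k' - (G n).z k) * (G n).rel k i i' sP| ≤ 2 * b := by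
        rw [abs_mul]
        exact mul_le_mul hu (gP.trans k2) (abs_nonneg _) (by norm_num)
      have m2 : |(f n k' - f n k) * (((G n).z k' - (G n).z k) * (G n).rel k i i' sC)| ≤
          4 * b := by
        rw [abs_mul, abs_mul]
        calc |f n k' - f n k| * (|(G n).z k' - (G n).z k| * |(G n).rel k i i' sC|)
            ≤ 2 * (2 * b) := by
              refine mul_le_mul hg ?_ (by positivity) (by norm_num)
              exact mul_le_mul hu (gC.trans k2) (abs_nonneg _) (by norm_num)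
          _ = 4 * b := by ring
      have m3 : |(G n).rel k' i i' sN - -(f n k' - f n k) * (G n).rel k i i' sX| ≤ 8 * b := by
        have e1 : (G n).rel k' i i' sN - -(f n k' - f n k) * (G n).rel k i i' sX =
            ((G n).rel k' i i' sN - ((G n).rel k i i' sN +
              ((G n).z k' - (G n).z k) * (G n).rel k i i' sP - (f n k' - f n k) *
              ((G n).rel k i i' sX + ((G n).z k' - (G n).z k) * (G n).rel k i i' sC))) +
            (G n).rel k i i' sN + ((G n).z k' - (G n).z k) * (G n).rel k i i' sP -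
            (f n k' - f n k) * (((G n).z k' - (G n).z k) * (G n).rel k i i' sC) := by ring
        rw [e1]
        have n1 := abs_le.1 (g2.trans k1)
        have n2 := abs_le.1 (gN.trans k2)
        have n3 := abs_le.1 m1
        have n4 := abs_le.1 m2
        rw [abs_le]
        constructor <;> linarith [n1.1, n1.2, n2.1, n2.2, n3.1, n3.2, n4.1, n4.2]
      refine m3.trans (absorb B ?_)
      have e : -(t - (C1 * C0 + C0) * ε - (t - (C1 * C0 + C0 + 1) * ε)) = -ε := by ring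
      rw [e]
      exact hc8)
  rw [K.nu y t t 0 t hy0 hy ht hty ht hty le_rfl hy0 ht hty,
    K.nu y t t t t hy0 hy ht hty ht hty ht hty ht hty,
    K.nu y t 0 0 0 hy0 hy ht hty le_rfl hy0 le_rfl hy0 le_rfl hy0] at key
  have h0 := K.nu y 0 0 0 0 hy0 hy le_rfl hy0 le_rfl hy0 le_rfl hy0 le_rfl hy0
  linarith

/-- **every `κ = 1` line**: `σ ≤ a` or `1 ≤ a` -/
theorem kappa_one_R {β : ℝ → ℝ → ℝ → ℝ} {γ : ℝ → ℝ → ℝ} (H : RModel B G σ R Leg ν D)
    (K : K1 B G Leg ν Fz sN sP sX sC f R0 C1 a m β γ)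
    (htw : RawTw B G fun n k k' => f n k' - f n k) (hR0 : R0 ≤ R) : σ ≤ a := by
  by_contra hcon
  push Not at hcon
  have ha0 := K.a_nonneg H
  have ha1 : a < 1 := hcon.trans_le H.σ_le
  have hR := K.R0_pos
  have hm := K.m_pos
  have hzero : ∀ y, 0 ≤ y → y ≤ R0 → β y 0 0 + γ y 0 = 0 := by
    intro y hy0 hy
    have h0 := K.nu y 0 0 0 0 hy0 hy le_rfl hy0 le_rfl hy0 le_rfl hy0 le_rfl hy0
    linarith
  -- monotonicity of `β y t ·` in the first slot
  have hmono : ∀ y t p, 0 ≤ t → t ≤ y → y ≤ R0 → 0 ≤ p → p ≤ y → β y 0 t ≤ β y p t := by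
    intro y t p ht hty hy hp hpy
    have hy0 : 0 ≤ y := ht.trans hty
    have h2 := H.nu_anti (p := bx Fz sN sP sX sC y 0 0 t 0) (p' := bx Fz sN sP sX sC y 0 p t 0)
      (K.leg y 0 0 t 0 hy0 hy le_rfl hy0 le_rfl hy0 ht hty le_rfl hy0)
      (K.leg y 0 p t 0 hy0 hy le_rfl hy0 hp hpy ht hty le_rfl hy0)
      (fun s => bx_mono le_rfl le_rfl hp le_rfl le_rfl s)
    rw [K.nu y 0 0 t 0 hy0 hy le_rfl hy0 le_rfl hy0 ht hty le_rfl hy0,
      K.nu y 0 p t 0 hy0 hy le_rfl hy0 hp hpy ht hty le_rfl hy0] at h2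
    linarith
  have hβ1 : ∀ y t, 0 ≤ t → t ≤ y → y ≤ R0 → t ≤ β y t t := fun y t ht hty hy =>
    (K.X_full y t ht hty hy).trans (hmono y t t ht hty hy ht hty)
  have hβ2 : ∀ y t, 0 ≤ t → t ≤ y → y ≤ R0 → (1 - a) * t ≤ β y t 0 := by
    intro y t ht hty hy
    have h1 := K.shift H htw ht hty hy
    have h2 := hβ1 y t ht hty hy
    nlinarith
  set c : ℝ := min m (1 - a) with hc
  have hc0 : 0 < c := lt_min hm (by linarith)
  have hcm : c ≤ m := min_le_left _ _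
  have hca : c ≤ 1 - a := min_le_right _ _
  clear_value c
  have hK3 : K3 B G Leg ν Fz sN sP sX sC f R0 C1 a c := by
    refine ⟨hR, K.C1_one, hc0, K.NP, K.NX, K.NC, K.PX, K.PC, K.XC, K.leg, K.bd, K.ev, ?_, ?_, ?_,
      ?_⟩
    · intro y hy0 hy
      rw [K.nu y y 0 0 0 hy0 hy hy0 le_rfl le_rfl hy0 le_rfl hy0 le_rfl hy0]
      have := hzero y hy0 hy
      linarith
    · intro y t ht hty hy
      have hy0 : 0 ≤ y := ht.trans hty
      rw [K.nu y 0 y y 0 hy0 hy le_rfl hy0 hy0 le_rfl hy0 le_rfl le_rfl hy0,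
        K.nu y t y y t hy0 hy ht hty hy0 le_rfl hy0 le_rfl ht hty]
      have h1 := K.C_rate y t ht hty hy
      have h2 := K.C_rate y 0 le_rfl hy0 hy
      have h4 : c * t ≤ m * t := mul_le_mul_of_nonneg_right hcm ht
      have h3 := H.nu_anti (p := bx Fz sN sP sX sC y 0 0 0 0) (p' := bx Fz sN sP sX sC y 0 0 0 0)
        (K.leg y 0 0 0 0 hy0 hy le_rfl hy0 le_rfl hy0 le_rfl hy0 le_rfl hy0)
        (K.leg y 0 0 0 0 hy0 hy le_rfl hy0 le_rfl hy0 le_rfl hy0 le_rfl hy0) (fun s => le_rfl)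
      have h5 := K.X_full y 0 le_rfl hy0 hy
      have h6 := hzero y hy0 hy
      nlinarith
    · intro y t ht hty hy
      have hy0 : 0 ≤ y := ht.trans hty
      rw [K.nu y t t 0 0 hy0 hy ht hty ht hty le_rfl hy0 le_rfl hy0]
      have h1 := hβ2 y t ht hty hy
      have h2 := K.C_rate y 0 le_rfl hy0 hy
      have h4 : c * t ≤ (1 - a) * t := mul_le_mul_of_nonneg_right hca ht
      nlinarith
    · intro t ht htR
      rw [K.nu R0 R0 0 0 R0 hR.le le_rfl hR.le le_rfl le_rfl hR.le le_rfl hR.le hR.le le_rfl,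
        K.nu R0 R0 t t R0 hR.le le_rfl hR.le le_rfl ht htR ht htR hR.le le_rfl]
      have h1 := hβ1 R0 t ht htR le_rfl
      have h5 := K.X_full R0 0 le_rfl hR.le le_rfl
      have h6 := hzero R0 hR.le le_rfl
      have h2 := K.C_rate R0 0 le_rfl hR.le le_rfl
      have h4 : c * t ≤ (1 - a) * t := mul_le_mul_of_nonneg_right hca ht
      nlinarith
  exact absurd (K3core_R H hK3 hR0) (not_le.2 hcon)

end Crest.Agent.R136.CD366
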