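import Crest.Agent.R136.Fe1_355
import Crest.Agent.R136.Fe2_355
import Crest.Agent.R136.Lf1_400
import Crest.Agent.R136.CD6_366

/-!
# R136, case (C1) (31 dominates, 2 free), F-half, part 1 (helper865)

Windows on the plane with a slack `F_b` (the monomials with slot `3` are not walls).

* `M0` : base model (evolution of `E, X_a, X_b`, composition of `X_a, X_b`), proofs after 355's `NM`;
  `M0.xa` (`X_a` full), `M0.xb` (`X_b` full given `E`), `M0.leaf` (crossing leaves).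
* `M1` : model with level slots `{z, F_a}`; `M1.shiftN` (loss of `X_a` given the rest `≤` loss of `N`
  given the rest, raw twist), `M1.kone` (`κ = 1`: one call of 366's `kappa_one_R`).
-/

set_option autoImplicit false
set_option linter.unusedVariables false
set_option linter.unusedSectionVars false

open Filter Topology Finset

namespace Crest.Agent.R136.C1865

open Crest.Agent.R138.Ex926 (Base U)
open Crest.Agent.R136.Gf356
open Crest.Agent.R136.Fe1355
open Crest.Agent.R136.Fe2355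

/-- box vector: `E, C_a, C_b, P, X_a, X_b, N` -/
def bw (e ca cb p xa xb n : ℝ) : Fin 11 → ℝ := ![0, 0, e, 0, 0, ca, cb, p, xa, xb, n]

/-- **base model** -/
structure M0 (B : Base) (G : ℕ → RCfg (Fin 11)) (Leg : Set (Fin 11 → ℝ))
    (ν : (Fin 11 → ℝ) → ℝ) (T D : ℝ) : Prop where
  H : RModel B G 1 T Leg ν D
  T0 : 0 < T
  leg : ∀ e ca cb xa xb : ℝ, 0 ≤ e → e ≤ T → 0 ≤ ca → ca ≤ T → 0 ≤ cb → cb ≤ T → 0 ≤ xa →
    xa ≤ T → 0 ≤ xb → xb ≤ T → cb ≤ e + ca → xb ≤ e + xa → bw e ca cb 0 xa xb 0 ∈ Leg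
  zb : ∀ ε : ℝ, 0 < ε → ∀ᶠ n in (U : Filter ℕ), ∀ k ∈ (G n).Z, ∀ k' ∈ (G n).Z,
    |(G n).z k' - (G n).z k| ≤ B.d n ^ (-ε)
  rb : ∀ ε : ℝ, 0 < ε → ∀ᶠ n in (U : Filter ℕ), ∀ k i l, (i, k) ∈ (G n).I →
    (l, k) ∈ (G n).I → ∀ s, |(G n).rel k i l s| ≤ B.d n ^ (-ε)
  ev : ∀ ε : ℝ, 0 < ε → ∀ᶠ n in (U : Filter ℕ), ∀ k k' i l, (i, k) ∈ (G n).I →
    (l, k) ∈ (G n).I → (i, k') ∈ (G n).I → (l, k') ∈ (G n).I →
    |(G n).rel k' i l 2 - (G n).rel k i l 2| ≤ B.d n ^ (T - ε) ∧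
    |(G n).rel k' i l 8 - ((G n).rel k i l 8 + ((G n).z k' - (G n).z k) * (G n).rel k i l 5)| ≤
      B.d n ^ (T - ε) ∧
    |(G n).rel k' i l 9 - ((G n).rel k i l 9 + ((G n).z k' - (G n).z k) * (G n).rel k i l 6)| ≤
      B.d n ^ (T - ε)
  co : ∀ ε : ℝ, 0 < ε → ∀ᶠ n in (U : Filter ℕ), ∀ k i l l', (i, k) ∈ (G n).I →
    (l, k) ∈ (G n).I → (l', k) ∈ (G n).I →
    |(G n).rel k i l' 8 - (G n).rel k i l 8 - (G n).rel k l l' 8| ≤ B.d n ^ (T - ε) ∧
    |(G n).rel k i l' 9 - (G n).rel k i l 9 - (G n).rel k l l' 9 -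
      (G n).rel k i l 2 * (G n).rel k l l' 8| ≤ B.d n ^ (T - ε)

variable {B : Base} {G : ℕ → RCfg (Fin 11)} {Leg : Set (Fin 11 → ℝ)} {ν : (Fin 11 → ℝ) → ℝ}
  {T D : ℝ} {F : ℕ → ℕ → ℝ} {Rb : Prop}

theorem bx2_X (e ca cb p xa xb n x c : ℝ) :
    Fx940.bx2 (bw e ca cb p xa xb n) 8 5 x c = bw e c cb p x xb n := by
  funext j
  fin_cases j <;> simp [Fx940.bx2, bw]

theorem bx2_Y (e ca cb p xa xb n x c : ℝ) :
    Fx940.bx2 (bw e ca cb p xa xb n) 9 6 x c = bw e ca c p xa x n := by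
  funext j
  fin_cases j <;> simp [Fx940.bx2, bw]

theorem lbx (u v w : ℝ) : Lf400.bx (bw 0 0 0 0 0 0 0) 8 2 9 u v w = bw v 0 0 0 u w 0 := by
  funext j
  fin_cases j <;> simp [Lf400.bx, bw]

namespace M0

variable (h : M0 B G Leg ν T D)

include h

/-- **`X_a` is full** -/
theorem xa {y c : ℝ} (hy : 0 < y) (hyT : y ≤ T) (hc : 0 < c)
    (hs : ∀ t : ℝ, 0 ≤ t → t ≤ y →
      c * t ≤ ν (bw 0 0 0 0 t 0 0) - ν (bw 0 t 0 0 t 0 0))
    (hl : ∀ t : ℝ, 0 ≤ t → t ≤ y →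
      ν (bw 0 0 0 0 t 0 0) - ν (bw 0 0 0 0 y 0 0) ≤ y - t) :
    y ≤ ν (bw 0 0 0 0 0 0 0) - ν (bw 0 0 0 0 y 0 0) := by
  have hT := h.T0
  have L : ∀ t t' : ℝ, 0 ≤ t → t ≤ T → 0 ≤ t' → t' ≤ T → bw 0 t' 0 0 t 0 0 ∈ Leg :=
    fun t t' h1 h2 h3 h4 => h.leg 0 t' 0 t 0 le_rfl hT.le h3 h4 le_rfl hT.le
      h1 h2 le_rfl hT.le (by linarith) (by linarith)
  have e0 : ∀ x c : ℝ, Fx940.bx2 (bw 0 0 0 0 0 0 0) 8 5 x c = bw 0 c 0 0 x 0 0 :=
    fun x c => bx2_X 0 0 0 0 0 0 0 x c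
  have key := full_nl_R h.H (sX := 8) (sC := 5) (by decide) (p := bw 0 0 0 0 0 0 0)
    (by simp [bw]) (by simp [bw]) (y := y) (C := 1) (m := c) hy hyT one_pos hc
    (L 0 0 le_rfl hT.le le_rfl hT.le)
    (by rw [e0]; exact L y 0 hy.le hyT le_rfl hT.le)
    (by intro t h1 h2; rw [e0]; exact L t t h1 (h2.trans hyT) h1 (h2.trans hyT))
    (by
      intro C' hC'
      refine ⟨1, one_pos, fun ε hε => ?_⟩
      filter_upwards [h.rb ε hε] with n hn k k' i l h1 h2 h3 h4 hlo j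
      rw [h.H.base n]
      refine (hn k' i l h3 h4 j).trans (rpow_anti B n ?_)
      have : bw 0 0 0 0 0 0 0 j = 0 := by fin_cases j <;> simp [bw]
      rw [this]; linarith)
    (by
      intro ε hε
      filter_upwards [h.zb ε hε] with n hn k hk k' hk'
      rw [one_mul]
      exact hn k hk k' hk')
    (by
      intro C' hC'
      refine ⟨1, one_pos, fun ε hε => ?_⟩
      filter_upwards [h.ev ε hε] with n hn k k' i l h1 h2 h3 h4 hlo
      refine (hn k k' i l h1 h2 h3 h4).2.1.trans (rpow_anti B n (by linarith)))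
    (by
      intro t h1 h2
      refine ⟨ν (bw 0 0 0 0 t 0 0), ?_, ?_, ?_⟩
      · rw [e0]; exact hs t h1 h2
      · rw [e0]; exact hl t h1 h2
      · refine h.H.nu_anti (L 0 0 le_rfl hT.le le_rfl hT.le)
          (L t 0 h1 (h2.trans hyT) le_rfl hT.le) ?_
        intro j
        fin_cases j <;> simp [bw, h1])
  rwa [e0] at key

/-- **`X_b` is full given `E`** if `C_b` costs something given `E` -/
theorem xb {y c : ℝ} (hy : 0 < y) (hyT : y ≤ T) (hc : 0 < c)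
    (hs : ∀ t : ℝ, 0 ≤ t → t ≤ y →
      c * t ≤ ν (bw y 0 0 0 0 t 0) - ν (bw y 0 t 0 0 t 0))
    (hl : ∀ t : ℝ, 0 ≤ t → t ≤ y →
      ν (bw y 0 0 0 0 t 0) - ν (bw y 0 0 0 0 y 0) ≤ y - t) :
    y ≤ ν (bw y 0 0 0 0 0 0) - ν (bw y 0 0 0 0 y 0) := by
  have hT := h.T0
  have L : ∀ t t' : ℝ, 0 ≤ t → t ≤ y → 0 ≤ t' → t' ≤ y → bw y 0 t' 0 0 t 0 ∈ Leg :=
    fun t t' h1 h2 h3 h4 => h.leg y 0 t' 0 t hy.le hyT le_rfl hT.le h3
      (h4.trans hyT) le_rfl hT.le h1 (h2.trans hyT) (by linarith) (by linarith)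
  have e0 : ∀ x c : ℝ, Fx940.bx2 (bw y 0 0 0 0 0 0) 9 6 x c = bw y 0 c 0 0 x 0 :=
    fun x c => bx2_Y y 0 0 0 0 0 0 x c
  have key := full_nl_R h.H (sX := 9) (sC := 6) (by decide) (p := bw y 0 0 0 0 0 0)
    (by simp [bw]) (by simp [bw]) (y := y) (C := 1) (m := c) hy hyT one_pos hc
    (L 0 0 le_rfl hy.le le_rfl hy.le)
    (by rw [e0]; exact L y 0 hy.le le_rfl le_rfl hy.le)
    (by intro t h1 h2; rw [e0]; exact L t t h1 h2 h1 h2)
    (by
      intro C' hC'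
      refine ⟨C' + 2, by positivity, fun ε hε => ?_⟩
      filter_upwards [h.rb ε hε, h.ev ε hε, ev_const_le B hε 2]
        with n hn he h2c k k' i l h1 h2 h3 h4 hlo j
      have hC'ε : 0 < C' * ε := by positivity
      rw [h.H.base n]
      by_cases hj : j = 2
      · subst hj
        have a1 := hlo 2
        rw [h.H.base n] at a1
        have a2 : bw y 0 0 0 0 0 0 2 = y := by simp [bw]
        rw [a2] at a1 ⊢
        have a3 := (he k k' i l h1 h2 h3 h4).1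
        have a4 : |(G n).rel k' i l 2| ≤ B.d n ^ (y - C' * ε) + B.d n ^ (T - ε) := by
          have e : (G n).rel k' i l 2 = ((G n).rel k' i l 2 - (G n).rel k i l 2) +
              (G n).rel k i l 2 := by ring
          rw [e]
          have := abs_add_le ((G n).rel k' i l 2 - (G n).rel k i l 2) ((G n).rel k i l 2)
          linarith
        have a5 : B.d n ^ (T - ε) ≤ B.d n ^ (y - (C' + 1) * ε) := rpow_anti B n (by nlinarith)
        have a6 : B.d n ^ (y - C' * ε) ≤ B.d n ^ (y - (C' + 1) * ε) :=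
          rpow_anti B n (by nlinarith)
        have a7 : B.d n ^ (y - (C' + 2) * ε) = B.d n ^ (-ε) * B.d n ^ (y - (C' + 1) * ε) := by
          rw [← rpow_add']; congr 1; ring
        rw [a7]
        have := rpos B n (y - (C' + 1) * ε)
        nlinarith
      · refine (hn k' i l h3 h4 j).trans (rpow_anti B n ?_)
        have : bw y 0 0 0 0 0 0 j = 0 := by
          fin_cases j <;> simp [bw] at hj ⊢
        rw [this]; nlinarith)
    (by
      intro ε hε
      filter_upwards [h.zb ε hε] with n hn k hk k' hk'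
      rw [one_mul]
      exact hn k hk k' hk')
    (by
      intro C' hC'
      refine ⟨1, one_pos, fun ε hε => ?_⟩
      filter_upwards [h.ev ε hε] with n hn k k' i l h1 h2 h3 h4 hlo
      refine (hn k k' i l h1 h2 h3 h4).2.2.trans (rpow_anti B n (by linarith)))
    (by
      intro t h1 h2
      refine ⟨ν (bw y 0 0 0 0 t 0), ?_, ?_, ?_⟩
      · rw [e0]; exact hs t h1 h2
      · rw [e0]; exact hl t h1 h2
      · refine h.H.nu_anti (L 0 0 le_rfl hy.le le_rfl hy.le)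
          (L t 0 h1 h2 le_rfl hy.le) ?_
        intro j
        fin_cases j <;> simp [bw, h1])
  rwa [e0] at key

/-- **crossing leaves**: `E : j` costs nothing or `X_b` loses at least `x - j` -/
theorem leaf {x j : ℝ} (hj : 0 ≤ j) (hjx : j ≤ x) (hxT : x ≤ T)
    (hX : x ≤ ν (bw x 0 0 0 0 x 0) - ν (bw x 0 0 0 x x 0)) :
    ν (bw 0 0 0 0 x x 0) ≤ ν (bw j 0 0 0 x x 0) ∨
      x + ν (bw 0 0 0 0 x x 0) ≤
        ν (bw 0 0 0 0 0 0 0) - ν (bw x 0 0 0 0 x 0) + ν (bw x 0 0 0 (x - j) x 0) := by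
  have hT := h.T0
  have hx : 0 ≤ x := hj.trans hjx
  have L : ∀ v u w : ℝ, 0 ≤ v → v ≤ x → 0 ≤ u → u ≤ x → 0 ≤ w → w ≤ x → w ≤ v + u →
      bw v 0 0 0 u w 0 ∈ Leg := by
    intro v u w h1 h2 h3 h4 h5 h6 h7
    exact h.leg v 0 0 u w h1 (h2.trans hxT) le_rfl hT.le le_rfl hT.le
      h3 (h4.trans hxT) h5 (h6.trans hxT) (by linarith) h7
  have key := Lf400.leaf_R h.H.toRUnif (bw 0 0 0 0 0 0 0) (sX := 8) (sF := 2) (sN := 9)
    (by decide) (by decide) (by decide) hj hjx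
    (by rw [lbx]; exact L 0 0 0 le_rfl hx le_rfl hx le_rfl hx (by linarith))
    (by rw [lbx]; exact L x 0 x hx le_rfl le_rfl hx hx le_rfl (by linarith))
    (by rw [lbx]; exact L x x x hx le_rfl hx le_rfl hx le_rfl (by linarith))
    (by rw [lbx]; exact L 0 x x le_rfl hx hx le_rfl hx le_rfl (by linarith))
    (by rw [lbx]; exact L j 0 j hj hjx le_rfl hx hj hjx (by linarith))
    (by rw [lbx]; exact L j x x hj hjx hx le_rfl hx le_rfl (by linarith))
    (by rw [lbx]; exact L x (x - j) x hx le_rfl (by linarith) (by linarith) hx le_rfl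
          (by linarith))
    (fun _ => 1)
    (by
      intro ε hε
      refine Filter.Eventually.of_forall fun n => ?_
      rw [abs_one]
      refine ⟨?_, ?_⟩
      · have := rpow_anti B n hε.le
        rwa [Real.rpow_zero] at this
      · have := rpow_anti B n (show -ε ≤ 0 by linarith)
        rwa [Real.rpow_zero] at this)
    (C1 := 1) le_rfl
    (by
      intro ε hε
      filter_upwards [h.co ε hε] with n hn k i l l' h1 h2 h3 _ _
      refine (hn k i l l' h1 h2 h3).1.trans (rpow_anti B n (by linarith)))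
    (by
      intro ε hε
      filter_upwards [h.co ε hε] with n hn k i l l' h1 h2 h3 _ _
      rw [one_mul]
      refine (hn k i l l' h1 h2 h3).2.trans (rpow_anti B n (by linarith)))
  rw [lbx, lbx, lbx, lbx, lbx, lbx] at key
  rcases key with h1 | h1
  · left; linarith
  · right; linarith

end M0

/-- evolution of `C_a, P, X_a, N`, error `δ` -/
structure EvA (δ u φ : ℝ) (r r' : Fin 11 → ℝ) : Prop where
  e5 : |r' 5 - r 5| ≤ δ
  e7 : |r' 7 - (r 7 - φ * r 5)| ≤ δ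
  e8 : |r' 8 - (r 8 + u * r 5)| ≤ δ
  e10 : |r' 10 - (r 10 + u * r 7 - φ * (r 8 + u * r 5))| ≤ δ

/-- evolution of `E, C_b, X_b`, error `δ` -/
structure EvB (δ u : ℝ) (r r' : Fin 11 → ℝ) : Prop where
  e2 : |r' 2 - r 2| ≤ δ
  e6 : |r' 6 - r 6| ≤ δ
  e9 : |r' 9 - (r 9 + u * r 6)| ≤ δ

/-- **model with level slots `{z, F_a}`**; `Rb` = the slots `E, C_b, X_b` are resolved -/
structure M1 (B : Base) (G : ℕ → RCfg (Fin 11)) (Leg : Set (Fin 11 → ℝ))
    (ν : (Fin 11 → ℝ) → ℝ) (T D : ℝ) (F : ℕ → ℕ → ℝ) (Rb : Prop) : Prop where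
  H : RModel B G 1 T Leg ν D
  T0 : 0 < T
  leg : ∀ e ca cb p xa xb n : ℝ, 0 ≤ e → e ≤ T → 0 ≤ ca → ca ≤ T → 0 ≤ cb → cb ≤ T → 0 ≤ p →
    p ≤ T → 0 ≤ xa → xa ≤ T → 0 ≤ xb → xb ≤ T → 0 ≤ n → n ≤ T → cb ≤ e + ca → xb ≤ e + xa →
    (Rb ∨ (e = 0 ∧ cb = 0 ∧ xb = 0)) → bw e ca cb p xa xb n ∈ Leg
  bd : ∀ᶠ n in (U : Filter ℕ), ∀ k ∈ (G n).Z, |(G n).z k| ≤ 1 ∧ |F n k| ≤ 1
  rb : ∀ ε : ℝ, 0 < ε → ∀ᶠ n in (U : Filter ℕ), ∀ k i l, (i, k) ∈ (G n).I →
    (l, k) ∈ (G n).I → ∀ s, |(G n).rel k i l s| ≤ B.d n ^ (-ε)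
  ev : ∀ ε : ℝ, 0 < ε → ∀ᶠ n in (U : Filter ℕ), ∀ k k' i l, (i, k) ∈ (G n).I →
    (l, k) ∈ (G n).I → (i, k') ∈ (G n).I → (l, k') ∈ (G n).I →
    EvA (B.d n ^ (T - ε)) ((G n).z k' - (G n).z k) (F n k' - F n k) ((G n).rel k i l)
      ((G n).rel k' i l) ∧
    (Rb → EvB (B.d n ^ (T - ε)) ((G n).z k' - (G n).z k) ((G n).rel k i l)
      ((G n).rel k' i l))
  tw : RawTw B G fun n k k' => F n k' - F n k

theorem bx_bw (y n p x c : ℝ) : CD366.bx ∅ 10 7 8 5 y n p x c = bw 0 c 0 p x 0 n := by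
  funext j
  fin_cases j <;> simp [CD366.bx, bw]

namespace M1

variable (h : M1 B G Leg ν T D F Rb)

include h

/-- **`N` given the rest loses at least as much as `X_a` given the rest** -/
theorem shiftN {y yb : ℝ} (hy : 0 ≤ y) (hyT : y ≤ T) (hyb : yb = 0 ∨ (Rb ∧ yb = y)) :
    ν (bw yb y yb y 0 yb y) - ν (bw yb y yb y y yb y) ≤
      ν (bw yb y yb y 0 yb 0) - ν (bw yb y yb y 0 yb y) := by
  have hT := h.T0
  have hyb0 : 0 ≤ yb := by
    rcases hyb with h1 | h1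
    · rw [h1]
    · rw [h1.2]; exact hy
  have hyby : yb ≤ y := by
    rcases hyb with h1 | h1
    · rw [h1]; exact hy
    · rw [h1.2]
  have hybT := hyby.trans hyT
  have hR : Rb ∨ (yb = 0 ∧ yb = 0 ∧ yb = 0) := by
    rcases hyb with h1 | h1
    · exact Or.inr ⟨h1, h1, h1⟩
    · exact Or.inl h1.1
  have L : ∀ xa n : ℝ, 0 ≤ xa → xa ≤ T → 0 ≤ n → n ≤ T → bw yb y yb y xa yb n ∈ Leg :=
    fun xa n h1 h2 h3 h4 => h.leg yb y yb y xa yb n hyb0 hybT hy hyT hyb0 hybT hy hyT h1 h2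
      hyb0 hybT h3 h4 (by linarith) (by linarith) hR
  refine shift_R h.H (bw yb y yb y 0 yb y) (bw yb y yb y y yb y) (bw yb y yb y 0 yb 0)
    (bw yb y yb y 0 yb y) (L 0 y le_rfl hT.le hy hyT) (L y y hy hyT hy hyT)
    (L 0 0 le_rfl hT.le le_rfl hT.le) (L 0 y le_rfl hT.le hy hyT)
    (by intro j; fin_cases j <;> simp [bw, hy]) 8 10 (y := y) (by simp [bw])
    (by intro j hj; fin_cases j <;> simp [bw] at hj ⊢) (by simp [bw])
    (fun n k k' => -(F n k' - F n k)) (by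
      intro ε hε
      filter_upwards [h.tw ε hε] with n hn i hi T hT hq
      refine hn i hi T hT fun q hq' => ?_
      have := hq q hq'
      rwa [abs_neg] at this) ?_
  intro C0 hC0
  refine ⟨2 * C0 + 4, by positivity, fun ε hε => ?_⟩
  filter_upwards [h.rb ε hε, h.ev ε hε, h.bd, ev_const_le B hε 16]
    with n hn he hbd h16 k hk k' hk' i l h1 h2 h3 h4 hlo
  have hpow : ∀ t : ℝ, 0 < B.d n ^ t := fun t => rpos B n t
  have hC0ε : 0 < C0 * ε := by positivity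
  obtain ⟨zk, fk⟩ := hbd k hk
  obtain ⟨zk', fk'⟩ := hbd k' hk'
  set u := (G n).z k' - (G n).z k with hu
  set φ := F n k' - F n k with hφ
  have hub : |u| ≤ 2 := (abs_sub _ _).trans (by linarith)
  have hφb : |φ| ≤ 2 := (abs_sub _ _).trans (by linarith)
  obtain ⟨ea, eb⟩ := he k k' i l h1 h3 h2 h4
  set r := (G n).rel k i l with hr
  set r' := (G n).rel k' i l with hr'
  set Y := B.d n ^ (y - C0 * ε) with hY
  have hY0 : 0 < Y := hpow _
  have g0 : ∀ s, |r s| ≤ B.d n ^ (bw yb y yb y 0 yb y s - C0 * ε) := by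
    intro s
    have := hlo s
    rwa [h.H.base n] at this
  have g5 : |r 5| ≤ Y := by simpa [bw] using g0 5
  have g7 : |r 7| ≤ Y := by simpa [bw] using g0 7
  have g10 : |r 10| ≤ Y := by simpa [bw] using g0 10
  have hδ : B.d n ^ (T - ε) ≤ B.d n ^ (y - (C0 + 1) * ε) := rpow_anti B n (by nlinarith)
  have hYε : Y ≤ B.d n ^ (y - (C0 + 1) * ε) := rpow_anti B n (by nlinarith)
  set Z := B.d n ^ (y - (C0 + 1) * ε) with hZ
  have hZ0 : 0 < Z := hpow _
  have hfin : 16 * Z ≤ B.d n ^ (y - (2 * C0 + 4) * ε) := by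
    have e1 : B.d n ^ (y - (C0 + 2) * ε) = B.d n ^ (-ε) * Z := by
      rw [hZ, ← rpow_add']; congr 1; ring
    have e2 : B.d n ^ (y - (C0 + 2) * ε) ≤ B.d n ^ (y - (2 * C0 + 4) * ε) :=
      rpow_anti B n (by nlinarith)
    nlinarith
  have m : ∀ {a b : ℝ}, |a| ≤ 2 → |b| ≤ Z → |a * b| ≤ 2 * Z := by
    intro a b ha hb
    rw [abs_mul]
    exact mul_le_mul ha hb (abs_nonneg _) (by norm_num)
  have t5 : |r' 5| ≤ 16 * Z := by
    have e : r' 5 = (r' 5 - r 5) + r 5 := by ring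
    rw [e]
    have := abs_add_le (r' 5 - r 5) (r 5)
    have := ea.e5
    linarith
  have t7 : |r' 7| ≤ 16 * Z := by
    have e : r' 7 = (r' 7 - (r 7 - φ * r 5)) + (r 7 - φ * r 5) := by ring
    rw [e]
    have a1 := abs_add_le (r' 7 - (r 7 - φ * r 5)) (r 7 - φ * r 5)
    have a2 := abs_sub (r 7) (φ * r 5)
    have a3 := m hφb (g5.trans hYε)
    have := ea.e7
    linarith
  refine ⟨?_, ?_⟩
  · intro s
    rw [h.H.base n]
    have hs : |r' s| ≤ B.d n ^ (-ε) := hn k' i l h2 h4 s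
    have hs0 : |r' s| ≤ B.d n ^ (0 - (2 * C0 + 4) * ε) := hs.trans (rpow_anti B n (by nlinarith))
    have big : ∀ {x : ℝ}, |x| ≤ 16 * Z → |x| ≤ B.d n ^ (y - (2 * C0 + 4) * ε) :=
      fun hx => hx.trans hfin
    rcases hyb with h0 | ⟨hRb, h0⟩
    · rw [h0]
      fin_cases s
      · simpa [bw] using hs0
      · simpa [bw] using hs0
      · simpa [bw] using hs0
      · simpa [bw] using hs0
      · simpa [bw] using hs0
      · simpa [bw] using big t5
      · simpa [bw] using hs0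
      · simpa [bw] using big t7
      · simpa [bw] using hs0
      · simpa [bw] using hs0
      · simpa [bw] using hs0
    · have eb' := eb hRb
      have g2 : |r 2| ≤ Y := by have := g0 2; rw [h0] at this; simpa [bw] using this
      have g6 : |r 6| ≤ Y := by have := g0 6; rw [h0] at this; simpa [bw] using this
      have g9 : |r 9| ≤ Y := by have := g0 9; rw [h0] at this; simpa [bw] using this
      have t2 : |r' 2| ≤ 16 * Z := by
        have e : r' 2 = (r' 2 - r 2) + r 2 := by ring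
        rw [e]
        have := abs_add_le (r' 2 - r 2) (r 2)
        have := eb'.e2
        linarith
      have t6 : |r' 6| ≤ 16 * Z := by
        have e : r' 6 = (r' 6 - r 6) + r 6 := by ring
        rw [e]
        have := abs_add_le (r' 6 - r 6) (r 6)
        have := eb'.e6
        linarith
      have t9 : |r' 9| ≤ 16 * Z := by
        have e : r' 9 = (r' 9 - (r 9 + u * r 6)) + (r 9 + u * r 6) := by ring
        rw [e]
        have a1 := abs_add_le (r' 9 - (r 9 + u * r 6)) (r 9 + u * r 6)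
        have a2 := abs_add_le (r 9) (u * r 6)
        have a3 := m hub (g6.trans hYε)
        have := eb'.e9
        linarith
      rw [h0]
      fin_cases s
      · simpa [bw] using hs0
      · simpa [bw] using hs0
      · simpa [bw] using big t2
      · simpa [bw] using hs0
      · simpa [bw] using hs0
      · simpa [bw] using big t5
      · simpa [bw] using big t6
      · simpa [bw] using big t7
      · simpa [bw] using hs0
      · simpa [bw] using big t9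
      · simpa [bw] using hs0
  · have e : r' 10 - -φ * r 8 = (r' 10 - (r 10 + u * r 7 - φ * (r 8 + u * r 5))) + r 10 +
        u * r 7 - φ * (u * r 5) := by ring
    rw [e]
    have a1 := m hub (g7.trans hYε)
    have a2 : |φ * (u * r 5)| ≤ 4 * Z := by
      have := m hub (g5.trans hYε)
      rw [abs_mul]
      have h5 := mul_le_mul hφb this (abs_nonneg _) (by norm_num)
      linarith
    have a3 := abs_sub ((r' 10 - (r 10 + u * r 7 - φ * (r 8 + u * r 5))) + r 10 +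
        u * r 7) (φ * (u * r 5))
    have a4 := abs_add_le ((r' 10 - (r 10 + u * r 7 - φ * (r 8 + u * r 5))) + r 10) (u * r 7)
    have a5 := abs_add_le (r' 10 - (r 10 + u * r 7 - φ * (r 8 + u * r 5))) (r 10)
    have := ea.e10
    refine le_trans ?_ hfin
    linarith

/-- **`κ = 1`**: the rate of `N` is `1` -/
theorem kone {a m : ℝ} (hm : 0 < m) {β : ℝ → ℝ → ℝ} {γ : ℝ → ℝ}
    (hnu : ∀ n p x c : ℝ, 0 ≤ n → n ≤ T → 0 ≤ p → p ≤ T → 0 ≤ x → x ≤ T → 0 ≤ c → c ≤ T →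
      ν (bw 0 c 0 p x 0 n) = ν (bw 0 0 0 0 0 0 0) - a * n - β p x - γ c)
    (hX : ∀ t : ℝ, 0 ≤ t → t ≤ T → t ≤ β 0 t) (hC : ∀ t : ℝ, 0 ≤ t → t ≤ T → m * t ≤ γ t) :
    1 ≤ a := by
  have hT := h.T0
  have K : CD366.K1 B G Leg ν ∅ 10 7 8 5 F T 1 a m (fun _ => β) (fun _ => γ) := by
    refine ⟨hT, le_rfl, hm, by decide, by decide, by decide, by decide, by decide, by decide,
      ?_, h.bd, ?_, ?_, fun y t h1 h2 h3 => hX t h1 (h2.trans h3),
      fun y t h1 h2 h3 => hC t h1 (h2.trans h3)⟩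
    · intro y n p x c' h0 h1 h2 h3 h4 h5 h6 h7 h8 h9
      rw [bx_bw]
      exact h.leg 0 c' 0 p x 0 n le_rfl hT.le h8 (h9.trans h1) le_rfl hT.le h4 (h5.trans h1) h6
        (h7.trans h1) le_rfl hT.le h2 (h3.trans h1) (by linarith) (by linarith)
        (Or.inr ⟨rfl, rfl, rfl⟩)
    · intro y h0 h1 ε hε
      filter_upwards [h.rb ε hε, h.ev ε hε] with n hn he k₀ k i i' b1 b2 b3 b4 hlo
      rw [bx_bw]
      refine ⟨?_, ?_⟩
      · intro s
        rw [h.H.base n, one_mul]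
        refine (hn k i i' b3 b4 s).trans (rpow_anti B n ?_)
        have : bw 0 0 0 0 0 0 0 s = 0 := by fin_cases s <;> simp [bw]
        rw [this]; linarith
      · rw [one_mul]
        exact (he k₀ k i i' b1 b2 b3 b4).1.e10.trans (rpow_anti B n (by linarith))
    · intro y n p x c' h0 h1 h2 h3 h4 h5 h6 h7 h8 h9
      rw [bx_bw, bx_bw]
      exact hnu n p x c' h2 (h3.trans h1) h4 (h5.trans h1) h6 (h7.trans h1) h8 (h9.trans h1)
  exact CD366.kappa_one_R h.H K h.tw le_rfl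

end M1

end Crest.Agent.R136.C1865
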