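import Crest.Agent.R136.C1a_865
import Crest.Agent.R136.Tb3_628
import Crest.Agent.R136.Rc8_146

/-!
# R136, case (C1), F-half, part 3 (helper865): the scalar argument

`LF` : facts on a tangent `lam` over the plane with slack `F_b`; `LF.dec` : decoupled
submodularity; `LF.xb_full`, `LF.fhalf` : the F-half from the models `M0`, `M1` of part 1.
-/

set_option autoImplicit false
set_option linter.unusedVariables false
set_option linter.unusedSectionVars false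

open Filter Topology Finset

namespace Crest.Agent.R136.C1865

open Crest.Agent.R138.Ex926 (Base U)
open Crest.Agent.R136.Gf356
open Crest.Agent.R136.Dg219 (gC dhC nC OutS gC_zero gC_eq gset lf)
open Crest.Agent.R136.Rc146 (OutA)
open Crest.Agent.R136.Tb628 (coneF eCa eECb)

/-- slopes of the plane; slot `3` is free -/
structure Slo (a b : Fin 11 → ℝ) (κ σ : ℝ) : Prop where
  a0 : a 0 = 1
  a1 : a 1 = 0
  a2 : a 2 = 0
  a3 : 0 ≤ a 3
  a4 : a 4 = κ
  a5 : a 5 = 0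
  a6 : a 6 = 0
  a7 : a 7 = κ
  a8 : a 8 = 1
  a9 : a 9 = 1
  a10 : a 10 = 1 + κ
  b0 : b 0 = 0
  b2 : b 2 = σ - 1
  b4 : b 4 = 0
  b5 : b 5 = 1
  b6 : b 6 = σ
  b7 : b 7 = 1
  b8 : b 8 = 1
  b9 : b 9 = σ
  b10 : b 10 = 1

/-- box: `z, F_a, E, C_a, C_b, P, X_a, X_b, N` -/
def bz (z f e ca cb p xa xb n : ℝ) : Fin 11 → ℝ := ![z, 0, e, 0, f, ca, cb, p, xa, xb, n]

theorem mem_bz {z f e ca cb p xa xb n : ℝ} : bz z f e ca cb p xa xb n ∈ coneF ↔
    cb ≤ e + ca ∧ p ≤ f + ca ∧ xa ≤ z + ca ∧ xb ≤ z + cb ∧ xb ≤ e + xa ∧ n ≤ z + p ∧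
      n ≤ f + xa := by
  simp [coneF, bz]

theorem bz_le {z f e ca cb p xa xb n z' f' e' ca' cb' p' xa' xb' n' : ℝ} (h0 : z ≤ z')
    (h1 : f ≤ f') (h2 : e ≤ e') (h3 : ca ≤ ca') (h4 : cb ≤ cb') (h5 : p ≤ p') (h6 : xa ≤ xa')
    (h7 : xb ≤ xb') (h8 : n ≤ n') :
    bz z f e ca cb p xa xb n ≤ bz z' f' e' ca' cb' p' xa' xb' n' := by
  intro i
  fin_cases i <;> simp [bz] <;> assumption

/-- facts on the tangent -/
structure LF (lam : (Fin 11 → ℝ) → ℝ) (a b : Fin 11 → ℝ) (A : ℝ × ℝ)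
    (φ : ℕ → (Fin 11 → ℝ) → ℝ) (r : ℕ → ℝ) (κ σ q1 q2 : ℝ) : Prop where
  κ0 : 0 < κ
  σ1 : σ ≠ 1
  q1p : 0 < q1
  q2p : 0 < q2
  sl : Slo a b κ σ
  out : OutA (gC a b) coneF a b (dhC a b) (nC a b) lam A φ r
  hom : ∀ k, (∀ i, gC a b i = k → 0 < dhC a b i) → ∀ c ∈ coneF, ∀ s : ℝ, 0 ≤ s →
    φ k (s • c) = s * φ k c
  zero : lam 0 = 0
  anti : ∀ c ∈ coneF, ∀ c' ∈ coneF, c ≤ c' → lam c' ≤ lam c
  sharp : ∀ c ∈ coneF, ∀ c' ∈ coneF, c ≤ c' → lam c - lam c' ≤ ∑ s, (c' s - c s)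
  own : ∀ c ∈ coneF, ∀ c' ∈ coneF, c ≤ c' → c 4 ≤ κ * c 0 → c' 0 - c 0 ≤ lam c - lam c'
  S1 : ∀ c ∈ coneF, ∀ y : ℝ, 0 ≤ y → c + eCa y ∈ coneF → c 2 ≤ (σ - 1) * c 5 →
    c 6 ≤ σ * c 5 → q1 * y ≤ lam c - lam (c + eCa y)
  S2 : ∀ c ∈ coneF, ∀ τ y : ℝ, 0 ≤ y → c + eECb y ∈ coneF → c 5 ≤ τ → c 2 = (σ - 1) * τ →
    c 6 = σ * τ → q2 * y ≤ lam c - lam (c + eECb y)

namespace LF

variable {lam : (Fin 11 → ℝ) → ℝ} {a b : Fin 11 → ℝ} {A : ℝ × ℝ}
  {φ : ℕ → (Fin 11 → ℝ) → ℝ} {r : ℕ → ℝ} {κ σ q1 q2 : ℝ}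
  (h : LF lam a b A φ r κ σ q1 q2)

/-- slots of one group are parallel -/
theorem grp_par {i s : Fin 11} (hi : gC a b i = gC a b s) :
    (a i = 0 ↔ a s = 0) ∧ (a i ≠ 0 → b i * a s = b s * a i) := by
  by_cases h1 : a s = 0
  · have h2 : gC a b i = 0 := by rw [hi]; exact gC_zero.2 h1
    have h3 : a i = 0 := gC_zero.1 h2
    exact ⟨⟨fun _ => h1, fun _ => h3⟩, fun h4 => absurd h3 h4⟩
  · have h3 : a i ≠ 0 := by
      intro h4
      have h5 : gC a b s = 0 := by rw [← hi]; exact gC_zero.2 h4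
      exact h1 (gC_zero.1 h5)
    refine ⟨⟨fun h4 => absurd h4 h3, fun h4 => absurd h4 h1⟩, fun _ => ?_⟩
    have h5 := (gC_eq h3 h1).1 hi
    rw [div_eq_div_iff h3 h1] at h5
    linarith

include h

/-- only one group moves -/
theorem one_grp {c c' : Fin 11 → ℝ} (hc : c ∈ coneF) (hc' : c' ∈ coneF) {k : ℕ}
    (hk : k ∈ gset (gC a b)) (he : ∀ i, gC a b i ≠ k → c i = c' i) :
    lam c - lam c' = φ k c - φ k c' := by
  rw [h.out.sum _ hc, h.out.sum _ hc', ← sum_sub_distrib]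
  rw [sum_eq_single k]
  · intro j _ hj
    rw [h.out.loc j c c' fun i hi => he i (by rw [hi]; exact hj), sub_self]
  · intro hk'; exact absurd hk hk'

/-- **decoupled submodularity** -/
theorem dec (s : Fin 11) {c c' d d' : Fin 11 → ℝ} (hc : c ∈ coneF) (hc' : c' ∈ coneF)
    (hd : d ∈ coneF) (hd' : d' ∈ coneF) (h1 : ∀ i, i ≠ s → c' i = c i)
    (h2 : ∀ i, i ≠ s → d' i = d i) (h3 : c s = d s) (h4 : c' s = d' s) (h5 : c s ≤ c' s)
    (hg : ∀ i, gC a b i = gC a b s → i ≠ s → c i ≤ d i) :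
    lam d - lam d' ≤ lam c - lam c' := by
  have hk : gC a b s ∈ gset (gC a b) := by
    simp [gset]
  have e1 := h.one_grp hc hc' hk fun i hi => (h1 i (by rintro rfl; exact hi rfl)).symm
  have e2 := h.one_grp hd hd' hk fun i hi => (h2 i (by rintro rfl; exact hi rfl)).symm
  have e3 := h.out.smods (gC a b s) d hd c' hc' c hc d' hd' (fun i hi => by
    by_cases his : i = s
    · subst his; rw [← h3]; exact (min_eq_left h5).symm
    · rw [h1 i his]; exact (min_eq_right (hg i hi his)).symm) (fun i hi => by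
    by_cases his : i = s
    · subst his; rw [← h4, ← h3]; exact (max_eq_right h5).symm
    · rw [h1 i his, h2 i his]; exact (max_eq_left (hg i hi his)).symm)
  rw [e1, e2]
  linarith

/-- one slot moves: `1`-Lipschitz -/
theorem sharp1 (s : Fin 11) {c c' : Fin 11 → ℝ} (hc : c ∈ coneF) (hc' : c' ∈ coneF)
    (h1 : ∀ i, i ≠ s → c' i = c i) (h5 : c s ≤ c' s) : lam c - lam c' ≤ c' s - c s := by
  have h2 := h.sharp c hc c' hc' (fun i => by
    by_cases his : i = s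
    · rw [his]; exact h5
    · rw [h1 i his])
  rw [sum_eq_single s (fun j _ hj => by rw [h1 j hj, sub_self])
    (fun hs => absurd (mem_univ s) hs)] at h2
  exact h2

/-- the group of `X_a` -/
theorem g8 {i : Fin 11} (hi : gC a b i = gC a b 8) : i = 8 ∨ i = 3 ∨ (i = 7 ∧ κ = 1) := by
  obtain ⟨g1, g2⟩ := grp_par hi
  have sl := h.sl
  have hκ := h.κ0
  have hσ := h.σ1
  have e8 : a 8 ≠ 0 := by rw [sl.a8]; norm_num
  have g3 : a i ≠ 0 := fun h0 => e8 (g1.1 h0)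
  have g4 := g2 g3
  rw [sl.a8, sl.b8] at g4
  fin_cases i
  · simp [sl.a0, sl.b0] at g4
  · exact absurd sl.a1 g3
  · exact absurd sl.a2 g3
  · simp
  · simp [sl.a4, sl.b4] at g4; exact absurd g4.symm hκ.ne'
  · exact absurd sl.a5 g3
  · exact absurd sl.a6 g3
  · simp [sl.a7, sl.b7] at g4 ⊢; exact g4.symm
  · simp
  · simp [sl.a9, sl.b9] at g4; exact absurd g4 hσ
  · simp [sl.a10, sl.b10] at g4; exact absurd g4 hκ.ne'

/-- the group of `X_b` -/
theorem g9 {i : Fin 11} (hi : gC a b i = gC a b 9) : i = 9 ∨ i = 3 ∨ i = 0 ∨ i = 4 ∨ i = 7 ∨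
    (i = 10 ∧ σ * (1 + κ) = 1) := by
  obtain ⟨g1, g2⟩ := grp_par hi
  have sl := h.sl
  have hκ := h.κ0
  have hσ := h.σ1
  have e8 : a 9 ≠ 0 := by rw [sl.a9]; norm_num
  have g3 : a i ≠ 0 := fun h0 => e8 (g1.1 h0)
  have g4 := g2 g3
  rw [sl.a9, sl.b9] at g4
  fin_cases i
  · simp
  · exact absurd sl.a1 g3
  · exact absurd sl.a2 g3
  · simp
  · simp
  · exact absurd sl.a5 g3
  · exact absurd sl.a6 g3
  · simp
  · simp [sl.a8, sl.b8] at g4; exact absurd g4.symm hσ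
  · simp
  · simp [sl.a10, sl.b10] at g4 ⊢; exact g4.symm

/-- the group of `N` -/
theorem g10 {i : Fin 11} (hi : gC a b i = gC a b 10) : i = 10 ∨ i = 3 ∨
    (i = 9 ∧ σ * (1 + κ) = 1) := by
  obtain ⟨g1, g2⟩ := grp_par hi
  have sl := h.sl
  have hκ := h.κ0
  have hσ := h.σ1
  have e8 : a 10 ≠ 0 := by rw [sl.a10]; linarith
  have g3 : a i ≠ 0 := fun h0 => e8 (g1.1 h0)
  have g4 := g2 g3
  rw [sl.a10, sl.b10] at g4
  fin_cases i
  · simp [sl.a0, sl.b0] at g4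
  · exact absurd sl.a1 g3
  · exact absurd sl.a2 g3
  · simp
  · simp [sl.a4, sl.b4] at g4; exact absurd g4.symm hκ.ne'
  · exact absurd sl.a5 g3
  · exact absurd sl.a6 g3
  · simp [sl.a7, sl.b7] at g4
  · simp [sl.a8, sl.b8] at g4; exact absurd g4 hκ.ne'
  · simp [sl.a9, sl.b9] at g4 ⊢; exact g4
  · simp

/-- group `0` -/
theorem g0 {s i : Fin 11} (hs : a s = 0) (hi : gC a b i = gC a b s) :
    i = 1 ∨ i = 2 ∨ i = 3 ∨ i = 5 ∨ i = 6 := by
  obtain ⟨g1, g2⟩ := grp_par hi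
  have sl := h.sl
  have hκ := h.κ0
  have g3 : a i = 0 := g1.2 hs
  fin_cases i
  · simp [sl.a0] at g3
  · simp
  · simp
  · simp
  · simp [sl.a4] at g3; exact absurd g3.symm hκ.ne
  · simp
  · simp
  · simp [sl.a7] at g3; exact absurd g3.symm hκ.ne
  · simp [sl.a8] at g3
  · simp [sl.a9] at g3
  · simp [sl.a10] at g3; linarith

theorem a_nonneg (i : Fin 11) : 0 ≤ a i := by
  have sl := h.sl
  have hκ := h.κ0
  fin_cases i
  · simp [sl.a0]
  · simp [sl.a1]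
  · simp [sl.a2]
  · exact sl.a3
  · simp [sl.a4]; exact hκ.le
  · simp [sl.a5]
  · simp [sl.a6]
  · simp [sl.a7]; exact hκ.le
  · simp [sl.a8]
  · simp [sl.a9]
  · simp [sl.a10]; linarith

theorem dh_pos {s : Fin 11} (hs : a s ≠ 0) : ∀ i, gC a b i = gC a b s → 0 < dhC a b i := by
  intro i hi
  have h1 : a i ≠ 0 := fun h0 => hs ((grp_par hi).1.1 h0)
  unfold dhC
  rw [if_neg h1]
  exact lt_of_le_of_ne (h.a_nonneg i) (Ne.symm h1)

/-- **slope in the direction `v`** -/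
theorem slope_v {t : ℝ} (ht : 0 ≤ t) : t • a ∈ coneF ∧ lam (t • a) = t * A.1 := by
  have sl := h.sl
  have hm : t • a ∈ coneF := by
    have hκ := h.κ0
    have := mul_nonneg ht hκ.le
    simp only [coneF, Set.mem_ofPred_eq, Pi.smul_apply, smul_eq_mul, sl.a0, sl.a2, sl.a4, sl.a5,
      sl.a6, sl.a7, sl.a8, sl.a9, sl.a10]
    refine ⟨?_, ?_, ?_, ?_, ?_, ?_, ?_⟩ <;> linarith
  refine ⟨hm, ?_⟩
  have h1 := h.out.total (1, 0)
  have h2 : lf A (1, 0) = A.1 := by simp [lf]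
  rw [h2] at h1
  rw [h.out.sum _ hm, h1, mul_neg, mul_sum, ← sum_neg_distrib]
  refine sum_congr rfl fun k hk => ?_
  obtain ⟨i, -, rfl⟩ := mem_image.1 hk
  by_cases hi : a i = 0
  · rw [gC_zero.2 hi, Crest.Agent.R136.Dg219.nC_zero]
    rw [h.out.zero 0 _ fun j hj => by
      rw [Pi.smul_apply, smul_eq_mul, gC_zero.1 hj, mul_zero]]
    simp [lf]
  · rw [Crest.Agent.R136.Dg219.nC_of hi]
    rw [h.out.rate (gC a b i) _ hm t fun j hj => by
      have hj' : a j ≠ 0 := fun h0 => hi ((grp_par hj).1.1 h0)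
      rw [Pi.smul_apply, smul_eq_mul, dhC, if_neg hj']]
    simp [lf]
    ring

/-! ### boxes -/

/-- `X_a` loses its exponent, given the height -/
theorem xaT {T : ℝ} (hT : 0 < T)
    (hX : T ≤ lam (bz T 0 0 0 0 0 0 0 0) - lam (bz T 0 0 0 0 0 T 0 0)) {t : ℝ} (h0 : 0 ≤ t)
    (h1 : t ≤ T) : t ≤ lam (bz T 0 0 0 0 0 0 0 0) - lam (bz T 0 0 0 0 0 t 0 0) := by
  have h2 := h.sharp1 8 (c := bz T 0 0 0 0 0 t 0 0) (c' := bz T 0 0 0 0 0 T 0 0)
    (mem_bz.2 ⟨by linarith, by linarith, by linarith, by linarith, by linarith, by linarith,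
      by linarith⟩)
    (mem_bz.2 ⟨by linarith, by linarith, by linarith, by linarith, by linarith, by linarith,
      by linarith⟩)
    (by intro i hi; fin_cases i <;> simp [bz] at hi ⊢)
    (by simpa [bz] using h1)
  simp only [bz, Matrix.cons_val] at h2 hX ⊢
  linarith

/-- `X_a` is full given anything legal -/
theorem xaF {T : ℝ} (hT : 0 < T)
    (hX : T ≤ lam (bz T 0 0 0 0 0 0 0 0) - lam (bz T 0 0 0 0 0 T 0 0)) {t : ℝ} (h0 : 0 ≤ t)
    (h1 : t ≤ T) {z f e ca cb p xb n : ℝ} (hp : p = 0 ∨ κ ≠ 1)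
    (m1 : bz z f e ca cb p 0 xb n ∈ coneF) (m2 : bz z f e ca cb p t xb n ∈ coneF) :
    t ≤ lam (bz z f e ca cb p 0 xb n) - lam (bz z f e ca cb p t xb n) := by
  refine (h.xaT hT hX h0 h1).trans (h.dec 8 m1 m2 ?_ ?_ ?_ ?_ ?_ ?_ ?_ ?_)
  · exact mem_bz.2 ⟨by linarith, by linarith, by linarith, by linarith, by linarith, by linarith,
      by linarith⟩
  · exact mem_bz.2 ⟨by linarith, by linarith, by linarith, by linarith, by linarith, by linarith,
      by linarith⟩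
  · intro i hi; fin_cases i <;> simp [bz] at hi ⊢
  · intro i hi; fin_cases i <;> simp [bz] at hi ⊢
  · simp [bz]
  · simp [bz]
  · simpa [bz] using h0
  · intro i hi hne
    rcases h.g8 hi with rfl | rfl | ⟨rfl, hk⟩
    · exact absurd rfl hne
    · simp [bz]
    · rcases hp with hp | hp
      · simp [bz, hp]
      · exact absurd hk hp

/-- box of the base window -/
theorem m0 {T : ℝ} (hT : 0 < T) {e ca cb xa xb : ℝ} (h1 : 0 ≤ ca) (h2 : xa ≤ T) (h3 : 0 ≤ cb)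
    (h4 : xb ≤ T) (h5 : cb ≤ e + ca) (h6 : xb ≤ e + xa) (h7 : 0 ≤ xa) :
    bz T 0 e ca cb 0 xa xb 0 ∈ coneF :=
  mem_bz.2 ⟨h5, by linarith, by linarith, by linarith, h6, by linarith, by linarith⟩

/-- one slot, base window: sharpness -/
theorem xaS {T : ℝ} (hT : 0 < T) {e ca cb xa xa' xb : ℝ} (m1 : bz T 0 e ca cb 0 xa xb 0 ∈ coneF)
    (m2 : bz T 0 e ca cb 0 xa' xb 0 ∈ coneF) (hx : xa ≤ xa') :
    lam (bz T 0 e ca cb 0 xa xb 0) - lam (bz T 0 e ca cb 0 xa' xb 0) ≤ xa' - xa := by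
  have h2 := h.sharp1 8 m1 m2 (by intro i hi; fin_cases i <;> simp [bz] at hi ⊢)
    (by simpa [bz] using hx)
  simpa [bz] using h2

theorem xbS {T : ℝ} (hT : 0 < T) {e ca cb xa xb xb' : ℝ} (m1 : bz T 0 e ca cb 0 xa xb 0 ∈ coneF)
    (m2 : bz T 0 e ca cb 0 xa xb' 0 ∈ coneF) (hx : xb ≤ xb') :
    lam (bz T 0 e ca cb 0 xa xb 0) - lam (bz T 0 e ca cb 0 xa xb' 0) ≤ xb' - xb := by
  have h2 := h.sharp1 9 m1 m2 (by intro i hi; fin_cases i <;> simp [bz] at hi ⊢)
    (by simpa [bz] using hx)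
  simpa [bz] using h2

/-- hypotheses coming from the base window -/
def W0H (lam : (Fin 11 → ℝ) → ℝ) (T : ℝ) : Prop :=
  ∃ (B : Base) (G : ℕ → RCfg (Fin 11)) (Leg : Set (Fin 11 → ℝ)) (ν : (Fin 11 → ℝ) → ℝ)
    (D K : ℝ), M0 B G Leg ν T D ∧ ∀ e ca cb xa xb : ℝ,
      ν (bw e ca cb 0 xa xb 0) = lam (bz T 0 e ca cb 0 xa xb 0) - K

/-- **`X_a` is full** -/
theorem xa_full {T : ℝ} (hT : 0 < T) (hW : W0H lam T) :
    T ≤ lam (bz T 0 0 0 0 0 0 0 0) - lam (bz T 0 0 0 0 0 T 0 0) := by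
  obtain ⟨B, G, Leg, ν, D, K, H, hν⟩ := hW
  have key := H.xa (y := T) (c := q1) hT le_rfl h.q1p
    (by
      intro t h1 h2
      rw [hν, hν]
      have m1 : bz T 0 0 0 0 0 t 0 0 ∈ coneF :=
        h.m0 hT le_rfl h2 le_rfl hT.le (by linarith) (by linarith) h1
      have m2 : bz T 0 0 t 0 0 t 0 0 ∈ coneF :=
        h.m0 hT h1 h2 le_rfl hT.le (by linarith) (by linarith) h1
      have e : bz T 0 0 0 0 0 t 0 0 + eCa t = bz T 0 0 t 0 0 t 0 0 := by
        funext i; fin_cases i <;> simp [bz, eCa]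
      have := h.S1 _ m1 t h1 (by rw [e]; exact m2) (by simp [bz]) (by simp [bz])
      rw [e] at this
      linarith)
    (by
      intro t h1 h2
      rw [hν, hν]
      have := h.xaS hT (e := 0) (ca := 0) (cb := 0) (xb := 0)
        (h.m0 hT le_rfl h2 le_rfl hT.le (by linarith) (by linarith) h1)
        (h.m0 hT le_rfl le_rfl le_rfl hT.le (by linarith) (by linarith) hT.le) h2
      linarith)
  rw [hν, hν] at key
  linarith

/-- **`X_b` is full** at some scale, given `X_a` -/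
theorem xb_full {T : ℝ} (hT : 0 < T) (hW : W0H lam T) : ∃ h0 : ℝ, 0 < h0 ∧ h0 ≤ T ∧
    ∀ t : ℝ, 0 ≤ t → t ≤ h0 →
      t ≤ lam (bz T 0 0 0 0 0 T 0 0) - lam (bz T 0 0 0 0 0 T t 0) := by
  have hX := h.xa_full hT hW
  obtain ⟨B, G, Leg, ν, D, K, H, hν⟩ := hW
  have hT' := hT.le
  -- reduction to one scale
  have red : ∀ {y e : ℝ}, 0 < y → y ≤ T → 0 ≤ e → e ≤ T →
      ∀ xa : ℝ, 0 ≤ xa → xa ≤ T → y ≤ e + xa →
      y ≤ lam (bz T 0 e 0 0 0 xa 0 0) - lam (bz T 0 e 0 0 0 xa y 0) →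
      ∀ t : ℝ, 0 ≤ t → t ≤ y →
        t ≤ lam (bz T 0 0 0 0 0 T 0 0) - lam (bz T 0 0 0 0 0 T t 0) := by
    intro y e hy hyT he heT xa hxa hxaT hye hyy t h1 h2
    have m1 : bz T 0 e 0 0 0 xa 0 0 ∈ coneF :=
      h.m0 hT le_rfl hxaT le_rfl hT' (by linarith) (by linarith) hxa
    have m2 : bz T 0 e 0 0 0 xa t 0 ∈ coneF :=
      h.m0 hT le_rfl hxaT le_rfl (by linarith) (by linarith) (by linarith) hxa
    have m3 : bz T 0 e 0 0 0 xa y 0 ∈ coneF :=
      h.m0 hT le_rfl hxaT le_rfl (by linarith) (by linarith) (by linarith) hxa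
    have m4 : bz T 0 0 0 0 0 T 0 0 ∈ coneF :=
      h.m0 hT le_rfl le_rfl le_rfl hT' (by linarith) (by linarith) hT'
    have m5 : bz T 0 0 0 0 0 T t 0 ∈ coneF :=
      h.m0 hT le_rfl le_rfl le_rfl (by linarith) (by linarith) (by linarith) hT'
    have e1 := h.xbS hT m2 m3 h2
    have e2 := h.dec 9 m4 m5 m1 m2 (by intro i hi; fin_cases i <;> simp [bz] at hi ⊢)
      (by intro i hi; fin_cases i <;> simp [bz] at hi ⊢) (by simp [bz]) (by simp [bz])
      (by simpa [bz] using h1)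
      (by
        intro i hi hne
        rcases h.g9 hi with rfl | rfl | rfl | rfl | rfl | ⟨rfl, -⟩
        · exact absurd rfl hne
        all_goals simp [bz])
    linarith
  -- the two alternatives
  have alt : ∀ j : ℝ, 0 ≤ j → j ≤ T →
      lam (bz T 0 0 0 0 0 0 0 0) ≤ lam (bz T 0 j 0 0 0 0 0 0) ∨
      T - j ≤ lam (bz T 0 0 0 0 0 T 0 0) - lam (bz T 0 0 0 0 0 T T 0) := by
    intro j hj hjT
    have mE : bz T 0 T 0 0 0 0 T 0 ∈ coneF :=
      h.m0 hT le_rfl hT' le_rfl le_rfl (by linarith) (by linarith) le_rfl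
    have mEX : ∀ t : ℝ, 0 ≤ t → t ≤ T → bz T 0 T 0 0 0 t T 0 ∈ coneF := fun t h1 h2 =>
      h.m0 hT le_rfl h2 le_rfl le_rfl (by linarith) (by linarith) h1
    have hXX := h.xaF hT hX (t := T) hT' le_rfl (z := T) (f := 0) (e := T) (ca := 0) (cb := 0)
      (p := 0) (xb := T) (n := 0) (Or.inl rfl) mE (mEX T hT' le_rfl)
    have key := H.leaf (x := T) (j := j) hj hjT le_rfl (by rw [hν, hν]; linarith)
    rw [hν, hν, hν, hν, hν] at key
    rcases key with key | key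
    · left
      have m0' : bz T 0 0 0 0 0 0 0 0 ∈ coneF :=
        h.m0 hT le_rfl hT' le_rfl hT' (by linarith) (by linarith) le_rfl
      have mj : bz T 0 j 0 0 0 0 0 0 ∈ coneF :=
        h.m0 hT le_rfl hT' le_rfl hT' (by linarith) (by linarith) le_rfl
      have mT : bz T 0 0 0 0 0 T T 0 ∈ coneF :=
        h.m0 hT le_rfl le_rfl le_rfl le_rfl (by linarith) (by linarith) hT'
      have mTj : bz T 0 j 0 0 0 T T 0 ∈ coneF :=
        h.m0 hT le_rfl le_rfl le_rfl le_rfl (by linarith) (by linarith) hT'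
      have e2 := h.dec 2 mT mTj m0' mj (by intro i hi; fin_cases i <;> simp [bz] at hi ⊢)
        (by intro i hi; fin_cases i <;> simp [bz] at hi ⊢) (by simp [bz]) (by simp [bz])
        (by simpa [bz] using hj)
        (by
          intro i hi hne
          rcases h.g0 h.sl.a2 hi with rfl | rfl | rfl | rfl | rfl <;> simp [bz])
      linarith
    · right
      have e1 := h.xaF hT hX (t := T - j) (by linarith) (by linarith) (z := T) (f := 0) (e := T)
        (ca := 0) (cb := 0) (p := 0) (xb := T) (n := 0) (Or.inl rfl) mE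
        (mEX (T - j) (by linarith) (by linarith))
      have e2 := h.xaS hT (e := 0) (ca := 0) (cb := 0) (xb := 0)
        (h.m0 hT le_rfl hT' le_rfl hT' (by linarith) (by linarith) le_rfl)
        (h.m0 hT le_rfl le_rfl le_rfl hT' (by linarith) (by linarith) hT') hT'
      linarith
  by_cases hc : ∃ j : ℝ, 0 < j ∧ j ≤ T ∧
      lam (bz T 0 0 0 0 0 0 0 0) ≤ lam (bz T 0 j 0 0 0 0 0 0)
  · obtain ⟨j, hj, hjT, hf⟩ := hc
    refine ⟨j, hj, hjT, red hj hjT hj.le hjT 0 le_rfl hT' (by linarith) ?_⟩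
    have mz : bz T 0 0 0 0 0 0 0 0 ∈ coneF :=
      h.m0 hT le_rfl hT' le_rfl hT' (by linarith) (by linarith) le_rfl
    have key := H.xb (y := j) (c := q2) hj hjT h.q2p
      (by
        intro t h1 h2
        rw [hν, hν]
        have m1 : bz T 0 j 0 0 0 0 t 0 ∈ coneF :=
          h.m0 hT le_rfl hT' le_rfl (by linarith) (by linarith) (by linarith) le_rfl
        have m2 : bz T 0 j 0 t 0 0 t 0 ∈ coneF :=
          h.m0 hT le_rfl hT' h1 (by linarith) (by linarith) (by linarith) le_rfl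
        have m3 : bz T 0 j 0 0 0 0 0 0 ∈ coneF :=
          h.m0 hT le_rfl hT' le_rfl hT' (by linarith) (by linarith) le_rfl
        have m4 : bz T 0 j 0 t 0 0 0 0 ∈ coneF :=
          h.m0 hT le_rfl hT' h1 hT' (by linarith) (by linarith) le_rfl
        have m5 : bz T 0 t 0 t 0 0 0 0 ∈ coneF :=
          h.m0 hT le_rfl hT' h1 hT' (by linarith) (by linarith) le_rfl
        have e2 := h.dec 6 m1 m2 m3 m4 (by intro i hi; fin_cases i <;> simp [bz] at hi ⊢)
          (by intro i hi; fin_cases i <;> simp [bz] at hi ⊢) (by simp [bz]) (by simp [bz])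
          (by simpa [bz] using h1)
          (by
            intro i hi hne
            rcases h.g0 h.sl.a6 hi with rfl | rfl | rfl | rfl | rfl <;> simp [bz])
        have e3 := h.anti _ m5 _ m4 (bz_le le_rfl le_rfl h2 le_rfl le_rfl le_rfl le_rfl le_rfl
          le_rfl)
        have e : bz T 0 0 0 0 0 0 0 0 + eECb t = bz T 0 t 0 t 0 0 0 0 := by
          funext i; fin_cases i <;> simp [bz, eECb]
        have e4 := h.S2 _ mz 0 t h1 (by rw [e]; exact m5) (by simp [bz]) (by simp [bz])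
          (by simp [bz])
        rw [e] at e4
        linarith)
      (by
        intro t h1 h2
        rw [hν, hν]
        have := h.xbS hT (e := j) (ca := 0) (cb := 0) (xa := 0)
          (h.m0 hT le_rfl hT' le_rfl (by linarith) (by linarith) (by linarith) le_rfl)
          (h.m0 hT le_rfl hT' le_rfl hjT (by linarith) (by linarith) le_rfl) h2
        linarith)
    rw [hν, hν] at key
    linarith
  · push Not at hc
    refine ⟨T, hT, le_rfl, red hT le_rfl le_rfl hT' T hT' le_rfl (by linarith) ?_⟩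
    refine le_of_forall_pos_le_add fun ε hε => ?_
    rcases le_total T ε with h1 | h1
    · have m1 := h.anti _ (h.m0 hT le_rfl le_rfl le_rfl hT' (by linarith) (by linarith) hT')
        _ (h.m0 hT le_rfl le_rfl le_rfl le_rfl (by linarith) (by linarith) hT')
        (bz_le (z := T) (f := 0) (e := 0) (ca := 0) (cb := 0) (p := 0) (xa := T) (xb := 0)
          (n := 0) (z' := T) (f' := 0) (e' := 0) (ca' := 0) (cb' := 0) (p' := 0) (xa' := T)
          (xb' := T) (n' := 0) le_rfl le_rfl le_rfl le_rfl le_rfl le_rfl le_rfl hT' le_rfl)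
      linarith
    · rcases alt ε hε.le h1 with h2 | h2
      · exact absurd h2 (not_le.2 (hc ε hε h1))
      · linarith

/-- hypotheses coming from a window with level slots `{z, F_a}` -/
def W1H (lam : (Fin 11 → ℝ) → ℝ) (T : ℝ) (Rb : Prop) : Prop :=
  ∃ (B : Base) (G : ℕ → RCfg (Fin 11)) (Leg : Set (Fin 11 → ℝ)) (ν : (Fin 11 → ℝ) → ℝ)
    (D : ℝ) (F : ℕ → ℕ → ℝ) (K : ℝ), M1 B G Leg ν T D F Rb ∧ ∀ e ca cb p xa xb n : ℝ,
      (Rb ∨ (e = 0 ∧ cb = 0 ∧ xb = 0)) →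
      ν (bw e ca cb p xa xb n) = lam (bz T T e ca cb p xa xb n) - K

/-- **`N` is full** if `κ ≠ 1`, given anything legal which is coarser -/
theorem n_full1 {T : ℝ} (hT : 0 < T) (hκ : κ ≠ 1)
    (hX : T ≤ lam (bz T 0 0 0 0 0 0 0 0) - lam (bz T 0 0 0 0 0 T 0 0))
    (hW1 : W1H lam T False) (hW2 : σ ≠ 0 → W1H lam T True) {y : ℝ} (hy : 0 ≤ y) (hyT : y ≤ T)
    {z f p xa xb : ℝ} (hxb : xb ≤ y) (m1 : bz z f 0 0 0 p xa xb 0 ∈ coneF)
    (m2 : bz z f 0 0 0 p xa xb y ∈ coneF) :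
    y ≤ lam (bz z f 0 0 0 p xa xb 0) - lam (bz z f 0 0 0 p xa xb y) := by
  by_cases hp : σ * (1 + κ) = 1
  · have hσ : σ ≠ 0 := by rintro rfl; rw [zero_mul] at hp; norm_num at hp
    obtain ⟨B, G, Leg, ν, D, F, K, H, hν⟩ := hW2 hσ
    have key := H.shiftN hy hyT (yb := y) (Or.inr ⟨trivial, rfl⟩)
    rw [hν _ _ _ _ _ _ _ (Or.inl trivial), hν _ _ _ _ _ _ _ (Or.inl trivial),
      hν _ _ _ _ _ _ _ (Or.inl trivial)] at key
    have k1 : bz T T y y y y 0 y 0 ∈ coneF :=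
      mem_bz.2 ⟨by linarith, by linarith, by linarith, by linarith, by linarith, by linarith,
        by linarith⟩
    have k2 : bz T T y y y y 0 y y ∈ coneF :=
      mem_bz.2 ⟨by linarith, by linarith, by linarith, by linarith, by linarith, by linarith,
        by linarith⟩
    have k3 : bz T T y y y y y y y ∈ coneF :=
      mem_bz.2 ⟨by linarith, by linarith, by linarith, by linarith, by linarith, by linarith,
        by linarith⟩
    have e1 := h.xaF hT hX hy hyT (Or.inr hκ) k2 k3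
    have e2 := h.dec 10 m1 m2 k1 k2 (by intro i hi; fin_cases i <;> simp [bz] at hi ⊢)
      (by intro i hi; fin_cases i <;> simp [bz] at hi ⊢) (by simp [bz]) (by simp [bz])
      (by simpa [bz] using hy)
      (by
        intro i hi hne
        rcases h.g10 hi with rfl | rfl | ⟨rfl, -⟩
        · exact absurd rfl hne
        · simp [bz]
        · simpa [bz] using hxb)
    linarith
  · obtain ⟨B, G, Leg, ν, D, F, K, H, hν⟩ := hW1
    have key := H.shiftN hy hyT (yb := 0) (Or.inl rfl)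
    rw [hν _ _ _ _ _ _ _ (Or.inr ⟨rfl, rfl, rfl⟩), hν _ _ _ _ _ _ _ (Or.inr ⟨rfl, rfl, rfl⟩),
      hν _ _ _ _ _ _ _ (Or.inr ⟨rfl, rfl, rfl⟩)] at key
    have k1 : bz T T 0 y 0 y 0 0 0 ∈ coneF :=
      mem_bz.2 ⟨by linarith, by linarith, by linarith, by linarith, by linarith, by linarith,
        by linarith⟩
    have k2 : bz T T 0 y 0 y 0 0 y ∈ coneF :=
      mem_bz.2 ⟨by linarith, by linarith, by linarith, by linarith, by linarith, by linarith,
        by linarith⟩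
    have k3 : bz T T 0 y 0 y y 0 y ∈ coneF :=
      mem_bz.2 ⟨by linarith, by linarith, by linarith, by linarith, by linarith, by linarith,
        by linarith⟩
    have e1 := h.xaF hT hX hy hyT (Or.inr hκ) k2 k3
    have e2 := h.dec 10 m1 m2 k1 k2 (by intro i hi; fin_cases i <;> simp [bz] at hi ⊢)
      (by intro i hi; fin_cases i <;> simp [bz] at hi ⊢) (by simp [bz]) (by simp [bz])
      (by simpa [bz] using hy)
      (by
        intro i hi hne
        rcases h.g10 hi with rfl | rfl | ⟨rfl, hq⟩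
        · exact absurd rfl hne
        · simp [bz]
        · exact absurd hq hp)
    linarith

/-- **`N` is full** if `κ = 1` -/
theorem n_full2 (hls : ¬ (κ = 1 ∧ σ = 1 / 2)) {T : ℝ} (hT : 0 < T) (hκ : κ = 1)
    (hX : T ≤ lam (bz T 0 0 0 0 0 0 0 0) - lam (bz T 0 0 0 0 0 T 0 0))
    (hW1 : W1H lam T False) {y : ℝ} (hy : 0 ≤ y) (hyT : y ≤ T)
    {z f p xa xb : ℝ} (m1 : bz z f 0 0 0 p xa xb 0 ∈ coneF)
    (m2 : bz z f 0 0 0 p xa xb y ∈ coneF) :
    y ≤ lam (bz z f 0 0 0 p xa xb 0) - lam (bz z f 0 0 0 p xa xb y) := by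
  have hp : σ * (1 + κ) ≠ 1 := by
    intro h1
    refine hls ⟨hκ, ?_⟩
    rw [hκ] at h1
    linarith
  have hT' := hT.le
  have G10 : ∀ {c d : Fin 11 → ℝ}, c 3 = d 3 → c 10 = d 10 →
      ∀ i, gC a b i = gC a b 10 → c i = d i := by
    intro c d h3 h10 i hi
    rcases h.g10 hi with rfl | rfl | ⟨rfl, hq⟩
    · exact h10
    · exact h3
    · exact absurd hq hp
  have b0 : bz T T 0 0 0 0 0 0 0 ∈ coneF :=
    mem_bz.2 ⟨by linarith, by linarith, by linarith, by linarith, by linarith, by linarith,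
      by linarith⟩
  have bm : ∀ {c p x n : ℝ}, 0 ≤ c → c ≤ T → 0 ≤ p → p ≤ T → 0 ≤ x → x ≤ T → 0 ≤ n → n ≤ T →
      bz T T 0 c 0 p x 0 n ∈ coneF := by
    intro c p x n c0 c1 p0 p1 x0 x1 n0 n1
    exact mem_bz.2 ⟨by linarith, by linarith, by linarith, by linarith, by linarith,
      by linarith, by linarith⟩
  -- `N` is linear
  set r1 : ℝ := -φ (gC a b 10) (bz 1 1 0 0 0 0 0 0 1) with hr1
  have hm1 : bz 1 1 0 0 0 0 0 0 1 ∈ coneF :=
    mem_bz.2 ⟨by linarith, by linarith, by linarith, by linarith, by linarith, by linarith,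
      by linarith⟩
  have lin : ∀ n : ℝ, 0 ≤ n → n ≤ T →
      lam (bz T T 0 0 0 0 0 0 0) - lam (bz T T 0 0 0 0 0 0 n) = r1 * n := by
    intro n n0 n1
    have e1 := h.one_grp b0 (bm le_rfl hT' le_rfl hT' le_rfl hT' n0 n1)
      (k := gC a b 10) (by simp [gset]) (by
        intro i hi
        by_cases hi' : i = 10
        · subst hi'; exact absurd rfl hi
        · fin_cases i <;> simp [bz] at hi' ⊢)
    have e2 := h.out.zero (gC a b 10) (bz T T 0 0 0 0 0 0 0) (fun i hi => by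
      rw [G10 (c := bz T T 0 0 0 0 0 0 0) (d := fun _ => 0) (by simp [bz]) (by simp [bz]) i hi])
    have e3 := h.out.loc (gC a b 10) (bz T T 0 0 0 0 0 0 n) (n • bz 1 1 0 0 0 0 0 0 1)
      (G10 (by simp [bz]) (by simp [bz]))
    have e4 := h.hom (gC a b 10) (h.dh_pos (by
      rw [h.sl.a10]
      have := h.κ0
      linarith)) _ hm1 n n0
    rw [e1, e2, e3, e4, hr1]
    ring
  have decN : ∀ {c p x n : ℝ}, 0 ≤ c → c ≤ T → 0 ≤ p → p ≤ T → 0 ≤ x → x ≤ T → 0 ≤ n → n ≤ T →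
      lam (bz T T 0 c 0 p x 0 0) - lam (bz T T 0 c 0 p x 0 n) =
        lam (bz T T 0 0 0 0 0 0 0) - lam (bz T T 0 0 0 0 0 0 n) := by
    intro c p x n c0 c1 p0 p1 x0 x1 n0 n1
    have k1 := bm c0 c1 p0 p1 x0 x1 le_rfl hT'
    have k2 := bm c0 c1 p0 p1 x0 x1 n0 n1
    have k4 := bm (c := 0) (p := 0) (x := 0) le_rfl hT' le_rfl hT' le_rfl hT' n0 n1
    refine le_antisymm (h.dec 10 b0 k4 k1 k2 ?_ ?_ ?_ ?_ ?_ ?_)
      (h.dec 10 k1 k2 b0 k4 ?_ ?_ ?_ ?_ ?_ ?_)
    · intro i hi; fin_cases i <;> simp [bz] at hi ⊢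
    · intro i hi; fin_cases i <;> simp [bz] at hi ⊢
    · simp [bz]
    · simp [bz]
    · simpa [bz] using n0
    · intro i hi _; exact (G10 (by simp [bz]) (by simp [bz]) i hi).le
    · intro i hi; fin_cases i <;> simp [bz] at hi ⊢
    · intro i hi; fin_cases i <;> simp [bz] at hi ⊢
    · simp [bz]
    · simp [bz]
    · simpa [bz] using n0
    · intro i hi _; exact (G10 (by simp [bz]) (by simp [bz]) i hi).le
  have decC : ∀ {c p x : ℝ}, 0 ≤ c → c ≤ T → 0 ≤ p → p ≤ T → 0 ≤ x → x ≤ T →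
      lam (bz T T 0 0 0 p x 0 0) - lam (bz T T 0 c 0 p x 0 0) =
        lam (bz T T 0 0 0 0 0 0 0) - lam (bz T T 0 c 0 0 0 0 0) := by
    intro c p x c0 c1 p0 p1 x0 x1
    have k1 := bm (c := 0) (n := 0) le_rfl hT' p0 p1 x0 x1 le_rfl hT'
    have k2 := bm (n := 0) c0 c1 p0 p1 x0 x1 le_rfl hT'
    have k4 := bm (p := 0) (x := 0) (n := 0) c0 c1 le_rfl hT' le_rfl hT' le_rfl hT'
    refine le_antisymm (h.dec 5 b0 k4 k1 k2 ?_ ?_ ?_ ?_ ?_ ?_)
      (h.dec 5 k1 k2 b0 k4 ?_ ?_ ?_ ?_ ?_ ?_)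
    · intro i hi; fin_cases i <;> simp [bz] at hi ⊢
    · intro i hi; fin_cases i <;> simp [bz] at hi ⊢
    · simp [bz]
    · simp [bz]
    · simpa [bz] using c0
    · intro i hi _
      rcases h.g0 h.sl.a5 hi with rfl | rfl | rfl | rfl | rfl <;> simp [bz]
    · intro i hi; fin_cases i <;> simp [bz] at hi ⊢
    · intro i hi; fin_cases i <;> simp [bz] at hi ⊢
    · simp [bz]
    · simp [bz]
    · simpa [bz] using c0
    · intro i hi _
      rcases h.g0 h.sl.a5 hi with rfl | rfl | rfl | rfl | rfl <;> simp [bz]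
  obtain ⟨B, G, Leg, ν, D, F, K, H, hν⟩ := hW1
  have key := H.kone (a := r1) (m := q1) h.q1p
    (β := fun p x => lam (bz T T 0 0 0 0 0 0 0) - lam (bz T T 0 0 0 p x 0 0))
    (γ := fun c => lam (bz T T 0 0 0 0 0 0 0) - lam (bz T T 0 c 0 0 0 0 0))
    (by
      intro n p x c n0 n1 p0 p1 x0 x1 c0 c1
      rw [hν _ _ _ _ _ _ _ (Or.inr ⟨rfl, rfl, rfl⟩), hν _ _ _ _ _ _ _ (Or.inr ⟨rfl, rfl, rfl⟩)]
      have e1 := decN c0 c1 p0 p1 x0 x1 n0 n1
      have e2 := decC c0 c1 p0 p1 x0 x1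
      have e3 := lin n n0 n1
      linarith)
    (by
      intro t t0 t1
      exact h.xaF hT hX t0 t1 (Or.inl rfl) b0 (bm le_rfl hT' le_rfl hT' t0 t1 le_rfl hT'))
    (by
      intro t t0 t1
      have e : bz T T 0 0 0 0 0 0 0 + eCa t = bz T T 0 t 0 0 0 0 0 := by
        funext i; fin_cases i <;> simp [bz, eCa]
      have := h.S1 _ b0 t t0 (by rw [e]; exact bm t0 t1 le_rfl hT' le_rfl hT' le_rfl hT')
        (by simp [bz]) (by simp [bz])
      rw [e] at this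
      exact this)
  have k4 := bm (c := 0) (p := 0) (x := 0) le_rfl hT' le_rfl hT' le_rfl hT' hy hyT
  have e2 := h.dec 10 m1 m2 b0 k4 (by intro i hi; fin_cases i <;> simp [bz] at hi ⊢)
    (by intro i hi; fin_cases i <;> simp [bz] at hi ⊢) (by simp [bz]) (by simp [bz])
    (by simpa [bz] using hy)
    (fun i hi _ => (G10 (c := bz z f 0 0 0 p xa xb 0) (d := bz T T 0 0 0 0 0 0 0) (by simp [bz])
      (by simp [bz]) i hi).le)
  have e3 := lin y hy hyT
  nlinarith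

/-- **the F-half** -/
theorem fhalf (hls : ¬ (κ = 1 ∧ σ = 1 / 2)) {T : ℝ} (hT : 0 < T) (hW0 : W0H lam T) (hW1 : W1H lam T False)
    (hW2 : σ ≠ 0 → W1H lam T True) : A.1 ≤ -(4 + κ) := by
  have hX := h.xa_full hT hW0
  obtain ⟨h0, h00, h0T, hXb⟩ := h.xb_full hT hW0
  have hκ := h.κ0
  have hT' := hT.le
  set t : ℝ := min h0 (T / (1 + κ)) with ht
  have ht0 : 0 < t := lt_min h00 (by positivity)
  have ht1 : t ≤ h0 := min_le_left _ _
  have ht2 : (1 + κ) * t ≤ T := by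
    have : t ≤ T / (1 + κ) := min_le_right _ _
    rw [le_div_iff₀ (by linarith)] at this
    linarith
  have hκt : 0 < κ * t := mul_pos hκ ht0
  have ht3 : t ≤ T := by linarith
  have hty : t ≤ (1 + κ) * t := by linarith
  have n0 : (0 : Fin 11 → ℝ) = bz 0 0 0 0 0 0 0 0 0 := by
    funext i; fin_cases i <;> simp [bz]
  have m0 : bz 0 0 0 0 0 0 0 0 0 ∈ coneF := mem_bz.2 (by simp)
  have m1 : bz t 0 0 0 0 0 0 0 0 ∈ coneF :=
    mem_bz.2 ⟨by linarith, by linarith, by linarith, by linarith, by linarith, by linarith,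
      by linarith⟩
  have m2 : bz t 0 0 0 0 0 t 0 0 ∈ coneF :=
    mem_bz.2 ⟨by linarith, by linarith, by linarith, by linarith, by linarith, by linarith,
      by linarith⟩
  have m3 : bz t 0 0 0 0 0 t t 0 ∈ coneF :=
    mem_bz.2 ⟨by linarith, by linarith, by linarith, by linarith, by linarith, by linarith,
      by linarith⟩
  have m4 : bz t (κ * t) 0 0 0 (κ * t) t t 0 ∈ coneF :=
    mem_bz.2 ⟨by linarith, by linarith, by linarith, by linarith, by linarith, by linarith,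
      by linarith⟩
  have m5 : bz t (κ * t) 0 0 0 (κ * t) t t ((1 + κ) * t) ∈ coneF :=
    mem_bz.2 ⟨by linarith, by linarith, by linarith, by linarith, by linarith, by linarith,
      by linarith⟩
  have e1 := h.own _ m0 _ m1 (bz_le ht0.le le_rfl le_rfl le_rfl le_rfl le_rfl le_rfl le_rfl
    le_rfl) (by simp [bz])
  have e1' : t ≤ lam (bz 0 0 0 0 0 0 0 0 0) - lam (bz t 0 0 0 0 0 0 0 0) := by
    simpa [bz] using e1
  have e0 : lam (bz 0 0 0 0 0 0 0 0 0) = 0 := by rw [← n0]; exact h.zero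
  have e2 := h.xaF hT hX ht0.le ht3 (Or.inl rfl) m1 m2
  have e3 := hXb t ht0.le ht1
  have e4 := h.dec 9 m2 m3
    (h.m0 hT (e := 0) (ca := 0) (cb := 0) (xa := T) (xb := 0) le_rfl le_rfl le_rfl hT'
      (by linarith) (by linarith) hT')
    (h.m0 hT (e := 0) (ca := 0) (cb := 0) (xa := T) (xb := t) le_rfl le_rfl le_rfl ht3
      (by linarith) (by linarith) hT')
    (by intro i hi; fin_cases i <;> simp [bz] at hi ⊢)
    (by intro i hi; fin_cases i <;> simp [bz] at hi ⊢) (by simp [bz]) (by simp [bz])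
    (by simpa [bz] using ht0.le)
    (by
      intro i hi hne
      fin_cases i <;> simp [bz] <;> linarith)
  have e5 := h.anti _ m3 _ m4 (bz_le le_rfl hκt.le le_rfl le_rfl le_rfl hκt.le le_rfl le_rfl
    le_rfl)
  have e6 : (1 + κ) * t ≤ lam (bz t (κ * t) 0 0 0 (κ * t) t t 0) -
      lam (bz t (κ * t) 0 0 0 (κ * t) t t ((1 + κ) * t)) := by
    by_cases hk : κ = 1
    · exact h.n_full2 hls hT hk hX hW1 (by linarith) ht2 m4 m5
    · exact h.n_full1 hT hk hX hW1 hW2 (by linarith) ht2 hty m4 m5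
  obtain ⟨ma, ea⟩ := h.slope_v (t := t) ht0.le
  have e7 := h.anti _ m5 _ ma (by
    have sl := h.sl
    intro i
    fin_cases i
    · simp [bz, sl.a0]
    · simp [bz, sl.a1]
    · simp [bz, sl.a2]
    · simp [bz]; exact mul_nonneg ht0.le sl.a3
    · simp [bz, sl.a4]; linarith
    · simp [bz, sl.a5]
    · simp [bz, sl.a6]
    · simp [bz, sl.a7]; linarith
    · simp [bz, sl.a8]
    · simp [bz, sl.a9]
    · simp [bz, sl.a10]; linarith)
  rw [ea] at e7
  have key : t * A.1 ≤ t * (-(4 + κ)) := by linarith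
  exact le_of_mul_le_mul_left key ht0

end LF

end Crest.Agent.R136.C1865
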