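import Crest.Agent.R136.C1b_865
import Crest.Agent.R136.Tb6_628

/-!
# R136, case (C1), F-half, part 4 (helper865): windows of `AeW` with level slots `{z, F_a}`

* `maC_act` : active monomials of the plane with slack `F_b`;
* `stC`, `stC_ok` : static data;
* `dens_grp` : density of a window whose level slots are a union of groups up to slots with top `0`;
* `w1h1`, `w1h2` : `W1H lam T False`, `W1H lam T True` from `AeW`; `w0h` : `W0H lam T`.
-/

set_option autoImplicit false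
set_option linter.unusedSectionVars false
set_option linter.unusedVariables false

open Filter Topology

namespace Crest.Agent.R136.C1865

open Finset Crest.Agent.R136.NetQ186 Crest.Agent.R136.Net191 Crest.Agent.R136.Qg926
open Crest.Agent.R136.Gf356 Crest.Agent.R136.Aw413 Crest.Agent.R136.Dg219
open Crest.Agent.R136.Ab356 (wtQ)
open Crest.Agent.R136.Ev356 (mv QAt QWnd flg)
open Crest.Agent.R136.Wq400 (qwnd_of_wat hcQ)
open Crest.Agent.R136.Tb628 (coneF s0 sA sB fA fB mem_act)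
open Crest.Agent.R136.NatR550 (nL)
open Crest.Agent.R136.NatT550 (nat4)
open Crest.Agent.R138.Ex926 (Base U U_le_atTop)

theorem mv_mon : mv 2 5 ∈ monQ.mon 6 ∧ mv 4 5 ∈ monQ.mon 7 ∧ mv 0 5 ∈ monQ.mon 8 ∧
    mv 0 6 ∈ monQ.mon 9 ∧ mv 2 8 ∈ monQ.mon 9 ∧ mv 0 7 ∈ monQ.mon 10 ∧
    mv 4 8 ∈ monQ.mon 10 := by
  decide

/-- **active monomials of the plane with slack `F_b`** -/
theorem maC_act {θ : Fin 3 → ℝ} {w0 R κ3 kf : ℝ} (hf' : kf < κ3) (hτ : (θ 0 + κ3) / θ 1 ≠ 0)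
    (hcone : coneM (actM monQ (s0 w0 (R - 1)) (fA 0 κ3 kf) (fB θ 0 κ3 kf)) = coneF) :
    MaC (actM monQ (s0 w0 (R - 1)) (fA 0 κ3 kf) (fB θ 0 κ3 kf)) where
  sub := fun k e he => (mem_actM.1 he).1
  cone := fun c => by rw [hcone]
  m6 := mem_act.2 ⟨mv_mon.1, by simp [s0, nat4]; ring, by simp [fA, sA, nL],
    by simp [fB, sB, nL]⟩
  m7 := mem_act.2 ⟨mv_mon.2.1, by simp [s0, nat4]; ring, by simp [fA, sA, nL],
    by simp [fB, sB, nL]⟩
  m8 := mem_act.2 ⟨mv_mon.2.2.1, by simp [s0, nat4]; ring, by simp [fA, sA, nL],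
    by simp [fB, sB, nL]⟩
  m9a := mem_act.2 ⟨mv_mon.2.2.2.1, by simp [s0, nat4]; ring, by simp [fA, sA, nL],
    by simp [fB, sB, nL]⟩
  m9b := mem_act.2 ⟨mv_mon.2.2.2.2.1, by simp [s0, nat4]; ring, by simp [fA, sA, nL],
    by simp [fB, sB, nL]⟩
  m10a := mem_act.2 ⟨mv_mon.2.2.2.2.2.1, by simp [s0, nat4]; ring, by simp [fA, sA, nL],
    by simp [fB, sB, nL]⟩
  m10b := mem_act.2 ⟨mv_mon.2.2.2.2.2.2, by simp [s0, nat4]; ring, by simp [fA, sA, nL]; ring,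
    by simp [fB, sB, nL]⟩
  n4 := fun h => by
    have := (mem_act.1 h).2.2.1
    simp [fA, sA, nL] at this
    linarith
  n7r := fun h => by
    have := (mem_act.1 h).2.2.2
    simp [fB, sB, nL] at this
    simp [this] at hτ
  n7 := fun h => by
    have := (mem_act.1 h).2.2.1
    simp [fA, sA, nL] at this
    linarith
  n10 := fun h => by
    have := (mem_act.1 h).2.2.1
    simp [fA, sA, nL] at this
    linarith

/-- static data of a window of the plane -/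
noncomputable def stC (S : Finset (Fin 11)) (top : Fin 11 → ℝ) (T : ℝ) (Ma : Mons 11) (C : ℝ) :
    WSt 11 where
  S := S
  kz := 0
  top := top
  kap := fun s => (4 * cK0 monQ C) ^ wtQ s
  Mw := Ma
  R' := T

variable {Ma : Mons 11} {C T : ℝ} {S : Finset (Fin 11)} {top : Fin 11 → ℝ}

theorem stC_ok (hM : MaC Ma) (hC : 0 ≤ C) (hT : 0 ≤ T) (hS : 0 ∈ S) (h1 : top ∈ Leg Ma T)
    (h2 : cut S top 0 ∈ Leg Ma T) (h3 : cut S 0 top ∈ Leg Ma T) :
    (stC S top T Ma C).Ok monQ (coneM Ma) where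
  R0 := hT
  leg := leg_cone fun k => Finset.Subset.refl _
  top_leg := h1
  lin_leg := h2
  lev_leg := h3
  kzS := hS
  kz0 := rfl
  kzw := Finset.subset_empty.1 (hM.sub 0)
  kap := fun s => by
    show 0 < (4 * cK0 monQ C) ^ wtQ s
    have := cK0_one (M := monQ) hC
    positivity

/-- **density** if the level slots are a union of groups, up to slots with top `0` -/
theorem dens_grp {grp : Fin 11 → ℕ} {L : Set (Fin 11 → ℝ)} {dh : Fin 11 → ℝ} {nn : ℕ → ℝ × ℝ}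
    {lam : (Fin 11 → ℝ) → ℝ} {A : ℝ × ℝ} {φ : ℕ → (Fin 11 → ℝ) → ℝ} {r : ℕ → ℝ}
    (h : OutS grp L dh nn lam A φ r)
    (hS : ∀ i j, grp i = grp j → i ∈ S → j ∈ S ∨ top j = 0) (h1 : top ∈ L)
    (h2 : cut S top 0 ∈ L) (h3 : cut S 0 top ∈ L) :
    lam top = lam (cut S top 0) + lam (cut S 0 top) := by
  rw [h.sum _ h1, h.sum _ h2, h.sum _ h3, ← sum_add_distrib]
  refine sum_congr rfl fun k hk => ?_
  by_cases hk' : ∃ i, grp i = k ∧ i ∈ S
  · obtain ⟨i, hi, hiS⟩ := hk'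
    have e1 : ∀ j, grp j = k → j ∈ S ∨ top j = 0 := fun j hj => hS i j (by rw [hi, hj]) hiS
    rw [h.zero k (cut S top 0) fun j hj => by
      by_cases hjS : j ∈ S
      · rw [cut_of_mem hjS]; rfl
      · rw [cut_of_notMem hjS]; exact (e1 j hj).resolve_left hjS, zero_add]
    exact h.loc k _ _ fun j hj => by
      by_cases hjS : j ∈ S
      · rw [cut_of_mem hjS]
      · rw [cut_of_notMem hjS]; exact (e1 j hj).resolve_left hjS
  · push Not at hk'
    rw [h.zero k (cut S 0 top) fun j hj => by rw [cut_of_notMem (hk' j hj)]; rfl, add_zero]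
    exact h.loc k _ _ fun j hj => by rw [cut_of_notMem (hk' j hj)]

variable {ι : ℕ → Type*} [∀ n, DecidableEq (ι n)] {B Bo : Base} {I J : ∀ n, Finset (ι n)}
  {co : ∀ n, ι n → ι n → Fin 11 → ℝ} {f : ∀ n, ι n → Fq4} {lam : (Fin 11 → ℝ) → ℝ}
  {a b : Fin 11 → ℝ} {A : ℝ × ℝ} {φ : ℕ → (Fin 11 → ℝ) → ℝ} {r : ℕ → ℝ} {κv : Fin 11 → ℝ}
  {V Tw : Fin 11 → Prop} {κ σ : ℝ}

/-- density and Frostman conditions -/
theorem stC_dens (h : AeW B Bo I J co monQ Ma C lam a b A φ r 0 1 κv V Tw) (hM : MaC Ma)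
    (hT : 0 ≤ T) (ht : T ≤ top 0)
    (hd : lam top ≤ lam (cut S top 0) + lam (cut S 0 top)) :
    (stC S top T Ma C).Dens lam 1 T where
  dens := hd
  σ0 := zero_le_one
  σ1 := le_rfl
  hR := ht
  frost := fun y hy hyT => by
    have m1 : (Pi.single 0 y : Fin 11 → ℝ) ∈ coneM Ma := by
      rw [hM.cone]
      have e : (Pi.single 0 y : Fin 11 → ℝ) = bz y 0 0 0 0 0 0 0 0 := by
        funext s
        fin_cases s <;> simp [bz]
      rw [e]
      exact mem_bz.2 ⟨by linarith, by linarith, by linarith, by linarith, by linarith,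
        by linarith, by linarith⟩
    have h2 := h.own 0 zero_mem _ m1 (fun s => by
      by_cases hs : s = 0
      · subst hs; simpa using hy
      · rw [Pi.single_eq_of_ne hs]; exact le_rfl) (fun k _ => by simp)
    rw [Pi.single_eq_same, h.zero] at h2
    simp only [Pi.zero_apply, sub_zero, one_mul] at h2
    show lam (Pi.single 0 y) ≤ -(1 * y)
    linarith

/-- **window with level slots `{z, F_a}`** -/
theorem w1h_of (h : AeW B Bo I J co monQ Ma C lam a b A φ r 0 1 κv V Tw) (hC : 0 ≤ C)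
    (hco : ∀ n, ∀ i ∈ I n, ∀ j ∈ I n, co n i j = coQ (f n i) (f n j))
    (hJ : ∀ᶠ n in (U : Filter ℕ), (J n).Nonempty) (hM : MaC Ma) (hT : 0 < T)
    (hV : ∀ k, V k → k = 3 ∨ k = 4) (hTw : Tw 4) {tp : Fin 11 → ℝ} {Rs : Finset (Fin 11)}
    {Rb : Prop} (hw : ∀ W : Wnd 11 ι, W.kz = 0 → W.S = {0, 4} → W.top = tp → W.R' = T →
      W.Mw = Ma → Win1 W Ma T tp Rs Rb) (t0 : tp 0 = T) (t3 : tp 3 = 0) (t4 : tp 4 = T)
    (l1 : tp ∈ Leg Ma T) (l2 : cut {0, 4} tp 0 ∈ Leg Ma T) (l3 : cut {0, 4} 0 tp ∈ Leg Ma T)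
    (l4 : cut {0, 4} tp (Pi.single 4 T) ∈ coneM Ma)
    (hd : lam tp ≤ lam (cut {0, 4} tp 0) + lam (cut {0, 4} 0 tp)) : LF.W1H lam T Rb := by
  have hok : (stC {0, 4} tp T Ma C).Ok monQ (coneM Ma) :=
    stC_ok hM hC hT.le (by decide) l1 l2 l3
  obtain ⟨W, hW, -, -⟩ := h.wnd (stC {0, 4} tp T Ma C) rfl hok (fun _ _ => 1)
    (fun i => Crest.Agent.R138.Ex926.Base.Sub.const one_pos) J (fun _ => 1)
    (Eventually.of_forall fun n => Finset.Subset.refl _) hJ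
    (Crest.Agent.R138.Ex926.Base.Sub.const one_pos) (Eventually.of_forall fun n => by simp)
  have hden : (stC {0, 4} tp T Ma C).Dens lam 1 T := stC_dens h hM hT.le t0.ge hd
  obtain ⟨E', g, hPr, -, H, hraw⟩ := hW.model hden (fun _ _ _ => 0)
    (g₀ := fun n => (n : ℝ)) (tendsto_natCast_atTop_atTop.mono_left U_le_atTop) (by
      intro k hk
      rcases hV k hk with rfl | rfl
      · right; exact t3
      · left
        show (4 : Fin 11) ∈ ({0, 4} : Finset (Fin 11))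
        decide)
  have hL : RawL W E' 4 := hraw 4 (by show (4 : Fin 11) ∈ ({0, 4} : Finset (Fin 11)); decide) hTw
    (by show 0 < tp 4; rw [t4]; exact hT) ⟨T, hT, l4⟩
  have hq : QWnd W f := qwnd_of_wat hW hco (by
    show ∀ s ∈ ({0, 4} : Finset (Fin 11)), _
    decide)
  have hc := hcQ hq hPr
  have Q : QAt W f Ma := QAt.of_wat hW hq (by
    show (0 : Fin 11) ∈ ({0, 4} : Finset (Fin 11)); decide) (fun s => rfl) hM.n7r
  have win : Win1 W Ma T tp Rs Rb := hw W hW.ekz hW.eS hW.etop hW.eR hW.eMw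
  refine ⟨W.B', W.cfg E', W.legW, W.nu, W.Dc, fun n k => flg W n k 4, lam tp,
    m1_of Q hM hc win H hL, fun e ca cb p xa xb n _ => ?_⟩
  unfold Wnd.nu
  rw [hW.elam, win.S, win.top, win.cut]

theorem win1_1 (hM : MaC Ma) (hT : 0 < T) (W : Wnd 11 ι) (h1 : W.kz = 0) (h2 : W.S = {0, 4})
    (h3 : W.top = tp1 T) (h4 : W.R' = T) (h5 : W.Mw = Ma) :
    Win1 W Ma T (tp1 T) {0, 4, 5, 7, 8, 10} False where
  kz := h1
  S := h2
  top := h3
  R' := h4
  Mw := h5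
  T0 := hT
  cut := fun e ca cb p xa xb n => cut1 T e ca cb p xa xb n
  le := fun e ca cb p xa xb n e0 e1 ca0 ca1 cb0 cb1 p0 p1 xa0 xa1 xb0 xb1 n0 n1 hR s hs => by
    obtain ⟨r1, r2, r3⟩ := hR.resolve_left id
    fin_cases s <;> simp [bw, tp1, bz] at hs ⊢ <;> first | exact hT.le | assumption | linarith
  res := fun s hs => by
    fin_cases s <;> simp [tp1, bz] at hs ⊢
  sub := by decide
  clo := cloM1 hM
  r5 := by decide
  r7 := by decide
  r8 := by decide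
  r10 := by decide
  rb := fun h => h.elim

theorem win1_2 (hM : MaC Ma) (hT : 0 < T) (W : Wnd 11 ι) (h1 : W.kz = 0) (h2 : W.S = {0, 4})
    (h3 : W.top = tp2 T) (h4 : W.R' = T) (h5 : W.Mw = Ma) :
    Win1 W Ma T (tp2 T) {0, 2, 4, 5, 6, 7, 8, 9, 10} True where
  kz := h1
  S := h2
  top := h3
  R' := h4
  Mw := h5
  T0 := hT
  cut := fun e ca cb p xa xb n => cut2 T e ca cb p xa xb n
  le := fun e ca cb p xa xb n e0 e1 ca0 ca1 cb0 cb1 p0 p1 xa0 xa1 xb0 xb1 n0 n1 hR s hs => by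
    fin_cases s <;> simp [bw, tp2, bz] at hs ⊢ <;> assumption
  res := fun s hs => by
    fin_cases s <;> simp [tp2, bz] at hs ⊢
  sub := by decide
  clo := cloM2 hM
  r5 := by decide
  r7 := by decide
  r8 := by decide
  r10 := by decide
  rb := fun _ => by decide

/-- the group of the height -/
theorem grp0 (sl : Slo a b κ σ) (hκ : 0 < κ) {s i : Fin 11} (hs : s = 0 ∨ s = 4)
    (hi : gC a b s = gC a b i) : i = 0 ∨ i = 4 ∨ i = 3 ∨ (i = 9 ∧ σ = 0) := by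
  obtain ⟨g1, g2⟩ := LF.grp_par hi.symm
  have hs0 : a s ≠ 0 := by
    rcases hs with rfl | rfl
    · rw [sl.a0]; norm_num
    · rw [sl.a4]; exact hκ.ne'
  have hb : b s = 0 := by
    rcases hs with rfl | rfl
    · exact sl.b0
    · exact sl.b4
  have g3 : a i ≠ 0 := fun h0 => hs0 (g1.1 h0)
  have g4 := g2 g3
  rw [hb, zero_mul, mul_eq_zero, or_iff_left hs0] at g4
  fin_cases i
  · simp
  · exact absurd sl.a1 g3
  · exact absurd sl.a2 g3
  · simp
  · simp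
  · exact absurd sl.a5 g3
  · exact absurd sl.a6 g3
  · simp [sl.b7] at g4
  · simp [sl.b8] at g4
  · simp [sl.b9] at g4; simp [g4]
  · simp [sl.b10] at g4

theorem mem_legT (hM : MaC Ma) (hT : 0 < T) {z f e ca cb p xa xb n : ℝ}
    (h : bz z f e ca cb p xa xb n ∈ coneF) (h0 : z = 0 ∨ z = T) (h1 : f = 0 ∨ f = T)
    (h2 : e = 0 ∨ e = T) (h3 : ca = 0 ∨ ca = T) (h4 : cb = 0 ∨ cb = T) (h5 : p = 0 ∨ p = T)
    (h6 : xa = 0 ∨ xa = T) (h7 : xb = 0 ∨ xb = T) (h8 : n = 0 ∨ n = T) :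
    bz z f e ca cb p xa xb n ∈ Leg Ma T := by
  have k : ∀ {x : ℝ}, x = 0 ∨ x = T → 0 ≤ x ∧ x ≤ T := by
    intro x hx
    rcases hx with rfl | rfl
    · exact ⟨le_rfl, hT.le⟩
    · exact ⟨hT.le, le_rfl⟩
  exact leg_bz hM h (k h0) (k h1) (k h2) (k h3) (k h4) (k h5) (k h6) (k h7) (k h8)

/-- **`W1H` without `E, C_b, X_b`** -/
theorem w1h1 (h : AeW B Bo I J co monQ Ma C lam a b A φ r 0 1 κv V Tw) (hC : 0 ≤ C)
    (hco : ∀ n, ∀ i ∈ I n, ∀ j ∈ I n, co n i j = coQ (f n i) (f n j))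
    (hJ : ∀ᶠ n in (U : Filter ℕ), (J n).Nonempty) (hM : MaC Ma) (hT : 0 < T)
    (hV : ∀ k, V k → k = 3 ∨ k = 4) (hTw : Tw 4) (sl : Slo a b κ σ) (hκ : 0 < κ) :
    LF.W1H lam T False := by
  have hT' := hT.le
  have e1 : cut {0, 4} (tp1 T) 0 = bz 0 0 0 T 0 T T 0 T := by
    funext j; fin_cases j <;> simp [cut, bz, tp1]
  have e2 : cut {0, 4} 0 (tp1 T) = bz T T 0 0 0 0 0 0 0 := by
    funext j; fin_cases j <;> simp [cut, bz, tp1]
  have e3 : cut {0, 4} (tp1 T) (Pi.single 4 T) = bz 0 T 0 T 0 T T 0 T := by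
    funext j; fin_cases j <;> simp [cut, bz, tp1]
  have l1 : tp1 T ∈ Leg Ma T := by
    unfold tp1
    refine mem_legT hM hT (mem_bz.2 ⟨?_, ?_, ?_, ?_, ?_, ?_, ?_⟩) ?_ ?_ ?_ ?_ ?_ ?_ ?_ ?_ ?_ <;>
      first | linarith | simp
  have l2 : cut {0, 4} (tp1 T) 0 ∈ Leg Ma T := by
    rw [e1]
    refine mem_legT hM hT (mem_bz.2 ⟨?_, ?_, ?_, ?_, ?_, ?_, ?_⟩) ?_ ?_ ?_ ?_ ?_ ?_ ?_ ?_ ?_ <;>
      first | linarith | simp
  have l3 : cut {0, 4} 0 (tp1 T) ∈ Leg Ma T := by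
    rw [e2]
    refine mem_legT hM hT (mem_bz.2 ⟨?_, ?_, ?_, ?_, ?_, ?_, ?_⟩) ?_ ?_ ?_ ?_ ?_ ?_ ?_ ?_ ?_ <;>
      first | linarith | simp
  have lc : Leg Ma T ⊆ coneM Ma := leg_cone fun k => Finset.Subset.refl _
  refine w1h_of (tp := tp1 T) (Rs := {0, 4, 5, 7, 8, 10}) h hC hco hJ hM hT hV hTw
    (fun W h1 h2 h3 h4 h5 => win1_1 hM hT W h1 h2 h3 h4 h5) (by simp [tp1, bz])
    (by simp [tp1, bz]) (by simp [tp1, bz]) l1 l2 l3 (by
      rw [e3, hM.cone]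
      exact mem_bz.2 ⟨by linarith, by linarith, by linarith, by linarith, by linarith,
        by linarith, by linarith⟩) ?_
  refine (dens_grp h.out (fun i j hij hi => ?_) (lc l1) (lc l2) (lc l3)).le
  rcases grp0 sl hκ (by simpa using hi) hij with rfl | rfl | rfl | ⟨rfl, -⟩
  · left; decide
  · left; decide
  · right; simp [tp1, bz]
  · right; simp [tp1, bz]

/-- **`W1H` with `E, C_b, X_b`**, `σ ≠ 0` -/
theorem w1h2 (h : AeW B Bo I J co monQ Ma C lam a b A φ r 0 1 κv V Tw) (hC : 0 ≤ C)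
    (hco : ∀ n, ∀ i ∈ I n, ∀ j ∈ I n, co n i j = coQ (f n i) (f n j))
    (hJ : ∀ᶠ n in (U : Filter ℕ), (J n).Nonempty) (hM : MaC Ma) (hT : 0 < T)
    (hV : ∀ k, V k → k = 3 ∨ k = 4) (hTw : Tw 4) (sl : Slo a b κ σ) (hκ : 0 < κ)
    (hσ : σ ≠ 0) : LF.W1H lam T True := by
  have hT' := hT.le
  have e1 : cut {0, 4} (tp2 T) 0 = bz 0 0 T T T T T T T := by
    funext j; fin_cases j <;> simp [cut, bz, tp2]
  have e2 : cut {0, 4} 0 (tp2 T) = bz T T 0 0 0 0 0 0 0 := by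
    funext j; fin_cases j <;> simp [cut, bz, tp2]
  have e3 : cut {0, 4} (tp2 T) (Pi.single 4 T) = bz 0 T T T T T T T T := by
    funext j; fin_cases j <;> simp [cut, bz, tp2]
  have l1 : tp2 T ∈ Leg Ma T := by
    unfold tp2
    refine mem_legT hM hT (mem_bz.2 ⟨?_, ?_, ?_, ?_, ?_, ?_, ?_⟩) ?_ ?_ ?_ ?_ ?_ ?_ ?_ ?_ ?_ <;>
      first | linarith | simp
  have l2 : cut {0, 4} (tp2 T) 0 ∈ Leg Ma T := by
    rw [e1]
    refine mem_legT hM hT (mem_bz.2 ⟨?_, ?_, ?_, ?_, ?_, ?_, ?_⟩) ?_ ?_ ?_ ?_ ?_ ?_ ?_ ?_ ?_ <;>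
      first | linarith | simp
  have l3 : cut {0, 4} 0 (tp2 T) ∈ Leg Ma T := by
    rw [e2]
    refine mem_legT hM hT (mem_bz.2 ⟨?_, ?_, ?_, ?_, ?_, ?_, ?_⟩) ?_ ?_ ?_ ?_ ?_ ?_ ?_ ?_ ?_ <;>
      first | linarith | simp
  have lc : Leg Ma T ⊆ coneM Ma := leg_cone fun k => Finset.Subset.refl _
  refine w1h_of (tp := tp2 T) (Rs := {0, 2, 4, 5, 6, 7, 8, 9, 10}) h hC hco hJ hM hT hV hTw
    (fun W h1 h2 h3 h4 h5 => win1_2 hM hT W h1 h2 h3 h4 h5) (by simp [tp2, bz])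
    (by simp [tp2, bz]) (by simp [tp2, bz]) l1 l2 l3 (by
      rw [e3, hM.cone]
      exact mem_bz.2 ⟨by linarith, by linarith, by linarith, by linarith, by linarith,
        by linarith, by linarith⟩) ?_
  refine (dens_grp h.out (fun i j hij hi => ?_) (lc l1) (lc l2) (lc l3)).le
  rcases grp0 sl hκ (by simpa using hi) hij with rfl | rfl | rfl | ⟨rfl, h0⟩
  · left; decide
  · left; decide
  · right; simp [tp2, bz]
  · exact absurd h0 hσ

end Crest.Agent.R136.C1865
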