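import Crest.Agent.R136.C1d_865
import Crest.Agent.R136.TopB_550

/-!
# R136, case (C1) of the thick table (helper865): the row

* `w0h` : `W0H lam T` from `AeW`; `slo_row`, `lf_of_row` : the facts of 628's `RowPt` on the plane
  with slack `F_b`, `kf > 0`;
* **`caseC1 : DeadG η pC1`**.
-/

set_option autoImplicit false
set_option linter.unusedSectionVars false
set_option linter.unusedVariables false

open Filter Topology

namespace Crest.Agent.R136.C1865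

open Finset Crest.Agent.R136.NetQ186 Crest.Agent.R136.Net191 Crest.Agent.R136.Qg926
open Crest.Agent.R136.Gf356 Crest.Agent.R136.Aw413 Crest.Agent.R136.Dg219
open Crest.Agent.R136.Ab356 (wtQ)
open Crest.Agent.R136.Ev356 (mv QAt QWnd flg)
open Crest.Agent.R136.Wq400 (qwnd_of_wat hcQ)
open Crest.Agent.R136.Tb628 (coneF s0 sA sB fA fB mem_act eCa eECb RecS RowPt Hom oS)
open Crest.Agent.R136.NatR550 (nL)
open Crest.Agent.R136.NatT550 (nat4 Thick Gap23)
open Crest.Agent.R136.Wq638 (couQ incQ uH uA uB uY)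
open Crest.Agent.R136.GeoQ186 (scl)
open Crest.Agent.R138.Ex926 (Base U U_le_atTop)

section win

variable {Ma : Mons 11} {C T : ℝ}
variable {ι : ℕ → Type*} [∀ n, DecidableEq (ι n)] {B Bo : Base} {I J : ∀ n, Finset (ι n)}
  {co : ∀ n, ι n → ι n → Fin 11 → ℝ} {f : ∀ n, ι n → Fq4} {lam : (Fin 11 → ℝ) → ℝ}
  {a b : Fin 11 → ℝ} {A : ℝ × ℝ} {φ : ℕ → (Fin 11 → ℝ) → ℝ} {r : ℕ → ℝ} {κv : Fin 11 → ℝ}
  {V Tw : Fin 11 → Prop} {κ σ : ℝ}

/-- **the base window** -/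
theorem w0h (h : AeW B Bo I J co monQ Ma C lam a b A φ r 0 1 κv V Tw) (hC : 0 ≤ C)
    (hco : ∀ n, ∀ i ∈ I n, ∀ j ∈ I n, co n i j = coQ (f n i) (f n j))
    (hJ : ∀ᶠ n in (U : Filter ℕ), (J n).Nonempty) (hM : MaC Ma) (hT : 0 < T)
    (hV : ∀ k, V k → k = 3 ∨ k = 4) : LF.W0H lam T := by
  have hT' := hT.le
  have e1 : cut {0} (tp0 T) 0 = bz 0 0 T T T 0 T T 0 := by
    funext j; fin_cases j <;> simp [cut, bz, tp0]
  have e2 : cut {0} 0 (tp0 T) = bz T 0 0 0 0 0 0 0 0 := by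
    funext j; fin_cases j <;> simp [cut, bz, tp0]
  have l1 : tp0 T ∈ Leg Ma T := by
    unfold tp0
    refine mem_legT hM hT (mem_bz.2 ⟨?_, ?_, ?_, ?_, ?_, ?_, ?_⟩) ?_ ?_ ?_ ?_ ?_ ?_ ?_ ?_ ?_ <;>
      first | linarith | simp
  have l2 : cut {0} (tp0 T) 0 ∈ Leg Ma T := by
    rw [e1]
    refine mem_legT hM hT (mem_bz.2 ⟨?_, ?_, ?_, ?_, ?_, ?_, ?_⟩) ?_ ?_ ?_ ?_ ?_ ?_ ?_ ?_ ?_ <;>
      first | linarith | simp
  have l3 : cut {0} 0 (tp0 T) ∈ Leg Ma T := by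
    rw [e2]
    refine mem_legT hM hT (mem_bz.2 ⟨?_, ?_, ?_, ?_, ?_, ?_, ?_⟩) ?_ ?_ ?_ ?_ ?_ ?_ ?_ ?_ ?_ <;>
      first | linarith | simp
  have lc : Leg Ma T ⊆ coneM Ma := leg_cone fun k => Finset.Subset.refl _
  have hok : (stC {0} (tp0 T) T Ma C).Ok monQ (coneM Ma) :=
    stC_ok hM hC hT.le (by decide) l1 l2 l3
  have t0 : tp0 T 0 = T := by simp [tp0, bz]
  have t3 : tp0 T 3 = 0 := by simp [tp0, bz]
  have t4 : tp0 T 4 = 0 := by simp [tp0, bz]
  -- density: own loss of the height and sharpness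
  have hd : lam (tp0 T) ≤ lam (cut {0} (tp0 T) 0) + lam (cut {0} 0 (tp0 T)) := by
    have m1 := lc l1
    have m2 := lc l2
    have m3 := lc l3
    rw [e1] at m2 ⊢
    rw [e2] at m3 ⊢
    have h1 := h.own _ m2 _ m1 (by
      unfold tp0
      exact bz_le hT' le_rfl le_rfl le_rfl le_rfl le_rfl le_rfl le_rfl le_rfl) (by
      intro k hk
      rcases hV k hk with rfl | rfl <;> simp [bz])
    have h2 := h.sharp 0 zero_mem _ m3 (by
      intro i; fin_cases i <;> simp [bz]; exact hT')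
    have h3 : ∑ s, (bz T 0 0 0 0 0 0 0 0 s - (0 : Fin 11 → ℝ) s) = T := by
      rw [Finset.sum_eq_single 0 (fun j _ hj => by fin_cases j <;> simp [bz] at hj ⊢)
        (fun h0 => absurd (mem_univ _) h0)]
      simp [bz]
    rw [h3, h.zero] at h2
    rw [t0] at h1
    simp only [bz, Matrix.cons_val, sub_zero, one_mul] at h1 h2 ⊢
    linarith
  obtain ⟨W, hW, -, -⟩ := h.wnd (stC {0} (tp0 T) T Ma C) rfl hok (fun _ _ => 1)
    (fun i => Crest.Agent.R138.Ex926.Base.Sub.const one_pos) J (fun _ => 1)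
    (Eventually.of_forall fun n => Finset.Subset.refl _) hJ
    (Crest.Agent.R138.Ex926.Base.Sub.const one_pos) (Eventually.of_forall fun n => by simp)
  have hden : (stC {0} (tp0 T) T Ma C).Dens lam 1 T := stC_dens h hM hT.le t0.ge hd
  obtain ⟨E', g, hPr, -, H, -⟩ := hW.model hden (fun _ _ _ => 0)
    (g₀ := fun n => (n : ℝ)) (tendsto_natCast_atTop_atTop.mono_left U_le_atTop) (by
      intro k hk
      rcases hV k hk with rfl | rfl
      · right; exact t3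
      · right; exact t4)
  have hq : QWnd W f := qwnd_of_wat hW hco (by
    show ∀ s ∈ ({0} : Finset (Fin 11)), _
    decide)
  have hc := hcQ hq hPr
  have Q : QAt W f Ma := QAt.of_wat hW hq (by
    show (0 : Fin 11) ∈ ({0} : Finset (Fin 11)); decide) (fun s => rfl) hM.n7r
  have win : Win0 W Ma T := ⟨hW.ekz, hW.eS, hW.etop, hW.eR, hW.eMw, hT⟩
  refine ⟨W.B', W.cfg E', W.legW, W.nu, W.Dc, lam (tp0 T), m0_of Q hM hc win H,
    fun e ca cb xa xb => ?_⟩
  unfold Wnd.nu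
  rw [hW.elam, win.S, win.top, cut0]

end win

section row

variable {B : Base} {I I1 : ℕ → Finset (ℕ × ℝ)} {co : ∀ n : ℕ, ℕ × ℝ → ℕ × ℝ → Fin 11 → ℝ}
  {θ : Fin 3 → ℝ} {w0 R : ℝ} {ν : (Fin 11 → ℝ) → ℝ} {V T : Fin 11 → Prop} {ξ x : ℝ}
  {h' : ℕ → ℝ} {lam : (Fin 11 → ℝ) → ℝ} {A : ℝ × ℝ} {φ : ℕ → (Fin 11 → ℝ) → ℝ} {r : ℕ → ℝ}
  {κ3 kf q1 q2 : ℝ}

/-- slopes of the plane -/
theorem slo_row (hf : 0 ≤ kf) (hτ : (θ 0 + κ3) / θ 1 = 1) :
    Slo (fA 0 κ3 kf) (fB θ 0 κ3 kf) κ3 (θ 2 / θ 1) where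
  a0 := by simp [fA, sA, nL]
  a1 := by simp [fA, sA, nL]
  a2 := by simp [fA, sA, nL]
  a3 := by simpa [fA, sA, nL] using hf
  a4 := by simp [fA, sA, nL]
  a5 := by simp [fA, sA, nL]
  a6 := by simp [fA, sA, nL]
  a7 := by simp [fA, sA, nL]
  a8 := by simp [fA, sA, nL]
  a9 := by simp [fA, sA, nL]
  a10 := by simp [fA, sA, nL]
  b0 := by simp [fB, sB, nL]
  b2 := by simp [fB, sB, nL]
  b4 := by simp [fB, sB, nL, hτ]
  b5 := by simp [fB, sB, nL]
  b6 := by simp [fB, sB, nL]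
  b7 := by simp [fB, sB, nL, hτ]
  b8 := by simp [fB, sB, nL]
  b9 := by simp [fB, sB, nL]
  b10 := by simp [fB, sB, nL, hτ]

/-- **the facts of a point of the row** -/
theorem lf_of_row (P : RowPt B I I1 co θ w0 R ν V T (s0 w0 (R - 1)) (fA 0 κ3 kf)
      (fB θ 0 κ3 kf) ξ x h' lam A φ r)
    (Hm : Hom (s0 w0 (R - 1)) (fA 0 κ3 kf) (fB θ 0 κ3 kf) φ)
    (hcone : coneM (actM monQ (s0 w0 (R - 1)) (fA 0 κ3 kf) (fB θ 0 κ3 kf)) = coneF)
    (g1 : RecS θ w0 R ν (eCa 1) q1) (g2 : RecS θ w0 R ν (eECb 1) q2) (hq1 : 0 < q1)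
    (hq2 : 0 < q2) (hκ : 0 < κ3) (hf : 0 < kf) (h1 : 0 < θ 1) (hκ3 : κ3 = θ 1 - θ 0)
    (h12 : θ 2 ≠ θ 1) (hV : ∀ k, V k → fB θ 0 κ3 kf k = 0 → k = 4) :
    LF lam (fA 0 κ3 kf) (fB θ 0 κ3 kf) A φ r κ3 (θ 2 / θ 1) q1 q2 := by
  have hτ : (θ 0 + κ3) / θ 1 = 1 := by
    rw [hκ3, div_eq_one_iff_eq h1.ne']; ring
  have sl := slo_row (θ := θ) hf.le hτ
  have cz : ∀ {k : Fin 11}, k ≠ 1 → fA 0 κ3 kf k = 0 → k = 2 ∨ k = 5 ∨ k = 6 := by
    intro k hk1 hk
    have e3 : fA 0 κ3 kf 3 = kf := by simp [fA]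
    fin_cases k
    · simp [sl.a0] at hk
    · exact absurd rfl hk1
    · simp
    · simp [e3] at hk; exact absurd hk hf.ne'
    · simp [sl.a4] at hk; exact absurd hk hκ.ne'
    · simp
    · simp
    · simp [sl.a7] at hk; exact absurd hk hκ.ne'
    · simp [sl.a8] at hk
    · simp [sl.a9] at hk
    · simp [sl.a10] at hk; linarith
  exact
    { κ0 := hκ
      σ1 := fun h => h12 (by rwa [div_eq_one_iff_eq h1.ne'] at h)
      q1p := hq1
      q2p := hq2
      sl := sl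
      out := by have := P.out; rwa [hcone] at this
      hom := fun k hk c hc s hs => Hm k hk c (by rw [hcone]; exact hc) s hs
      zero := P.aew.zero
      anti := fun c hc c' hc' => P.aew.anti c (by rw [hcone]; exact hc) c'
        (by rw [hcone]; exact hc')
      sharp := fun c hc c' hc' => P.aew.sharp c (by rw [hcone]; exact hc) c'
        (by rw [hcone]; exact hc')
      own := fun c hc c' hc' hcc h4 => by
        have := P.aew.own c (by rw [hcone]; exact hc) c' (by rw [hcone]; exact hc') hcc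
          (fun k hk => by
            have hk4 := hV k hk.1 hk.2
            subst hk4
            have e4 : oS θ 4 = κ3 := by rw [Tb628.oS_eq, hκ3]; simp
            rw [e4]
            exact h4)
        linarith
      S1 := fun c hc y hy hcy e2 e6 => by
        refine P.S1 sl.a5 sl.b5 g1 (by rw [hcone]; exact hc) hy (by rw [hcone]; exact hcy)
          fun k hk1 hk => ?_
        rcases cz hk1 hk with rfl | rfl | rfl
        · rw [sl.b2]; exact e2
        · rw [sl.b5, one_mul]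
        · rw [sl.b6]; exact e6
      S2 := fun c hc τ y hy hcy e5 e2 e6 => by
        refine P.S2 sl.a2 sl.a6 g2 (by rw [hcone]; exact hc) (τ := τ) hy
          (by rw [hcone]; exact hcy) (fun k hk1 hk => ?_) (by rw [sl.b2]; exact e2)
          (by rw [sl.b6]; exact e6)
        rcases cz hk1 hk with rfl | rfl | rfl
        · rw [sl.b2]; exact e2.le
        · rw [sl.b5, one_mul]; exact e5
        · rw [sl.b6]; exact e6.le }

end row

/-- the slack of row C1 from the weak slope bound of `J1c` -/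
theorem hsl_weak {q0 q2 g η t0 t1 t2 : ℝ} (hη : η ≤ 1 / 8) (hg : 0 < g) (h0 : 0 ≤ q0)
    (h2 : 0 ≤ q2)
    (hb : q2 * max (t1 - t2) 0 + q0 * (max (-t0) 0 + |t1| + |t2|) ≤ η * g) :
    q2 * 0 + q0 * (t1 - t0) < g := by
  have e1 : t1 - t0 ≤ max (-t0) 0 + |t1| + |t2| := by
    have := le_max_left (-t0) 0
    have := le_abs_self t1
    have := abs_nonneg t2
    linarith
  have e2 : 0 ≤ q2 * max (t1 - t2) 0 := mul_nonneg h2 (le_max_right _ _)
  have e3 := mul_le_mul_of_nonneg_left e1 h0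
  have e4 : η * g ≤ 1 / 8 * g := mul_le_mul_of_nonneg_right hη hg.le
  linarith

/-- **(C1)** : the wide width free, 31 dominates -/
theorem caseC1 {η : ℝ} (hη : η ≤ 1 / 8) : TopB550.DeadG η TopB550.pC1 := by
  intro p D I1 π eE gA gB V T w0 R T0 PD ν own c₀ h hp hg
  obtain ⟨h2, h4, h12, hls⟩ := hp
  have ok := h.tp.ok
  have sl := h.tp.slots
  have hη0 := ok.η_pos
  have hθ1 := ok.θ1
  have hκ : 0 < p.θ 1 - p.θ 0 := by
    have := (sl.vis 4 h4).2
    simpa [Crest.Agent.R136.Wq638.btQ] using this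
  have T4 : T 4 := by
    by_contra hc
    exact h2 (sl.cap 4 h4 hc).2.1
  have hne : p.θ 2 ≠ p.θ 1 := by
    rcases h12 with h | ⟨-, h⟩
    · exact h.ne
    · exact h.ne'
  obtain ⟨kf, hf0, hf1, hf3⟩ : ∃ kf : ℝ, 0 < kf ∧ kf < p.θ 1 - p.θ 0 ∧
      (V 3 → p.θ 2 - p.θ 0 < kf) := by
    by_cases h3 : V 3
    · have h32 : 0 < p.θ 2 - p.θ 0 := by
        have := (sl.vis 3 h3).2
        simpa [Crest.Agent.R136.Wq638.btQ] using this
      have hlt : p.θ 2 < p.θ 1 := by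
        rcases h12 with h | ⟨h, -⟩
        · exact h
        · exact absurd h3 h
      exact ⟨(p.θ 1 - p.θ 0 + (p.θ 2 - p.θ 0)) / 2, by linarith, by linarith,
        fun _ => by linarith⟩
    · exact ⟨(p.θ 1 - p.θ 0) / 2, by linarith, by linarith, fun h => absurd h h3⟩
  refine Tb628.row_F0 (κ := 0) (κ3 := p.θ 1 - p.θ 0) (kf := kf) h hη0 le_rfl hκ.le hf0.le
    (by linarith) (Or.inl rfl) (hg.imp Ne.symm id)
    (by
      first
        | exact Tb628.hsl_sub ok hη (i := 0) (j := 0) (k := 1) (l := 0) (by simp) (le_abs_self _)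
        | exact hsl_weak hη ok.g0.1 ok.q0.1 ok.q2.1.le ok.θb)
    (fun h => absurd h h2) (fun h3 => (hf3 h3).le) (fun _ => le_rfl) ?_
  intro g1 g2 hcone ξ x h' lam A φ r P Hm
  have hτ : (p.θ 0 + (p.θ 1 - p.θ 0)) / p.θ 1 = 1 := by
    rw [div_eq_one_iff_eq hθ1.ne']; ring
  have hM := maC_act (θ := p.θ) (w0 := w0) (R := R) hf1 (by rw [hτ]; norm_num) hcone
  have hV : ∀ k, V k → fB p.θ 0 (p.θ 1 - p.θ 0) kf k = 0 → k = 4 := by
    intro k hk hb
    rcases (sl.vis k hk).1 with rfl | rfl | rfl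
    · exact absurd hk h2
    · rw [Tb628.fB_three, div_eq_zero_iff, or_iff_left hθ1.ne'] at hb
      have := hf3 hk
      linarith
    · rfl
  have hLF := lf_of_row P Hm hcone (g1 hne.symm) g2 ok.g0.2 ok.q2.1 hκ hf0 hθ1 rfl hne hV
  have hco : ∀ n, ∀ i ∈ D.I n, ∀ j ∈ D.I n,
      couQ D.B D.lev D.w w0 (incQ π D.L eE gA gB) n i j =
        coQ (scl (uH D.B D.lev w0 n) (uA D.B D.lev D.w w0 n) (uB D.B D.lev D.w w0 n)
          (uY D.B D.lev D.w w0 n) (incQ π D.L eE gA gB n i))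
          (scl (uH D.B D.lev w0 n) (uA D.B D.lev D.w w0 n) (uB D.B D.lev D.w w0 n)
          (uY D.B D.lev D.w w0 n) (incQ π D.L eE gA gB n j)) := fun _ _ _ _ _ => rfl
  have hb4 : fB p.θ 0 (p.θ 1 - p.θ 0) kf 4 = 0 := hLF.sl.b4
  have hne' := h.ext.ne
  have key := hLF.fhalf (fun hc => hls ⟨hc.1, by
      have := hc.2
      rw [div_eq_iff hθ1.ne'] at this
      linarith⟩) one_pos
    (w0h P.aew zero_le_two hco hne' hM one_pos fun k hk => Or.inr (hV k hk.1 hk.2))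
    (w1h1 P.aew zero_le_two hco hne' hM one_pos (fun k hk => Or.inr (hV k hk.1 hk.2))
      ⟨T4, hb4⟩ hLF.sl hκ)
    (fun hσ => w1h2 P.aew zero_le_two hco hne' hM one_pos
      (fun k hk => Or.inr (hV k hk.1 hk.2)) ⟨T4, hb4⟩ hLF.sl hκ hσ)
  linarith

end Crest.Agent.R136.C1865
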