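import Crest.Agent.R136.CD5_366

/-!
# R136, case C1* (mirrored lightlike), part A (helper940)

366's K3core without the hypothesis on sloped strips: `K3w`, `no_flat_w`, `no_strip_w`, `K3core_w`.
The absence of sloped strips is a hypothesis `hsl` (it comes from the walk lemma `mirror`).
The proofs are those of `CD3_366`, `CD5_366`.
-/

set_option autoImplicit false
set_option linter.unusedVariables false
set_option linter.unusedSectionVars false

open Filter Topology Finset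

namespace Crest.Agent.R136.C1s940

open Crest.Agent.R138.Ex926 (Base U exists_tendsto)
open Crest.Agent.R138.TwC501 (root_lin root_sq)
open Crest.Agent.R136.Gf356
open Crest.Agent.R136.CD366
open Crest.Agent.R136.Rg0_501 (bpr markov_compl)
open Crest.Agent.R136.Rg1_501 (few_bad' few_common_mesh)

variable {κ : Type} [DecidableEq κ] {B : Base} {G : ℕ → RCfg κ} {Leg : Set (κ → ℝ)}
  {ν : (κ → ℝ) → ℝ} {σ R D : ℝ} {Fz : Finset κ} {sN sP sX sC : κ} {f : ℕ → ℕ → ℝ}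
  {R0 C1 a c : ℝ}

/-- the data of 366's `K3` without the field `h1` (sloped strips) -/
structure K3w (B : Base) (G : ℕ → RCfg κ) (Leg : Set (κ → ℝ)) (ν : (κ → ℝ) → ℝ) (Fz : Finset κ)
    (sN sP sX sC : κ) (f : ℕ → ℕ → ℝ) (R0 C1 a c : ℝ) : Prop where
  R0_pos : 0 < R0
  C1_one : 1 ≤ C1
  c_pos : 0 < c
  NP : sN ≠ sP
  NX : sN ≠ sX
  NC : sN ≠ sC
  PX : sP ≠ sX
  PC : sP ≠ sC
  XC : sX ≠ sC
  leg : ∀ y n p x c' : ℝ, 0 ≤ y → y ≤ R0 → 0 ≤ n → n ≤ y → 0 ≤ p → p ≤ y → 0 ≤ x → x ≤ y →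
    0 ≤ c' → c' ≤ y → bx Fz sN sP sX sC y n p x c' ∈ Leg
  bd : ∀ᶠ n in (U : Filter ℕ), ∀ k ∈ (G n).Z, |(G n).z k| ≤ 1 ∧ |f n k| ≤ 1
  ev : ∀ y : ℝ, 0 ≤ y → y ≤ R0 → ∀ ε : ℝ, 0 < ε → ∀ᶠ n in (U : Filter ℕ), ∀ k₀ k i i',
    (i, k₀) ∈ (G n).I → (i', k₀) ∈ (G n).I → (i, k) ∈ (G n).I → (i', k) ∈ (G n).I →
    (G n).loose (bx Fz sN sP sX sC y 0 0 0 0) ε k₀ i i' →
    (G n).loose (bx Fz sN sP sX sC y 0 0 0 0) (C1 * ε) k i i' ∧
    |(G n).rel k i i' sN - ((G n).rel k₀ i i' sN + ((G n).z k - (G n).z k₀) * (G n).rel k₀ i i' sP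
      - (f n k - f n k₀) * ((G n).rel k₀ i i' sX +
        ((G n).z k - (G n).z k₀) * (G n).rel k₀ i i' sC))| ≤ B.d n ^ (y - C1 * ε)
  hN : ∀ y : ℝ, 0 ≤ y → y ≤ R0 → ν (bx Fz sN sP sX sC y 0 0 0 0) -
    ν (bx Fz sN sP sX sC y y 0 0 0) ≤ a * y
  h2 : ∀ y t : ℝ, 0 ≤ t → t ≤ y → y ≤ R0 → (a + c) * t ≤ ν (bx Fz sN sP sX sC y 0 0 0 0) -
    ν (bx Fz sN sP sX sC y t t 0 0)
  h3 : ∀ t : ℝ, 0 ≤ t → t ≤ R0 → (a + c) * t ≤ ν (bx Fz sN sP sX sC R0 R0 0 0 R0) -
    ν (bx Fz sN sP sX sC R0 R0 t t R0)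

theorem K3w.a_nonneg (H : RModel B G σ R Leg ν D) (K : K3w B G Leg ν Fz sN sP sX sC f R0 C1 a c) :
    0 ≤ a := by
  have hR := K.R0_pos
  have h1 := K.hN R0 hR.le le_rfl
  have h2 := H.nu_anti (p := bx Fz sN sP sX sC R0 0 0 0 0) (p' := bx Fz sN sP sX sC R0 R0 0 0 0)
    (K.leg R0 0 0 0 0 hR.le le_rfl le_rfl hR.le le_rfl hR.le le_rfl hR.le le_rfl hR.le)
    (K.leg R0 R0 0 0 0 hR.le le_rfl hR.le le_rfl le_rfl hR.le le_rfl hR.le le_rfl hR.le)
    (fun s => bx_mono le_rfl hR.le le_rfl le_rfl le_rfl s)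
  by_contra hcon
  push Not at hcon
  have : a * R0 < 0 := mul_neg_of_neg_of_pos hcon hR
  linarith

open Classical in
set_option maxHeartbeats 1600000 in
/-- **flat strips**: the slope function is not constant up to `ρ^y` on a set of heights of
portion `ρ^(η y)` -/
theorem no_flat_w (H : RModel B G σ R Leg ν D)
    (K : K3w B G Leg ν Fz sN sP sX sC f R0 C1 a c) (hR0 : R0 ≤ R) (ha : a < σ) :
    ∃ η₂ : ℝ, 0 < η₂ ∧ ∀ y, 0 < y → y ≤ R0 → ¬ ∀ᶠ n in (U : Filter ℕ), ∃ Z' ⊆ (G n).Z,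
      Z'.Nonempty ∧ B.d n ^ (η₂ * y) * ((G n).Z.card : ℝ) ≤ Z'.card ∧
      ∀ k ∈ Z', ∀ k' ∈ Z', |f n k' - f n k| ≤ B.d n ^ y := by
  have ha0 := K.a_nonneg H
  have hD := H.D1
  have hD0 : 0 < D := by linarith
  have hC1 := K.C1_one
  have hC10 : 0 < C1 := by linarith
  have hc := K.c_pos
  obtain ⟨J, hJ⟩ : ∃ J : ℕ, 4 / min (σ - a) c + 1 < J := exists_nat_gt _
  have hμ0 : 0 < min (σ - a) c := lt_min (by linarith) hc
  have hJ4 : 4 < min (σ - a) c * ((J : ℝ) - 1) := by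
    have : 4 / min (σ - a) c < (J : ℝ) - 1 := by linarith
    rwa [div_lt_iff₀ hμ0, mul_comm] at this
  have hJ0 : (0 : ℝ) < (J : ℝ) + 1 := by positivity
  -- total constant
  set A : ℝ := C1 * D ^ 7 + 1 with hA
  have hA1 : 1 ≤ A := by
    rw [hA]
    have : 0 ≤ C1 * D ^ 7 := by positivity
    linarith
  set Ct : ℝ := (D ^ 2 + 1) * (C1 * D ^ 2) + D * D ^ 2 + 2 + 2 * D + 12 with hCt
  have hCt0 : 0 < Ct := by positivity
  set W : ℝ := ((J : ℝ) + 1) * (Ct + 4 * A) with hW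
  have hW0 : 0 < W := by positivity
  refine ⟨1 / W, by positivity, fun y hy hyR Hy => ?_⟩
  set hh : ℝ := y / ((J : ℝ) + 1) with hhh
  have hh0 : 0 < hh := by positivity
  have hyh : ((J : ℝ) + 1) * hh = y := by rw [hhh]; field_simp
  set ε : ℝ := hh / (Ct + 4 * A) with hε
  have hε0 : 0 < ε := by positivity
  have hεy : 1 / W * y = ε := by
    rw [hε, hhh, hW]; field_simp
  rw [hεy] at Hy
  have hεh : (Ct + 4 * A) * ε = hh := by rw [hε]; field_simp
  have hε1 : Ct * ε ≤ hh := by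
    have : 0 ≤ 4 * A * ε := by positivity
    nlinarith
  have hε2 : 4 * A * ε ≤ hh := by
    have : 0 ≤ Ct * ε := by positivity
    nlinarith
  clear_value ε hh
  have hyy : (0 : ℝ) ≤ y := hy.le
  have hxj : ∀ j ≤ J, (0 : ℝ) ≤ (j : ℝ) * hh ∧ (j : ℝ) * hh ≤ y := by
    intro j hj
    have h1 : (j : ℝ) ≤ J := by exact_mod_cast hj
    refine ⟨by positivity, ?_⟩
    rw [← hyh]
    nlinarith
  set p0 : κ → ℝ := bx Fz sN sP sX sC y 0 0 0 0 with hp0
  have hp0L : p0 ∈ Leg := K.leg y 0 0 0 0 hyy hyR le_rfl hyy le_rfl hyy le_rfl hyy le_rfl hyy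
  have hD2ε : 0 < D ^ 2 * ε := by positivity
  refine kauf_contra H p0 p0 (bx Fz sN sP sX sC y y 0 0 0) hp0L hp0L
    (K.leg y y 0 0 0 hyy hyR hyy le_rfl le_rfl hyy le_rfl hyy le_rfl hyy)
    (fun s => bx_mono le_rfl hyy le_rfl le_rfl le_rfl s) J
    (fun j => bx Fz sN sP sX sC y ((j : ℝ) * hh) ((j : ℝ) * hh) 0 0)
    (fun j hj => K.leg y _ _ 0 0 hyy hyR (hxj j hj).1 (hxj j hj).2 (hxj j hj).1 (hxj j hj).2
      le_rfl hyy le_rfl hyy) (a := a) (c := c) (τ := σ) (hh := hh) (CT := C1 * D ^ 2)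
    (CN := D ^ 2) (Cb := 2) (CD := D ^ 2) (ε := ε) ha0 ha H.σ_le hc hJ4 hh0 (by positivity)
    (by positivity) (by norm_num) hε0 hε1 (by rw [hyh]; exact K.hN y hyy hyR)
    (fun j hj => K.h2 y _ (hxj j hj).1 (hxj j hj).2 hyR)
    (fun n k₀ i i' => max |(G n).rel k₀ i i' sN| |(G n).rel k₀ i i' sP|) ?_
  have hN1 : ((J + 1 : ℕ) : ℝ) * hh ≤ R := by push_cast; rw [hyh]; exact hyR.trans hR0
  filter_upwards [Hy, frost_set H hh0 hN1 hε0, box_pair H.toRUnif p0 hp0L hε0,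
    K.ev y hyy hyR (D ^ 2 * ε) hD2ε, ev_const_le B hε0 5, ev_const_le B (half_pos hh0) 8,
    K.bd, ev_const_le B (half_pos hh0) 2] with n hZ hn hpair hev hc5 hc8 hbd hc2
  have hpow : ∀ t : ℝ, 0 < B.d n ^ t := fun t => rpos B n t
  obtain ⟨Z', hZ', hne, hcard, hf⟩ := hZ
  refine ⟨Z', hZ', hne, fun k₀ hk₀' => ⟨Z', subset_rfl, ?_, ?_⟩⟩
  · rw [Finset.sdiff_self, card_empty, Nat.cast_zero]
    have := hpow ((D + 5) * ε)
    positivity
  have hk₀ := hZ' hk₀'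
  intro i₀ hi₀
  have hI0 := H.memSlice.1 hi₀
  have hS : ∀ i ∈ (G n).box p0 ε i₀ k₀, (i, k₀) ∈ (G n).I := fun i hi =>
    H.memSlice.1 (RCfg.box_subset_slice hi)
  have hSS : ∀ i ∈ (G n).box p0 ε i₀ k₀, ∀ i' ∈ (G n).box p0 ε i₀ k₀,
      (G n).loose p0 (D ^ 2 * ε) k₀ i i' := fun i hi i' hi' => hpair k₀ i₀ i i' hI0 hi hi'
  -- bounds of the slots at the pin
  have hslot : ∀ i ∈ (G n).box p0 ε i₀ k₀, ∀ i' ∈ (G n).box p0 ε i₀ k₀, ∀ s : κ, p0 s = 0 →
      |(G n).rel k₀ i i' s| ≤ B.d n ^ (-(D ^ 2 * ε)) := by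
    intro i hi i' hi' s hs
    have := hSS i hi i' hi' s
    rw [H.base n, hs, zero_sub] at this
    exact this
  have q1 : p0 sN = 0 := bx_N
  have q2 : p0 sP = 0 := bx_P K.NP
  have q3 : p0 sX = 0 := bx_X K.NX K.PX
  have q4 : p0 sC = 0 := bx_C K.NC K.PC K.XC
  refine ⟨?_, ?_, ?_, ?_⟩
  · intro i hi i' hi'
    exact max_le (hslot i hi i' hi' sN q1) (hslot i hi i' hi' sP q2)
  · intro j hj i hi i' hi' hd s
    have h1 := hSS i hi i' hi' s
    rw [max_le_iff] at hd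
    by_cases hsN : s = sN
    · subst hsN
      rw [bx_N, H.base n]
      exact hd.1
    · by_cases hsP : s = sP
      · subst hsP
        rw [bx_P K.NP, H.base n]
        exact hd.2
      · refine h1.trans (le_of_eq ?_)
        simp only [hp0, bx, if_neg hsN, if_neg hsP]
  · intro k hk i hi i' hi' hIk hIk'
    have := (hev k₀ k i i' (hS i hi) (hS i' hi') hIk hIk' (hSS i hi i' hi')).1
    refine H.loose_mono (fun _ => le_rfl) (le_of_eq ?_) this
    ring
  · intro j hj i hi i' hi' hd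
    have hjJ : ((J - 1 - j : ℕ) : ℝ) = (J : ℝ) - 1 - j := castJ hj
    set T := Z'.filter fun k => (i, k) ∈ (G n).I ∧ (i', k) ∈ (G n).I ∧
      (G n).loose (bx Fz sN sP sX sC y y 0 0 0) (D ^ 5 * (C1 * D ^ 2 * ε)) k i i' with hT
    have e57 : D ^ 5 * (C1 * D ^ 2 * ε) = C1 * D ^ 7 * ε := by ring
    have hA1ε : C1 * (D ^ 2 * ε) ≤ C1 * D ^ 7 * ε := by
      have : D ^ 2 ≤ D ^ 7 := pow_le_pow_right₀ hD (by norm_num)
      have h1 : D ^ 2 * ε ≤ D ^ 7 * ε := mul_le_mul_of_nonneg_right this hε0.le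
      calc C1 * (D ^ 2 * ε) ≤ C1 * (D ^ 7 * ε) := mul_le_mul_of_nonneg_left h1 hC10.le
        _ = _ := by ring
    have hA2ε : D ^ 2 * ε ≤ C1 * D ^ 7 * ε := by
      refine le_trans ?_ hA1ε
      have : 1 * (D ^ 2 * ε) ≤ C1 * (D ^ 2 * ε) := mul_le_mul_of_nonneg_right hC1 hD2ε.le
      linarith
    -- the root condition
    have hgen : ∀ k ∈ T, |(G n).rel k₀ i i' sN + ((G n).z k - (G n).z k₀) *
        (G n).rel k₀ i i' sP| ≤ B.d n ^ (y - A * ε) := by
      intro k hk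
      rw [hT, mem_filter, e57] at hk
      obtain ⟨hkZ, hIk, hIk', hl⟩ := hk
      have g1 := (hev k₀ k i i' (hS i hi) (hS i' hi') hIk hIk' (hSS i hi i' hi')).2
      have g2 := hl sN
      rw [bx_N, H.base n] at g2
      have g3 := hf k₀ hk₀' k hkZ
      have hu : |(G n).z k - (G n).z k₀| ≤ 2 := by
        refine (abs_sub _ _).trans ?_
        have := (hbd k (hZ' hkZ)).1; have := (hbd k₀ hk₀).1; linarith
      have gX := hslot i hi i' hi' sX q3
      have gC := hslot i hi i' hi' sC q4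
      set b := B.d n ^ (y - C1 * D ^ 7 * ε) with hb
      have hb0 : 0 < b := hpow _
      have k1 : B.d n ^ (y - C1 * (D ^ 2 * ε)) ≤ b := rpow_anti B n (by linarith)
      have k2 : B.d n ^ y * B.d n ^ (-(D ^ 2 * ε)) ≤ b := by
        rw [← rpow_add']
        exact rpow_anti B n (by linarith)
      have k3 : |(f n k - f n k₀) * ((G n).rel k₀ i i' sX +
          ((G n).z k - (G n).z k₀) * (G n).rel k₀ i i' sC)| ≤ 3 * b := by
        have hE0 := hpow (-(D ^ 2 * ε))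
        have m1 : |(G n).rel k₀ i i' sX + ((G n).z k - (G n).z k₀) * (G n).rel k₀ i i' sC| ≤
            3 * B.d n ^ (-(D ^ 2 * ε)) := by
          refine (abs_add_le _ _).trans ?_
          rw [abs_mul]
          have : |(G n).z k - (G n).z k₀| * |(G n).rel k₀ i i' sC| ≤
              2 * B.d n ^ (-(D ^ 2 * ε)) := mul_le_mul hu gC (abs_nonneg _) (by norm_num)
          linarith
        rw [abs_mul]
        calc |f n k - f n k₀| * |(G n).rel k₀ i i' sX +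
              ((G n).z k - (G n).z k₀) * (G n).rel k₀ i i' sC|
            ≤ B.d n ^ y * (3 * B.d n ^ (-(D ^ 2 * ε))) :=
              mul_le_mul g3 m1 (abs_nonneg _) (hpow _).le
          _ = 3 * (B.d n ^ y * B.d n ^ (-(D ^ 2 * ε))) := by ring
          _ ≤ 3 * b := by linarith
      have k4 : |(G n).rel k₀ i i' sN + ((G n).z k - (G n).z k₀) *
          (G n).rel k₀ i i' sP| ≤ 5 * b := by
        have m1 := abs_le.1 (g1.trans k1)
        have m2 := abs_le.1 g2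
        have m3 := abs_le.1 k3
        rw [abs_le]
        constructor <;> linarith [m1.1, m1.2, m2.1, m2.2, m3.1, m3.2]
      refine k4.trans (absorb B ?_)
      have e : -(y - C1 * D ^ 7 * ε - (y - A * ε)) = -ε := by rw [hA]; ring
      rw [e]
      exact hc5
    have hTZ : T ⊆ (G n).Z := (filter_subset _ _).trans hZ'
    have hclose : ∀ k ∈ T, ∀ k' ∈ T, |(G n).z k' - (G n).z k| ≤
        B.d n ^ (((J - 1 - j : ℕ) : ℝ) * hh) := by
      intro k hk k' hk'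
      have g1 := hgen k hk
      have g2 := hgen k' hk'
      have hu : |(G n).z k' - (G n).z k₀| ≤ 2 := by
        refine (abs_sub _ _).trans ?_
        have := (hbd k' (hTZ hk')).1; have := (hbd k₀ hk₀).1; linarith
      have h2w : 2 * B.d n ^ (y - A * ε) ≤ B.d n ^ (((j + 1 : ℕ) : ℝ) * hh - D ^ 2 * ε) := by
        refine absorb B (hc2.trans (rpow_anti B n ?_))
        push_cast
        have h1 : (j : ℝ) + 1 ≤ J := by
          have : j + 1 ≤ J := hj
          exact_mod_cast this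
        have h2 : ((j : ℝ) + 1) * hh ≤ (J : ℝ) * hh := mul_le_mul_of_nonneg_right h1 hh0.le
        have h3 : 0 ≤ D ^ 2 * ε := hD2ε.le
        nlinarith
      have g3 := root_lin g2 g1 hu hd h2w
      have g4 : ((G n).z k' - (G n).z k₀) - ((G n).z k - (G n).z k₀) =
        (G n).z k' - (G n).z k := by ring
      rw [g4] at g3
      refine le_div_pow B n g3 (hc8.trans (rpow_anti B n ?_))
      push_cast
      rw [hjJ]
      have h3 : 0 ≤ D ^ 2 * ε := hD2ε.le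
      nlinarith
    have hTc := hn (J - 1 - j) (by simp; omega) T hTZ hclose
    refine hTc.trans ?_
    have e1 : B.d n ^ (σ * (((J - 1 - j : ℕ) : ℝ) * hh) - ε) =
        B.d n ^ (σ * (((J - 1 - j : ℕ) : ℝ) * hh) - 2 * ε) * B.d n ^ ε := by
      rw [← rpow_add']; congr 1; ring
    rw [e1, mul_assoc]
    exact mul_le_mul_of_nonneg_left hcard (hpow _).le

open Classical in
/-- no heavy strips of power width -/
theorem no_strip_w (H : RModel B G σ R Leg ν D)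
    (K : K3w B G Leg ν Fz sN sP sX sC f R0 C1 a c) (hR0 : R0 ≤ R) (ha : a < σ)
    (hsl : ∃ η₁ : ℝ, 0 < η₁ ∧ ∀ y, 0 < y → y ≤ R0 → ¬ ∀ᶠ n in (U : Filter ℕ), ∃ Z' ⊆ (G n).Z,
      Z'.Nonempty ∧ B.d n ^ (η₁ * y) * ((G n).Z.card : ℝ) ≤ Z'.card ∧
      ∃ μ : ℝ, B.d n ^ (η₁ * y) ≤ |μ| ∧
      ∀ k ∈ Z', ∀ k' ∈ Z', |f n k' - f n k - μ * ((G n).z k' - (G n).z k)| ≤
        2 * B.d n ^ y) :
    ∃ η : ℝ, 0 < η ∧ ∀ Y0 Y1 : ℝ, 0 < Y0 → Y1 ≤ R0 → ¬ ∀ᶠ n in (U : Filter ℕ),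
      ∃ w : ℝ, B.d n ^ Y1 ≤ w ∧ w ≤ B.d n ^ Y0 ∧ ∃ k₁ ∈ (G n).Z, ∃ μ : ℝ,
        w ^ η * ((G n).Z.card : ℝ) ≤
          (((G n).Z.filter fun k => |f n k - f n k₁ - μ * ((G n).z k - (G n).z k₁)| ≤
            w).card : ℝ) := by
  obtain ⟨η₁, hη₁, H1⟩ := hsl
  obtain ⟨η₂, hη₂, H2⟩ := no_flat_w H K hR0 ha
  set e1 : ℝ := min η₁ 1 with he1
  have he10 : 0 < e1 := lt_min hη₁ one_pos
  have he1η : e1 ≤ η₁ := min_le_left _ _
  have he11 : e1 ≤ 1 := min_le_right _ _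
  refine ⟨min (e1 / 2) (e1 * η₂ / 4), lt_min (by positivity) (by positivity), ?_⟩
  set η : ℝ := min (e1 / 2) (e1 * η₂ / 4) with hη
  have hη0 : 0 < η := lt_min (by positivity) (by positivity)
  have hηa : η ≤ e1 / 2 := min_le_left _ _
  have hηb : η ≤ e1 * η₂ / 4 := min_le_right _ _
  intro Y0 Y1 hY0 hY1 Hy
  obtain ⟨w, hw⟩ := Hy.choice
  -- exponent of the width
  have hlog : ∀ n, Real.log (B.d n) < 0 := fun n => Real.log_neg (B.pos n) (B.lt n)
  have hv : ∀ᶠ n in (U : Filter ℕ), Y0 ≤ Real.log (w n) / Real.log (B.d n) ∧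
      Real.log (w n) / Real.log (B.d n) ≤ Y1 := by
    filter_upwards [hw] with n hn
    have hw0 : 0 < w n := (rpos B n _).trans_le hn.1
    have g1 := Real.log_le_log (rpos B n _) hn.1
    have g2 := Real.log_le_log hw0 hn.2.1
    rw [Real.log_rpow (B.pos n)] at g1 g2
    constructor
    · rw [le_div_iff_of_neg (hlog n)]; exact g2
    · rw [div_le_iff_of_neg (hlog n)]; exact g1
  obtain ⟨v, hvt, -⟩ := exists_tendsto (f := fun n => Real.log (w n) / Real.log (B.d n))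
    (C := |Y1|) (by
      filter_upwards [hv] with n hn
      rw [abs_of_nonneg (hY0.le.trans hn.1)]
      exact hn.2.trans (le_abs_self _))
  have hv0 : Y0 ≤ v := ge_of_tendsto hvt (hv.mono fun n hn => hn.1)
  have hv1 : v ≤ Y1 := le_of_tendsto hvt (hv.mono fun n hn => hn.2)
  have hvpos : 0 < v := hY0.trans_le hv0
  set y : ℝ := 3 / 4 * v with hy
  have hypos : 0 < y := by positivity
  have hyR : y ≤ R0 := by rw [hy]; linarith
  have hwy : ∀ᶠ n in (U : Filter ℕ), w n ≤ B.d n ^ y ∧ B.d n ^ (3 / 2 * y) ≤ w n := by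
    have h1 : ∀ᶠ n in (U : Filter ℕ), |Real.log (w n) / Real.log (B.d n) - v| < v / 8 := by
      have := (Metric.tendsto_nhds.1 hvt) (v / 8) (by positivity)
      simpa [Real.dist_eq] using this
    filter_upwards [h1, hw] with n hn hwn
    have hw0 : 0 < w n := (rpos B n _).trans_le hwn.1
    have e2 : w n = B.d n ^ (Real.log (w n) / Real.log (B.d n)) := by
      rw [Real.rpow_def_of_pos (B.pos n), mul_div_cancel₀ _ (hlog n).ne, Real.exp_log hw0]
    rw [abs_lt] at hn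
    rw [e2]
    constructor
    · exact rpow_anti B n (by rw [hy]; linarith [hn.1])
    · exact rpow_anti B n (by rw [hy]; linarith [hn.2])
  clear_value y
  have hn1 := Ultrafilter.eventually_not.2 (H1 y hypos hyR)
  have hn2 := Ultrafilter.eventually_not.2 (H2 (e1 * y / 2) (by positivity) (by nlinarith))
  obtain ⟨n, hwn, hwyn, hN1, hN2, hc4, hbd⟩ := (hw.and (hwy.and (hn1.and (hn2.and
    ((ev_small B (show 0 < e1 * y / 2 by positivity) 4).and K.bd))))).exists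
  obtain ⟨hw1, hw2, k₁, hk₁, μ, hμ⟩ := hwn
  have hw0 : 0 < w n := (rpos B n _).trans_le hw1
  set Z' := (G n).Z.filter fun k => |f n k - f n k₁ - μ * ((G n).z k - (G n).z k₁)| ≤ w n
    with hZ'
  have hmem : k₁ ∈ Z' := by
    rw [hZ', mem_filter]
    refine ⟨hk₁, ?_⟩
    simp only [sub_self, mul_zero, abs_zero]
    exact hw0.le
  have hZc : (0 : ℝ) ≤ (G n).Z.card := Nat.cast_nonneg _
  have hmass : B.d n ^ (3 / 2 * y * η) * ((G n).Z.card : ℝ) ≤ Z'.card := by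
    refine le_trans ?_ hμ
    refine mul_le_mul_of_nonneg_right ?_ hZc
    rw [Real.rpow_mul (B.pos n).le]
    exact Real.rpow_le_rpow (rpos B n _).le hwyn.2 hη0.le
  have haff : ∀ k ∈ Z', ∀ k' ∈ Z', |f n k' - f n k - μ * ((G n).z k' - (G n).z k)| ≤
      2 * B.d n ^ y := by
    intro k hk k' hk'
    rw [hZ', mem_filter] at hk hk'
    have g1 := abs_le.1 (hk.2.trans hwyn.1)
    have g2 := abs_le.1 (hk'.2.trans hwyn.1)
    rw [abs_le]
    constructor <;> linarith [g1.1, g1.2, g2.1, g2.2]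
  rcases le_or_gt (B.d n ^ (η₁ * y)) |μ| with hcase | hcase
  · refine hN1 ⟨Z', filter_subset _ _, ⟨k₁, hmem⟩, ?_, μ, hcase, haff⟩
    refine le_trans ?_ hmass
    refine mul_le_mul_of_nonneg_right (rpow_anti B n ?_) hZc
    nlinarith
  · refine hN2 ⟨Z', filter_subset _ _, ⟨k₁, hmem⟩, ?_, ?_⟩
    · refine le_trans ?_ hmass
      refine mul_le_mul_of_nonneg_right (rpow_anti B n ?_) hZc
      have : y * η ≤ y * (e1 * η₂ / 4) := mul_le_mul_of_nonneg_left hηb hypos.le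
      nlinarith
    · intro k hk k' hk'
      have g1 := haff k hk k' hk'
      have hz1 := (hbd k (filter_subset _ _ hk)).1
      have hz2 := (hbd k' (filter_subset _ _ hk')).1
      have g2 : |(G n).z k' - (G n).z k| ≤ 2 := (abs_sub _ _).trans (by linarith)
      have g3 : |μ| ≤ B.d n ^ (e1 * y) := hcase.le.trans (rpow_anti B n (by nlinarith))
      have g4 : B.d n ^ y ≤ B.d n ^ (e1 * y) := rpow_anti B n (by nlinarith)
      have g5 : B.d n ^ (e1 * y) = B.d n ^ (e1 * y / 2) * B.d n ^ (e1 * y / 2) := by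
        rw [← rpow_add']; congr 1; ring
      have g6 := rpos B n (e1 * y / 2)
      calc |f n k' - f n k| = |(f n k' - f n k - μ * ((G n).z k' - (G n).z k)) +
            μ * ((G n).z k' - (G n).z k)| := by ring_nf
        _ ≤ |f n k' - f n k - μ * ((G n).z k' - (G n).z k)| +
            |μ| * |(G n).z k' - (G n).z k| := by rw [← abs_mul]; exact abs_add_le _ _
        _ ≤ 2 * B.d n ^ (e1 * y) + B.d n ^ (e1 * y) * 2 := by
            have g7 := rpos B n (e1 * y)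
            refine add_le_add (by linarith) ?_
            exact mul_le_mul g3 g2 (abs_nonneg _) g7.le
        _ = (4 * B.d n ^ (e1 * y / 2)) * B.d n ^ (e1 * y / 2) := by rw [g5]; ring
        _ ≤ 1 * B.d n ^ (e1 * y / 2) := mul_le_mul_of_nonneg_right hc4 g6.le
        _ = _ := one_mul _

open Classical in
set_option maxHeartbeats 3200000 in
/-- **K3core**, relative models -/
theorem K3core_w (H : RModel B G σ R Leg ν D)
    (K : K3w B G Leg ν Fz sN sP sX sC f R0 C1 a c) (hR0 : R0 ≤ R)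
    (hsl : a < σ → ∃ η₁ : ℝ, 0 < η₁ ∧ ∀ y, 0 < y → y ≤ R0 → ¬ ∀ᶠ n in (U : Filter ℕ), ∃ Z' ⊆ (G n).Z,
      Z'.Nonempty ∧ B.d n ^ (η₁ * y) * ((G n).Z.card : ℝ) ≤ Z'.card ∧
      ∃ μ : ℝ, B.d n ^ (η₁ * y) ≤ |μ| ∧
      ∀ k ∈ Z', ∀ k' ∈ Z', |f n k' - f n k - μ * ((G n).z k' - (G n).z k)| ≤
        2 * B.d n ^ y) : σ ≤ a := by
  by_contra hcon
  push Not at hcon
  have ha0 := K.a_nonneg H
  have hσ0 : 0 < σ := ha0.trans_lt hcon
  have hσ1 := H.σ_le
  have hD := H.D1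
  have hD0 : 0 < D := by linarith
  have hC1 := K.C1_one
  have hC10 : 0 < C1 := by linarith
  have hc := K.c_pos
  have hRp := K.R0_pos
  obtain ⟨η, hη, HS⟩ := no_strip_w H K hR0 hcon (hsl hcon)
  obtain ⟨s, has, hsmin⟩ : ∃ s, a < s ∧ s < min σ (a + c) := exists_between (lt_min hcon (by linarith))
  have hsσ : s < σ := hsmin.trans_le (min_le_left _ _)
  have hsc : s < a + c := hsmin.trans_le (min_le_right _ _)
  have hs0 : 0 < s := ha0.trans_lt has
  have hs1 : s ≤ 1 := (hsσ.trans_le hσ1).le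
  obtain ⟨α, c', hα, hα1, hc'0, hc'10, HB⟩ := few_bad' hσ0 hs0 hsσ hσ1 hη
  -- the mesh
  have hμ0 : 0 < min (s - a) c := lt_min (by linarith) hc
  obtain ⟨J, hJ⟩ : ∃ J : ℕ, 4 / min (s - a) c + 1 < J := exists_nat_gt _
  have hJ4 : 4 < min (s - a) c * ((J : ℝ) - 1) := by
    have : 4 / min (s - a) c < (J : ℝ) - 1 := by linarith
    rwa [div_lt_iff₀ hμ0, mul_comm] at this
  have hJ0 : (0 : ℝ) < (J : ℝ) + 1 := by positivity
  set hh : ℝ := R0 / ((J : ℝ) + 1) with hhh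
  have hh0 : 0 < hh := by positivity
  have hyh : ((J : ℝ) + 1) * hh = R0 := by rw [hhh]; field_simp
  clear_value hh
  set A : ℝ := C1 * D ^ 7 + 1 with hA
  have hA1 : 1 ≤ A := by
    rw [hA]
    have : 0 ≤ C1 * D ^ 7 := by positivity
    linarith
  set Ct : ℝ := (D ^ 2 + 1) * (C1 * D ^ 2) + D * D ^ 2 + 2 + 2 * D + 12 with hCt
  have hCt0 : 0 < Ct := by positivity
  have hσc' : 0 < σ * c' := by positivity
  set E : ℝ := Ct + 8 * A + 16 * (D + 8) / (σ * c') with hE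
  have hE0 : 0 < E := by positivity
  set ε : ℝ := hh / E with hε
  have hε0 : 0 < ε := by positivity
  have hεh : E * ε = hh := by rw [hε]; field_simp
  have hq0 : 0 ≤ 16 * (D + 8) / (σ * c') := by positivity
  have hε1 : Ct * ε ≤ hh := by
    have : 0 ≤ (8 * A + 16 * (D + 8) / (σ * c')) * ε := by positivity
    rw [← hεh, hE]; nlinarith
  have hε2 : 8 * A * ε ≤ hh := by
    have : 0 ≤ (Ct + 16 * (D + 8) / (σ * c')) * ε := by positivity
    rw [← hεh, hE]; nlinarith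
  have hε3 : 16 * (D + 8) * ε ≤ σ * (c' * hh) := by
    have h1 : 16 * (D + 8) / (σ * c') * ε ≤ hh := by
      have : 0 ≤ (Ct + 8 * A) * ε := by positivity
      rw [← hεh, hE]; nlinarith
    have h2 : (σ * c') * (16 * (D + 8) / (σ * c') * ε) = 16 * (D + 8) * ε := by field_simp
    rw [← h2]
    calc (σ * c') * (16 * (D + 8) / (σ * c') * ε) ≤ (σ * c') * hh :=
          mul_le_mul_of_nonneg_left h1 hσc'.le
      _ = _ := by ring
  clear_value ε E
  have hch0 : 0 < c' * hh := by positivity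
  have hch : c' * hh ≤ hh / 10 := by nlinarith
  have hσch : σ * (c' * hh) ≤ c' * hh := by nlinarith
  have hchR : c' * hh ≤ R := by
    have : hh ≤ R0 := by
      rw [← hyh]
      have : 0 ≤ (J : ℝ) * hh := by positivity
      linarith
    linarith
  -- no strips at all scales
  have hno : ∀ᶠ n in (U : Filter ℕ), ¬ ∃ w μ : ℝ, B.d n ^ R0 ≤ w ∧ w ≤ B.d n ^ (α * hh) ∧
      |μ| ≤ B.d n ^ (-(η * R0)) ∧ ∃ k₁ ∈ (G n).Z, w ^ η * ((G n).Z.card : ℝ) ≤
        (((G n).Z.filter fun k => |f n k - f n k₁ - μ * ((G n).z k - (G n).z k₁)| ≤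
          w).card : ℝ) := by
    rw [Ultrafilter.eventually_not]
    intro hcon2
    refine HS (α * hh) R0 (by positivity) le_rfl ?_
    filter_upwards [hcon2] with n hn
    obtain ⟨w, μ, h1, h2, -, k₁, hk₁, h3⟩ := hn
    exact ⟨w, h1, h2, k₁, hk₁, μ, h3⟩
  have hfrZ : ∀ y : ℝ, 0 ≤ y → y ≤ R0 → ∀ ε : ℝ, 0 < ε → ∀ᶠ n in (U : Filter ℕ),
      ∀ k ∈ (G n).Z, ((((G n).Z).filter fun k' => |(G n).z k' - (G n).z k| ≤
        B.d n ^ y).card : ℝ) ≤ B.d n ^ (σ * y - ε) * (((G n).Z).card : ℝ) := by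
    intro y hy0 hyR ε hε
    filter_upwards [H.frost y hy0 (hyR.trans hR0) ε hε] with n hn k hk
    refine le_trans (le_of_eq ?_) (hn k hk)
    unfold RCfg.hbox
    rw [H.base n]
  have hbadAll := HB B (fun n => (G n).Z) (fun n => (G n).z) f R0 hh J hh0 hyh K.bd hfrZ hno
  have hxj : ∀ j ≤ J, (0 : ℝ) ≤ (j : ℝ) * hh ∧ (j : ℝ) * hh ≤ R0 := by
    intro j hj
    have h1 : (j : ℝ) ≤ J := by exact_mod_cast hj
    refine ⟨by positivity, ?_⟩
    rw [← hyh]
    nlinarith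
  have hR0' : (0 : ℝ) ≤ R0 := hRp.le
  set p0 : κ → ℝ := bx Fz sN sP sX sC R0 0 0 0 0 with hp0
  set p1 : κ → ℝ := bx Fz sN sP sX sC R0 R0 0 0 R0 with hp1
  have hp0L : p0 ∈ Leg := K.leg R0 0 0 0 0 hR0' le_rfl le_rfl hR0' le_rfl hR0' le_rfl hR0'
    le_rfl hR0'
  have hp1L : p1 ∈ Leg := K.leg R0 R0 0 0 R0 hR0' le_rfl hR0' le_rfl le_rfl hR0' le_rfl hR0'
    hR0' le_rfl
  have h01 : ∀ s, p0 s ≤ p1 s := fun s => bx_mono le_rfl hR0' le_rfl le_rfl hR0' s
  have hD2ε : 0 < D ^ 2 * ε := by positivity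
  refine kauf_contra H p1 p0 (bx Fz sN sP sX sC R0 R0 0 0 0) hp1L hp0L
    (K.leg R0 R0 0 0 0 hR0' le_rfl hR0' le_rfl le_rfl hR0' le_rfl hR0' le_rfl hR0')
    (fun s => bx_mono le_rfl hR0' le_rfl le_rfl le_rfl s) J
    (fun j => bx Fz sN sP sX sC R0 R0 ((j : ℝ) * hh) ((j : ℝ) * hh) R0)
    (fun j hj => K.leg R0 _ _ _ _ hR0' le_rfl hR0' le_rfl (hxj j hj).1 (hxj j hj).2
      (hxj j hj).1 (hxj j hj).2 hR0' le_rfl) (a := a) (c := c) (τ := s) (hh := hh)
    (CT := C1 * D ^ 2) (CN := D ^ 2) (Cb := 2) (CD := D ^ 2) (ε := ε) ha0 has hs1 hc hJ4 hh0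
    (by positivity) (by positivity) (by norm_num) hε0 hε1
    (by rw [hyh]; exact K.hN R0 hR0' le_rfl)
    (fun j hj => K.h3 _ (hxj j hj).1 (hxj j hj).2)
    (fun n k₀ i i' => max |(G n).rel k₀ i i' sP| |(G n).rel k₀ i i' sX|) ?_
  filter_upwards [hbadAll, H.frost (c' * hh) hch0.le hchR ε hε0,
    box_pair H.toRUnif p1 hp1L hε0, K.ev R0 hR0' le_rfl (D ^ 2 * ε) hD2ε,
    ev_const_le B hε0 8, K.bd, ev_small B (show 0 < c' * hh / 2 by positivity) (2 * (J : ℝ)),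
    ev_small B (half_pos hh0) 16, ev_small B hε0 4,
    ev_small B (show 0 < ε by exact hε0) (4 * (J : ℝ))]
    with n hbad hfr hpair hev hc8 hbd hcJ hc16 hce hceJ
  have hpow : ∀ t : ℝ, 0 < B.d n ^ t := fun t => rpos B n t
  obtain ⟨⟨i1, k1⟩, hI1⟩ := H.nonempty n
  have hZne : (G n).Z.Nonempty := ⟨k1, H.memZ hI1⟩
  have hZpos : (0 : ℝ) < (G n).Z.card := by exact_mod_cast card_pos.2 hZne
  set θ : ℝ := B.d n ^ (c' * hh / 2) with hθ
  have hθ0 : 0 < θ := hpow _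
  set bad : ℕ → Finset (ℕ × ℕ) := fun l =>
    bpr (G n).Z (G n).z (f n) (B.d n ^ (((l + 1 : ℕ) : ℝ) * hh)) c' s with hbaddef
  set Z' := (G n).Z.filter fun k₀ => ∀ l ∈ range J,
    (((G n).Z.filter fun k => (k₀, k) ∈ bad l).card : ℝ) ≤ θ * (G n).Z.card with hZ'
  have hmk0 : (((G n).Z \ Z').card : ℝ) ≤ J * (θ * (G n).Z.card) := by
    have := markov_compl (G n).Z J bad hθ0 hbad
    convert this using 3
  have hmk : ((G n).Z.card : ℝ) ≤ 2 * (Z'.card : ℝ) := by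
    have h1 : (((G n).Z \ Z').card : ℝ) + Z'.card = (G n).Z.card := by
      exact_mod_cast card_sdiff_add_card_eq_card (filter_subset _ _)
    have h2 : (J : ℝ) * (θ * (G n).Z.card) ≤ (G n).Z.card / 2 := by
      have : 2 * (J : ℝ) * θ * (G n).Z.card ≤ 1 * (G n).Z.card :=
        mul_le_mul_of_nonneg_right hcJ hZpos.le
      linarith
    linarith
  have hZ'pos : (0 : ℝ) < Z'.card := by linarith
  have hZ'Z : Z' ⊆ (G n).Z := filter_subset _ _
  have hpin : ∀ k₀ ∈ Z', ∀ l ∈ range J,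
      (((G n).Z.filter fun k => (k₀, k) ∈ bad l).card : ℝ) ≤ θ * (G n).Z.card := by
    intro k₀ hk₀'
    rw [hZ', mem_filter] at hk₀'; exact hk₀'.2
  clear_value Z'
  refine ⟨Z', hZ'Z, card_pos.1 (by exact_mod_cast hZ'pos), fun k₀ hk₀' =>
    ⟨Z'.filter fun k => B.d n ^ (c' * hh) < |(G n).z k - (G n).z k₀| ∧ ∀ l ∈ range J,
      (k₀, k) ∉ bad l, filter_subset _ _, ?_, ?_⟩⟩
  · -- the removed heights
    have hk₀ := hZ'Z hk₀'
    have hcard := Crest.Agent.R138.TwF501.sdiff_count Z' ((G n).hbox (c' * hh) k₀) J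
      (fun l => (G n).Z.filter fun k => (k₀, k) ∈ bad l)
      (fun k => B.d n ^ (c' * hh) < |(G n).z k - (G n).z k₀| ∧ ∀ l ∈ range J,
        (k₀, k) ∉ bad l) (by
        intro k hk hgood
        by_cases hz : B.d n ^ (c' * hh) < |(G n).z k - (G n).z k₀|
        · right
          have h3 : ¬ ∀ l ∈ range J, (k₀, k) ∉ bad l := fun h4 => hgood ⟨hz, h4⟩
          push Not at h3
          obtain ⟨l, hl, h4⟩ := h3
          exact ⟨l, hl, mem_filter.2 ⟨hZ'Z hk, h4⟩⟩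
        · left
          unfold RCfg.hbox
          rw [mem_filter, H.base n]
          exact ⟨hZ'Z hk, not_lt.1 hz⟩) (hpin k₀ hk₀')
    have h1 := hfr k₀ hk₀
    have e5 : B.d n ^ (σ * (c' * hh) - ε) ≤ B.d n ^ ((D + 5) * ε) * B.d n ^ ε := by
      rw [← rpow_add']
      refine rpow_anti B n ?_
      nlinarith
    have e6 : θ ≤ B.d n ^ ((D + 5) * ε) * B.d n ^ ε := by
      rw [← rpow_add', hθ]
      refine rpow_anti B n ?_
      nlinarith
    set de := B.d n ^ ((D + 5) * ε) with hde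
    have hde0 : 0 < de := hpow _
    have hε' := hpow ε
    have g1 : B.d n ^ (σ * (c' * hh) - ε) * ((G n).Z.card : ℝ) ≤ de / 2 * Z'.card := by
      calc B.d n ^ (σ * (c' * hh) - ε) * ((G n).Z.card : ℝ) ≤
            de * B.d n ^ ε * (2 * Z'.card) := by
            refine mul_le_mul e5 hmk hZpos.le (by positivity)
        _ = de / 2 * (4 * B.d n ^ ε) * Z'.card := by ring
        _ ≤ de / 2 * 1 * Z'.card := by gcongr
        _ = _ := by ring
    have g2 : (J : ℝ) * (θ * (G n).Z.card) ≤ de / 2 * Z'.card := by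
      calc (J : ℝ) * (θ * (G n).Z.card) ≤ J * (de * B.d n ^ ε * (2 * Z'.card)) := by
            gcongr
        _ = de / 2 * (4 * J * B.d n ^ ε) * Z'.card := by ring
        _ ≤ de / 2 * 1 * Z'.card := by gcongr
        _ = _ := by ring
    refine le_trans (le_of_eq ?_) (hcard.trans ?_)
    · congr
    · linarith
  have hk₀ := hZ'Z hk₀'
  intro i₀ hi₀
  have hI0 := H.memSlice.1 hi₀
  have hS : ∀ i ∈ (G n).box p1 ε i₀ k₀, (i, k₀) ∈ (G n).I := fun i hi =>
    H.memSlice.1 (RCfg.box_subset_slice hi)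
  have hSS : ∀ i ∈ (G n).box p1 ε i₀ k₀, ∀ i' ∈ (G n).box p1 ε i₀ k₀,
      (G n).loose p1 (D ^ 2 * ε) k₀ i i' := fun i hi i' hi' => hpair k₀ i₀ i i' hI0 hi hi'
  have hSS0 : ∀ i ∈ (G n).box p1 ε i₀ k₀, ∀ i' ∈ (G n).box p1 ε i₀ k₀,
      (G n).loose p0 (D ^ 2 * ε) k₀ i i' := fun i hi i' hi' =>
    H.loose_mono h01 le_rfl (hSS i hi i' hi')
  have hslot : ∀ i ∈ (G n).box p1 ε i₀ k₀, ∀ i' ∈ (G n).box p1 ε i₀ k₀, ∀ s : κ, p0 s = 0 →
      |(G n).rel k₀ i i' s| ≤ B.d n ^ (-(D ^ 2 * ε)) := by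
    intro i hi i' hi' s hs
    have := hSS0 i hi i' hi' s
    rw [H.base n, hs, zero_sub] at this
    exact this
  have hslot1 : ∀ i ∈ (G n).box p1 ε i₀ k₀, ∀ i' ∈ (G n).box p1 ε i₀ k₀, ∀ s : κ,
      p1 s = R0 → |(G n).rel k₀ i i' s| ≤ B.d n ^ (R0 - D ^ 2 * ε) := by
    intro i hi i' hi' s hs
    have := hSS i hi i' hi' s
    rw [H.base n, hs] at this
    exact this
  have q1 : p1 sN = R0 := bx_N
  have q4 : p1 sC = R0 := bx_C K.NC K.PC K.XC
  have q2 : p0 sP = 0 := bx_P K.NP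
  have q3 : p0 sX = 0 := bx_X K.NX K.PX
  refine ⟨?_, ?_, ?_, ?_⟩
  · intro i hi i' hi'
    exact max_le (hslot i hi i' hi' sP q2) (hslot i hi i' hi' sX q3)
  · intro j hj i hi i' hi' hd s
    have h1 := hSS i hi i' hi' s
    rw [max_le_iff] at hd
    by_cases hsP : s = sP
    · subst hsP
      rw [bx_P K.NP, H.base n]
      exact hd.1
    · by_cases hsX : s = sX
      · subst hsX
        rw [bx_X K.NX K.PX, H.base n]
        exact hd.2
      · refine h1.trans (le_of_eq ?_)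
        simp only [hp1, bx, if_neg hsP, if_neg hsX]
  · intro k hk i hi i' hi' hIk hIk'
    have := (hev k₀ k i i' (hS i hi) (hS i' hi') hIk hIk' (hSS0 i hi i' hi')).1
    refine H.loose_mono (fun _ => le_rfl) (le_of_eq ?_) this
    ring
  · intro j hj i hi i' hi' hd
    set K' := Z'.filter fun k => B.d n ^ (c' * hh) < |(G n).z k - (G n).z k₀| ∧
      ∀ l ∈ range J, (k₀, k) ∉ bad l with hK'
    have e57 : D ^ 5 * (C1 * D ^ 2 * ε) = C1 * D ^ 7 * ε := by ring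
    have hA1ε : C1 * (D ^ 2 * ε) ≤ C1 * D ^ 7 * ε := by
      have : D ^ 2 ≤ D ^ 7 := pow_le_pow_right₀ hD (by norm_num)
      have h1 : D ^ 2 * ε ≤ D ^ 7 * ε := mul_le_mul_of_nonneg_right this hε0.le
      calc C1 * (D ^ 2 * ε) ≤ C1 * (D ^ 7 * ε) := mul_le_mul_of_nonneg_left h1 hC10.le
        _ = _ := by ring
    have hA2ε : D ^ 2 * ε ≤ C1 * D ^ 7 * ε := by
      refine le_trans ?_ hA1ε
      have : 1 * (D ^ 2 * ε) ≤ C1 * (D ^ 2 * ε) := mul_le_mul_of_nonneg_right hC1 hD2ε.le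
      linarith
    have hKZ : K' ⊆ (G n).Z := (filter_subset _ _).trans hZ'Z
    have hsub : (K'.filter fun k => (i, k) ∈ (G n).I ∧ (i', k) ∈ (G n).I ∧
        (G n).loose (bx Fz sN sP sX sC R0 R0 0 0 0) (D ^ 5 * (C1 * D ^ 2 * ε)) k i i') ⊆
        K'.filter fun k => |((G n).z k - (G n).z k₀) * (G n).rel k₀ i i' sP -
          (f n k - f n k₀) * (G n).rel k₀ i i' sX| ≤ 2 * B.d n ^ (R0 - A * ε) := by
      intro k hk
      rw [mem_filter, e57] at hk
      rw [mem_filter]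
      obtain ⟨hkK, hIk, hIk', hl⟩ := hk
      refine ⟨hkK, ?_⟩
      have hkZ := hKZ hkK
      have g1 := (hev k₀ k i i' (hS i hi) (hS i' hi') hIk hIk' (hSS0 i hi i' hi')).2
      have g2 := hl sN
      rw [bx_N, H.base n] at g2
      have hu : |(G n).z k - (G n).z k₀| ≤ 2 := by
        refine (abs_sub _ _).trans ?_
        have := (hbd k hkZ).1; have := (hbd k₀ hk₀).1; linarith
      have hg : |f n k - f n k₀| ≤ 2 := by
        refine (abs_sub _ _).trans ?_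
        have := (hbd k hkZ).2; have := (hbd k₀ hk₀).2; linarith
      have gN := hslot1 i hi i' hi' sN q1
      have gC := hslot1 i hi i' hi' sC q4
      set b := B.d n ^ (R0 - C1 * D ^ 7 * ε) with hb
      have hb0 : 0 < b := hpow _
      have k1 : B.d n ^ (R0 - C1 * (D ^ 2 * ε)) ≤ b := rpow_anti B n (by linarith)
      have k3 : B.d n ^ (R0 - D ^ 2 * ε) ≤ b := rpow_anti B n (by linarith)
      have m3 : |(f n k - f n k₀) *
          (((G n).z k - (G n).z k₀) * (G n).rel k₀ i i' sC)| ≤ 4 * b := by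
        rw [abs_mul, abs_mul]
        calc |f n k - f n k₀| * (|(G n).z k - (G n).z k₀| * |(G n).rel k₀ i i' sC|)
            ≤ 2 * (2 * b) := by
              refine mul_le_mul hg ?_ (by positivity) (by norm_num)
              exact mul_le_mul hu (gC.trans k3) (abs_nonneg _) (by norm_num)
          _ = 4 * b := by ring
      have k4 : |((G n).z k - (G n).z k₀) * (G n).rel k₀ i i' sP -
          (f n k - f n k₀) * (G n).rel k₀ i i' sX| ≤ 8 * b := by
        have e1 : ((G n).z k - (G n).z k₀) * (G n).rel k₀ i i' sP -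
            (f n k - f n k₀) * (G n).rel k₀ i i' sX = (G n).rel k i i' sN -
            ((G n).rel k i i' sN - ((G n).rel k₀ i i' sN +
              ((G n).z k - (G n).z k₀) * (G n).rel k₀ i i' sP
              - (f n k - f n k₀) * ((G n).rel k₀ i i' sX +
              ((G n).z k - (G n).z k₀) * (G n).rel k₀ i i' sC))) -
            (G n).rel k₀ i i' sN + (f n k - f n k₀) *
              (((G n).z k - (G n).z k₀) * (G n).rel k₀ i i' sC) := by ring
        rw [e1]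
        have n1 := abs_le.1 (g1.trans k1)
        have n2 := abs_le.1 g2
        have n3 := abs_le.1 (gN.trans k3)
        have n4 := abs_le.1 m3
        rw [abs_le]
        constructor <;> linarith [n1.1, n1.2, n2.1, n2.2, n3.1, n3.2, n4.1, n4.2]
      have k5 : 8 * b ≤ B.d n ^ (R0 - A * ε) := by
        refine absorb B ?_
        have e : -(R0 - C1 * D ^ 7 * ε - (R0 - A * ε)) = -ε := by rw [hA]; ring
        rw [e]
        exact hc8
      have k6 := hpow (R0 - A * ε)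
      linarith
    refine le_trans (Nat.cast_le.2 (card_le_card hsub)) ?_
    have hd' : B.d n ^ (((j + 1 : ℕ) : ℝ) * hh) <
        max |(G n).rel k₀ i i' sP| |(G n).rel k₀ i i' sX| :=
      lt_of_le_of_lt (rpow_anti B n (by linarith)) hd
    have key := few_common_mesh B n (G n).Z K' (G n).z (f n) hbd hk₀ hKZ hj (s := s)
      (c := c') (x := R0) (ε := A * ε) (DP := (G n).rel k₀ i i' sP)
      (DX := (G n).rel k₀ i i' sX) hh0 hc'0 hyh (by nlinarith) hc16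
      (fun k hk => (mem_filter.1 hk).2) hd'
    refine key.trans ?_
    have hpw := hpow (s * (((J - 1 - j : ℕ) : ℝ) * hh))
    have e1 : B.d n ^ (s * (((J - 1 - j : ℕ) : ℝ) * hh) - 2 * ε) * (B.d n ^ ε) ^ 2 =
        B.d n ^ (s * (((J - 1 - j : ℕ) : ℝ) * hh)) := by
      rw [sq, ← rpow_add', ← rpow_add']; congr 1; ring
    have e2 : B.d n ^ (s * (((J - 1 - j : ℕ) : ℝ) * hh)) * 2 ≤
        B.d n ^ (s * (((J - 1 - j : ℕ) : ℝ) * hh) - 2 * ε) := by
      rw [← e1]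
      have h1 := hpow (s * (((J - 1 - j : ℕ) : ℝ) * hh) - 2 * ε)
      have h2 := hpow ε
      have h3 : (B.d n ^ ε) ^ 2 * 2 ≤ 1 := by nlinarith
      calc B.d n ^ (s * (((J - 1 - j : ℕ) : ℝ) * hh) - 2 * ε) * (B.d n ^ ε) ^ 2 * 2
          = B.d n ^ (s * (((J - 1 - j : ℕ) : ℝ) * hh) - 2 * ε) * ((B.d n ^ ε) ^ 2 * 2) := by
            ring
        _ ≤ B.d n ^ (s * (((J - 1 - j : ℕ) : ℝ) * hh) - 2 * ε) * 1 :=
            mul_le_mul_of_nonneg_left h3 h1.le
        _ = _ := mul_one _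
    calc B.d n ^ (s * (((J - 1 - j : ℕ) : ℝ) * hh)) * ((G n).Z.card : ℝ)
        ≤ B.d n ^ (s * (((J - 1 - j : ℕ) : ℝ) * hh)) * (2 * Z'.card) :=
          mul_le_mul_of_nonneg_left hmk hpw.le
      _ = B.d n ^ (s * (((J - 1 - j : ℕ) : ℝ) * hh)) * 2 * Z'.card := by ring
      _ ≤ _ := mul_le_mul_of_nonneg_right e2 hZ'pos.le

end Crest.Agent.R136.C1s940
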