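import Crest.Agent.R136.C1sA_940
import Crest.Agent.R136.C1sB_940
import Crest.Agent.R136.Wk15_323
import Crest.Agent.R136.Fe1_355

/-!
# R136, case C1* (mirrored lightlike), part C (helper940)

`mir_false` : a window with the geometry `MirGeo`, the profile `MirProf` and a raw twist of the flag
`F_a` does not exist.
-/

set_option autoImplicit false
set_option linter.unusedVariables false
set_option linter.unusedSectionVars false

open Filter Topology Finset

namespace Crest.Agent.R136.C1s940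

open Crest.Agent.R136.Sh605
open Crest.Agent.R138.Ex926 (Base U)
open Crest.Agent.R136.Gf356
open Crest.Agent.R136.CD366
open Crest.Agent.R136.Fe1355 (RawTw shift_R)
open Crest.Agent.R136.Wk323 (vec fAll fPos fDir qv coA MirPr MirWin mirWin)

variable {B : Base} {G : ℕ → RCfg (Fin 11)} {Leg : Set (Fin 11 → ℝ)} {ν : (Fin 11 → ℝ) → ℝ}
  {D R R0 x a m : ℝ} {T : ℕ → ℕ → Ln4} {e : ℕ → ℕ → ℝ} {f : ℕ → ℕ → ℝ}

/-- motion of the coordinates -/
theorem coM_move (T T' : Ln4) (e e' f f' z z' : ℝ) :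
    coM T T' e e' f' z' 2 = coM T T' e e' f z 2 ∧
    coM T T' e e' f' z' 5 = coM T T' e e' f z 5 ∧
    coM T T' e e' f' z' 6 = coM T T' e e' f z 6 ∧
    coM T T' e e' f' z' 7 = coM T T' e e' f z 7 - (f' - f) * coM T T' e e' f z 5 ∧
    coM T T' e e' f' z' 9 = coM T T' e e' f z 9 + (z' - z) * coM T T' e e' f z 6 ∧
    coM T T' e e' f' z' 10 = coM T T' e e' f z 10 + (z' - z) * coM T T' e e' f z 7 -
      (f' - f) * (coM T T' e e' f z 8 + (z' - z) * coM T T' e e' f z 5) := by
  simp only [coM, Matrix.cons_val, Ln4.pos]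
  refine ⟨trivial, trivial, trivial, ?_, ?_, ?_⟩ <;> ring

theorem abs_mul2 {u v c d : ℝ} (hu : |u| ≤ c) (hv : |v| ≤ d) : |u * v| ≤ c * d := by
  rw [abs_mul]
  exact mul_le_mul hu hv (abs_nonneg _) ((abs_nonneg _).trans hu)

theorem fb_eq (y n p x c : ℝ) : fb y n p x c = ![0, 0, y, 0, 0, c, y, p, x, y, n] := by
  funext s
  fin_cases s <;> simp [fb, bx]

/-- **evolution in the fibre** -/
theorem MirGeo.ev (hbase : ∀ n, (G n).ρ = B.d n) (hsub : ∀ n, (G n).I ⊆ (G n).L ×ˢ (G n).Z)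
    (A : MirGeo B G x T e f) {y : ℝ} (hyx : y ≤ x) {ε : ℝ} (hε : 0 < ε) :
    ∀ᶠ n in (U : Filter ℕ), ∀ k₀ k i i',
    (i, k₀) ∈ (G n).I → (i', k₀) ∈ (G n).I → (i, k) ∈ (G n).I → (i', k) ∈ (G n).I →
    (G n).loose (fb y 0 0 0 0) ε k₀ i i' →
    (G n).loose (fb y 0 0 0 0) (2 * ε) k i i' ∧
    |(G n).rel k i i' 10 - ((G n).rel k₀ i i' 10 + ((G n).z k - (G n).z k₀) * (G n).rel k₀ i i' 7
      - (f n k - f n k₀) * ((G n).rel k₀ i i' 8 +
        ((G n).z k - (G n).z k₀) * (G n).rel k₀ i i' 5))| ≤ B.d n ^ (y - 2 * ε) := by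
  filter_upwards [A.bd, A.bdr, A.rel ε hε, ev_const_le B hε 16] with n hbd hbdr hrel h16
    k₀ k i i' h1 h2 h3 h4 hlo
  have hpow : ∀ t : ℝ, 0 < B.d n ^ t := fun t => rpos B n t
  set δ := B.d n ^ (y - ε) with hδ
  have hδ0 : 0 < δ := hpow _
  have hxy : B.d n ^ (x - ε) ≤ δ := rpow_anti B n (by linarith)
  have hz : |(G n).z k - (G n).z k₀| ≤ 2 := by
    refine (abs_sub _ _).trans ?_
    have := (hbd i k h3).1; have := (hbd i k₀ h1).1; linarith
  have hf : |f n k - f n k₀| ≤ 2 := by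
    refine (abs_sub _ _).trans ?_
    have := (hbd i k h3).2.2.2.2; have := (hbd i k₀ h1).2.2.2.2; linarith
  obtain ⟨m2, m5, m6, m7, m9, m10⟩ := coM_move (T n i) (T n i') (e n i) (e n i') (f n k₀)
    (f n k) ((G n).z k₀) ((G n).z k)
  set c : Fin 11 → ℝ := coM (T n i) (T n i') (e n i) (e n i') (f n k₀) ((G n).z k₀) with hc
  set c' : Fin 11 → ℝ := coM (T n i) (T n i') (e n i) (e n i') (f n k) ((G n).z k) with hc'
  have r : ∀ s ∈ sMir, |(G n).rel k₀ i i' s - c s| ≤ δ := fun s hs =>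
    (hrel k₀ i i' h1 h2 s hs).trans hxy
  have r' : ∀ s ∈ sMir, |(G n).rel k i i' s - c' s| ≤ δ := fun s hs =>
    (hrel k i i' h3 h4 s hs).trans hxy
  have q2 := r 2 (by decide)
  have q5 := r 5 (by decide)
  have q6 := r 6 (by decide)
  have q7 := r 7 (by decide)
  have q8 := r 8 (by decide)
  have q9 := r 9 (by decide)
  have q10 := r 10 (by decide)
  have q2' := r' 2 (by decide)
  have q6' := r' 6 (by decide)
  have q9' := r' 9 (by decide)
  have q10' := r' 10 (by decide)
  have l2 := hlo 2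
  have l6 := hlo 6
  have l9 := hlo 9
  rw [hbase n, fb_eq] at l2 l6 l9
  simp only [Matrix.cons_val] at l2 l6 l9
  rw [← hδ] at l2 l6 l9
  -- small slots
  have b6 : |((G n).z k - (G n).z k₀) * c 6| ≤ 2 * (2 * δ) := by
    refine abs_mul2 hz ?_
    rw [abs_le] at q6 l6 ⊢
    constructor <;> linarith [q6.1, q6.2, l6.1, l6.2]
  have hb : ∀ s, |(G n).rel k i i' s| ≤ B.d n ^ ((0 : ℝ) - 2 * ε) := by
    intro s
    refine (hbdr k i i' h3 h4 s).trans ?_
    exact Real.one_le_rpow_of_pos_of_le_one_of_nonpos (B.pos n) (B.lt n).le (by linarith)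
  constructor
  · intro s
    rw [hbase n, fb_eq]
    have a2 : |(G n).rel k i i' 2| ≤ 16 * B.d n ^ (y - ε) := by
      rw [← hδ]
      rw [m2] at q2'
      rw [abs_le] at q2 q2' l2 ⊢
      constructor <;> linarith [q2.1, q2.2, q2'.1, q2'.2, l2.1, l2.2]
    have a6 : |(G n).rel k i i' 6| ≤ 16 * B.d n ^ (y - ε) := by
      rw [← hδ]
      rw [m6] at q6'
      rw [abs_le] at q6 q6' l6 ⊢
      constructor <;> linarith [q6.1, q6.2, q6'.1, q6'.2, l6.1, l6.2]
    have a9 : |(G n).rel k i i' 9| ≤ 16 * B.d n ^ (y - ε) := by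
      rw [← hδ]
      rw [m9] at q9'
      rw [abs_le] at q9 q9' l9 b6 ⊢
      constructor <;> linarith [q9.1, q9.2, q9'.1, q9'.2, l9.1, l9.2, b6.1, b6.2]
    fin_cases s
    · exact hb 0
    · exact hb 1
    · exact ab2 B n h16 a2
    · exact hb 3
    · exact hb 4
    · exact hb 5
    · exact ab2 B n h16 a6
    · exact hb 7
    · exact hb 8
    · exact ab2 B n h16 a9
    · exact hb 10
  · refine ab2 B n h16 ?_
    rw [← hδ]
    have d7 : |((G n).z k - (G n).z k₀) * ((G n).rel k₀ i i' 7 - c 7)| ≤ 2 * δ := abs_mul2 hz q7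
    have d5 : |((G n).z k - (G n).z k₀) * ((G n).rel k₀ i i' 5 - c 5)| ≤ 2 * δ := abs_mul2 hz q5
    have d8 : |(f n k - f n k₀) * (((G n).rel k₀ i i' 8 - c 8) +
        ((G n).z k - (G n).z k₀) * ((G n).rel k₀ i i' 5 - c 5))| ≤ 2 * (3 * δ) := by
      refine abs_mul2 hf ((abs_add_le _ _).trans ?_)
      linarith
    have e1 : (G n).rel k i i' 10 - ((G n).rel k₀ i i' 10 + ((G n).z k - (G n).z k₀) *
        (G n).rel k₀ i i' 7 - (f n k - f n k₀) * ((G n).rel k₀ i i' 8 +
        ((G n).z k - (G n).z k₀) * (G n).rel k₀ i i' 5)) =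
        ((G n).rel k i i' 10 - c' 10) - ((G n).rel k₀ i i' 10 - c 10) -
        ((G n).z k - (G n).z k₀) * ((G n).rel k₀ i i' 7 - c 7) +
        (f n k - f n k₀) * (((G n).rel k₀ i i' 8 - c 8) +
          ((G n).z k - (G n).z k₀) * ((G n).rel k₀ i i' 5 - c 5)) := by
      rw [m10]; ring
    rw [e1]
    rw [abs_le] at q10 q10' d7 d8 ⊢
    constructor <;> linarith [q10.1, q10.2, q10'.1, q10'.2, d7.1, d7.2, d8.1, d8.2]

/-- **rate of `P`** from the twist of `F_a` -/
theorem MirProf.prate (H : RModel B G 1 R Leg ν D) (A : MirGeo B G x T e f)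
    (P : MirProf Leg ν R0 a m) (hx : R0 ≤ x)
    (tw : RawTw B G fun n k k' => f n k - f n k') {y : ℝ} (hy : 0 ≤ y) (hyR : y ≤ R0) :
    m * y ≤ ν 0 - ν (vec {7} y) := by
  have h0 : (0 : Fin 11 → ℝ) ∈ Leg := by
    have := P.c 0 le_rfl P.R0_pos.le
    rwa [vec_zero] at this
  refine (P.concp y hy hyR).trans ?_
  refine shift_R H (vec {7} y) (vec {5, 7} y) 0 (vec {7} y) (P.p y hy hyR) (P.cp y hy hyR) h0
    (P.p y hy hyR) (fun s => by unfold vec; split_ifs <;> simp [hy]) 5 7 (y := y)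
    (by simp [vec]) ?_ (by simp [vec]) (fun n k k' => f n k - f n k') tw ?_
  · intro j hj
    unfold vec
    simp only [mem_insert, mem_singleton]
    split_ifs with h1 h2
    · exact le_rfl
    · rcases h1 with h1 | h1
      · exact absurd h1 hj
      · exact absurd h1 h2
    · exact hy
    · exact le_rfl
  · intro C0 hC0
    refine ⟨C0 + 2, by positivity, fun ε hε => ?_⟩
    filter_upwards [A.bd, A.bdr, A.rel ε hε, ev_const_le B hε 16] with n hbd hbdr hrel h16
      k hk k' hk' i i' h1 h2 h3 h4 hlo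
    have hpow : ∀ t : ℝ, 0 < B.d n ^ t := fun t => rpos B n t
    constructor
    · intro s
      rw [H.base n]
      refine (hbdr k' i i' h2 h4 s).trans ?_
      refine Real.one_le_rpow_of_pos_of_le_one_of_nonpos (B.pos n) (B.lt n).le ?_
      simp only [Pi.zero_apply]
      have : 0 ≤ (C0 + 2) * ε := by positivity
      linarith
    · have hf : |f n k' - f n k| ≤ 2 := by
        refine (abs_sub _ _).trans ?_
        have := (hbd i k h1).2.2.2.2; have := (hbd i k' h2).2.2.2.2; linarith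
      obtain ⟨m2, m5, m6, m7, m9, m10⟩ := coM_move (T n i) (T n i') (e n i) (e n i') (f n k)
        (f n k') ((G n).z k) ((G n).z k')
      set c : Fin 11 → ℝ := coM (T n i) (T n i') (e n i) (e n i') (f n k) ((G n).z k) with hc
      set c' : Fin 11 → ℝ := coM (T n i) (T n i') (e n i) (e n i') (f n k') ((G n).z k') with hc'
      set δ := B.d n ^ (y - (C0 + 1) * ε) with hδ
      have hδ0 : 0 < δ := hpow _
      have hC0ε : 0 < C0 * ε := by positivity
      have hxy : B.d n ^ (x - ε) ≤ δ := rpow_anti B n (by nlinarith)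
      have q5 := (hrel k i i' h1 h3 5 (by decide)).trans hxy
      have q7 := (hrel k i i' h1 h3 7 (by decide)).trans hxy
      have q7' := (hrel k' i i' h2 h4 7 (by decide)).trans hxy
      rw [← hc] at q5 q7
      rw [← hc', m7] at q7'
      have l7 := hlo 7
      rw [H.base n] at l7
      have l7' : |(G n).rel k i i' 7| ≤ δ := by
        refine l7.trans (rpow_anti B n ?_)
        simp only [vec, mem_singleton, if_true]
        nlinarith
      have d5 : |(f n k' - f n k) * ((G n).rel k i i' 5 - c 5)| ≤ 2 * δ := abs_mul2 hf q5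
      have e1 : (G n).rel k' i i' 7 - (f n k - f n k') * (G n).rel k i i' 5 =
          ((G n).rel k' i i' 7 - (c 7 - (f n k' - f n k) * c 5)) -
          ((G n).rel k i i' 7 - c 7) + (G n).rel k i i' 7 +
          (f n k' - f n k) * ((G n).rel k i i' 5 - c 5) := by ring
      have e2 : |(G n).rel k' i i' 7 - (f n k - f n k') * (G n).rel k i i' 5| ≤ 16 * δ := by
        rw [e1]
        rw [abs_le] at q7 q7' l7' d5 ⊢
        constructor <;> linarith [q7.1, q7.2, q7'.1, q7'.2, l7'.1, l7'.2, d5.1, d5.2]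
      refine e2.trans ?_
      have e3 : B.d n ^ (y - (C0 + 2) * ε) = B.d n ^ (-ε) * δ := by
        rw [hδ, ← rpow_add']; congr 1; ring
      rw [e3]
      exact mul_le_mul_of_nonneg_right h16 hδ0.le

/-- **C1*, F-lemma**: the offset window of a mirrored lightlike profile does not exist -/
theorem mir_false (hW : MirWin) (H : RModel B G 1 R Leg ν D) (A : MirGeo B G x T e f)
    (P : MirProf Leg ν R0 a m) (hx : R0 ≤ x) (hR : R0 ≤ R)
    (tw : RawTw B G fun n k k' => f n k - f n k') : False := by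
  have hc : 0 < min m (1 - a) := lt_min P.m0 (by linarith [P.a1])
  have hcm : min m (1 - a) ≤ m := min_le_left _ _
  have hca : min m (1 - a) ≤ 1 - a := min_le_right _ _
  have hZ : ∀ᶠ n in (U : Filter ℕ), ∀ k ∈ (G n).Z, ∃ l, (l, k) ∈ (G n).I := by
    filter_upwards [H.slice 1 one_pos] with n h k hk
    obtain ⟨⟨i1, k1⟩, hI1⟩ := H.nonempty n
    have hL0 : (0 : ℝ) < (G n).L.card := by
      exact_mod_cast card_pos.2 ⟨i1, H.memL hI1⟩
    have h1 := h k hk
    have h2 := rpos B n 1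
    have h3 : (0 : ℝ) < ((G n).slice k).card := lt_of_lt_of_le (by positivity) h1
    obtain ⟨l, hl⟩ := card_pos.1 (show 0 < ((G n).slice k).card by exact_mod_cast h3)
    exact ⟨l, H.memSlice.1 hl⟩
  have K : K3w B G Leg ν {2, 6, 9} 10 7 8 5 f R0 2 a (min m (1 - a)) := by
    refine ⟨P.R0_pos, by norm_num, hc, by decide, by decide, by decide, by decide, by decide,
      by decide, ?_, ?_, ?_, ?_, ?_, ?_⟩
    · intro y n p x c h1 h2 h3 h4 h5 h6 h7 h8 h9 h10
      exact P.leg y n p x c h1 h2 h3 h4 h5 h6 h7 h8 h9 h10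
    · filter_upwards [A.bd, hZ] with n h1 h2 k hk
      obtain ⟨l, hl⟩ := h2 k hk
      exact ⟨(h1 l k hl).1, (h1 l k hl).2.2.2.2⟩
    · intro y hy hyR ε hε
      exact A.ev H.base H.sub (hyR.trans hx) hε
    · exact fun y hy hyR => P.hN y hy hyR
    · intro y t ht hty hyR
      have h1 := P.np y t ht hty hyR
      have h2 := P.prate H A hx tw ht (hty.trans hyR)
      have h3 : min m (1 - a) * t ≤ m * t := mul_le_mul_of_nonneg_right hcm ht
      refine le_trans ?_ h1
      linarith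
    · intro t ht htR
      refine le_trans ?_ (P.px t ht htR)
      have : min m (1 - a) * t ≤ (1 - a) * t := mul_le_mul_of_nonneg_right hca ht
      linarith
  have h1 := K3core_w H K hR (fun _ => no_slope_mir hW H A P hx hR)
  linarith [P.a1]

end Crest.Agent.R136.C1s940
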