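import Crest.Agent.R136.C1sC_940
import Crest.Agent.R136.C1sE_940
import Crest.Agent.R136.Ab1_356

/-!
# R136, case C1* (mirrored lightlike), part F (helper940)

* `stM` : static data of the window, level slots `{z, F_a}`.
* `rC_ge` : rate of the group `{X_b, N}` is at least `3` (`mir_false` over 413's windows, the
  geometry of the window is a hypothesis).
* `A_le` : `A.1 ≤ -5`.
-/

set_option autoImplicit false
set_option linter.unusedVariables false
set_option linter.unusedSectionVars false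

open Filter Topology Finset

namespace Crest.Agent.R136.C1s940

open Crest.Agent.R136.Sh605
open Crest.Agent.R138.Ex926 (Base U U_le_atTop)
open Crest.Agent.R136.Net191 Crest.Agent.R136.NetQ186 Crest.Agent.R136.Gf356
open Crest.Agent.R136.Qg926 Crest.Agent.R136.Dg219 Crest.Agent.R136.Aw413
open Crest.Agent.R136.Ab356 (wtQ)
open Crest.Agent.R136.Fe1355 (RawTw)
open Crest.Agent.R136.Wk323 (mirWin)

/-- static data of the window -/
noncomputable def stM (Ma : Mons 11) (C : ℝ) : WSt 11 where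
  S := sM
  kz := 0
  top := topM
  kap := fun s => (4 * cK0 monQ C) ^ wtQ s
  Mw := Ma
  R' := 1

variable {Ma : Mons 11} {C : ℝ}

theorem mem_sM : ∀ i ∈ sM, i = 0 ∨ i = 4 := by decide

theorem stM_ok (hcone : ∀ c, c ∈ coneM Ma ↔ ConeM c) (hsub : ∀ k, Ma.mon k ⊆ monQ.mon k)
    (hC : 0 ≤ C) : (stM Ma C).Ok monQ (coneM Ma) where
  R0 := zero_le_one
  leg := leg_cone fun k => Finset.Subset.refl _
  top_leg := by
    show topM ∈ Leg Ma 1
    rw [mem_leg hcone]
    refine ⟨fun s => ?_, fun s => ?_, ?_⟩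
    · fin_cases s <;> simp [topM]
    · fin_cases s <;> simp [topM]
    · simp only [ConeM, topM, Matrix.cons_val]
      norm_num
  lin_leg := by
    show cut sM topM 0 ∈ Leg Ma 1
    rw [mem_leg hcone, cut_sM]
    refine ⟨fun s => ?_, fun s => ?_, ?_⟩
    · fin_cases s <;> simp [topM]
    · fin_cases s <;> simp [topM]
    · simp only [ConeM, topM, Matrix.cons_val, Pi.zero_apply]
      norm_num
  lev_leg := by
    show cut sM 0 topM ∈ Leg Ma 1
    rw [mem_leg hcone, cut_sM]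
    refine ⟨fun s => ?_, fun s => ?_, ?_⟩
    · fin_cases s <;> simp [topM]
    · fin_cases s <;> simp [topM]
    · simp only [ConeM, topM, Matrix.cons_val, Pi.zero_apply]
      norm_num
  kzS := by
    show (0 : Fin 11) ∈ sM
    decide
  kz0 := by
    show monQ.mon 0 = ∅
    rfl
  kzw := by
    show Ma.mon 0 = ∅
    exact Finset.subset_empty.1 (hsub 0)
  kap := fun s => by
    show 0 < (4 * cK0 monQ C) ^ wtQ s
    have := cK0_one (M := monQ) hC
    positivity

variable {ι : ℕ → Type*} [∀ n, DecidableEq (ι n)] {B Bo : Base} {I J : ∀ n, Finset (ι n)}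
  {co : ∀ n, ι n → ι n → Fin 11 → ℝ} {lam : (Fin 11 → ℝ) → ℝ} {a b : Fin 11 → ℝ} {A : ℝ × ℝ}
  {φ : ℕ → (Fin 11 → ℝ) → ℝ} {r : ℕ → ℝ} {κ : Fin 11 → ℝ} {V Tw : Fin 11 → Prop} {m : ℝ}

/-- geometry of the windows with static data `stM` -/
def MirAll (B : Base) (I : ∀ n, Finset (ι n)) (co : ∀ n, ι n → ι n → Fin 11 → ℝ) (Ma : Mons 11)
    (C : ℝ) (lam : (Fin 11 → ℝ) → ℝ) (V Tw : Fin 11 → Prop) : Prop :=
  ∀ (W : Wnd 11 ι) (E' : ∀ n, Finset (ι n)) (g : ℕ → ℝ),
    WAt B I co monQ Ma C lam V Tw (stM Ma C) W → Wnd.Pruned W W.sec E' g (fun _ _ _ => 0) →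
    RModel W.B' (W.cfg E') 1 1 W.legW W.nu W.Dc → RawL W E' 4 →
    ∃ (T : ℕ → ℕ → Ln4) (e f : ℕ → ℕ → ℝ), MirGeo W.B' (W.cfg E') 1 T e f ∧
      RawTw W.B' (W.cfg E') (fun n k k' => f n k - f n k')

/-- **rate of the group `{X_b, N}`** -/
theorem rC_ge (h : AeW B Bo I J co monQ Ma C lam a b A φ r 0 1 κ V Tw) (hC : 0 ≤ C)
    (hJ : ∀ᶠ n in (U : Filter ℕ), (J n).Nonempty) (hV : ∀ k, V k → k = 3 ∨ k = 4) (hT : Tw 4)
    (hP : PlaneM a b) (hah : AddHom (coneM Ma) a b φ) (hcone : ∀ c, c ∈ coneM Ma ↔ ConeM c)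
    (hXB : φ (gC a b 9) (![0, 0, 0, 0, 0, 0, 0, 0, 0, 1, 0]) ≤ -1)
    (hXA : φ (gC a b 7) (![0, 0, 0, 0, 0, 0, 0, 0, 1, 0, 0]) ≤ -1) (hm : 0 < m)
    (hS1 : ∀ y : ℝ, 0 ≤ y → y ≤ 1 → m * y ≤ lam 0 - lam (![0, 0, 0, 0, 0, y, 0, 0, 0, 0, 0]))
    (hgeo : MirAll B I co Ma C lam V Tw) : 3 ≤ r (gC a b 9) := by
  by_contra hr
  push Not at hr
  have hok := stM_ok hcone h.sub hC
  obtain ⟨W, hW, -, -⟩ := h.wnd (stM Ma C) rfl hok (fun _ _ => 1)
    (fun i => Crest.Agent.R138.Ex926.Base.Sub.const one_pos) J (fun _ => 1)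
    (Eventually.of_forall fun n => Finset.Subset.refl _) hJ
    (Crest.Agent.R138.Ex926.Base.Sub.const one_pos) (Eventually.of_forall fun n => by simp)
  have hden : (stM Ma C).Dens lam 1 1 := h.dens rfl hok (by
      intro i j hij hi
      have hi' : i = 0 ∨ i = 4 := mem_sM i hi
      have hj : gC a b j = gC a b 0 := by
        rw [← hij]
        exact (hP.grpA i).2 hi'
      show j ∈ sM
      rcases (hP.grpA j).1 hj with rfl | rfl <;> decide) zero_le_one le_rfl (R := 1) (by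
      show (1 : ℝ) ≤ topM 0
      simp [topM]) (by
      intro y hy _
      have e : (Pi.single 0 y : Fin 11 → ℝ) = ![y, 0, 0, 0, 0, 0, 0, 0, 0, 0, 0] := by
        funext s
        fin_cases s <;> simp
      rw [e, hcone]
      simp only [ConeM, Matrix.cons_val]
      refine ⟨?_, ?_, ?_, ?_, ?_, ?_, ?_⟩ <;> linarith)
  obtain ⟨E', g, hPr, -, H, hraw⟩ := hW.model hden (fun _ _ _ => 0)
    (g₀ := fun n => (n : ℝ)) (tendsto_natCast_atTop_atTop.mono_left U_le_atTop) (by
      intro k hk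
      rcases hV k hk with rfl | rfl
      · right
        show topM 3 = 0
        simp [topM]
      · left
        show (4 : Fin 11) ∈ sM
        decide)
  have hL : RawL W E' 4 := hraw 4 (by show (4 : Fin 11) ∈ sM; decide) hT (by
      show 0 < topM 4
      simp [topM]) ⟨1, one_pos, by
      show cut sM topM (Pi.single 4 1) ∈ coneM Ma
      rw [cut_sM, hcone]
      simp only [ConeM, topM, Matrix.cons_val]
      simp⟩
  obtain ⟨T, e, f, hG, hR⟩ := hgeo W E' g hW hPr H hL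
  have hlegW : W.legW = legV Ma := by
    unfold Wnd.legW legV
    rw [hW.eS, hW.etop, hW.eMw, hW.eR]
    rfl
  have hnu : W.nu = nuV lam := by
    funext p
    unfold Wnd.nu nuV
    rw [hW.elam, hW.eS, hW.etop]
    rfl
  rw [hlegW, hnu] at H
  exact mir_false mirWin H hG (mirProf_of hP h.out hah hcone hXB hXA hm hS1 hr) le_rfl le_rfl hR

/-- **scalar end** -/
theorem A_le (h : AeW B Bo I J co monQ Ma C lam a b A φ r 0 1 κ V Tw)
    (hP : PlaneM a b) (hcone : ∀ c, c ∈ coneM Ma ↔ ConeM c)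
    (hXA : φ (gC a b 7) (![0, 0, 0, 0, 0, 0, 0, 0, 1, 0, 0]) ≤ -1) (hr : 3 ≤ r (gC a b 9)) :
    A.1 ≤ -5 := by
  have ho := h.out
  have n0 : a 0 ≠ 0 := by rw [hP.a0]; norm_num
  have n7 : a 7 ≠ 0 := by rw [hP.a7]; norm_num
  have n9 : a 9 ≠ 0 := by rw [hP.a9]; norm_num
  -- rate of `{z, F_a}`
  have hA : 1 ≤ r (gC a b 0) := by
    have m1 : (![1, 0, 0, 0, 1, 0, 0, 0, 0, 0, 0] : Fin 11 → ℝ) ∈ coneM Ma := by
      rw [hcone]
      simp only [ConeM, Matrix.cons_val]
      norm_num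
    have h1 := h.own 0 zero_mem _ m1 (fun s => by fin_cases s <;> simp) (fun k _ => by simp)
    have h2 := outS_one ho zero_mem m1 (i₀ := 0) (by
      intro i hi
      have h0 : i ≠ 0 := fun h => hi (by rw [h])
      have h4 : i ≠ 4 := fun h => hi ((hP.grpA i).2 (Or.inr h))
      fin_cases i <;> simp at h0 h4 ⊢)
    have h3 : φ (gC a b 0) (0 : Fin 11 → ℝ) = 0 := ho.zero _ _ fun i _ => rfl
    have h4 : φ (gC a b 0) (![1, 0, 0, 0, 1, 0, 0, 0, 0, 0, 0]) = -(r (gC a b 0) * 1) := by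
      refine ho.rate _ _ m1 1 fun i hi => ?_
      rcases (hP.grpA i).1 hi with rfl | rfl
      · rw [dhC, hP.a0]; norm_num
      · rw [dhC, hP.a4]; norm_num; rfl
    rw [h2, h3, h4] at h1
    have h5 : (![1, 0, 0, 0, 1, 0, 0, 0, 0, 0, 0] : Fin 11 → ℝ) 0 = 1 := rfl
    rw [h5] at h1
    simp only [Pi.zero_apply] at h1
    linarith
  have hB := one_le_rB hP ho hcone hXA
  have hpos : ∀ i, 0 ≤ a i := by
    intro i
    fin_cases i
    · show 0 ≤ a 0
      rw [hP.a0]; norm_num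
    · show 0 ≤ a 1
      rw [hP.a1]
    · show 0 ≤ a 2
      rw [hP.a2]
    · exact hP.a3
    · show 0 ≤ a 4
      rw [hP.a4]; norm_num
    · show 0 ≤ a 5
      rw [hP.a5]
    · show 0 ≤ a 6
      rw [hP.a6]
    · show 0 ≤ a 7
      rw [hP.a7]; norm_num
    · show 0 ≤ a 8
      rw [hP.a8]; norm_num
    · show 0 ≤ a 9
      rw [hP.a9]; norm_num
    · show 0 ≤ a 10
      rw [hP.a10]; norm_num
  have hterm : ∀ k ∈ gset (gC a b), 0 ≤ r k * lf (nC a b k) (1, 0) := by
    intro k hk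
    by_cases hk0 : k = 0
    · subst hk0
      rw [nC_zero]
      simp [lf]
    · obtain ⟨i, -, hi⟩ := Finset.mem_image.1 hk
      have hai : a i ≠ 0 := fun h0 => hk0 (hi.symm.trans (gC_zero.2 h0))
      rw [← hi, nC_of hai]
      have h1 : 0 ≤ r (gC a b i) := ho.r_nonneg _ fun j hj => by
        have haj : a j ≠ 0 := fun h0 => by
          rw [gC_zero.2 h0] at hj
          exact hai (gC_zero.1 hj.symm)
        rw [dhC, if_neg haj]
        exact lt_of_le_of_ne (hpos j) (Ne.symm haj)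
      simpa [lf] using h1
  have hone : ∀ i, a i ≠ 0 → r (gC a b i) * lf (nC a b (gC a b i)) (1, 0) = r (gC a b i) := by
    intro i hi
    rw [nC_of hi]
    simp [lf]
  have hsub : ({gC a b 0, gC a b 7, gC a b 9} : Finset ℕ) ⊆ gset (gC a b) := by
    intro k hk
    simp only [Finset.mem_insert, Finset.mem_singleton] at hk
    rcases hk with rfl | rfl | rfl <;> exact mem_gset _
  have d1 : gC a b 0 ≠ gC a b 7 := fun h => by
    rcases (hP.grpB 0).1 h with h | h <;> exact absurd h (by decide)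
  have d2 : gC a b 0 ≠ gC a b 9 := fun h => by
    rcases (hP.grpC 0).1 h with h | h <;> exact absurd h (by decide)
  have d3 : gC a b 7 ≠ gC a b 9 := fun h => by
    rcases (hP.grpC 7).1 h with h | h <;> exact absurd h (by decide)
  have hsum := Finset.sum_le_sum_of_subset_of_nonneg hsub
    (f := fun k => r k * lf (nC a b k) (1, 0)) (fun k hk _ => hterm k hk)
  rw [Finset.sum_insert (by simp [d1, d2]), Finset.sum_insert (by simp [d3]),
    Finset.sum_singleton, hone 0 n0, hone 7 n7, hone 9 n9] at hsum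
  have ht := ho.total (1, 0)
  have e : lf A (1, 0) = A.1 := by simp [lf]
  rw [e] at ht
  linarith

end Crest.Agent.R136.C1s940
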