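import Crest.Agent.R136.C1sF_940
import Crest.Agent.R136.Mir2_356

/-!
# R136, case C1* (mirrored lightlike), part G (helper940)

* `mirAll` : the geometry of the windows (356's `mirHyp_of_wat`).
* `phiXA`, `phiXB` : fullness of `X_a`, `X_b` as values of the group functions.
* `half` : `A.1 ≤ -5`.
-/

set_option autoImplicit false
set_option linter.unusedVariables false
set_option linter.unusedSectionVars false

open Filter Topology Finset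

namespace Crest.Agent.R136.C1s940

open Crest.Agent.R136.Sh605
open Crest.Agent.R138.Ex926 (Base U U_le_atTop)
open Crest.Agent.R136.Net191 Crest.Agent.R136.NetQ186 Crest.Agent.R136.Gf356
open Crest.Agent.R136.Qg926 Crest.Agent.R136.Dg219 Crest.Agent.R136.Aw413
open Crest.Agent.R136.Ab356 (wtQ)
open Crest.Agent.R136.Fe1355 (RawTw)
open Crest.Agent.R136.Mir356 (MirMa mirHyp_of_wat MirHyp)

variable {ι : ℕ → Type*} [∀ n, DecidableEq (ι n)] {B Bo : Base} {I J : ∀ n, Finset (ι n)}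
  {co : ∀ n, ι n → ι n → Fin 11 → ℝ} {Ma : Mons 11} {C : ℝ} {lam : (Fin 11 → ℝ) → ℝ}
  {a b : Fin 11 → ℝ} {A : ℝ × ℝ} {φ : ℕ → (Fin 11 → ℝ) → ℝ} {r : ℕ → ℝ} {κ : Fin 11 → ℝ}
  {V Tw : Fin 11 → Prop} {m : ℝ} {f : ∀ n, ι n → Fq4}

/-- **geometry of all the windows** -/
theorem mirAll (hco : ∀ n, ∀ i ∈ I n, ∀ j ∈ I n, co n i j = coQ (f n i) (f n j))
    (hMa : MirMa Ma) : MirAll B I co Ma C lam V Tw := by
  intro W E' g hW hPr H hL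
  have hq : Ev356.QWnd W f := Crest.Agent.R136.Wq400.qwnd_of_wat hW hco (by
    intro s hs
    have : s = 0 ∨ s = 4 := mem_sM s hs
    tauto)
  have hc := Crest.Agent.R136.Wq400.hcQ hq hPr
  have hM := mirHyp_of_wat hW hco rfl rfl (fun s => rfl) (x := 1) zero_le_one (by
    intro s h1 h3
    show 1 ≤ topM s
    fin_cases s <;> simp [topM] at h1 h3 ⊢) hMa hc
  exact ⟨_, _, _, hM.mirGeo, hM.rawTw one_pos hL⟩

/-- `X_a` -/
theorem phiXA (hP : PlaneM a b) (ho : OutS (gC a b) (coneM Ma) (dhC a b) (nC a b) lam A φ r)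
    (hcone : ∀ c, c ∈ coneM Ma ↔ ConeM c)
    (hX : 1 ≤ lam (![1, 0, 0, 0, 0, 0, 0, 0, 0, 0, 0]) - lam (![1, 0, 0, 0, 0, 0, 0, 0, 1, 0, 0])) :
    φ (gC a b 7) (![0, 0, 0, 0, 0, 0, 0, 0, 1, 0, 0]) ≤ -1 := by
  have m1 : (![1, 0, 0, 0, 0, 0, 0, 0, 0, 0, 0] : Fin 11 → ℝ) ∈ coneM Ma := by
    rw [hcone]
    simp only [ConeM, Matrix.cons_val]
    norm_num
  have m2 : (![1, 0, 0, 0, 0, 0, 0, 0, 1, 0, 0] : Fin 11 → ℝ) ∈ coneM Ma := by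
    rw [hcone]
    simp only [ConeM, Matrix.cons_val]
    norm_num
  have h1 := outS_one ho m1 m2 (i₀ := 7) (by
    intro i hi
    have h8 : i ≠ 8 := fun h => hi ((hP.grpB i).2 (Or.inr h))
    fin_cases i <;> simp at h8 ⊢)
  have h2 : φ (gC a b 7) (![1, 0, 0, 0, 0, 0, 0, 0, 0, 0, 0]) = 0 := ho.zero _ _ fun i hi => by
    rcases (hP.grpB i).1 hi with rfl | rfl <;> simp
  have h3 : φ (gC a b 7) (![1, 0, 0, 0, 0, 0, 0, 0, 1, 0, 0]) =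
      φ (gC a b 7) (![0, 0, 0, 0, 0, 0, 0, 0, 1, 0, 0]) := ho.loc _ _ _ fun i hi => by
    rcases (hP.grpB i).1 hi with rfl | rfl <;> simp
  rw [h1, h2, h3] at hX
  linarith

/-- `X_b` -/
theorem phiXB (hP : PlaneM a b) (ho : OutS (gC a b) (coneM Ma) (dhC a b) (nC a b) lam A φ r)
    (hah : AddHom (coneM Ma) a b φ) (hcone : ∀ c, c ∈ coneM Ma ↔ ConeM c) {t : ℝ} (ht : 0 < t)
    (ht1 : t ≤ 1)
    (hX : t ≤ lam (![1, 0, 0, 0, 0, 0, 0, 0, 1, 0, 0]) - lam (![1, 0, 0, 0, 0, 0, 0, 0, 1, t, 0])) :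
    φ (gC a b 9) (![0, 0, 0, 0, 0, 0, 0, 0, 0, 1, 0]) ≤ -1 := by
  have m1 : (![1, 0, 0, 0, 0, 0, 0, 0, 1, 0, 0] : Fin 11 → ℝ) ∈ coneM Ma := by
    rw [hcone]
    simp only [ConeM, Matrix.cons_val]
    norm_num
  have m2 : (![1, 0, 0, 0, 0, 0, 0, 0, 1, t, 0] : Fin 11 → ℝ) ∈ coneM Ma := by
    rw [hcone]
    simp only [ConeM, Matrix.cons_val]
    refine ⟨?_, ?_, ?_, ?_, ?_, ?_, ?_⟩ <;> linarith
  have m3 : (![1, 0, 1, 0, 1, 1, 1, 1, 1, 1, 0] : Fin 11 → ℝ) ∈ coneM Ma := by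
    rw [hcone]
    simp only [ConeM, Matrix.cons_val]
    norm_num
  have hpos : ∀ i, gC a b i = gC a b 9 → 0 < dhC a b i := by
    intro i hi
    rcases (hP.grpC i).1 hi with rfl | rfl
    · rw [dhC, hP.a9]; norm_num
    · rw [dhC, hP.a10]; norm_num
  have h1 := outS_one ho m1 m2 (i₀ := 9) (by
    intro i hi
    have h8 : i ≠ 9 := fun h => hi (by rw [h])
    fin_cases i <;> simp at h8 ⊢)
  have h2 : φ (gC a b 9) (![1, 0, 0, 0, 0, 0, 0, 0, 1, 0, 0]) = 0 := ho.zero _ _ fun i hi => by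
    rcases (hP.grpC i).1 hi with rfl | rfl <;> simp
  have h3 : φ (gC a b 9) (![1, 0, 0, 0, 0, 0, 0, 0, 1, t, 0]) =
      φ (gC a b 9) (t • (![1, 0, 1, 0, 1, 1, 1, 1, 1, 1, 0] : Fin 11 → ℝ)) :=
    ho.loc _ _ _ fun i hi => by
      rcases (hP.grpC i).1 hi with rfl | rfl <;> simp
  have h4 : φ (gC a b 9) (![1, 0, 1, 0, 1, 1, 1, 1, 1, 1, 0]) =
      φ (gC a b 9) (![0, 0, 0, 0, 0, 0, 0, 0, 0, 1, 0]) := ho.loc _ _ _ fun i hi => by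
    rcases (hP.grpC i).1 hi with rfl | rfl <;> simp
  rw [h1, h2, h3, hah.hom _ hpos _ m3 t ht.le, h4] at hX
  nlinarith

/-- **the F-half of C1*** from the fullness of `X_a`, `X_b` -/
theorem half (h : AeW B Bo I J co monQ Ma C lam a b A φ r 0 1 κ V Tw) (hC : 0 ≤ C)
    (hJ : ∀ᶠ n in (U : Filter ℕ), (J n).Nonempty) (hV : ∀ k, V k → k = 3 ∨ k = 4) (hT : Tw 4)
    (hco : ∀ n, ∀ i ∈ I n, ∀ j ∈ I n, co n i j = coQ (f n i) (f n j)) (hMa : MirMa Ma)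
    (hP : PlaneM a b) (hah : AddHom (coneM Ma) a b φ) (hcone : ∀ c, c ∈ coneM Ma ↔ ConeM c)
    (hXA : 1 ≤ lam (![1, 0, 0, 0, 0, 0, 0, 0, 0, 0, 0]) -
      lam (![1, 0, 0, 0, 0, 0, 0, 0, 1, 0, 0]))
    (hXB : ∃ t : ℝ, 0 < t ∧ t ≤ 1 ∧ t ≤ lam (![1, 0, 0, 0, 0, 0, 0, 0, 1, 0, 0]) -
      lam (![1, 0, 0, 0, 0, 0, 0, 0, 1, t, 0])) (hm : 0 < m)
    (hS1 : ∀ y : ℝ, 0 ≤ y → y ≤ 1 → m * y ≤ lam 0 - lam (![0, 0, 0, 0, 0, y, 0, 0, 0, 0, 0])) :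
    A.1 ≤ -5 := by
  obtain ⟨t, t0, t1, ht⟩ := hXB
  have h1 := phiXA hP h.out hcone hXA
  have h2 := phiXB hP h.out hah hcone t0 t1 ht
  exact A_le h hP hcone h1 (rC_ge h hC hJ hV hT hP hah hcone h2 h1 hm hS1 (mirAll hco hMa))

end Crest.Agent.R136.C1s940
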