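import Crest.Agent.R136.C1sG_940
import Crest.Agent.R136.C1c_865

/-!
# R136, cases C1 and C1* (helper940): the base window

`w0h_of_aew` : the base window (level slot `z`, resolved slots `E, C_a, C_b, X_a, X_b`) of 413's
`AeW` gives 865's `W0H lam 1`.  No hypothesis on the slopes.
-/

set_option autoImplicit false
set_option linter.unusedVariables false
set_option linter.unusedSectionVars false

open Filter Topology Finset

namespace Crest.Agent.R136.C1s940

open Crest.Agent.R136.Sh605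
open Crest.Agent.R138.Ex926 (Base U U_le_atTop)
open Crest.Agent.R136.Net191 Crest.Agent.R136.NetQ186 Crest.Agent.R136.Gf356
open Crest.Agent.R136.Qg926 Crest.Agent.R136.Dg219 Crest.Agent.R136.Aw413
open Crest.Agent.R136.Ab356 (wtQ)
open Crest.Agent.R136.Ev356
open Crest.Agent.R136.Mir356 (MirMa)
open Crest.Agent.R136.C1865 (M0 bw bz LF)

/-- resolution of the base window -/
def topB : Fin 11 → ℝ := ![1, 0, 1, 0, 0, 1, 1, 0, 1, 1, 0]

/-- static data of the base window -/
noncomputable def stB (Ma : Mons 11) (C : ℝ) : WSt 11 where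
  S := {0}
  kz := 0
  top := topB
  kap := fun s => (4 * cK0 monQ C) ^ wtQ s
  Mw := Ma
  R' := 1

theorem cut_z (p q : Fin 11 → ℝ) :
    cut ({0} : Finset (Fin 11)) p q =
      ![q 0, p 1, p 2, p 3, p 4, p 5, p 6, p 7, p 8, p 9, p 10] := by
  funext s
  fin_cases s <;> simp [cut]

variable {Ma : Mons 11} {C : ℝ}

theorem stB_ok (hcone : ∀ c, c ∈ coneM Ma ↔ ConeM c) (hsub : ∀ k, Ma.mon k ⊆ monQ.mon k)
    (hC : 0 ≤ C) : (stB Ma C).Ok monQ (coneM Ma) where
  R0 := zero_le_one
  leg := leg_cone fun k => Finset.Subset.refl _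
  top_leg := by
    show topB ∈ Leg Ma 1
    rw [mem_leg hcone]
    refine ⟨fun s => ?_, fun s => ?_, ?_⟩
    · fin_cases s <;> simp [topB]
    · fin_cases s <;> simp [topB]
    · simp only [ConeM, topB, Matrix.cons_val]
      norm_num
  lin_leg := by
    show cut {0} topB 0 ∈ Leg Ma 1
    rw [mem_leg hcone, cut_z]
    refine ⟨fun s => ?_, fun s => ?_, ?_⟩
    · fin_cases s <;> simp [topB]
    · fin_cases s <;> simp [topB]
    · simp only [ConeM, topB, Matrix.cons_val, Pi.zero_apply]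
      norm_num
  lev_leg := by
    show cut {0} 0 topB ∈ Leg Ma 1
    rw [mem_leg hcone, cut_z]
    refine ⟨fun s => ?_, fun s => ?_, ?_⟩
    · fin_cases s <;> simp [topB]
    · fin_cases s <;> simp [topB]
    · simp only [ConeM, topB, Matrix.cons_val, Pi.zero_apply]
      norm_num
  kzS := by
    show (0 : Fin 11) ∈ ({0} : Finset (Fin 11))
    decide
  kz0 := by
    show monQ.mon 0 = ∅
    rfl
  kzw := by
    show Ma.mon 0 = ∅
    exact Finset.subset_empty.1 (hsub 0)
  kap := fun s => by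
    show 0 < (4 * cK0 monQ C) ^ wtQ s
    have := cK0_one (M := monQ) hC
    positivity

variable {ι : ℕ → Type*} [∀ n, DecidableEq (ι n)] {B Bo : Base} {I J : ∀ n, Finset (ι n)}
  {co : ∀ n, ι n → ι n → Fin 11 → ℝ} {lam : (Fin 11 → ℝ) → ℝ} {a b : Fin 11 → ℝ} {A : ℝ × ℝ}
  {φ : ℕ → (Fin 11 → ℝ) → ℝ} {r : ℕ → ℝ} {κ : Fin 11 → ℝ} {V Tw : Fin 11 → Prop} {m : ℝ}
  {f : ∀ n, ι n → Fq4}

/-- resolved slots of the base window -/
def rsB : Finset (Fin 11) := {0, 2, 5, 6, 8, 9}

theorem cloB : CloM rsB Ma where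
  w4 := fun h => absurd h (by decide)
  w6 := fun _ => Or.inr (by decide)
  w7a := fun h => absurd h (by decide)
  w7b := fun h => absurd h (by decide)
  w8 := fun _ => Or.inr (by decide)
  w9a := fun _ => Or.inr (by decide)
  w9b := fun _ => Or.inr (by decide)
  w10a := fun h => absurd h (by decide)
  w10b := fun h => absurd h (by decide)
  w10c := fun h => absurd h (by decide)

theorem mem_rsB : ∀ s ∈ rsB, topB s = 1 := by
  intro s hs
  fin_cases s <;> first | exact absurd hs (by decide) | simp [topB]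

/-- **the base model** -/
theorem m0_of_wat {W : Wnd 11 ι} {E' : ∀ n, Finset (ι n)} {g : ℕ → ℝ}
    {ex : ℕ → ∀ n, ι n → ℕ} (hW : WAt B I co monQ Ma C lam V Tw (stB Ma C) W)
    (hP : Wnd.Pruned W W.sec E' g ex) (H : RModel W.B' (W.cfg E') 1 1 W.legW W.nu W.Dc)
    (hco : ∀ n, ∀ i ∈ I n, ∀ j ∈ I n, co n i j = coQ (f n i) (f n j))
    (hcone : ∀ c, c ∈ coneM Ma ↔ ConeM c) (hMa : MirMa Ma) :
    M0 W.B' (W.cfg E') W.legW W.nu 1 W.Dc := by
  have hq : QWnd W f := Crest.Agent.R136.Wq400.qwnd_of_wat hW hco (by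
    intro s hs
    have : s ∈ ({0} : Finset (Fin 11)) := hs
    left
    simpa using this)
  have hc := Crest.Agent.R136.Wq400.hcQ hq hP
  have hQ : QAt W f Ma := QAt.of_wat hW hq (by
    show (0 : Fin 11) ∈ ({0} : Finset (Fin 11))
    decide) (fun s => rfl) hMa.b017
  have P : PQ W f rsB 1 (fun _ => chi Ma) := PQ.of_at hQ zero_le_one
    (by
      rw [hW.eS]
      show ({0} : Finset (Fin 11)) ⊆ rsB
      decide) (fun s hs => by
      rw [hW.etop]
      exact (mem_rsB s hs).ge) cloB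
  have hkz : W.kz = 0 := hW.ekz
  have hS : W.S = {0} := hW.eS
  have c058 : chi Ma 0 5 8 = 1 := if_pos hMa.a058
  have c069 : chi Ma 0 6 9 = 1 := if_pos hMa.a069
  have c289 : chi Ma 2 8 9 = 1 := if_pos hMa.a289
  have bd : ∀ᶠ n in (U : Filter ℕ), (∀ k ∈ (W.cfg E' n).Z, |(W.cfg E' n).z k| ≤ 1) ∧
      ∀ k i l, (i, k) ∈ (W.cfg E' n).I → (l, k) ∈ (W.cfg E' n).I →
        ∀ s, |(W.cfg E' n).rel k i l s| ≤ 1 := by
    filter_upwards [hc, hq.z_eq hkz hc] with n hn hz
    obtain ⟨g, hE, hcfg⟩ := hn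
    refine ⟨fun k hk => ?_, fun k i l h1 h2 s => ?_⟩
    · rw [hz k]
      rw [hcfg] at hk
      exact (P.crd4 g g.s0 (zrep_of_mem hE hk).1 0).trans (by norm_num)
    · rw [hcfg] at h1 h2 ⊢
      rw [rel_cfg0]
      split_ifs
      · rw [abs_zero]; norm_num
      · exact (P.crd4 g (rep_of_mem hE h1).1 (rep_of_mem hE h2).1 s).trans (by norm_num)
  refine ⟨H, one_pos, ?_, ?_, ?_, ?_, ?_⟩
  · -- leg
    intro e ca cb xa xb e0 e1 ca0 ca1 cb0 cb1 xa0 xa1 xb0 xb1 w6 w9
    show cut W.S _ W.top ∈ Leg W.Mw W.R' ∧ _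
    rw [hW.eS, hW.etop, hW.eMw, hW.eR]
    refine ⟨?_, fun s hs => ?_⟩
    · show cut {0} _ topB ∈ Leg Ma 1
      rw [mem_leg hcone, cut_z]
      refine ⟨fun s => ?_, fun s => ?_, ?_⟩
      · fin_cases s <;> simp [topB, bw] <;> assumption
      · fin_cases s <;> simp [topB, bw] <;> assumption
      · simp only [ConeM, topB, bw, Matrix.cons_val]
        refine ⟨?_, ?_, ?_, ?_, ?_, ?_, ?_⟩ <;> linarith
    · show bw e ca cb 0 xa xb 0 s ≤ topB s
      fin_cases s <;> simp [topB, bw] <;> assumption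
  · -- zb
    intro ε hε
    filter_upwards [bd, Crest.Agent.R136.Gf356.ev_const_le W.B' hε 2] with n hn h2 k hk k' hk'
    have := abs_sub ((W.cfg E' n).z k') ((W.cfg E' n).z k)
    linarith [hn.1 k hk, hn.1 k' hk']
  · -- rb
    intro ε hε
    filter_upwards [bd, Crest.Agent.R136.Gf356.ev_const_le W.B' hε 1] with n hn h2 k i l h3 h4 s
    exact (hn.2 k i l h3 h4 s).trans h2
  · -- ev
    intro ε hε
    filter_upwards [P.evo hc hε, hc, hq.mot_eq hc, hq.z_eq hkz hc] with n hn hcn hm hz k k' i l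
      h1 h2 h3 h4
    have key := hn k k' i l h1 h3 h2 h4
    obtain ⟨g, hE, hcfg⟩ := hcn
    have hk : k ∈ (W.cfg E' n).Z := by
      rw [hcfg] at h1 ⊢
      obtain ⟨u, hu, -, h6⟩ := mem_cfg0 h1
      exact mem_image.2 ⟨u, hu, h6⟩
    have hk' : k' ∈ (W.cfg E' n).Z := by
      rw [hcfg] at h3 ⊢
      obtain ⟨u, hu, -, h6⟩ := mem_cfg0 h3
      exact mem_image.2 ⟨u, hu, h6⟩
    have o2 : ownC (chi Ma) W n k k' (fsl W n i k 2) (fsl W n i k 3) 2 = 0 := by
      show mot W n k k' 2 = 0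
      unfold mot
      rw [if_neg (by rw [hS]; decide)]
    have o0 : ownC (chi Ma) W n k k' (fsl W n i k 2) (fsl W n i k 3) 0 =
        (W.cfg E' n).z k' - (W.cfg E' n).z k := by
      show mot W n k k' 0 = _
      unfold mot
      rw [if_pos (by rw [hS]; decide), (hm k hk k' hk').1 0 (Or.inl rfl), hz, hz]
    refine ⟨?_, ?_, ?_⟩
    · have := key 2 (by decide) (by rw [hS]; decide)
      simpa [evoC] using this
    · have := key 8 (by decide) (by rw [hS]; decide)
      simp only [evoC, Matrix.cons_val, o0, c058, one_mul] at this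
      exact this
    · have := key 9 (by decide) (by rw [hS]; decide)
      simp only [evoC, Matrix.cons_val, o0, o2, c058, c069, c289, one_mul, zero_mul,
        sub_zero] at this
      exact this
  · -- co
    intro ε hε
    filter_upwards [P.comp hc hε] with n hn k i l l' h1 h2 h3
    have key := hn k i l l' h1 h2 h3
    refine ⟨?_, ?_⟩
    · have := key 8 (by rw [hS]; decide)
      simp only [compC, Matrix.cons_val] at this
      have e : (W.cfg E' n).rel k i l' 8 - (W.cfg E' n).rel k i l 8 - (W.cfg E' n).rel k l l' 8 =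
          (W.cfg E' n).rel k i l' 8 - ((W.cfg E' n).rel k i l 8 + (W.cfg E' n).rel k l l' 8) := by
        ring
      rw [e]
      exact this
    · have := key 9 (by rw [hS]; decide)
      simp only [compC, Matrix.cons_val, c289, one_mul] at this
      have e : (W.cfg E' n).rel k i l' 9 - (W.cfg E' n).rel k i l 9 - (W.cfg E' n).rel k l l' 9 -
          (W.cfg E' n).rel k i l 2 * (W.cfg E' n).rel k l l' 8 = (W.cfg E' n).rel k i l' 9 -
          ((W.cfg E' n).rel k i l 9 + (W.cfg E' n).rel k l l' 9 +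
            (W.cfg E' n).rel k i l 2 * (W.cfg E' n).rel k l l' 8) := by
        ring
      rw [e]
      exact this

/-- **the base window** -/
theorem w0h_of_aew (h : AeW B Bo I J co monQ Ma C lam a b A φ r 0 1 κ V Tw) (hC : 0 ≤ C)
    (hJ : ∀ᶠ n in (U : Filter ℕ), (J n).Nonempty) (hV : ∀ k, V k → k = 3 ∨ k = 4)
    (hco : ∀ n, ∀ i ∈ I n, ∀ j ∈ I n, co n i j = coQ (f n i) (f n j)) (hMa : MirMa Ma)
    (hcone : ∀ c, c ∈ coneM Ma ↔ ConeM c) : LF.W0H lam 1 := by
  have hok := stB_ok hcone h.sub hC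
  obtain ⟨W, hW, -, -⟩ := h.wnd (stB Ma C) rfl hok (fun _ _ => 1)
    (fun i => Crest.Agent.R138.Ex926.Base.Sub.const one_pos) J (fun _ => 1)
    (Eventually.of_forall fun n => Finset.Subset.refl _) hJ
    (Crest.Agent.R138.Ex926.Base.Sub.const one_pos) (Eventually.of_forall fun n => by simp)
  have hsing : ∀ y : ℝ, 0 ≤ y → (Pi.single 0 y : Fin 11 → ℝ) ∈ coneM Ma := by
    intro y hy
    have e : (Pi.single 0 y : Fin 11 → ℝ) = ![y, 0, 0, 0, 0, 0, 0, 0, 0, 0, 0] := by
      funext s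
      fin_cases s <;> simp
    rw [e, hcone]
    simp only [ConeM, Matrix.cons_val]
    refine ⟨?_, ?_, ?_, ?_, ?_, ?_, ?_⟩ <;> linarith
  have hden : (stB Ma C).Dens lam 1 1 := by
    refine ⟨?_, zero_le_one, le_rfl, ?_, ?_⟩
    · have m1 : cut ({0} : Finset (Fin 11)) topB 0 ∈ coneM Ma := hok.leg hok.lin_leg
      have m2 : topB ∈ coneM Ma := hok.leg hok.top_leg
      have m3 : cut ({0} : Finset (Fin 11)) 0 topB ∈ coneM Ma := hok.leg hok.lev_leg
      show lam topB ≤ lam (cut {0} topB 0) + lam (cut {0} 0 topB)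
      have e1 := h.own _ m1 _ m2 (by
        intro s
        rw [cut_z]
        fin_cases s <;> simp [topB]) (by
        intro k hk
        rw [cut_z]
        rcases hV k hk with rfl | rfl <;> simp [topB])
      have e2 := h.sharp 0 zero_mem _ m3 (by
        intro s
        rw [cut_z]
        fin_cases s <;> simp [topB])
      rw [h.zero] at e2
      have e3 : ∑ s, (cut ({0} : Finset (Fin 11)) 0 topB s - (0 : Fin 11 → ℝ) s) = 1 := by
        rw [cut_z]
        simp [Fin.sum_univ_succ, topB]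
      rw [e3] at e2
      have e4 : topB 0 - cut ({0} : Finset (Fin 11)) topB 0 0 = 1 := by
        rw [cut_z]
        simp [topB]
      rw [e4] at e1
      linarith
    · show (1 : ℝ) ≤ topB 0
      simp [topB]
    · intro y hy _
      show lam (Pi.single 0 y) ≤ -(1 * y)
      have e1 := h.own 0 zero_mem _ (hsing y hy) (by
        intro s
        by_cases hs : s = 0
        · subst hs; simpa using hy
        · rw [Pi.single_eq_of_ne hs]; rfl) (fun k _ => by simp)
      rw [h.zero, Pi.single_eq_same] at e1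
      simp only [Pi.zero_apply] at e1
      linarith
  obtain ⟨E', g, hPr, -, H, -⟩ := hW.model hden (fun _ _ _ => 0)
    (g₀ := fun n => (n : ℝ)) (tendsto_natCast_atTop_atTop.mono_left U_le_atTop) (by
      intro k hk
      right
      show topB k = 0
      rcases hV k hk with rfl | rfl <;> simp [topB])
  refine ⟨W.B', W.cfg E', W.legW, W.nu, W.Dc, lam topB, m0_of_wat hW hPr H hco hcone hMa, ?_⟩
  intro e ca cb xa xb
  show W.lam (cut W.S _ W.top) - W.lam W.top = _
  rw [hW.elam, hW.eS, hW.etop]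
  show lam (cut {0} _ topB) - lam topB = _
  rw [cut_z]
  rfl

end Crest.Agent.R136.C1s940
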