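import Crest.Agent.R136.C1sX_940
import Crest.Agent.R136.C1sI_940
import Crest.Agent.R136.Tb5_628
import Crest.Agent.R136.TopB_550

/-!
# R136, case C1* (mirrored lightlike), part H (helper940): the row

* `slo_F`, `planeM_F`, `mirMa_F` : the plane of 628 with slack `F_b`.
* `lx_of_row` : the facts of one point of the row.
* **`caseC1s : DeadG η pC1s`** (`0 < η ≤ 1 / 8`).
-/

set_option autoImplicit false
set_option linter.unusedVariables false
set_option linter.unusedSectionVars false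

open Filter Topology Finset

namespace Crest.Agent.R136.C1s940

open Crest.Agent.R136.Net191 Crest.Agent.R136.NetQ186
open Crest.Agent.R136.NatT550 Crest.Agent.R136.NatR550
open Crest.Agent.R136.Lq196 Crest.Agent.R136.Wq638
open Crest.Agent.R136.Gf356 Crest.Agent.R136.Qg926
open Crest.Agent.R136.Dg219
open Crest.Agent.R136.Dg262 (X)
open Crest.Agent.R136.Aw413
open Crest.Agent.R136.Rc146 (OutA)
open Crest.Agent.R138.Ex926 (Base U)
open Crest.Agent.R136.Top484 (Par4 Dat4)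
open Crest.Agent.R136.TopB550 (DeadG pC1s LLs)
open Crest.Agent.R136.Mir356 (MirMa)
open Crest.Agent.R136.Ev356 (mv)
open Crest.Agent.R136.GeoQ186 (scl)
open Crest.Agent.R136.C1865 (M0 bw bz mem_bz bz_le Slo)
open Crest.Agent.R136.Tb628 (coneF eCa eECb RowPt Hom RecS sA sB s0 row_F0 mem_act slack)

variable {θ : Fin 3 → ℝ} {w0 R κ3 kf : ℝ}

/-- slopes of the plane with slack `F_b` -/
theorem slo_F (h1 : 0 < θ 1) (hk : κ3 = θ 1 - θ 0) (hf : 0 ≤ kf) :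
    Slo (Tb628.fA 0 κ3 kf) (Tb628.fB θ 0 κ3 kf) κ3 (θ 2 / θ 1) := by
  have e1 : (θ 0 + κ3) / θ 1 = 1 := by
    rw [hk, add_sub_cancel, div_self h1.ne']
  have hA : ∀ k : Fin 11, k ≠ 3 → Tb628.fA 0 κ3 kf k = nL 1 0 0 κ3 k := fun k hk => by
    rw [Tb628.fA, Function.update_of_ne hk]; rfl
  have hB : ∀ k : Fin 11, k ≠ 3 → Tb628.fB θ 0 κ3 kf k = nL 0 1 (θ 2 / θ 1) 1 k := fun k hk => by
    rw [Tb628.fB, Function.update_of_ne hk, sB, add_zero, e1]
  refine ⟨?_, ?_, ?_, ?_, ?_, ?_, ?_, ?_, ?_, ?_, ?_, ?_, ?_, ?_, ?_, ?_, ?_, ?_, ?_, ?_⟩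
  · rw [hA _ (by decide)]; simp [nL]
  · rw [hA _ (by decide)]; simp [nL]
  · rw [hA _ (by decide)]; simp [nL]
  · rw [Tb628.fA, Function.update_self]; exact hf
  · rw [hA _ (by decide)]; simp [nL]
  · rw [hA _ (by decide)]; simp [nL]
  · rw [hA _ (by decide)]; simp [nL]
  · rw [hA _ (by decide)]; simp [nL]
  · rw [hA _ (by decide)]; simp [nL]
  · rw [hA _ (by decide)]; simp [nL]
  · rw [hA _ (by decide)]; simp [nL]
  · rw [hB _ (by decide)]; simp [nL]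
  · rw [hB _ (by decide)]; simp [nL]
  · rw [hB _ (by decide)]; simp [nL]
  · rw [hB _ (by decide)]; simp [nL]
  · rw [hB _ (by decide)]; simp [nL]
  · rw [hB _ (by decide)]; simp [nL]
  · rw [hB _ (by decide)]; simp [nL]
  · rw [hB _ (by decide)]; simp [nL]
  · rw [hB _ (by decide)]; simp [nL]

/-- the plane of C1* -/
theorem planeM_F (h1 : 0 < θ 1) (hL1 : θ 1 - θ 0 = 1) (hL2 : θ 2 = θ 1 / 2) (hf : 0 ≤ kf)
    (hf1 : kf < 1) (hpar : kf = 0 ∨ (θ 2 - θ 0 < kf ∧ 0 < θ 2 - θ 0)) :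
    PlaneM (Tb628.fA 0 1 kf) (Tb628.fB θ 0 1 kf) := by
  have sl := slo_F (θ := θ) (κ3 := 1) h1 hL1.symm hf
  have hs : θ 2 / θ 1 = 1 / 2 := by rw [hL2]; field_simp
  rw [hs] at sl
  refine ⟨sl.a0, sl.b0, sl.a1, sl.a2, sl.a3, sl.a4, sl.b4, sl.a5, sl.a6, sl.a7, sl.b7, sl.a8,
    sl.b8, sl.a9, sl.b9, ?_, sl.b10, ?_⟩
  · rw [sl.a10]; norm_num
  · have a3 : Tb628.fA 0 1 kf 3 = kf := by rw [Tb628.fA, Function.update_self]
    have b3 : Tb628.fB θ 0 1 kf 3 = (kf - (θ 2 - θ 0)) / θ 1 := by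
      rw [Tb628.fB, Function.update_self]
    rw [a3, b3]
    rcases hpar with h | ⟨h2, h3⟩
    · exact Or.inl h
    · right
      have hk : θ 2 - θ 0 = 1 - θ 1 / 2 := by rw [hL2]; linarith
      rw [hk] at h2 h3 ⊢
      have hk0 : 0 < kf := h3.trans h2
      refine ⟨?_, ?_, ?_⟩
      · exact (div_pos (div_pos (by linarith) h1) hk0).ne'
      · intro h
        rw [div_eq_iff hk0.ne', one_mul, div_eq_iff h1.ne'] at h
        rcases le_total (θ 1) 1 with h4 | h4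
        · nlinarith
        · nlinarith
      · intro h
        rw [div_eq_iff hk0.ne', div_eq_iff h1.ne'] at h
        have h5 : (kf - 1) * (2 - θ 1) = 0 := by linarith
        rcases mul_eq_zero.1 h5 with h6 | h6 <;> linarith

/-- the walls -/
theorem mirMa_F (h1 : 0 < θ 1) (hk : κ3 = θ 1 - θ 0) (hf : 0 ≤ kf) (hf1 : kf < κ3) :
    MirMa (actM monQ (s0 w0 (R - 1)) (Tb628.fA 0 κ3 kf) (Tb628.fB θ 0 κ3 kf)) := by
  have sl := slo_F (θ := θ) h1 hk hf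
  have a3 : Tb628.fA 0 κ3 kf 3 = kf := by rw [Tb628.fA, Function.update_self]
  obtain ⟨a0, a1, a2, -, a4, a5, a6, a7, a8, a9, a10, b0, b2, b4, b5, b6, b7, b8, b9, b10⟩ := sl
  have e : ∀ k : Fin 11, s0 w0 (R - 1) k = ![w0, R - 1, w0, w0, 2 * w0, w0, 2 * w0, 3 * w0,
      2 * w0, 3 * w0, 4 * w0] k := by
    intro k
    fin_cases k <;> simp [s0, nat4]
  refine ⟨?_, ?_, ?_, ?_, ?_, ?_, ?_, ?_, ?_, ?_, ?_⟩
  · refine mem_act.2 ⟨by decide, ?_, ?_, ?_⟩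
    · rw [e, e, e]; simp; ring
    · rw [a6, a2, a5]; ring
    · rw [b6, b2, b5]; ring
  · refine mem_act.2 ⟨by decide, ?_, ?_, ?_⟩
    · rw [e, e, e]; simp; ring
    · rw [a9, a2, a8]; ring
    · rw [b9, b2, b8]; ring
  · refine mem_act.2 ⟨by decide, ?_, ?_, ?_⟩
    · rw [e, e, e]; simp; ring
    · rw [a7, a4, a5]; ring
    · rw [b7, b4, b5]; ring
  · refine mem_act.2 ⟨by decide, ?_, ?_, ?_⟩
    · rw [e, e, e]; simp; ring
    · rw [a10, a4, a8]; ring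
    · rw [b10, b4, b8]; ring
  · refine mem_act.2 ⟨by decide, ?_, ?_, ?_⟩
    · rw [e, e, e]; simp; ring
    · rw [a8, a0, a5]; ring
    · rw [b8, b0, b5]; ring
  · refine mem_act.2 ⟨by decide, ?_, ?_, ?_⟩
    · rw [e, e, e]; simp; ring
    · rw [a9, a0, a6]; ring
    · rw [b9, b0, b6]; ring
  · refine mem_act.2 ⟨by decide, ?_, ?_, ?_⟩
    · rw [e, e, e]; simp; ring
    · rw [a10, a0, a7]
    · rw [b10, b0, b7]; ring
  · intro h
    have := (mem_act.1 h).2.2.1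
    rw [a4, a2, a3] at this
    linarith
  · intro h
    have := (mem_act.1 h).2.2.1
    rw [a7, a6, a3] at this
    linarith
  · intro h
    have := (mem_act.1 h).2.2.1
    rw [a10, a9, a3] at this
    linarith
  · intro h
    have h2 := (mem_act.1 h).2.2.2
    have h3 : Tb628.fB θ 0 κ3 kf 1 = 0 := by
      rw [Tb628.fB, Function.update_of_ne (by decide)]
      simp [sB, nL]
    rw [b7, b0, h3] at h2
    norm_num at h2

variable {B : Base} {I I1 : ℕ → Finset (ℕ × ℝ)}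
  {co : ∀ n : ℕ, ℕ × ℝ → ℕ × ℝ → Fin 11 → ℝ} {ν : (Fin 11 → ℝ) → ℝ} {V T : Fin 11 → Prop}
  {ξ x : ℝ} {h : ℕ → ℝ} {lam : (Fin 11 → ℝ) → ℝ} {A : ℝ × ℝ} {φ : ℕ → (Fin 11 → ℝ) → ℝ}
  {r : ℕ → ℝ} {q1 q2 : ℝ}

/-- the facts at one point of the row -/
theorem lx_of_row
    (P : RowPt B I I1 co θ w0 R ν V T (s0 w0 (R - 1)) (Tb628.fA 0 κ3 kf) (Tb628.fB θ 0 κ3 kf)
      ξ x h lam A φ r)
    (h1 : 0 < θ 1) (hk : κ3 = θ 1 - θ 0) (hk0 : 0 < κ3) (hf : 0 ≤ kf) (hσ : θ 2 ≠ θ 1)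
    (hq1 : 0 < q1) (hq2 : 0 < q2) (hR1 : RecS θ w0 R ν (eCa 1) q1)
    (hR2 : RecS θ w0 R ν (eECb 1) q2)
    (hcone : coneM (actM monQ (s0 w0 (R - 1)) (Tb628.fA 0 κ3 kf) (Tb628.fB θ 0 κ3 kf)) =
      coneF) :
    LX lam (Tb628.fA 0 κ3 kf) (Tb628.fB θ 0 κ3 kf) A φ r κ3 (θ 2 / θ 1) q1 q2 := by
  have sl := slo_F (θ := θ) (κ3 := κ3) h1 hk hf
  refine ⟨hk0, ?_, hq1, hq2, sl, hcone ▸ P.out, ?_, ?_, ?_, ?_⟩
  · rw [Ne, div_eq_one_iff_eq h1.ne']
    exact hσ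
  · intro c hc c' hc' hcc
    rw [← hcone] at hc hc'
    exact P.aew.anti c hc c' hc' hcc
  · intro c hc c' hc' hcc
    rw [← hcone] at hc hc'
    exact P.aew.sharp c hc c' hc' hcc
  · intro c hc y hy hcy h2 h3 h5 h6
    rw [← hcone] at hc hcy
    refine P.S1 sl.a5 sl.b5 hR1 hc hy hcy fun k hk1 hak => ?_
    rw [h5, mul_zero]
    fin_cases k
    · exact absurd (sl.a0.symm.trans hak) (by norm_num)
    · exact absurd rfl hk1
    · exact h2
    · exact h3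
    · exact absurd (sl.a4.symm.trans hak) hk0.ne'
    · exact h5.le
    · exact h6
    · exact absurd (sl.a7.symm.trans hak) hk0.ne'
    · exact absurd (sl.a8.symm.trans hak) (by norm_num)
    · exact absurd (sl.a9.symm.trans hak) (by norm_num)
    · exact absurd (sl.a10.symm.trans hak) (by linarith)
  · intro c hc y hy hcy h2 h3 h5 h6
    rw [← hcone] at hc hcy
    refine P.S2 sl.a2 sl.a6 hR2 hc (τ := 0) hy hcy (fun k hk1 hak => ?_) (by rw [h2, mul_zero])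
      (by rw [h6, mul_zero])
    rw [mul_zero]
    fin_cases k
    · exact absurd (sl.a0.symm.trans hak) (by norm_num)
    · exact absurd rfl hk1
    · exact h2.le
    · exact h3
    · exact absurd (sl.a4.symm.trans hak) hk0.ne'
    · exact h5
    · exact h6.le
    · exact absurd (sl.a7.symm.trans hak) hk0.ne'
    · exact absurd (sl.a8.symm.trans hak) (by norm_num)
    · exact absurd (sl.a9.symm.trans hak) (by norm_num)
    · exact absurd (sl.a10.symm.trans hak) (by linarith)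

/-- **case C1*** -/
theorem caseC1s {η : ℝ} (hη : 0 < η) (hη1 : η ≤ 1 / 8) : DeadG η pC1s := by
  intro p D I1 π eE gA gB V T w0 R T0 PD ν own c₀ h hp hG
  obtain ⟨hV2, hV4, hL1, hL2⟩ := hp
  have ok := h.tp.ok
  have hth : 0 < p.θ 1 := ok.θ1
  have hvis := h.tp.slots.vis
  obtain ⟨kf, hf0, hf1, hf3, hpar⟩ : ∃ kf : ℝ, 0 ≤ kf ∧ kf < 1 ∧ (V 3 → p.θ 2 - p.θ 0 < kf) ∧
      (kf = 0 ∨ (p.θ 2 - p.θ 0 < kf ∧ 0 < p.θ 2 - p.θ 0)) := by
    by_cases h3 : V 3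
    · have h4 : 0 < p.θ 2 - p.θ 0 := by
        have := (hvis 3 h3).2
        simpa [btQ] using this
      have h5 : p.θ 2 - p.θ 0 < 1 := by rw [hL2]; linarith
      exact ⟨(p.θ 2 - p.θ 0 + 1) / 2, by linarith, by linarith, fun _ => by linarith,
        Or.inr ⟨by linarith, h4⟩⟩
    · exact ⟨0, le_rfl, one_pos, fun h => absurd h h3, Or.inl rfl⟩
  have hsl : p.q 2 * 0 + p.q 0 * 1 < p.g := slack (i := 1) (j := 0) (k := 1) (l := 0) ok hη hη1
    ok.θb (by positivity) (by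
      have e1 := le_abs_self (p.θ 1)
      have e2 := neg_abs_le (p.θ 0)
      linarith)
  refine row_F0 h hη le_rfl zero_le_one hf0 (by linarith) (Or.inl rfl) (hG.imp Ne.symm id) hsl
    (fun h2 => absurd h2 hV2) (fun h3 => (hf3 h3).le) (fun _ => hL1.le) ?_
  intro hR1 hR2 hcone ξ x h' lam A φ r P hH
  have h12 : p.θ 2 ≠ p.θ 1 := by rw [hL2]; intro h; linarith
  have q1p := ok.g0.2
  have q2p := ok.q2.1
  have L := lx_of_row P hth hL1.symm one_pos hf0 h12 q1p q2p (hR1 (Ne.symm h12)) hR2 hcone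
  have hPl := planeM_F hth hL1 hL2 hf0 hf1 hpar
  have hMa := mirMa_F (w0 := w0) (R := R) (θ := p.θ) hth hL1.symm hf0 hf1
  have hcone' : ∀ c, c ∈ coneM (actM monQ (s0 w0 (R - 1)) (Tb628.fA 0 1 kf)
      (Tb628.fB p.θ 0 1 kf)) ↔ ConeM c := fun c => by rw [hcone]; exact Iff.rfl
  have hV : ∀ k, V k ∧ Tb628.fB p.θ 0 1 kf k = 0 → k = 3 ∨ k = 4 := fun k hk => by
    rcases (hvis k hk.1).1 with rfl | rfl | rfl
    · exact absurd hk.1 hV2
    · exact Or.inl rfl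
    · exact Or.inr rfl
  have hT4 : T 4 := by
    by_contra hT
    exact hV2 (h.tp.slots.cap 4 hV4 hT).2.1
  have hJ := (Tb628.nprof h).ne
  have hW := w0h_of_aew (f := fun n x => scl (uH D.B D.lev w0 n) (uA D.B D.lev D.w w0 n)
    (uB D.B D.lev D.w w0 n) (uY D.B D.lev D.w w0 n) (incQ π D.L eE gA gB n x)) P.aew
    (by norm_num) hJ hV (fun n i _ j _ => rfl) hMa hcone'
  have hXA := L.xa_full one_pos hW
  obtain ⟨t, t0, t1, hXB⟩ := L.xb_full one_pos hW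
  have key := half (f := fun n x => scl (uH D.B D.lev w0 n) (uA D.B D.lev D.w w0 n)
    (uB D.B D.lev D.w w0 n) (uY D.B D.lev D.w w0 n) (incQ π D.L eE gA gB n x)) P.aew
    (by norm_num) hJ hV ⟨hT4, hPl.b4⟩ (fun n i _ j _ => rfl) hMa hPl ⟨P.out.add, hH⟩ hcone' hXA
    ⟨t, t0, t1, hXB t t0.le le_rfl⟩ q1p (by
      intro y y0 y1
      have e : (0 : Fin 11 → ℝ) + eCa y = ![0, 0, 0, 0, 0, y, 0, 0, 0, 0, 0] := by
        rw [zero_add]; rfl
      have hz : (0 : Fin 11 → ℝ) ∈ coneF := by rw [← hcone]; exact zero_mem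
      have hy : (0 : Fin 11 → ℝ) + eCa y ∈ coneF := by
        rw [e, ← hcone, hcone']
        simp only [ConeM, Matrix.cons_val]
        refine ⟨?_, ?_, ?_, ?_, ?_, ?_, ?_⟩ <;> linarith
      have := L.S1 0 hz y y0 hy le_rfl le_rfl rfl le_rfl
      rwa [e] at this)
  linarith

end Crest.Agent.R136.C1s940
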