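import Crest.Agent.R136.C2w_400
import Crest.Agent.R136.CD6_366

/-!
# R136, case (C2), `κ = 1`: the last slot is full (helper400)

Over helper355's model `NM` of the natural window, level slots `{z, F_b}`:

* `Sp` : splitting of the profile (all of `F_a, X_a, N` alone, `P || X_b`, `C_a, C_b, E` together);
* `fa_free` : `F_a` costs nothing (leaf `(X_a, F_a, N)`), `e_free` : `E` costs nothing (visible shift
  `F_a' = F_a - φ E`);
* `kone_NM` : one call of helper366's `kappa_one_R`: the rate of `N` is at least `1`.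
-/

set_option autoImplicit false
set_option linter.unusedSectionVars false
set_option linter.unusedVariables false

open Filter Topology

namespace Crest.Agent.R136.C2k400

open Finset
open Crest.Agent.R136.Gf356
open Crest.Agent.R136.C2355 Crest.Agent.R136.Fe1355
open Crest.Agent.R138.Ex926 (Base U)

/-- splitting of the profile of the natural window -/
structure Sp (ν : (Fin 11 → ℝ) → ℝ) (T aF aX aN : ℝ) (g0 : ℝ → ℝ → ℝ → ℝ) (gP : ℝ → ℝ → ℝ) :
    Prop where
  z0 : g0 0 0 0 = 0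
  zP : gP 0 0 = 0
  nu : ∀ e fa ca cb p xa xb n : ℝ, 0 ≤ e → e ≤ T → 0 ≤ fa → fa ≤ T → 0 ≤ ca → ca ≤ T →
    0 ≤ cb → cb ≤ T → 0 ≤ p → p ≤ T → 0 ≤ xa → xa ≤ T → 0 ≤ xb → xb ≤ T → 0 ≤ n → n ≤ T →
    cb ≤ e + ca → p ≤ fa + ca → xb ≤ e + xa → n ≤ fa + xa →
    ν (bv e fa ca cb p xa xb n) =
      ν (bv 0 0 0 0 0 0 0 0) - g0 e ca cb - gP p xb - aF * fa - aX * xa - aN * n

variable {B : Base} {G : ℕ → RCfg (Fin 11)} {Leg : Set (Fin 11 → ℝ)} {ν : (Fin 11 → ℝ) → ℝ}
  {T D : ℝ} {F : ℕ → ℕ → ℝ} {aF aX aN : ℝ} {g0 : ℝ → ℝ → ℝ → ℝ} {gP : ℝ → ℝ → ℝ}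

theorem lbx10 (u v w : ℝ) : Lf400.bx (bv 0 0 0 0 0 0 0 0) 8 4 10 u v w = bv 0 v 0 0 0 u 0 w := by
  funext j
  fin_cases j <;> simp [Lf400.bx, bv]

theorem kbx (y n p x c : ℝ) : CD366.bx {2, 4} 10 7 9 6 y n p x c = bv y y 0 c p 0 x n := by
  funext j
  fin_cases j <;> simp [CD366.bx, bv]

/-- **`F_a` costs nothing** if `N` is not full -/
theorem fa_free (h : NM B G Leg ν T D F) (sp : Sp ν T aF 1 aN g0 gP) (haN : aN < 1) :
    aF ≤ 0 := by
  have hT := h.T0
  set j : ℝ := min (T / 2) ((1 - aN) * T / 2) with hj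
  have h1 : 0 < (1 - aN) * T := mul_pos (by linarith) hT
  have hj0 : 0 < j := lt_min (by linarith) (by linarith)
  have hjT : j ≤ T := (min_le_left _ _).trans (by linarith)
  have hjm : j < (1 - aN) * T := lt_of_le_of_lt (min_le_right _ _) (by linarith)
  have key := Lf400.leaf_free_R h.H.toRUnif (bv 0 0 0 0 0 0 0 0) (sX := 8) (sF := 4) (sN := 10)
    (by decide) (by decide) (by decide) hj0.le hjT
    (by
      intro u v w hu0 huT hv0 hvT hw0 hwT hwuv
      rw [lbx10]
      exact h.leg 0 v 0 0 0 u 0 w le_rfl hT.le hv0 hvT le_rfl hT.le le_rfl hT.le le_rfl hT.le hu0 huT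
        le_rfl hT.le hw0 hwT (by linarith) (by linarith) (by linarith) (by linarith))
    (fun _ => 1)
    (by
      intro ε hε
      refine Filter.Eventually.of_forall fun n => ?_
      rw [abs_one]
      refine ⟨?_, ?_⟩
      · have := rpow_anti B n hε.le
        rwa [Real.rpow_zero] at this
      · have := rpow_anti B n (show -ε ≤ 0 by linarith)
        rwa [Real.rpow_zero] at this)
    (C1 := 1) le_rfl
    (by
      intro ε hε
      filter_upwards [h.co ε hε] with n hn k i l l' h1 h2 h3 _ _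
      refine (hn k i l l' h1 h2 h3).c8.trans (rpow_anti B n (by linarith)))
    (by
      intro ε hε
      filter_upwards [h.co ε hε] with n hn k i l l' h1 h2 h3 _ _
      rw [one_mul]
      refine (hn k i l l' h1 h2 h3).c10.trans (rpow_anti B n (by linarith)))
    (a := aN) (e := fun v => aF * v) (by linarith)
    (by
      intro u v w hu0 huT hv0 hvT hw0 hwT hwuv
      rw [lbx10, lbx10, sp.nu 0 v 0 0 0 u 0 w le_rfl hT.le hv0 hvT le_rfl hT.le le_rfl hT.le le_rfl
        hT.le hu0 huT le_rfl hT.le hw0 hwT (by linarith) (by linarith) (by linarith)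
        (by linarith), sp.z0, sp.zP]
      ring)
  simp only [mul_zero] at key
  by_contra hcon
  push Not at hcon
  have := mul_pos hcon hj0
  linarith

/-- **`E` costs nothing** if `F_a` costs nothing: visible shift `F_a' = F_a - φ E` -/
theorem e_free (h : NM B G Leg ν T D F) (sp : Sp ν T aF aX aN g0 gP)
    (htw : RawTw B G fun n k k' => F n k' - F n k) (haF : aF ≤ 0) {y : ℝ} (hy : 0 ≤ y)
    (hyT : y ≤ T) : g0 y 0 0 ≤ 0 := by
  have hT := h.T0
  have L : ∀ e fa : ℝ, 0 ≤ e → e ≤ T → 0 ≤ fa → fa ≤ T → bv e fa 0 0 0 0 0 0 ∈ Leg :=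
    fun e fa e0 e1 f0 f1 => h.leg e fa 0 0 0 0 0 0 e0 e1 f0 f1 le_rfl hT.le le_rfl hT.le le_rfl hT.le
      le_rfl hT.le le_rfl hT.le le_rfl hT.le (by linarith) (by linarith) (by linarith)
      (by linarith)
  have N : ∀ e fa : ℝ, 0 ≤ e → e ≤ T → 0 ≤ fa → fa ≤ T →
      ν (bv e fa 0 0 0 0 0 0) = ν (bv 0 0 0 0 0 0 0 0) - g0 e 0 0 - aF * fa := by
    intro e fa e0 e1 f0 f1
    rw [sp.nu e fa 0 0 0 0 0 0 e0 e1 f0 f1 le_rfl hT.le le_rfl hT.le le_rfl hT.le
      le_rfl hT.le le_rfl hT.le le_rfl hT.le (by linarith) (by linarith) (by linarith)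
      (by linarith), sp.zP]
    ring
  have key := shift_R h.H (bv 0 y 0 0 0 0 0 0) (bv y y 0 0 0 0 0 0) (bv 0 0 0 0 0 0 0 0)
    (bv 0 y 0 0 0 0 0 0) (L 0 y le_rfl hT.le hy hyT) (L y y hy hyT hy hyT)
    (L 0 0 le_rfl hT.le le_rfl hT.le) (L 0 y le_rfl hT.le hy hyT)
    (by intro j; fin_cases j <;> simp [bv, hy]) 2 4 (y := y) (by simp [bv])
    (by intro j hj; fin_cases j <;> simp [bv] at hj ⊢) (by simp [bv])
    (fun n k k' => -(F n k' - F n k))
    (by
      intro ε hε
      filter_upwards [htw ε hε] with n hn i hi S hS hq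
      refine hn i hi S hS fun q hq' => ?_
      have := hq q hq'
      rwa [abs_neg] at this)
    (by
      intro C0 hC0
      refine ⟨C0 + 2, by positivity, fun ε hε => ?_⟩
      filter_upwards [h.rb ε hε, h.ev ε hε, ev_const_le B hε 2] with n hrb hev h2 k hk k' hk' i i'
        hi hi' hl hl' hlo
      have hC0ε : 0 < C0 * ε := by positivity
      refine ⟨fun j => ?_, ?_⟩
      · rw [h.H.base n]
        refine (hrb k' i i' hi' hl' j).trans (rpow_anti B n ?_)
        have : bv 0 0 0 0 0 0 0 0 j = 0 := by fin_cases j <;> simp [bv]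
        rw [this]; nlinarith
      · have e4 := (hev k k' i i' hi hl hi' hl').e4
        have l4 := hlo 4
        rw [h.H.base n] at l4
        have b4 : bv 0 y 0 0 0 0 0 0 4 = y := by simp [bv]
        rw [b4] at l4
        have e : (G n).rel k' i i' 4 - -(F n k' - F n k) * (G n).rel k i i' 2 =
            ((G n).rel k' i i' 4 - ((G n).rel k i i' 4 - (F n k' - F n k) *
              (G n).rel k i i' 2)) + (G n).rel k i i' 4 := by ring
        rw [e]
        have a1 : B.d n ^ (T - ε) ≤ B.d n ^ (y - (C0 + 1) * ε) := rpow_anti B n (by nlinarith)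
        have a2 : B.d n ^ (y - C0 * ε) ≤ B.d n ^ (y - (C0 + 1) * ε) :=
          rpow_anti B n (by nlinarith)
        have a3 : B.d n ^ (y - (C0 + 2) * ε) = B.d n ^ (-ε) * B.d n ^ (y - (C0 + 1) * ε) := by
          rw [← rpow_add']; congr 1; ring
        have a4 := abs_add_le ((G n).rel k' i i' 4 - ((G n).rel k i i' 4 - (F n k' - F n k) *
              (G n).rel k i i' 2)) ((G n).rel k i i' 4)
        rw [a3]
        have := rpos B n (y - (C0 + 1) * ε)
        nlinarith)
  rw [N 0 y le_rfl hT.le hy hyT, N y y hy hyT hy hyT, N 0 0 le_rfl hT.le le_rfl hT.le, sp.z0] at key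
  have : aF * y ≤ 0 := mul_nonpos_of_nonpos_of_nonneg haF hy
  linarith

/-- **`κ = 1`: the rate of `N` is at least `1`** -/
theorem kone_NM (h : NM B G Leg ν T D F)
    (bd : ∀ᶠ n in (U : Filter ℕ), ∀ k ∈ (G n).Z, |(G n).z k| ≤ 1 ∧ |F n k| ≤ 1)
    (htw : RawTw B G fun n k k' => F n k' - F n k) (sp : Sp ν T aF 1 aN g0 gP) {m : ℝ}
    (hm : 0 < m) (hXb : ∀ t, 0 ≤ t → t ≤ T → t ≤ gP 0 t)
    (hS2 : ∀ t, 0 ≤ t → t ≤ T → m * t ≤ g0 t 0 t) : 1 ≤ aN := by
  by_contra haN
  push Not at haN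
  have hT := h.T0
  have haF := fa_free h sp haN
  have hE : ∀ y, 0 ≤ y → y ≤ T → g0 y 0 0 ≤ 0 := fun y hy hyT => e_free h sp htw haF hy hyT
  -- `C_b` costs something given `E`
  have hC : ∀ y t : ℝ, 0 ≤ t → t ≤ y → y ≤ T → m * t ≤ g0 y 0 t - g0 y 0 0 := by
    intro y t ht hty hyT
    have hy : 0 ≤ y := ht.trans hty
    have htT : t ≤ T := hty.trans hyT
    have L : ∀ e : ℝ, t ≤ e → e ≤ T → bv e 0 0 t 0 0 0 0 ∈ Leg := fun e e0 e1 =>
      h.leg e 0 0 t 0 0 0 0 (ht.trans e0) e1 le_rfl hT.le le_rfl hT.le ht htT le_rfl hT.le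
        le_rfl hT.le le_rfl hT.le le_rfl hT.le (by linarith) (by linarith) (by linarith)
        (by linarith)
    have N : ∀ e : ℝ, t ≤ e → e ≤ T →
        ν (bv e 0 0 t 0 0 0 0) = ν (bv 0 0 0 0 0 0 0 0) - g0 e 0 t := by
      intro e e0 e1
      rw [sp.nu e 0 0 t 0 0 0 0 (ht.trans e0) e1 le_rfl hT.le le_rfl hT.le ht htT le_rfl hT.le
        le_rfl hT.le le_rfl hT.le le_rfl hT.le (by linarith) (by linarith) (by linarith)
        (by linarith), sp.zP]
      ring
    have h1 := h.H.nu_anti (L t le_rfl htT) (L y hty hyT) (by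
      intro j; fin_cases j <;> simp [bv, hty])
    rw [N t le_rfl htT, N y hty hyT] at h1
    have h2 := hS2 t ht htT
    have h3 := hE y hy hyT
    linarith
  have hev1 : ∀ y : ℝ, 0 ≤ y → y ≤ T → ∀ ε : ℝ, 0 < ε → ∀ᶠ n in (U : Filter ℕ),
      ∀ k₀ k i i', (i, k₀) ∈ (G n).I → (i', k₀) ∈ (G n).I → (i, k) ∈ (G n).I →
      (i', k) ∈ (G n).I →
      (G n).loose (CD366.bx {2, 4} 10 7 9 6 y 0 0 0 0) ε k₀ i i' →
      (G n).loose (CD366.bx {2, 4} 10 7 9 6 y 0 0 0 0) (2 * ε) k i i' ∧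
      |(G n).rel k i i' 10 - ((G n).rel k₀ i i' 10 + ((G n).z k - (G n).z k₀) *
        (G n).rel k₀ i i' 7 - (F n k - F n k₀) * ((G n).rel k₀ i i' 9 +
        ((G n).z k - (G n).z k₀) * (G n).rel k₀ i i' 6))| ≤ B.d n ^ (y - 2 * ε) := by
    intro y hy hyT ε hε
    rw [kbx]
    filter_upwards [h.rb ε hε, h.ev ε hε, ev_const_le B hε 4, bd] with n hrb hev h4 hbd
      k₀ k i i' hi0 hi0' hi hi' hlo
    have E := hev k₀ k i i' hi0 hi0' hi hi'
    have hk0 := h.H.memZ hi0
    have hk := h.H.memZ hi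
    have hphi : |F n k - F n k₀| ≤ 2 := by
      have a1 := (hbd k hk).2
      have a2 := (hbd k₀ hk0).2
      have a3 := abs_sub (F n k) (F n k₀)
      linarith
    have p0 := rpos B n (y - ε)
    have a1 : B.d n ^ (T - ε) ≤ B.d n ^ (y - ε) := rpow_anti B n (by linarith)
    have a3 : B.d n ^ (y - 2 * ε) = B.d n ^ (-ε) * B.d n ^ (y - ε) := by
      rw [← rpow_add']; congr 1; ring
    have l2 := hlo 2
    have l4 := hlo 4
    rw [h.H.base n] at l2 l4
    have b2 : bv y y 0 0 0 0 0 0 2 = y := by simp [bv]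
    have b4 : bv y y 0 0 0 0 0 0 4 = y := by simp [bv]
    rw [b2] at l2
    rw [b4] at l4
    refine ⟨fun j => ?_, ?_⟩
    · rw [h.H.base n]
      by_cases hj2 : j = 2
      · subst hj2
        rw [b2, a3]
        have e : (G n).rel k i i' 2 = ((G n).rel k i i' 2 - (G n).rel k₀ i i' 2) +
          (G n).rel k₀ i i' 2 := by ring
        rw [e]
        have := abs_add_le ((G n).rel k i i' 2 - (G n).rel k₀ i i' 2) ((G n).rel k₀ i i' 2)
        have := E.e2
        nlinarith
      · by_cases hj4 : j = 4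
        · subst hj4
          rw [b4, a3]
          have e : (G n).rel k i i' 4 = ((G n).rel k i i' 4 - ((G n).rel k₀ i i' 4 -
            (F n k - F n k₀) * (G n).rel k₀ i i' 2)) + (G n).rel k₀ i i' 4 -
            (F n k - F n k₀) * (G n).rel k₀ i i' 2 := by ring
          rw [e]
          have t1 := abs_sub (((G n).rel k i i' 4 - ((G n).rel k₀ i i' 4 -
            (F n k - F n k₀) * (G n).rel k₀ i i' 2)) + (G n).rel k₀ i i' 4)
            ((F n k - F n k₀) * (G n).rel k₀ i i' 2)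
          have t2 := abs_add_le ((G n).rel k i i' 4 - ((G n).rel k₀ i i' 4 -
            (F n k - F n k₀) * (G n).rel k₀ i i' 2)) ((G n).rel k₀ i i' 4)
          have t3 := E.e4
          have t4 : |(F n k - F n k₀) * (G n).rel k₀ i i' 2| ≤ 2 * B.d n ^ (y - ε) := by
            rw [abs_mul]
            exact mul_le_mul hphi l2 (abs_nonneg _) (by norm_num)
          nlinarith
        · refine (hrb k i i' hi hi' j).trans (rpow_anti B n ?_)
          have : bv y y 0 0 0 0 0 0 j = 0 := by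
            fin_cases j <;> simp [bv] at hj2 hj4 ⊢
          rw [this]; linarith
    · exact E.e10.trans (rpow_anti B n (by linarith))
  have K : CD366.K1 B G Leg ν {2, 4} 10 7 9 6 F T 2 aN m (fun _ p x => gP p x)
      (fun y c => g0 y 0 c - g0 y 0 0) := by
    refine ⟨hT, by norm_num, hm, by decide, by decide, by decide, by decide, by decide,
      by decide, ?_, bd, hev1, ?_, ?_, ?_⟩
    · intro y n p x c hy hyT hn hny hp hpy hx hxy hc hcy
      rw [kbx]
      exact h.leg y y 0 c p 0 x n hy hyT hy hyT le_rfl hT.le hc (hcy.trans hyT) hp (hpy.trans hyT)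
        le_rfl hT.le hx (hxy.trans hyT) hn (hny.trans hyT) (by linarith) (by linarith)
        (by linarith) (by linarith)
    · intro y n p x c hy hyT hn hny hp hpy hx hxy hc hcy
      rw [kbx, kbx, sp.nu y y 0 c p 0 x n hy hyT hy hyT le_rfl hT.le hc (hcy.trans hyT) hp
        (hpy.trans hyT) le_rfl hT.le hx (hxy.trans hyT) hn (hny.trans hyT) (by linarith)
        (by linarith) (by linarith) (by linarith),
        sp.nu y y 0 0 0 0 0 0 hy hyT hy hyT le_rfl hT.le le_rfl hT.le le_rfl hT.le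
        le_rfl hT.le le_rfl hT.le le_rfl hT.le (by linarith) (by linarith) (by linarith)
        (by linarith), sp.zP]
      ring
    · intro y t ht hty hyT
      exact hXb t ht (hty.trans hyT)
    · intro y t ht hty hyT
      exact hC y t ht hty hyT
  have := CD366.kappa_one_R h.H K htw le_rfl
  linarith

end Crest.Agent.R136.C2k400
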