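import Crest.Agent.R136.C2k_400

/-!
# R136, case (C2), `κ = 1`: the last slot is full at a point of helper413's `AeW` (helper400)

* `OutS.diff` : change of one group; `OutS.alone` : a slot alone in its group;
* `Gr1` : the groups of the plane with slopes `(z, t)`, `κ = 1`, slope `σ ≠ 0, 1, 2`;
* `sp_of_out` : the splitting `Sp` of the window profile;
* `n_full_one` : **`AeW` ⊢ the rate of `N` is at least `1`** (`2 ≤ r (gC a b 10)`).
-/

set_option autoImplicit false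
set_option linter.unusedSectionVars false
set_option linter.unusedVariables false

open Filter Topology

namespace Crest.Agent.R136.C2k400

open Finset Crest.Agent.R136.NetQ186 Crest.Agent.R136.Net191 Crest.Agent.R136.Qg926
open Crest.Agent.R136.Gf356 Crest.Agent.R136.Ev356 Crest.Agent.R136.Aw413
open Crest.Agent.R136.Wq400 Crest.Agent.R136.C2355 Crest.Agent.R136.Fe1355
open Crest.Agent.R136.C2w400 Crest.Agent.R136.Dg219
open Crest.Agent.R138.Ex926 (Base U)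

/-! ### the splitting -/

section out

variable {m : ℕ} {grp : Fin m → ℕ} {L : Set (Fin m → ℝ)} {dh : Fin m → ℝ} {nn : ℕ → ℝ × ℝ}
  {lam : (Fin m → ℝ) → ℝ} {A : ℝ × ℝ} {φ : ℕ → (Fin m → ℝ) → ℝ} {r : ℕ → ℝ}

/-- change of one group -/
theorem out_diff (H : OutS grp L dh nn lam A φ r) {c c' : Fin m → ℝ} (hc : c ∈ L) (hc' : c' ∈ L)
    (k : ℕ) (h : ∀ i, grp i ≠ k → c i = c' i) : lam c - lam c' = φ k c - φ k c' := by
  classical
  rw [H.sum c hc, H.sum c' hc', ← sum_sub_distrib]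
  by_cases hk : k ∈ gset grp
  · rw [sum_eq_single k]
    · intro j _ hj
      rw [H.loc j c c' fun i hi => h i (by rw [hi]; exact hj), sub_self]
    · intro hn; exact absurd hk hn
  · have hno : ∀ i, grp i ≠ k := by
      intro i hi
      apply hk
      rw [← hi]
      unfold gset
      exact mem_image_of_mem _ (mem_univ i)
    rw [H.loc k c c' fun i hi => absurd hi (hno i), sub_self]
    refine sum_eq_zero fun j _ => ?_
    rw [H.loc j c c' fun i _ => h i (hno i), sub_self]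

/-- a slot alone in its group -/
theorem out_alone (H : OutS grp L dh nn lam A φ r) {i : Fin m} (hi : 0 < dh i)
    (hal : ∀ j, grp j = grp i → j = i) {c : Fin m → ℝ} (hc : c ∈ L) :
    φ (grp i) c = -(r (grp i) / dh i * c i) := by
  rw [H.rate (grp i) c hc (c i / dh i) fun j hj => by
    rw [hal j hj]; field_simp]
  ring

end out

/-! ### the groups -/

/-- slopes of the plane in the height direction, `κ = 1` -/
def av : Fin 11 → ℝ := ![1, 0, 0, 1, 1, 0, 0, 1, 1, 1, 2]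

/-- slopes of the plane in the direction `t` -/
def bt (σ : ℝ) : Fin 11 → ℝ := ![0, 0, σ - 1, 0, σ - 1, 1, σ, σ, 1, σ, σ]

/-- all that is used about the groups -/
structure Gr1 (g : Fin 11 → ℕ) : Prop where
  g1 : g 1 = g 5
  g2 : g 2 = g 5
  g6 : g 6 = g 5
  z3 : g 3 = g 0
  p9 : g 9 = g 7
  n05 : g 0 ≠ g 5
  n45 : g 4 ≠ g 5
  n75 : g 7 ≠ g 5
  n85 : g 8 ≠ g 5
  nX5 : g 10 ≠ g 5
  n40 : g 4 ≠ g 0
  n70 : g 7 ≠ g 0
  n80 : g 8 ≠ g 0
  nX0 : g 10 ≠ g 0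
  n47 : g 4 ≠ g 7
  n48 : g 4 ≠ g 8
  n4X : g 4 ≠ g 10
  n78 : g 7 ≠ g 8
  n7X : g 7 ≠ g 10
  n8X : g 8 ≠ g 10

theorem gr1_of {σ : ℝ} (h0 : σ ≠ 0) (h1 : σ ≠ 1) (h2 : σ ≠ 2) : Gr1 (gC av (bt σ)) := by
  have z : ∀ i : Fin 11, av i = 0 → gC av (bt σ) i = 0 := fun i hi => gC_zero.2 hi
  have nz : ∀ i : Fin 11, av i ≠ 0 → gC av (bt σ) i ≠ 0 := fun i hi h => hi (gC_zero.1 h)
  have e1 : gC av (bt σ) 1 = 0 := z 1 (by simp [av])
  have e2 : gC av (bt σ) 2 = 0 := z 2 (by simp [av])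
  have e5 : gC av (bt σ) 5 = 0 := z 5 (by simp [av])
  have e6 : gC av (bt σ) 6 = 0 := z 6 (by simp [av])
  have a0 : av 0 ≠ 0 := by simp [av]
  have a3 : av 3 ≠ 0 := by simp [av]
  have a4 : av 4 ≠ 0 := by simp [av]
  have a7 : av 7 ≠ 0 := by simp [av]
  have a8 : av 8 ≠ 0 := by simp [av]
  have a9 : av 9 ≠ 0 := by simp [av]
  have aX : av 10 ≠ 0 := by simp [av]
  refine ⟨by rw [e1, e5], by rw [e2, e5], by rw [e6, e5], (gC_eq a3 a0).2 (by simp [av, bt]),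
    (gC_eq a9 a7).2 (by simp [av, bt]), by rw [e5]; exact nz 0 a0, by rw [e5]; exact nz 4 a4,
    by rw [e5]; exact nz 7 a7, by rw [e5]; exact nz 8 a8, by rw [e5]; exact nz 10 aX, ?_, ?_, ?_,
    ?_, ?_, ?_, ?_, ?_, ?_, ?_⟩
  · intro h; have := (gC_eq a4 a0).1 h; simp [av, bt] at this
    exact h1 (by linarith)
  · intro h; have := (gC_eq a7 a0).1 h; simp [av, bt] at this
    exact h0 this
  · intro h; have := (gC_eq a8 a0).1 h; simp [av, bt] at this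
  · intro h; have := (gC_eq aX a0).1 h; simp [av, bt] at this
    exact h0 this
  · intro h; have := (gC_eq a4 a7).1 h; simp [av, bt] at this
  · intro h; have := (gC_eq a4 a8).1 h; simp [av, bt] at this
    exact h2 (by linarith)
  · intro h; have := (gC_eq a4 aX).1 h; simp [av, bt] at this
    exact h2 (by linarith)
  · intro h; have := (gC_eq a7 a8).1 h; simp [av, bt] at this
    exact h1 this
  · intro h; have := (gC_eq a7 aX).1 h; simp [av, bt] at this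
    exact h0 (by linarith)
  · intro h; have := (gC_eq a8 aX).1 h; simp [av, bt] at this
    exact h2 (by linarith)

/-- boxes of the window are in the cone -/
theorem bvT_cone {Ma : Mons 11} (hsub : ∀ k, Ma.mon k ⊆ monQ.mon k) {T : ℝ} (hT : 0 ≤ T)
    {e fa ca cb p xa xb n : ℝ} (e0 : 0 ≤ e) (e1 : e ≤ T)
    (fa0 : 0 ≤ fa) (fa1 : fa ≤ T) (ca0 : 0 ≤ ca) (ca1 : ca ≤ T) (cb0 : 0 ≤ cb) (cb1 : cb ≤ T)
    (p0 : 0 ≤ p) (p1 : p ≤ T) (xa0 : 0 ≤ xa) (xa1 : xa ≤ T) (xb0 : 0 ≤ xb) (xb1 : xb ≤ T)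
    (n0 : 0 ≤ n) (n1 : n ≤ T) (w6 : cb ≤ e + ca) (w7 : p ≤ fa + ca) (w9 : xb ≤ e + xa)
    (w10 : n ≤ fa + xa) : bvT T e fa ca cb p xa xb n ∈ coneM Ma := by
  obtain ⟨h1, h2⟩ := bvT_legal hT e0 e1 fa0 fa1 ca0 ca1 cb0 cb1 p0 p1 xa0 xa1 xb0 xb1 n0 n1
    w6 w7 w9 w10
  exact leg_cone (R := T) (fun k => Finset.Subset.refl _) ⟨legal_sub hsub h1, h2⟩

section coord

variable {T e fa ca cb p xa xb n : ℝ}

theorem bvT_at4 : bvT T e fa ca cb p xa xb n 4 = fa := rfl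

theorem bvT_at8 : bvT T e fa ca cb p xa xb n 8 = xa := rfl

theorem bvT_at10 : bvT T e fa ca cb p xa xb n 10 = n := rfl

theorem bvT_ne4 {fa' : ℝ} (j : Fin 11) (hj : j ≠ 4) :
    bvT T e fa ca cb p xa xb n j = bvT T e fa' ca cb p xa xb n j := by
  fin_cases j <;> first | exact absurd rfl hj | simp [bvT]

theorem bvT_ne8 {xa' : ℝ} (j : Fin 11) (hj : j ≠ 8) :
    bvT T e fa ca cb p xa xb n j = bvT T e fa ca cb p xa' xb n j := by
  fin_cases j <;> first | exact absurd rfl hj | simp [bvT]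

theorem bvT_ne79 {p' xb' : ℝ} (j : Fin 11) (hj : j ≠ 7) (hj' : j ≠ 9) :
    bvT T e fa ca cb p xa xb n j = bvT T e fa ca cb p' xa xb' n j := by
  fin_cases j <;> first | exact absurd rfl hj | exact absurd rfl hj' | simp [bvT]

theorem bvT_ne10 {n' : ℝ} (j : Fin 11) (hj : j ≠ 10) :
    bvT T e fa ca cb p xa xb n j = bvT T e fa ca cb p xa xb n' j := by
  fin_cases j <;> first | exact absurd rfl hj | simp [bvT]

theorem bvT_79 {e' fa' ca' cb' xa' n' : ℝ} (j : Fin 11) (hj : j = 7 ∨ j = 9) :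
    bvT T e fa ca cb p xa xb n j = bvT T e' fa' ca' cb' p xa' xb n' j := by
  rcases hj with rfl | rfl <;> simp [bvT]

end coord

section sp

variable {Ma : Mons 11} {g : Fin 11 → ℕ} {dh : Fin 11 → ℝ} {nn : ℕ → ℝ × ℝ}
  {lam : (Fin 11 → ℝ) → ℝ} {A : ℝ × ℝ} {φ : ℕ → (Fin 11 → ℝ) → ℝ} {r : ℕ → ℝ} {T : ℝ}

/-- **the splitting in the boxes of the window** -/
theorem split_box (H : OutS g (coneM Ma) dh nn lam A φ r) (hg : Gr1 g)
    (hsub : ∀ k, Ma.mon k ⊆ monQ.mon k) (hT : 0 ≤ T) (d4 : 0 < dh 4) (d8 : 0 < dh 8)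
    (dX : 0 < dh 10)
    {e fa ca cb p xa xb n : ℝ} (e0 : 0 ≤ e) (e1 : e ≤ T)
    (fa0 : 0 ≤ fa) (fa1 : fa ≤ T) (ca0 : 0 ≤ ca) (ca1 : ca ≤ T) (cb0 : 0 ≤ cb) (cb1 : cb ≤ T)
    (p0 : 0 ≤ p) (p1 : p ≤ T) (xa0 : 0 ≤ xa) (xa1 : xa ≤ T) (xb0 : 0 ≤ xb) (xb1 : xb ≤ T)
    (n0 : 0 ≤ n) (n1 : n ≤ T) (w6 : cb ≤ e + ca) (w7 : p ≤ fa + ca) (w9 : xb ≤ e + xa)
    (w10 : n ≤ fa + xa) :
    lam (bvT T e fa ca cb p xa xb n) = lam (bvT T 0 0 0 0 0 0 0 0) -
      (lam (bvT T 0 0 0 0 0 0 0 0) - lam (bvT T e 0 ca cb 0 0 0 0)) -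
      (φ (g 7) (bvT T 0 0 0 0 0 0 0 0) - φ (g 7) (bvT T 0 0 0 0 p 0 xb 0)) -
      r (g 4) / dh 4 * fa - r (g 8) / dh 8 * xa - r (g 10) / dh 10 * n := by
  have a4 : ∀ j, g j = g 4 → j = 4 := by
    intro j hj
    fin_cases j
    · exact absurd hj.symm hg.n40
    · exact absurd (hj.symm.trans hg.g1) hg.n45
    · exact absurd (hj.symm.trans hg.g2) hg.n45
    · exact absurd (hj.symm.trans hg.z3) hg.n40
    · rfl
    · exact absurd hj.symm hg.n45
    · exact absurd (hj.symm.trans hg.g6) hg.n45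
    · exact absurd hj.symm hg.n47
    · exact absurd hj.symm hg.n48
    · exact absurd (hj.symm.trans hg.p9) hg.n47
    · exact absurd hj.symm hg.n4X
  have a8 : ∀ j, g j = g 8 → j = 8 := by
    intro j hj
    fin_cases j
    · exact absurd hj.symm hg.n80
    · exact absurd (hj.symm.trans hg.g1) hg.n85
    · exact absurd (hj.symm.trans hg.g2) hg.n85
    · exact absurd (hj.symm.trans hg.z3) hg.n80
    · exact absurd hj hg.n48
    · exact absurd hj.symm hg.n85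
    · exact absurd (hj.symm.trans hg.g6) hg.n85
    · exact absurd hj hg.n78
    · rfl
    · exact absurd (hg.p9.symm.trans hj) hg.n78
    · exact absurd hj.symm hg.n8X
  have aX : ∀ j, g j = g 10 → j = 10 := by
    intro j hj
    fin_cases j
    · exact absurd hj.symm hg.nX0
    · exact absurd (hj.symm.trans hg.g1) hg.nX5
    · exact absurd (hj.symm.trans hg.g2) hg.nX5
    · exact absurd (hj.symm.trans hg.z3) hg.nX0
    · exact absurd hj hg.n4X
    · exact absurd hj.symm hg.nX5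
    · exact absurd (hj.symm.trans hg.g6) hg.nX5
    · exact absurd hj hg.n7X
    · exact absurd hj hg.n8X
    · exact absurd (hg.p9.symm.trans hj) hg.n7X
    · rfl
  -- the chain
  have L : ∀ {e fa ca cb p xa xb n : ℝ}, 0 ≤ e → e ≤ T → 0 ≤ fa → fa ≤ T → 0 ≤ ca → ca ≤ T →
      0 ≤ cb → cb ≤ T → 0 ≤ p → p ≤ T → 0 ≤ xa → xa ≤ T → 0 ≤ xb → xb ≤ T → 0 ≤ n → n ≤ T →
      cb ≤ e + ca → p ≤ fa + ca → xb ≤ e + xa → n ≤ fa + xa →
      bvT T e fa ca cb p xa xb n ∈ coneM Ma :=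
    fun h1 h2 h3 h4 h5 h6 h7 h8 h9 h10 h11 h12 h13 h14 h15 h16 h17 h18 h19 h20 =>
      bvT_cone hsub hT h1 h2 h3 h4 h5 h6 h7 h8 h9 h10 h11 h12 h13 h14 h15 h16 h17 h18 h19 h20
  have c1 : bvT T e 0 ca cb 0 0 0 0 ∈ coneM Ma := L e0 e1 le_rfl hT ca0 ca1 cb0 cb1 le_rfl hT
    le_rfl hT le_rfl hT le_rfl hT w6 (by linarith) (by linarith) (by linarith)
  have c2 : bvT T e fa ca cb 0 0 0 0 ∈ coneM Ma := L e0 e1 fa0 fa1 ca0 ca1 cb0 cb1 le_rfl hT
    le_rfl hT le_rfl hT le_rfl hT w6 (by linarith) (by linarith) (by linarith)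
  have c3 : bvT T e fa ca cb 0 xa 0 0 ∈ coneM Ma := L e0 e1 fa0 fa1 ca0 ca1 cb0 cb1 le_rfl hT
    xa0 xa1 le_rfl hT le_rfl hT w6 (by linarith) (by linarith) (by linarith)
  have c4 : bvT T e fa ca cb p xa xb 0 ∈ coneM Ma := L e0 e1 fa0 fa1 ca0 ca1 cb0 cb1 p0 p1
    xa0 xa1 xb0 xb1 le_rfl hT w6 w7 w9 (by linarith)
  have c5 : bvT T e fa ca cb p xa xb n ∈ coneM Ma := L e0 e1 fa0 fa1 ca0 ca1 cb0 cb1 p0 p1
    xa0 xa1 xb0 xb1 n0 n1 w6 w7 w9 w10
  have a7 : ∀ j, g j = g 7 → j = 7 ∨ j = 9 := by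
    intro j hj
    fin_cases j
    · exact absurd hj.symm hg.n70
    · exact absurd (hj.symm.trans hg.g1) hg.n75
    · exact absurd (hj.symm.trans hg.g2) hg.n75
    · exact absurd (hj.symm.trans hg.z3) hg.n70
    · exact absurd hj hg.n47
    · exact absurd hj.symm hg.n75
    · exact absurd (hj.symm.trans hg.g6) hg.n75
    · left; rfl
    · exact absurd hj.symm hg.n78
    · right; rfl
    · exact absurd hj.symm hg.n7X
  have s2 := out_diff H c1 c2 (g 4) fun j hj => bvT_ne4 j fun h => hj (by rw [h])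
  have s3 := out_diff H c2 c3 (g 8) fun j hj => bvT_ne8 j fun h => hj (by rw [h])
  have s4 := out_diff H c3 c4 (g 7) fun j hj => bvT_ne79 j (fun h => hj (by rw [h]))
    fun h => hj (by rw [h, hg.p9])
  have s5 := out_diff H c4 c5 (g 10) fun j hj => bvT_ne10 j fun h => hj (by rw [h])
  rw [out_alone H d4 a4 c1, out_alone H d4 a4 c2, bvT_at4, bvT_at4] at s2
  rw [out_alone H d8 a8 c2, out_alone H d8 a8 c3, bvT_at8, bvT_at8] at s3
  rw [out_alone H dX aX c4, out_alone H dX aX c5, bvT_at10, bvT_at10] at s5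
  have t1 : φ (g 7) (bvT T e fa ca cb 0 xa 0 0) = φ (g 7) (bvT T 0 0 0 0 0 0 0 0) :=
    H.loc _ _ _ fun j hj => bvT_79 j (a7 j hj)
  have t2 : φ (g 7) (bvT T e fa ca cb p xa xb 0) = φ (g 7) (bvT T 0 0 0 0 p 0 xb 0) :=
    H.loc _ _ _ fun j hj => bvT_79 j (a7 j hj)
  rw [t1, t2] at s4
  linarith

end sp

/-- **`AeW`, `κ = 1`: `N` is full** (`2 = dh N`) -/
theorem n_full_one {ι : ℕ → Type*} [∀ n, DecidableEq (ι n)] {B Bo : Base}
    {I J : ∀ n, Finset (ι n)} {co : ∀ n, ι n → ι n → Fin 11 → ℝ} {Ma : Mons 11} {C : ℝ}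
    {lam : (Fin 11 → ℝ) → ℝ} {σ : ℝ} {A : ℝ × ℝ} {φ : ℕ → (Fin 11 → ℝ) → ℝ} {r : ℕ → ℝ}
    {κv : Fin 11 → ℝ} {V Tw : Fin 11 → Prop} {f : ∀ n, ι n → Fq4}
    (h : AeW B Bo I J co monQ Ma C lam av (bt σ) A φ r 0 1 κv V Tw)
    (hσ0 : σ ≠ 0) (hσ1 : σ ≠ 1) (hσ2 : σ ≠ 2)
    (hco : ∀ n, ∀ i ∈ I n, ∀ j ∈ I n, co n i j = coQ (f n i) (f n j)) (hM : MaQ Ma)
    (hne : ∀ᶠ n in (U : Filter ℕ), (J n).Nonempty)
    (hV : ∀ k, V k → k = 0 ∨ k = 3) (hT3 : Tw 3)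
    (hXa : r (gC av (bt σ) 8) = 1)
    (hXb : ∀ t : ℝ, 0 ≤ t → t ≤ 1 → t ≤ lam (bvT 1 t 0 0 0 0 0 0 0) - lam (bvT 1 t 0 0 0 0 0 t 0))
    {m : ℝ} (hm : 0 < m) (hS2 : ∀ t : ℝ, 0 ≤ t → t ≤ 1 →
      m * t ≤ lam (bvT 1 0 0 0 0 0 0 0 0) - lam (bvT 1 t 0 0 t 0 0 0 0)) :
    2 ≤ r (gC av (bt σ) 10) := by
  have hsub := h.sub
  have hg := gr1_of hσ0 hσ1 hσ2
  have d4 : dhC av (bt σ) 4 = 1 := by simp [dhC, av]
  have d8 : dhC av (bt σ) 8 = 1 := by simp [dhC, av]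
  have dX : dhC av (bt σ) 10 = 2 := by simp [dhC, av]
  set K : ℝ := max 1 (cK0 monQ C) with hK
  have hK1 : (1 : ℝ) ≤ K := le_max_left _ _
  have hK0 : 0 < K := by linarith
  have hst := stQ_ok (Ma := Ma) sok_b hK0 (zero_le_one (α := ℝ)) hsub
  obtain ⟨W, hW, -, -⟩ := h.wnd (stQ {0, 3} K 1 Ma) rfl hst (fun _ _ => 1)
    (fun _ => Base.Sub.const one_pos) J (fun _ => 1)
    (Eventually.of_forall fun n => Finset.Subset.refl _) hne (Base.Sub.const one_pos)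
    (Eventually.of_forall fun n => by rw [one_mul])
  have hden := h.dens (st := stQ {0, 3} K 1 Ma) rfl hst (by
      show ∀ i j, gC av (bt σ) i = gC av (bt σ) j → i ∈ ({0, 3} : Finset (Fin 11)) →
        j ∈ ({0, 3} : Finset (Fin 11))
      intro i j hij hi
      have hi' : gC av (bt σ) i = gC av (bt σ) 0 := by
        rcases Finset.mem_insert.1 hi with rfl | hi
        · rfl
        · rw [Finset.mem_singleton.1 hi]; exact hg.z3
      rw [hi'] at hij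
      have key : ∀ j : Fin 11, gC av (bt σ) 0 = gC av (bt σ) j → j = 0 ∨ j = 3 := by
        intro j hj
        fin_cases j
        · left; rfl
        · exact absurd (hj.trans hg.g1) hg.n05
        · exact absurd (hj.trans hg.g2) hg.n05
        · right; rfl
        · exact absurd hj.symm hg.n40
        · exact absurd hj hg.n05
        · exact absurd (hj.trans hg.g6) hg.n05
        · exact absurd hj.symm hg.n70
        · exact absurd hj.symm hg.n80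
        · exact absurd (hj.trans hg.p9).symm hg.n70
        · exact absurd hj.symm hg.nX0
      rcases key j hij with rfl | rfl <;> decide)
    zero_le_one le_rfl (R := 1) le_rfl (by
      intro y hy hy1
      refine leg_cone (R := 1) (Mw := Ma) (fun k => Finset.Subset.refl _) ⟨legal_sub hsub ?_, ?_⟩
      · refine legalQ_iff.2 ⟨?_, ?_, ?_, ?_, ?_, ?_, ?_, ?_, ?_, ?_, ?_, ?_⟩
        · intro s
          by_cases hs : s = 0
          · subst hs; simpa using hy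
          · rw [Pi.single_eq_of_ne hs]
        all_goals simp [Pi.single_apply] <;> linarith
      · intro s
        by_cases hs : s = 0
        · subst hs; simpa using hy1
        · rw [Pi.single_eq_of_ne hs]; exact zero_le_one)
  obtain ⟨E', hNM, hbd, htw⟩ := nm_of_wat hW hco hM hsub (le_max_right _ _) one_pos hV hT3
    hden.dens (fun y hy hy1 => by
      have := hden.frost y hy hy1
      rw [one_mul] at this
      exact this)
  have hw := winB_of_wat hW hM hsub (le_max_right _ _) one_pos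
  have elam := hW.elam
  have sb := fun (e fa ca cb p xa xb n : ℝ) (e0 : 0 ≤ e) (e1 : e ≤ 1)
    (fa0 : 0 ≤ fa) (fa1 : fa ≤ 1) (ca0 : 0 ≤ ca) (ca1 : ca ≤ 1) (cb0 : 0 ≤ cb) (cb1 : cb ≤ 1)
    (p0 : 0 ≤ p) (p1 : p ≤ 1) (xa0 : 0 ≤ xa) (xa1 : xa ≤ 1) (xb0 : 0 ≤ xb) (xb1 : xb ≤ 1)
    (n0 : 0 ≤ n) (n1 : n ≤ 1) (w6 : cb ≤ e + ca) (w7 : p ≤ fa + ca) (w9 : xb ≤ e + xa)
    (w10 : n ≤ fa + xa) =>
    split_box h.out hg hsub (zero_le_one (α := ℝ)) (by rw [d4]; norm_num) (by rw [d8]; norm_num)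
      (by rw [dX]; norm_num) e0 e1 fa0 fa1 ca0 ca1 cb0 cb1 p0 p1 xa0 xa1 xb0 xb1 n0 n1 w6 w7 w9 w10
  have sp : Sp W.nu 1 (r (gC av (bt σ) 4)) 1 (r (gC av (bt σ) 10) / 2)
      (fun e ca cb => lam (bvT 1 0 0 0 0 0 0 0 0) - lam (bvT 1 e 0 ca cb 0 0 0 0))
      (fun p xb => φ (gC av (bt σ) 7) (bvT 1 0 0 0 0 0 0 0 0) -
        φ (gC av (bt σ) 7) (bvT 1 0 0 0 0 p 0 xb 0)) := by
    refine ⟨by simp, by simp, ?_⟩
    intro e fa ca cb p xa xb n e0 e1 fa0 fa1 ca0 ca1 cb0 cb1 p0 p1 xa0 xa1 xb0 xb1 n0 n1 w6 w7 w9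
      w10
    have := sb e fa ca cb p xa xb n e0 e1 fa0 fa1 ca0 ca1 cb0 cb1 p0 p1 xa0 xa1 xb0 xb1 n0 n1 w6
      w7 w9 w10
    rw [d4, d8, dX, hXa, div_one, div_one] at this
    rw [nu_bv hw, nu_bv hw, elam]
    linarith
  have key := kone_NM hNM hbd htw sp hm (by
    intro t ht ht1
    have h1 := hXb t ht ht1
    have z1 := sb t 0 0 0 0 0 0 0 ht ht1 le_rfl zero_le_one le_rfl zero_le_one le_rfl zero_le_one
      le_rfl zero_le_one le_rfl zero_le_one le_rfl zero_le_one le_rfl zero_le_one (by linarith)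
      (by linarith) (by linarith) (by linarith)
    have z2 := sb t 0 0 0 0 0 t 0 ht ht1 le_rfl zero_le_one le_rfl zero_le_one le_rfl zero_le_one
      le_rfl zero_le_one le_rfl zero_le_one ht ht1 le_rfl zero_le_one (by linarith)
      (by linarith) (by linarith) (by linarith)
    linarith) (by
    intro t ht ht1
    exact hS2 t ht ht1)
  linarith

end Crest.Agent.R136.C2k400
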