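import Crest.Agent.R136.C2m_400
import Crest.Agent.R136.C2d_355
import Crest.Agent.R136.Wq1_400
import Crest.Agent.R136.Bas1_938

/-!
# R136, case (C2), `κ = 1`, windows of any size (helper400)

* `n_full_T` : `n_full_one` in a window with top `T`;
* `n_full_all` : `N` is full given everything (helper355's form `hn` of `C2D.slope_of`).
-/

set_option autoImplicit false
set_option linter.unusedSectionVars false
set_option linter.unusedVariables false

open Filter Topology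

namespace Crest.Agent.R136.C2o400

open Finset Crest.Agent.R136.NetQ186 Crest.Agent.R136.Net191 Crest.Agent.R136.Qg926
open Crest.Agent.R136.Gf356 Crest.Agent.R136.Ev356 Crest.Agent.R136.Aw413
open Crest.Agent.R136.Wq400 Crest.Agent.R136.C2355 Crest.Agent.R136.Fe1355
open Crest.Agent.R136.C2w400 Crest.Agent.R136.Dg219 Crest.Agent.R136.C2k400
open Crest.Agent.R136.NatR550 (coneN nL)
open Crest.Agent.R136.Bas938 (loss_single)
open Crest.Agent.R138.Ex926 (Base U)

/-- **`AeW`, `κ = 1`: `N` is full** (`2 = dh N`), window with top `T` -/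
theorem n_full_T {ι : ℕ → Type*} [∀ n, DecidableEq (ι n)] {B Bo : Base}
    {I J : ∀ n, Finset (ι n)} {co : ∀ n, ι n → ι n → Fin 11 → ℝ} {Ma : Mons 11} {C : ℝ}
    {lam : (Fin 11 → ℝ) → ℝ} {σ : ℝ} {A : ℝ × ℝ} {φ : ℕ → (Fin 11 → ℝ) → ℝ} {r : ℕ → ℝ}
    {κv : Fin 11 → ℝ} {V Tw : Fin 11 → Prop} {f : ∀ n, ι n → Fq4}
    (h : AeW B Bo I J co monQ Ma C lam av (bt σ) A φ r 0 1 κv V Tw)
    (hσ0 : σ ≠ 0) (hσ1 : σ ≠ 1) (hσ2 : σ ≠ 2)
    (hco : ∀ n, ∀ i ∈ I n, ∀ j ∈ I n, co n i j = coQ (f n i) (f n j)) (hM : MaQ Ma)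
    (hne : ∀ᶠ n in (U : Filter ℕ), (J n).Nonempty)
    (hV : ∀ k, V k → k = 0 ∨ k = 3) (hT3 : Tw 3)
    (hXa : r (gC av (bt σ) 8) = 1) {T : ℝ} (hT : 0 < T)
    (hXb : ∀ t : ℝ, 0 ≤ t → t ≤ T → t ≤ lam (bvT T t 0 0 0 0 0 0 0) - lam (bvT T t 0 0 0 0 0 t 0))
    {m : ℝ} (hm : 0 < m) (hS2 : ∀ t : ℝ, 0 ≤ t → t ≤ T →
      m * t ≤ lam (bvT T 0 0 0 0 0 0 0 0) - lam (bvT T t 0 0 t 0 0 0 0)) :
    2 ≤ r (gC av (bt σ) 10) := by
  have hsub := h.sub
  have hg := gr1_of hσ0 hσ1 hσ2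
  have d4 : dhC av (bt σ) 4 = 1 := by simp [dhC, av]
  have d8 : dhC av (bt σ) 8 = 1 := by simp [dhC, av]
  have dX : dhC av (bt σ) 10 = 2 := by simp [dhC, av]
  set K : ℝ := max 1 (cK0 monQ C) with hK
  have hK1 : (1 : ℝ) ≤ K := le_max_left _ _
  have hK0 : 0 < K := by linarith
  have hst := stQ_ok (Ma := Ma) sok_b hK0 hT.le hsub
  obtain ⟨W, hW, -, -⟩ := h.wnd (stQ {0, 3} K T Ma) rfl hst (fun _ _ => 1)
    (fun _ => Base.Sub.const one_pos) J (fun _ => 1)
    (Eventually.of_forall fun n => Finset.Subset.refl _) hne (Base.Sub.const one_pos)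
    (Eventually.of_forall fun n => by rw [one_mul])
  have hden := h.dens (st := stQ {0, 3} K T Ma) rfl hst (by
      show ∀ i j, gC av (bt σ) i = gC av (bt σ) j → i ∈ ({0, 3} : Finset (Fin 11)) →
        j ∈ ({0, 3} : Finset (Fin 11))
      intro i j hij hi
      have hi' : gC av (bt σ) i = gC av (bt σ) 0 := by
        rcases Finset.mem_insert.1 hi with rfl | hi
        · rfl
        · rw [Finset.mem_singleton.1 hi]; exact hg.z3
      rw [hi'] at hij
      have key : ∀ j : Fin 11, gC av (bt σ) 0 = gC av (bt σ) j → j = 0 ∨ j = 3 := by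
        intro j hj
        fin_cases j
        · left; rfl
        · exact absurd (hj.trans hg.g1) hg.n05
        · exact absurd (hj.trans hg.g2) hg.n05
        · right; rfl
        · exact absurd hj.symm hg.n40
        · exact absurd hj hg.n05
        · exact absurd (hj.trans hg.g6) hg.n05
        · exact absurd hj.symm hg.n70
        · exact absurd hj.symm hg.n80
        · exact absurd (hj.trans hg.p9).symm hg.n70
        · exact absurd hj.symm hg.nX0
      rcases key j hij with rfl | rfl <;> decide)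
    zero_le_one le_rfl (R := T) le_rfl (by
      intro y hy hy1
      refine leg_cone (R := T) (Mw := Ma) (fun k => Finset.Subset.refl _) ⟨legal_sub hsub ?_, ?_⟩
      · refine legalQ_iff.2 ⟨?_, ?_, ?_, ?_, ?_, ?_, ?_, ?_, ?_, ?_, ?_, ?_⟩
        · intro s
          by_cases hs : s = 0
          · subst hs; simpa using hy
          · rw [Pi.single_eq_of_ne hs]
        all_goals simp [Pi.single_apply] <;> linarith
      · intro s
        by_cases hs : s = 0
        · subst hs; simpa using hy1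
        · rw [Pi.single_eq_of_ne hs]; exact hT.le)
  obtain ⟨E', hNM, hbd, htw⟩ := nm_of_wat hW hco hM hsub (le_max_right _ _) hT hV hT3
    hden.dens (fun y hy hy1 => by
      have := hden.frost y hy hy1
      rw [one_mul] at this
      exact this)
  have hw := winB_of_wat hW hM hsub (le_max_right _ _) hT
  have elam := hW.elam
  have sb := fun (e fa ca cb p xa xb n : ℝ) (e0 : 0 ≤ e) (e1 : e ≤ T)
    (fa0 : 0 ≤ fa) (fa1 : fa ≤ T) (ca0 : 0 ≤ ca) (ca1 : ca ≤ T) (cb0 : 0 ≤ cb) (cb1 : cb ≤ T)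
    (p0 : 0 ≤ p) (p1 : p ≤ T) (xa0 : 0 ≤ xa) (xa1 : xa ≤ T) (xb0 : 0 ≤ xb) (xb1 : xb ≤ T)
    (n0 : 0 ≤ n) (n1 : n ≤ T) (w6 : cb ≤ e + ca) (w7 : p ≤ fa + ca) (w9 : xb ≤ e + xa)
    (w10 : n ≤ fa + xa) =>
    split_box h.out hg hsub hT.le (by rw [d4]; norm_num) (by rw [d8]; norm_num)
      (by rw [dX]; norm_num) e0 e1 fa0 fa1 ca0 ca1 cb0 cb1 p0 p1 xa0 xa1 xb0 xb1 n0 n1 w6 w7 w9 w10
  have sp : Sp W.nu T (r (gC av (bt σ) 4)) 1 (r (gC av (bt σ) 10) / 2)
      (fun e ca cb => lam (bvT T 0 0 0 0 0 0 0 0) - lam (bvT T e 0 ca cb 0 0 0 0))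
      (fun p xb => φ (gC av (bt σ) 7) (bvT T 0 0 0 0 0 0 0 0) -
        φ (gC av (bt σ) 7) (bvT T 0 0 0 0 p 0 xb 0)) := by
    refine ⟨by simp, by simp, ?_⟩
    intro e fa ca cb p xa xb n e0 e1 fa0 fa1 ca0 ca1 cb0 cb1 p0 p1 xa0 xa1 xb0 xb1 n0 n1 w6 w7 w9
      w10
    have := sb e fa ca cb p xa xb n e0 e1 fa0 fa1 ca0 ca1 cb0 cb1 p0 p1 xa0 xa1 xb0 xb1 n0 n1 w6
      w7 w9 w10
    rw [d4, d8, dX, hXa, div_one, div_one] at this
    rw [nu_bv hw, nu_bv hw, elam]
    linarith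
  have hT0 := hT.le
  have key := kone_NM hNM hbd htw sp hm (by
    intro t ht ht1
    have h1 := hXb t ht ht1
    have z1 := sb t 0 0 0 0 0 0 0 ht ht1 le_rfl hT0 le_rfl hT0 le_rfl hT0
      le_rfl hT0 le_rfl hT0 le_rfl hT0 le_rfl hT0 (by linarith)
      (by linarith) (by linarith) (by linarith)
    have z2 := sb t 0 0 0 0 0 t 0 ht ht1 le_rfl hT0 le_rfl hT0 le_rfl hT0
      le_rfl hT0 le_rfl hT0 ht ht1 le_rfl hT0 (by linarith)
      (by linarith) (by linarith) (by linarith)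
    linarith) (by
    intro t ht ht1
    exact hS2 t ht ht1)
  linarith

theorem av_eq : nL 1 0 0 1 = av := by
  funext j
  fin_cases j <;> simp [nL, av]
  norm_num

theorem bt_eq (σ : ℝ) : nL 0 1 σ σ = bt σ := by
  funext j
  fin_cases j <;> simp [nL, bt]

theorem bvT_eq (T e fa ca cb p xa xb n : ℝ) :
    bvT T e fa ca cb p xa xb n = v11 T T e fa ca cb p xa xb n := rfl

/-- **`κ = 1`**: the slope from helper355's `C2D` at `T = 1` -/
theorem slope_one {ι : ℕ → Type*} [∀ n, DecidableEq (ι n)] {B Bo : Base}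
    {I J : ∀ n, Finset (ι n)} {co : ∀ n, ι n → ι n → Fin 11 → ℝ} {Ma : Mons 11} {C : ℝ}
    {lam : (Fin 11 → ℝ) → ℝ} {σ : ℝ} {A : ℝ × ℝ} {φ : ℕ → (Fin 11 → ℝ) → ℝ} {r : ℕ → ℝ}
    {κv : Fin 11 → ℝ} {V Tw : Fin 11 → Prop} {f : ∀ n, ι n → Fq4}
    (h : AeW B Bo I J co monQ Ma C lam (nL 1 0 0 1) (nL 0 1 σ σ) A φ r 0 1 κv V Tw)
    (hσ2 : σ ≠ 2) (hcone : coneM Ma = coneN)
    (hco : ∀ n, ∀ i ∈ I n, ∀ j ∈ I n, co n i j = coQ (f n i) (f n j))
    (hne : ∀ᶠ n in (U : Filter ℕ), (J n).Nonempty)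
    (hV : ∀ k, V k → k = 0 ∨ k = 3) (hT3 : Tw 3) {T c : ℝ}
    {B' : Base} {G : ℕ → RCfg (Fin 11)} {Leg : Set (Fin 11 → ℝ)}
    {ν : (Fin 11 → ℝ) → ℝ} {D : ℝ} {F : ℕ → ℕ → ℝ} {L0 : ℝ}
    (H : C2D 1 σ T lam A φ r B' G Leg ν D F c L0) : A.1 ≤ -(4 + 1) := by
  have hM : MaQ Ma := maQ_of_cone h.sub hcone
  have hT := H.nm.T0
  have g := gr H.hκ H.hσ H.hσ1
  have g1 := gr1_of H.hσ H.hσ1 hσ2
  have hout : OutS (gC av (bt σ)) coneN (dhC av (bt σ)) (nC av (bt σ)) lam A φ r := by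
    have := H.out
    rwa [av_eq, bt_eq] at this
  have h' : AeW B Bo I J co monQ Ma C lam av (bt σ) A φ r 0 1 κv V Tw := by
    rwa [av_eq, bt_eq] at h
  obtain ⟨y, hy, hyT, hb⟩ := H.xb
  refine H.slope_of hy hyT hb ?_
  -- `X_a`
  have hXa : r (gC av (bt σ) 8) = 1 := by
    have a8 : av 8 = 1 := by simp [av]
    have al : ∀ j, gC av (bt σ) j = gC av (bt σ) 8 → j = 8 := by
      intro j hj
      fin_cases j
      · exact absurd hj.symm g1.n80
      · exact absurd (hj.symm.trans g1.g1) g1.n85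
      · exact absurd (hj.symm.trans g1.g2) g1.n85
      · exact absurd (hj.symm.trans g1.z3) g1.n80
      · exact absurd hj g1.n48
      · exact absurd hj.symm g1.n85
      · exact absurd (hj.symm.trans g1.g6) g1.n85
      · exact absurd hj g1.n78
      · rfl
      · exact absurd (g1.p9.symm.trans hj) g1.n78
      · exact absurd hj.symm g1.n8X
    have m1 : v11 T T 0 0 0 0 0 0 0 0 ∈ coneN := by apply v11_mem <;> linarith
    have m2 : v11 T T 0 0 0 0 0 T 0 0 ∈ coneN := by apply v11_mem <;> linarith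
    have e := loss_single hout (i := 8) (by rw [a8]; exact one_ne_zero) al m1 m2 ne8
    have e8 : v11 T T 0 0 0 0 0 T 0 0 8 - v11 T T 0 0 0 0 0 0 0 0 8 = T := by simp [v11]
    rw [a8, div_one, e8] at e
    have l1 := H.xa hT le_rfl
    have l2 := H.upxa m1 m2 hT.le
    rw [e] at l1 l2
    nlinarith
  have S2 : ∀ t : ℝ, 0 ≤ t → t ≤ y →
      c * t ≤ lam (v11 y y 0 0 0 0 0 0 0 0) - lam (v11 y y t 0 0 t 0 0 0 0) := by
    intro t ht hty
    have hS2 := H.S2 t ht (hty.trans hyT)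
    rw [← v11_zero, v11_26] at hS2
    have e1 := dec2 g H.out (z := y) (fb := y) (e := 0) (e' := t) (fa := 0) (ca := 0) (cb := 0)
      (p := 0) (xa := 0) (xb := 0) (n := 0) (z2 := 0) (fb2 := 0) (fa2 := 0) (p2 := 0)
      (xa2 := 0) (xb2 := 0) (n2 := 0) (by apply v11_mem <;> linarith)
      (by apply v11_mem <;> linarith) (by apply v11_mem <;> linarith)
      (by apply v11_mem <;> linarith)
    have e2 := dec6 g H.out (z := y) (fb := y) (e := t) (fa := 0) (ca := 0) (cb := 0)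
      (cb' := t) (p := 0) (xa := 0) (xb := 0) (n := 0) (z2 := 0) (fb2 := 0) (fa2 := 0)
      (p2 := 0) (xa2 := 0) (xb2 := 0) (n2 := 0) (by apply v11_mem <;> linarith)
      (by apply v11_mem <;> linarith) (by apply v11_mem <;> linarith)
      (by apply v11_mem <;> linarith)
    linarith
  have key := n_full_T h' H.hσ H.hσ1 hσ2 hco hM hne hV hT3 hXa hy (fun t ht hty => by
    rw [bvT_eq, bvT_eq]
    exact H.xbF hy hyT hb ht hty (by apply v11_mem <;> linarith)
      (by apply v11_mem <;> linarith) (Or.inl rfl) (Or.inl rfl)) H.hc (fun t ht hty => by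
    rw [bvT_eq, bvT_eq]
    exact S2 t ht hty)
  -- `N` alone in its group
  have aX : av 10 = 2 := by simp [av]
  have al : ∀ j, gC av (bt σ) j = gC av (bt σ) 10 → j = 10 := by
    intro j hj
    fin_cases j
    · exact absurd hj.symm g1.nX0
    · exact absurd (hj.symm.trans g1.g1) g1.nX5
    · exact absurd (hj.symm.trans g1.g2) g1.nX5
    · exact absurd (hj.symm.trans g1.z3) g1.nX0
    · exact absurd hj g1.n4X
    · exact absurd hj.symm g1.nX5
    · exact absurd (hj.symm.trans g1.g6) g1.nX5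
    · exact absurd hj g1.n7X
    · exact absurd hj g1.n8X
    · exact absurd (g1.p9.symm.trans hj) g1.n7X
    · rfl
  have m1 : v11 T T y y y y y y y 0 ∈ coneN := by apply v11_mem <;> linarith
  have m2 : v11 T T y y y y y y y y ∈ coneN := by apply v11_mem <;> linarith
  have e := loss_single hout (i := 10) (by rw [aX]; exact two_ne_zero) al m1 m2 ne10
  have e10 : v11 T T y y y y y y y y 10 - v11 T T y y y y y y y 0 10 = y := by simp [v11]
  rw [aX, e10] at e
  rw [e]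
  nlinarith

end Crest.Agent.R136.C2o400
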