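import Crest.Agent.R136.C2o_400
import Crest.Agent.R136.Tb5_628
import Crest.Agent.R136.TopB_550

/-!
# R136, case (C2) (helper400): **`caseC2`**

* `c2_all` : F-half for all `κ > 0`, slope `σ ≠ 0, 1`, `(κ, σ) ≠ (1, 2)`;
* `caseC2` : the pattern `pC2` of the thick table is impossible.
-/

set_option autoImplicit false
set_option linter.unusedSectionVars false
set_option linter.unusedVariables false

open Filter Topology

namespace Crest.Agent.R136.C2p400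

open Finset Crest.Agent.R136.NetQ186 Crest.Agent.R136.Net191 Crest.Agent.R136.Qg926
open Crest.Agent.R136.Gf356 Crest.Agent.R136.Aw413
open Crest.Agent.R136.C2355 Crest.Agent.R136.Dg219 Crest.Agent.R136.Wq400
open Crest.Agent.R136.Ev356
open Crest.Agent.R136.NatT550 Crest.Agent.R136.Lq196 Crest.Agent.R136.Wq638
open Crest.Agent.R136.NatR550 (coneN nL)
open Crest.Agent.R136.Tb628
open Crest.Agent.R136.GeoQ186 (scl)
open Crest.Agent.R136.Top484 (Par4 Dat4)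
open Crest.Agent.R136.TopB550 (Dead pC2 LL)
open Crest.Agent.R138.Ex926 (Base U)

/-- **`C2D` from `AeW`** (any window size `T ≤ 1`) -/
theorem exists_c2d {ι : ℕ → Type*} [∀ n, DecidableEq (ι n)] {B Bo : Base}
    {I J : ∀ n, Finset (ι n)} {co : ∀ n, ι n → ι n → Fin 11 → ℝ} {Ma : Mons 11} {C : ℝ}
    {lam : (Fin 11 → ℝ) → ℝ} {κ σ : ℝ} {A : ℝ × ℝ} {φ : ℕ → (Fin 11 → ℝ) → ℝ} {r : ℕ → ℝ}
    {κv : Fin 11 → ℝ} {V Tw : Fin 11 → Prop} {f : ∀ n, ι n → Fq4}
    (hκ : 0 < κ) (hσ : σ ≠ 0) (hσ1 : σ ≠ 1)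
    (h : AeW B Bo I J co monQ Ma C lam (nL 1 0 0 κ) (nL 0 1 σ σ) A φ r 0 1 κv V Tw)
    (hcone : coneM Ma = coneN)
    (hco : ∀ n, ∀ i ∈ I n, ∀ j ∈ I n, co n i j = coQ (f n i) (f n j))
    (hne : ∀ᶠ n in (U : Filter ℕ), (J n).Nonempty)
    (hV : ∀ k, V k → k = 0 ∨ k = 3) (hT3 : Tw 3) {c : ℝ} (hc : 0 < c)
    (S1 : ∀ x : ℝ, 0 ≤ x → x ≤ 1 → c * x ≤ lam 0 - lam (Pi.single 5 x))
    (S2 : ∀ x : ℝ, 0 ≤ x → x ≤ 1 → c * x ≤ lam 0 - lam (Pi.single 2 x + Pi.single 6 x))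
    {T : ℝ} (hT : 0 < T) (hT1 : T ≤ 1) :
    ∃ (B' : Base) (G : ℕ → RCfg (Fin 11)) (Leg : Set (Fin 11 → ℝ)) (ν : (Fin 11 → ℝ) → ℝ) (D : ℝ)
      (F : ℕ → ℕ → ℝ) (L0 : ℝ), C2D κ σ T lam A φ r B' G Leg ν D F c L0 := by
  have hM : MaQ Ma := maQ_of_cone h.sub hcone
  have hsub := h.sub
  have g := gr hκ hσ hσ1
  set K : ℝ := max 1 (cK0 monQ C) with hK
  have hK1 : (1 : ℝ) ≤ K := le_max_left _ _
  have hK0 : 0 < K := by linarith
  have hst := stQ_ok (Ma := Ma) sok_b hK0 hT.le hsub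
  obtain ⟨W, hW, -, -⟩ := h.wnd (stQ {0, 3} K T Ma) rfl hst (fun _ _ => 1)
    (fun _ => Base.Sub.const one_pos) J (fun _ => 1)
    (Eventually.of_forall fun n => Finset.Subset.refl _) hne (Base.Sub.const one_pos)
    (Eventually.of_forall fun n => by rw [one_mul])
  have hden := h.dens (st := stQ {0, 3} K T Ma) rfl hst (by
      show ∀ i j, gC (nL 1 0 0 κ) (nL 0 1 σ σ) i = gC (nL 1 0 0 κ) (nL 0 1 σ σ) j →
        i ∈ ({0, 3} : Finset (Fin 11)) → j ∈ ({0, 3} : Finset (Fin 11))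
      intro i j hij hi
      have hi' : gC (nL 1 0 0 κ) (nL 0 1 σ σ) i = gC (nL 1 0 0 κ) (nL 0 1 σ σ) 0 := by
        rcases Finset.mem_insert.1 hi with rfl | hi
        · rfl
        · rw [Finset.mem_singleton.1 hi]; exact g.e03.symm
      rw [hi'] at hij
      have key : ∀ j : Fin 11, gC (nL 1 0 0 κ) (nL 0 1 σ σ) 0 =
          gC (nL 1 0 0 κ) (nL 0 1 σ σ) j → j = 0 ∨ j = 3 := by
        intro j hj
        fin_cases j
        · left; rfl
        · exact absurd (hj.trans g.z1) g.n0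
        · exact absurd (hj.trans g.z2) g.n0
        · right; rfl
        · exact absurd hj g.n04
        · exact absurd (hj.trans g.z5) g.n0
        · exact absurd (hj.trans g.z6) g.n0
        · exact absurd hj g.n07
        · exact absurd hj g.n08
        · exact absurd hj g.n09
        · exact absurd hj g.n010
      rcases key j hij with rfl | rfl <;> decide)
    zero_le_one le_rfl (R := T) le_rfl (by
      intro y hy hy1
      rw [hcone]; exact m_0 hy)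
  obtain ⟨E', hNM, hbd, htw⟩ := C2w400.nm_of_wat hW hco hM hsub (le_max_right _ _) hT hV hT3
    hden.dens (fun y hy hy1 => by
      have := hden.frost y hy hy1
      rw [one_mul] at this
      exact this)
  have hw := C2w400.winB_of_wat hW hM hsub (le_max_right _ _) hT
  have elam := hW.elam
  refine ⟨W.B', W.cfg E', W.legW, W.nu, W.Dc, fun n k => flg W n k 3, lam fun _ => T, ?_⟩
  refine ⟨hκ, hσ, hσ1, ?_, h.zero, ?_, ?_, ?_, ?_, hNM, htw, ?_, hc, ?_, ?_⟩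
  · have := h.out
    rwa [hcone] at this
  · have := h.anti
    rwa [hcone] at this
  · have := h.sharp
    rwa [hcone] at this
  · have := h.submod
    rwa [hcone] at this
  · intro u hu
    have := h.own 0 (by rw [hcone]; exact m_zero) (Pi.single 0 u) (by rw [hcone]; exact m_0 hu)
      (by
        intro s
        by_cases hs : s = 0
        · subst hs; simpa using hu
        · rw [Pi.single_eq_of_ne hs]; exact le_rfl) (fun k _ => by simp)
    simpa using this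
  · intro e fa ca cb p xa xb n
    rw [C2w400.nu_bv hw, elam]
    rfl
  · intro x hx hxT
    exact S1 x hx (hxT.trans hT1)
  · intro x hx hxT
    exact S2 x hx (hxT.trans hT1)

/-- **F-half of (C2)**, all `κ > 0` -/
theorem c2_all {ι : ℕ → Type*} [∀ n, DecidableEq (ι n)] {B Bo : Base}
    {I J : ∀ n, Finset (ι n)} {co : ∀ n, ι n → ι n → Fin 11 → ℝ} {Ma : Mons 11} {C : ℝ}
    {lam : (Fin 11 → ℝ) → ℝ} {κ σ : ℝ} {A : ℝ × ℝ} {φ : ℕ → (Fin 11 → ℝ) → ℝ} {r : ℕ → ℝ}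
    {κv : Fin 11 → ℝ} {V Tw : Fin 11 → Prop} {f : ∀ n, ι n → Fq4}
    (hκ : 0 < κ) (hσ : σ ≠ 0) (hσ1 : σ ≠ 1) (hκσ : κ ≠ 1 ∨ σ ≠ 2)
    (h : AeW B Bo I J co monQ Ma C lam (nL 1 0 0 κ) (nL 0 1 σ σ) A φ r 0 1 κv V Tw)
    (hcone : coneM Ma = coneN)
    (hco : ∀ n, ∀ i ∈ I n, ∀ j ∈ I n, co n i j = coQ (f n i) (f n j))
    (hne : ∀ᶠ n in (U : Filter ℕ), (J n).Nonempty)
    (hV : ∀ k, V k → k = 0 ∨ k = 3) (hT3 : Tw 3) {c : ℝ} (hc : 0 < c)
    (S1 : ∀ x : ℝ, 0 ≤ x → x ≤ 1 → c * x ≤ lam 0 - lam (Pi.single 5 x))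
    (S2 : ∀ x : ℝ, 0 ≤ x → x ≤ 1 → c * x ≤ lam 0 - lam (Pi.single 2 x + Pi.single 6 x)) :
    A.1 ≤ -(4 + κ) := by
  obtain ⟨B', G, Leg, ν, D, F, L0, H⟩ := exists_c2d hκ hσ hσ1 h hcone hco hne hV hT3 hc S1 S2
    one_pos le_rfl
  by_cases hκ1 : κ = 1
  · subst hκ1
    exact C2o400.slope_one h (hκσ.resolve_left fun e => e rfl) hcone hco hne hV hT3 H
  · exact H.slope hκ1

theorem smulE (y : ℝ) : eCa y = Pi.single 5 y := by
  funext k; fin_cases k <;> simp [eCa]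

theorem smulB (y : ℝ) : eECb y = Pi.single 2 y + Pi.single 6 y := by
  funext k; fin_cases k <;> simp [eECb]

/-- the slack of case (C2) from the bounds of the slopes -/
theorem slackC {η q0 q2 g a b c : ℝ} (hη1 : η ≤ 1 / 8) (hq0 : 0 ≤ q0) (hq2 : 0 < q2)
    (hg : 0 < g) (hb : q2 * max (b - c) 0 + q0 * (max (-a) 0 + |b| + |c|) ≤ η * g) :
    q2 * 0 + q0 * (c - a) < g := by
  have e1 : 0 ≤ q2 * max (b - c) 0 := mul_nonneg hq2.le (le_max_right _ _)
  have e2 : c - a ≤ max (-a) 0 + |b| + |c| := by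
    linarith [le_max_left (-a) 0, abs_nonneg b, le_abs_self c]
  have e3 := mul_le_mul_of_nonneg_left e2 hq0
  have e4 := mul_le_mul_of_nonneg_right hη1 hg.le
  linarith

/-- **case (C2)** of the thick table -/
theorem caseC2 {η : ℝ} (hη1 : η ≤ 1 / 8) : Dead η pC2 := by
  intro p D I1 π eE gA gB V T w0 R T0 PD ν own c₀ h hp
  have hη : 0 < η := h.tp.ok.η_pos
  have h2pos : 0 < p.θ 2 := hp.pos h.tp.ok hη
  have hth := h.tp.ok.θ1
  obtain ⟨n2, v3, hcase, nLL⟩ := hp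
  have sl := h.tp.slots
  have hκ : 0 < p.θ 2 - p.θ 0 := by
    have := (sl.vis 3 v3).2
    simpa [btQ] using this
  have t3 : T 3 := by
    by_contra hT
    have := (sl.cap 3 v3 hT).1
    exact absurd this (by decide)
  have hne12 : p.θ 1 ≠ p.θ 2 := by
    rcases hcase with h1 | h1
    · exact h1.ne
    · exact h1.2.2.ne'
  have h4 : V 4 → p.θ 1 < p.θ 2 := by
    intro v4
    rcases hcase with h1 | h1
    · exact h1
    · exact absurd v4 h1.1
  have q1 := h.tp.ok.g0.2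
  have q2 := h.tp.ok.q2.1
  have hsl : p.q 2 * 0 + p.q 0 * (p.θ 2 - p.θ 0) < p.g := by
    first
    | exact slack h.tp.ok hη hη1 h.tp.ok.θb (i := 0) (j := 0) (k := 2) (l := 0) (by positivity) (by
        have a1 := le_abs_self (p.θ 2)
        have a2 := neg_abs_le (p.θ 0)
        linarith)
    | (have hb : p.q 2 * max (p.θ 1 - p.θ 2) 0 +
          p.q 0 * (max (-(p.θ 0)) 0 + |p.θ 1| + |p.θ 2|) ≤ η * p.g := h.tp.ok.θb
       exact slackC hη1 h.tp.ok.q0.1 q2 h.tp.ok.g0.1 hb)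
  refine row_nat0 h hη (κ := 0) (κ3 := p.θ 2 - p.θ 0) le_rfl hκ.le (Or.inl rfl)
    (Or.inr (Or.inl (by intro e; rw [e] at hκ; simp at hκ))) hsl
    (fun v2 => absurd v2 n2) (fun _ => by linarith) (fun v4 => by have := h4 v4; linarith) ?_
  intro g1 g2 hcone ξ x h' lam A φ r P hH
  have r1 := g1 hne12
  have r2 := g2 (Or.inl (by intro e; rw [e] at hκ; simp at hκ))
  set σ : ℝ := p.θ 2 / p.θ 1 with hσ
  have eA : sA 0 (p.θ 2 - p.θ 0) = nL 1 0 0 (p.θ 2 - p.θ 0) := rfl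
  have eB : sB p.θ 0 (p.θ 2 - p.θ 0) = nL 0 1 σ σ := by
    unfold sB
    rw [add_zero, add_sub_cancel]
  have hh := P.aew
  have hcone' := hcone
  have c1 : 0 < min (p.q 1) (p.q 2) := lt_min q1 q2
  have m0 : (0 : Fin 11 → ℝ) ∈
      coneM (actM monQ (s0 w0 (R - 1)) (sA 0 (p.θ 2 - p.θ 0)) (sB p.θ 0 (p.θ 2 - p.θ 0))) := by
    rw [hcone]; exact m_zero
  have S1 : ∀ x : ℝ, 0 ≤ x → x ≤ 1 → min (p.q 1) (p.q 2) * x ≤ lam 0 - lam (Pi.single 5 x) := by
    intro y hy _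
    have := P.S1 (by simp [sA, nL]) (by simp [sB, nL]) r1 (c := 0) m0 hy (by
      rw [zero_add, smulE, hcone]; exact m_5 hy) (by intro k _ _; simp)
    rw [zero_add, smulE] at this
    have h2 := mul_le_mul_of_nonneg_right (min_le_left (p.q 1) (p.q 2)) hy
    linarith
  have S2 : ∀ x : ℝ, 0 ≤ x → x ≤ 1 → min (p.q 1) (p.q 2) * x ≤
      lam 0 - lam (Pi.single 2 x + Pi.single 6 x) := by
    intro y hy _
    have := P.S2 (by simp [sA, nL]) (by simp [sA, nL]) r2 (c := 0) m0 (τ := 0) hy (by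
      rw [zero_add, smulB, hcone]; exact m_26 hy) (by intro k _ _; simp) (by simp) (by simp)
    rw [zero_add, smulB] at this
    have h2 := mul_le_mul_of_nonneg_right (min_le_right (p.q 1) (p.q 2)) hy
    linarith
  have hV' : ∀ k, (V k ∧ sB p.θ 0 (p.θ 2 - p.θ 0) k = 0) → k = 0 ∨ k = 3 := by
    rintro k ⟨hk, hb⟩
    rcases (sl.vis k hk).1 with rfl | rfl | rfl
    · exact absurd hk n2
    · right; rfl
    · exfalso
      rw [sB_four0 hth.ne'] at hb
      have := h4 hk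
      linarith
  have hT3 : T 3 ∧ sB p.θ 0 (p.θ 2 - p.θ 0) 3 = 0 := ⟨t3, by rw [sB_three0 hth.ne']; ring⟩
  rw [eB, eA] at hh hcone'
  rw [eB] at hV' hT3
  have key := c2_all hκ (σ := σ) (div_pos h2pos hth).ne' (by
      intro e
      rw [hσ, div_eq_one_iff_eq hth.ne'] at e
      exact hne12 e.symm) (by
      by_contra hcon
      push Not at hcon
      apply nLL
      refine ⟨hcon.1, ?_⟩
      have := hcon.2
      rw [hσ, div_eq_iff hth.ne'] at this
      exact this) hh hcone' (f := fun n x => scl (uH D.B D.lev w0 n) (uA D.B D.lev D.w w0 n)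
        (uB D.B D.lev D.w w0 n) (uY D.B D.lev D.w w0 n) (incQ π D.L eE gA gB n x))
      (fun n i _ j _ => rfl) (nprof h).ne hV' hT3 c1 S1 S2
  rw [add_zero]
  exact key

end Crest.Agent.R136.C2p400
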