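import Crest.Agent.R136.C3a_795

/-!
# R136: sheared slots of a relative model (helper795, T.C3)

* `shr G e` : the slots `6, 9` replaced by `6 + e 5`, `9 + e 8` (`e` = absolute `E`-coordinate of the
  line): the own motion of `F_a` becomes a function of the heights, and `5, 6, 8, 9` additive.
* `RModel.shr` : the sheared model is a model on the legal boxes with `p 9 ≤ p 8`, `p 6 ≤ p 5`.
* `noStr_shr` : no strips pass to the sheared model.
-/

set_option autoImplicit false
set_option linter.unusedVariables false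
set_option linter.unusedSectionVars false

open Filter Topology Finset

namespace Crest.Agent.R136.C3b795

open Crest.Agent.R138.Ex926 (Base U)
open Crest.Agent.R136.Gf356
open Crest.Agent.R136.CD366
open Crest.Agent.R136.CV366 (NoStr unit_le)
open Crest.Agent.R136.C3a795

variable {B : Base} {G : ℕ → RCfg (Fin 11)} {Leg : Set (Fin 11 → ℝ)} {ν : (Fin 11 → ℝ) → ℝ}
  {σ R D : ℝ} {e : ℕ → ℕ → ℕ → ℝ}

/-- sheared slots -/
def shr (G : ℕ → RCfg (Fin 11)) (e : ℕ → ℕ → ℕ → ℝ) (n : ℕ) : RCfg (Fin 11) :=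
  { G n with
    rel := fun k i l s => if s = 6 then (G n).rel k i l 6 + e n k i * (G n).rel k i l 5
      else if s = 9 then (G n).rel k i l 9 + e n k i * (G n).rel k i l 8 else (G n).rel k i l s }

theorem shr_six (n k i l : ℕ) : (shr G e n).rel k i l 6 =
    (G n).rel k i l 6 + e n k i * (G n).rel k i l 5 := rfl

theorem shr_nine (n k i l : ℕ) : (shr G e n).rel k i l 9 =
    (G n).rel k i l 9 + e n k i * (G n).rel k i l 8 := rfl

theorem shr_of_ne {s : Fin 11} (h6 : s ≠ 6) (h9 : s ≠ 9) (n k i l : ℕ) :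
    (shr G e n).rel k i l s = (G n).rel k i l s := by
  show (if s = 6 then _ else if s = 9 then _ else (G n).rel k i l s) = _
  rw [if_neg h6, if_neg h9]

/-- the legal boxes of the sheared model -/
def LegS (Leg : Set (Fin 11 → ℝ)) : Set (Fin 11 → ℝ) := {p | p ∈ Leg ∧ p 9 ≤ p 8 ∧ p 6 ≤ p 5}

/-- bounded shears -/
def EB (G : ℕ → RCfg (Fin 11)) (e : ℕ → ℕ → ℕ → ℝ) : Prop :=
  ∀ᶠ n in (U : Filter ℕ), ∀ k i, (i, k) ∈ (G n).I → |e n k i| ≤ 1

theorem shr_loose (hb : ∀ n, (G n).ρ = B.d n) (he : EB G e) {p : Fin 11 → ℝ}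
    (h9 : p 9 ≤ p 8) (h6 : p 6 ≤ p 5) {δ : ℝ} (hδ : 0 < δ) :
    ∀ᶠ n in (U : Filter ℕ), ∀ ε : ℝ, ∀ k i l, (i, k) ∈ (G n).I →
      ((shr G e n).loose p ε k i l → (G n).loose p (ε + δ) k i l) ∧
      ((G n).loose p ε k i l → (shr G e n).loose p (ε + δ) k i l) := by
  filter_upwards [he, ev_const_le B hδ 2] with n hen h2 ε k i l hik
  have hpow : ∀ t : ℝ, 0 < B.d n ^ t := fun t => rpos B n t
  have hb' : (shr G e n).ρ = B.d n := hb n
  have he1 := hen k i hik
  have key : ∀ x y w v : ℝ, w ≤ v → |x| ≤ B.d n ^ (w - ε) → |y| ≤ B.d n ^ (v - ε) →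
      |x| + |e n k i * y| ≤ B.d n ^ (w - (ε + δ)) := by
    intro x y w v hwv hx hy
    have a1 : |e n k i * y| ≤ B.d n ^ (w - ε) := by
      rw [abs_mul]
      calc |e n k i| * |y| ≤ 1 * B.d n ^ (v - ε) :=
            mul_le_mul he1 hy (abs_nonneg _) zero_le_one
        _ = B.d n ^ (v - ε) := one_mul _
        _ ≤ _ := rpow_anti B n (by linarith)
    calc |x| + |e n k i * y| ≤ 2 * B.d n ^ (w - ε) := by linarith
      _ ≤ B.d n ^ (-δ) * B.d n ^ (w - ε) := mul_le_mul_of_nonneg_right h2 (hpow _).le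
      _ = B.d n ^ (w - (ε + δ)) := by rw [← rpow_add']; congr 1; ring
  constructor
  · intro h s
    have h5 := h 5
    have h8 := h 8
    rw [shr_of_ne (by decide) (by decide), hb'] at h5 h8
    rw [hb n]
    by_cases hs6 : s = 6
    · subst hs6
      have h6' := h 6
      rw [hb'] at h6'
      have e1 : (G n).rel k i l 6 = (shr G e n).rel k i l 6 - e n k i * (G n).rel k i l 5 := by
        rw [shr_six]; ring
      rw [e1]
      exact (abs_sub _ _).trans (key _ _ _ _ h6 h6' h5)
    by_cases hs9 : s = 9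
    · subst hs9
      have h9' := h 9
      rw [hb'] at h9'
      have e1 : (G n).rel k i l 9 = (shr G e n).rel k i l 9 - e n k i * (G n).rel k i l 8 := by
        rw [shr_nine]; ring
      rw [e1]
      exact (abs_sub _ _).trans (key _ _ _ _ h9 h9' h8)
    · have := h s
      rw [shr_of_ne hs6 hs9, hb'] at this
      exact this.trans (rpow_anti B n (by linarith))
  · intro h s
    have h5 := h 5
    have h8 := h 8
    rw [hb n] at h5 h8
    rw [hb']
    by_cases hs6 : s = 6
    · subst hs6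
      have h6' := h 6
      rw [hb n] at h6'
      rw [shr_six]
      exact (abs_add_le _ _).trans (key _ _ _ _ h6 h6' h5)
    by_cases hs9 : s = 9
    · subst hs9
      have h9' := h 9
      rw [hb n] at h9'
      rw [shr_nine]
      exact (abs_add_le _ _).trans (key _ _ _ _ h9 h9' h8)
    · have := h s
      rw [hb n] at this
      rw [shr_of_ne hs6 hs9]
      exact this.trans (rpow_anti B n (by linarith))

theorem mem_box_shr {p : Fin 11 → ℝ} {ε : ℝ} {n i k l : ℕ} :
    l ∈ (shr G e n).box p ε i k ↔ l ∈ (G n).slice k ∧ (shr G e n).loose p ε k i l :=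
  RCfg.mem_box

/-- **the sheared counts are uniform** -/
theorem RUnif.shr (H : RUnif B G Leg ν D) (he : EB G e) :
    RUnif B (shr G e) (LegS Leg) ν (4 * D) where
  D1 := by linarith [H.D1]
  base := fun n => H.base n
  sub := fun n => H.sub n
  nonempty := fun n => H.nonempty n
  refl := fun n k i hik j => by
    have h0 := H.refl n k i hik
    by_cases h6 : j = 6
    · subst h6; rw [shr_six, h0, h0]; ring
    by_cases h9 : j = 9
    · subst h9; rw [shr_nine, h0, h0]; ring
    · rw [shr_of_ne h6 h9]; exact h0 j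
  symm := fun p hp ε hε => by
    have hD := H.D1
    have hDε : 0 < 2 * D * ε := by positivity
    filter_upwards [shr_loose H.base he hp.2.1 hp.2.2 hε, shr_loose H.base he hp.2.1 hp.2.2 hDε,
      H.symm p hp.1 (2 * ε) (by positivity)] with n h1 h2 h3 k i l hi hl hlo
    have a1 := (h1 ε k i l hi).1 hlo
    have e1 : ε + ε = 2 * ε := by ring
    rw [e1] at a1
    have a2 := h3 k i l hi hl a1
    have a3 := (h2 _ k l i hl).2 a2
    have e2 : D * (2 * ε) + 2 * D * ε = 4 * D * ε := by ring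
    rwa [e2] at a3
  tri := fun p hp ε hε => by
    have hD := H.D1
    have hDε : 0 < 2 * D * ε := by positivity
    filter_upwards [shr_loose H.base he hp.2.1 hp.2.2 hε, shr_loose H.base he hp.2.1 hp.2.2 hDε,
      H.tri p hp.1 (2 * ε) (by positivity)] with n h1 h2 h3 k i l m hi hl hm hil hlm
    have e1 : ε + ε = 2 * ε := by ring
    have a1 := (h1 ε k i l hi).1 hil
    have a2 := (h1 ε k l m hl).1 hlm
    rw [e1] at a1 a2
    have a3 := (h2 _ k i m hi).2 (h3 k i l m hi hl hm a1 a2)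
    have e2 : D * (2 * ε) + 2 * D * ε = 4 * D * ε := by ring
    rwa [e2] at a3
  low := fun p hp ε hε => by
    have hε2 : 0 < ε / 2 := by positivity
    filter_upwards [shr_loose H.base he hp.2.1 hp.2.2 hε2, H.low p hp.1 (ε / 2) hε2] with
      n h1 h2 i k hik
    have a1 := h2 i k hik
    refine (rpow_anti B n (by linarith)).trans (a1.trans ?_)
    refine mod_cast card_le_card ?_
    intro l hl
    obtain ⟨b1, b2⟩ := RCfg.mem_box.1 hl
    refine RCfg.mem_box.2 ⟨b1, ?_⟩
    have := (h1 _ k i l hik).2 b2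
    have e1 : ε / 2 + ε / 2 = ε := by ring
    rwa [e1] at this
  up := fun p hp ε hε => by
    have hD := H.D1
    filter_upwards [shr_loose H.base he hp.2.1 hp.2.2 hε, H.up p hp.1 (2 * ε) (by positivity)]
      with n h1 h2 i k hik
    have a1 := h2 i k hik
    refine le_trans ?_ (a1.trans (rpow_anti B n (by nlinarith)))
    refine mod_cast card_le_card ?_
    intro l hl
    obtain ⟨b1, b2⟩ := RCfg.mem_box.1 hl
    refine RCfg.mem_box.2 ⟨b1, ?_⟩
    have := (h1 _ k i l hik).1 b2
    have e1 : ε + ε = 2 * ε := by ring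
    rwa [e1] at this

/-- **the sheared model is a model** -/
theorem RModel.shr (H : RModel B G σ R Leg ν D) (he : EB G e) :
    RModel B (shr G e) σ R (LegS Leg) ν (4 * D) where
  toRUnif := RUnif.shr H.toRUnif he
  σ_nonneg := H.σ_nonneg
  σ_le := H.σ_le
  line := H.line
  slice := H.slice
  frost := H.frost

/-- raw twist does not see the relative coordinates -/
theorem rawTw_shr {φ : ℕ → ℕ → ℕ → ℝ} (h : Fe1355.RawTw B G φ) : Fe1355.RawTw B (shr G e) φ := h

open Classical in
/-- **no strips** in the sheared model -/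
theorem noStr_shr (hb : ∀ n, (G n).ρ = B.d n) (he : EB G e) {p0 : Fin 11 → ℝ} (h9 : p0 9 ≤ p0 8)
    (h6 : p0 6 ≤ p0 5) {q R0 : ℝ} (h : NoStr B G p0 5 6 ν q R0) :
    NoStr B (shr G e) p0 5 6 ν q R0 := by
  obtain ⟨K, hK, h⟩ := h
  refine ⟨2 * K, by positivity, fun t ht htR ε hε => ?_⟩
  filter_upwards [h t ht htR (2 * ε) (by positivity), shr_loose hb he h9 h6 hε, he,
    ev_const_le B hε 2] with n hn hlo hen h2 i k hik b hb'
  have hpow : ∀ t : ℝ, 0 < B.d n ^ t := fun t => rpos B n t
  obtain ⟨u, hu1, hu2⟩ := shear_dir (c5 := 0) (c6 := 0) (w := 0) hb' (hen k i hik) (by simp)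
  have a1 := hn i k hik u hu1
  refine le_trans ?_ (a1.trans (rpow_anti B n (by linarith)))
  refine mod_cast card_le_card ?_
  intro l hl
  rw [mem_filter, RCfg.mem_box] at hl ⊢
  obtain ⟨⟨b1, b2⟩, b3⟩ := hl
  have b4 := (hlo ε k i l hik).1 b2
  have e1 : ε + ε = 2 * ε := by ring
  rw [e1] at b4
  refine ⟨⟨b1, b4⟩, ?_⟩
  rw [shr_six, shr_of_ne (by decide) (by decide)] at b3
  have e2 : b 0 * (G n).rel k i l 5 + b 1 * ((G n).rel k i l 6 + e n k i * (G n).rel k i l 5) =
      (b 0 + b 1 * e n k i) * (G n).rel k i l 5 + b 1 * (G n).rel k i l 6 := by ring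
  rw [e2] at b3
  refine (hu2 _ _ _ b3).trans ?_
  calc 2 * B.d n ^ (t - ε) ≤ B.d n ^ (-ε) * B.d n ^ (t - ε) :=
        mul_le_mul_of_nonneg_right h2 (hpow _).le
    _ = B.d n ^ (t - 2 * ε) := by rw [← rpow_add']; congr 1; ring

end Crest.Agent.R136.C3b795
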