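import Crest.Agent.R136.C3b_795
import Crest.Agent.R136.CD6_366

/-!
# R136: the model of case C3 and its lines (helper795)

`M3` : relative model with level slots `z`, (`F_b`,) `F_a`, additive slots `5, 6, 8, 9` (sheared),
multipliers `fa` of `X_a`, `fb` of `X_b` which are functions of the heights.

* `M3.block` : the block `(X_a, X_b)` is full.
* `M3.shift9`, `M3.shift8` : visible shifts of `X_b` resp. `X_a` into `N`.
* `M3.kappa_one` : the line `κ3 = 1` with only `F_a` tied.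
-/

set_option autoImplicit false
set_option linter.unusedVariables false
set_option linter.unusedSectionVars false

open Filter Topology Finset

namespace Crest.Agent.R136.C3c795

open Crest.Agent.R138.Ex926 (Base U)
open Crest.Agent.R136.Gf356
open Crest.Agent.R136.CD366
open Crest.Agent.R136.CV366 (NoStr unit_le)
open Crest.Agent.R136.C3a795
open Crest.Agent.R136.Fe1355 (RawTw shift_R)

/-- boxes in the slots `5, …, 10` -/
def b6 (c5 c6 c7 c8 c9 c10 : ℝ) : Fin 11 → ℝ := ![0, 0, 0, 0, 0, c5, c6, c7, c8, c9, c10]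

/-- evolution of the sheared slots: `u` = step of the height, `ga`, `gb` = own motions of `F_a`,
`F_b` -/
structure Ev3 (η u ga gb : ℝ) (x y : Fin 11 → ℝ) : Prop where
  e5 : |y 5 - x 5| ≤ η
  e6 : |y 6 - x 6| ≤ η
  e7 : |y 7 - (x 7 - ga * x 5 - gb * x 6)| ≤ η
  e8 : |y 8 - (x 8 + u * x 5)| ≤ η
  e9 : |y 9 - (x 9 + u * x 6)| ≤ η
  e10 : |y 10 - (x 10 + u * x 7 - ga * (x 8 + u * x 5) - gb * (x 9 + u * x 6))| ≤ η

/-- **the model of case C3** -/
structure M3 (B : Base) (G : ℕ → RCfg (Fin 11)) (Leg : Set (Fin 11 → ℝ)) (ν : (Fin 11 → ℝ) → ℝ)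
    (T D : ℝ) (fa fb : ℕ → ℕ → ℝ) : Prop where
  H : RModel B G 1 T Leg ν D
  T0 : 0 < T
  leg : ∀ c5 c6 c7 c8 c9 c10 : ℝ, 0 ≤ c5 → c5 ≤ T → 0 ≤ c6 → c6 ≤ c5 → 0 ≤ c7 → c7 ≤ T →
    0 ≤ c8 → c8 ≤ T → 0 ≤ c9 → c9 ≤ c8 → 0 ≤ c10 → c10 ≤ T → b6 c5 c6 c7 c8 c9 c10 ∈ Leg
  bd : ∀ᶠ n in (U : Filter ℕ), ∀ k ∈ (G n).Z, |(G n).z k| ≤ 1 ∧ |fa n k| ≤ 1 ∧ |fb n k| ≤ 1
  rb : ∀ᶠ n in (U : Filter ℕ), ∀ k i l, (i, k) ∈ (G n).I → (l, k) ∈ (G n).I → ∀ s,
    |(G n).rel k i l s| ≤ 1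
  ev : ∀ ε : ℝ, 0 < ε → ∀ᶠ n in (U : Filter ℕ), ∀ k k' i l, (i, k) ∈ (G n).I →
    (l, k) ∈ (G n).I → (i, k') ∈ (G n).I → (l, k') ∈ (G n).I →
    Ev3 (B.d n ^ (T - ε)) ((G n).z k' - (G n).z k) (fa n k' - fa n k) (fb n k' - fb n k)
      ((G n).rel k i l) ((G n).rel k' i l)
  ab : ∃ (A V : ℕ → ℕ → Fin 2 → ℝ) (Ca : ℝ),
    AbsC B G (b6 0 0 0 0 0 0) 8 9 5 6 T Ca A V (fun _ _ _ => 0)

variable {B : Base} {G : ℕ → RCfg (Fin 11)} {Leg : Set (Fin 11 → ℝ)} {ν : (Fin 11 → ℝ) → ℝ}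
  {T D : ℝ} {fa fb : ℕ → ℕ → ℝ}

theorem absC_mono {p0 : Fin 11 → ℝ} {sA sB cA cB : Fin 11} {x x' Ca : ℝ}
    {A V : ℕ → ℕ → Fin 2 → ℝ} {e : ℕ → ℕ → ℕ → ℝ} (h : AbsC B G p0 sA sB cA cB x Ca A V e)
    (hx : x' ≤ x) : AbsC B G p0 sA sB cA cB x' Ca A V e where
  Ca_pos := h.Ca_pos
  e_le := h.e_le
  pA := fun ε hε => by
    filter_upwards [h.pA ε hε] with n hn k i l h1 h2 h3
    exact (hn k i l h1 h2 h3).trans (rpow_anti B n (by linarith))
  pB := fun ε hε => by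
    filter_upwards [h.pB ε hε] with n hn k i l h1 h2 h3
    exact (hn k i l h1 h2 h3).trans (rpow_anti B n (by linarith))
  vA := fun ε hε => by
    filter_upwards [h.vA ε hε] with n hn k i l h1 h2 h3
    exact (hn k i l h1 h2 h3).trans (rpow_anti B n (by linarith))
  vB := fun ε hε => by
    filter_upwards [h.vB ε hε] with n hn k i l h1 h2 h3
    exact (hn k i l h1 h2 h3).trans (rpow_anti B n (by linarith))

namespace M3

variable (M : M3 B G Leg ν T D fa fb)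

include M

theorem zero_leg : b6 0 0 0 0 0 0 ∈ Leg :=
  M.leg 0 0 0 0 0 0 le_rfl M.T0.le le_rfl le_rfl le_rfl M.T0.le le_rfl M.T0.le le_rfl le_rfl
    le_rfl M.T0.le

/-- the class box is no condition -/
theorem loose0 {ε : ℝ} (hε : 0 < ε) : ∀ᶠ n in (U : Filter ℕ), ∀ k i l, (i, k) ∈ (G n).I →
    (l, k) ∈ (G n).I → (G n).loose (b6 0 0 0 0 0 0) ε k i l := by
  filter_upwards [M.rb] with n hn k i l hi hl s
  have e0 : b6 0 0 0 0 0 0 s = 0 := by fin_cases s <;> rfl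
  rw [M.H.base n, e0]
  refine (hn k i l hi hl s).trans ?_
  exact Real.one_le_rpow_of_pos_of_le_one_of_nonpos (B.pos n) (B.lt n).le (by linarith)

theorem coEv : CoEv B G (b6 0 0 0 0 0 0) 1 := by
  intro ε hε
  filter_upwards [M.loose0 hε] with n hn k₀ k i i' h1 h2 h3 h4 _
  rw [one_mul]
  exact hn k i i' h3 h4

/-- additivity of the velocities -/
theorem addT (pC : Fin 11 → ℝ) {t : ℝ} (ht : t ≤ T) :
    ∃ Ca : ℝ, 0 < Ca ∧ AddT B G (b6 0 0 0 0 0 0) pC 5 6 Ca t := by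
  obtain ⟨A, V, Ca, h⟩ := M.ab
  have hCa := h.Ca_pos
  refine ⟨Ca + 1, by linarith, fun ε hε => ?_⟩
  filter_upwards [h.vA ε hε, h.vB ε hε, M.loose0 hε, ev_const_le B hε 3] with
    n hA hB hlo h3 k i l m hi hl hm _ _
  have hpow : ∀ t : ℝ, 0 < B.d n ^ t := fun t => rpos B n t
  have e1 : 3 * B.d n ^ (T - Ca * ε) ≤ B.d n ^ (t - (Ca + 1) * ε) := by
    calc 3 * B.d n ^ (T - Ca * ε) ≤ B.d n ^ (-ε) * B.d n ^ (T - Ca * ε) :=
          mul_le_mul_of_nonneg_right h3 (hpow _).le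
      _ = B.d n ^ (T - (Ca + 1) * ε) := by rw [← rpow_add']; congr 1; ring
      _ ≤ _ := rpow_anti B n (by linarith)
  have il := hlo k i l hi hl
  have lm := hlo k l m hl hm
  have im := hlo k i m hi hm
  constructor
  · have a1 := abs_le.1 (hA k i l hi hl il)
    have a2 := abs_le.1 (hA k l m hl hm lm)
    have a3 := abs_le.1 (hA k i m hi hm im)
    refine le_trans ?_ e1
    rw [abs_le]
    constructor <;> linarith [a1.1, a1.2, a2.1, a2.2, a3.1, a3.2]
  · have a1 := hB k i l hi hl il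
    have a2 := hB k l m hl hm lm
    have a3 := hB k i m hi hm im
    simp only [zero_mul, add_zero] at a1 a2 a3
    have a1 := abs_le.1 a1
    have a2 := abs_le.1 a2
    have a3 := abs_le.1 a3
    refine le_trans ?_ e1
    rw [abs_le]
    constructor <;> linarith [a1.1, a1.2, a2.1, a2.2, a3.1, a3.2]

/-- **the block `(X_a, X_b)` is full** -/
theorem block (hKM : ∀ V : ℝ, Crest.Agent.R138.Tub70.KM32 V) {q R0 x : ℝ} (hq : 0 < q)
    (hR0 : 0 < R0) (hx : 0 < x) (hxT : x ≤ T) (hN : NoStr B G (b6 0 0 0 0 0 0) 5 6 ν q R0)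
    (dec : ∀ t : ℝ, 0 ≤ t → t ≤ T → ν (b6 0 0 0 0 0 0) - ν (b6 t t 0 0 0 0) ≤
      ν (b6 0 0 0 x x 0) - ν (b6 t t 0 x x 0)) :
    2 * x ≤ ν (b6 0 0 0 0 0 0) - ν (b6 0 0 0 x x 0) := by
  have hT := M.T0
  have hN' : NoStr B G (b6 0 0 0 0 0 0) 5 6 ν q (min R0 T) := by
    obtain ⟨K, hK, h⟩ := hN
    exact ⟨K, hK, fun t ht htR => h t ht (htR.trans (min_le_left _ _))⟩
  obtain ⟨A, V, Ca, h⟩ := M.ab
  refine block_strip hKM M.H (sA := 8) (sB := 9) (cA := 5) (cB := 6) (t0 := min R0 T)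
    one_pos hx hxT (lt_min hR0 hT) hq ?_ M.zero_leg
    (M.leg 0 0 0 x x 0 le_rfl hT.le le_rfl le_rfl le_rfl hT.le hx.le hxT hx.le le_rfl le_rfl hT.le)
    ?_ ?_ rfl rfl (absC_mono h hxT) hN' ?_ M.coEv ?_
  · intro s; fin_cases s <;> simp [b6]
  · intro s; fin_cases s <;> simp [b6] <;> exact hx.le
  · intro s h8 h9; fin_cases s <;> first | exact absurd rfl h8 | exact absurd rfl h9 | simp [b6]
  · filter_upwards [M.bd] with n hn k hk
    exact (hn k hk).1
  · intro t ht htt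
    have htT : t ≤ T := htt.trans (min_le_right _ _)
    refine ⟨b6 t t 0 0 0 0, M.leg t t 0 0 0 0 ht.le htT ht.le le_rfl le_rfl hT.le le_rfl hT.le
      le_rfl le_rfl le_rfl hT.le, b6 t t 0 x x 0, M.leg t t 0 x x 0 ht.le htT ht.le le_rfl le_rfl
      hT.le hx.le hxT hx.le le_rfl le_rfl hT.le, ?_, ?_, ?_, ?_, M.addT _ htT, dec t ht.le htT⟩
    · intro s; fin_cases s <;> simp [b6] <;> exact ht.le
    · simp [b6]
    · simp [b6]
    · intro s; fin_cases s <;> simp [b6]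

/-- **visible shift of `X_b`**: `fb` has raw twist -/
theorem shift9 (htw : RawTw B G fun n k k' => fb n k' - fb n k) {y : ℝ} (hy : 0 ≤ y) (hyT : y ≤ T) :
    ν (b6 y y y y 0 y) - ν (b6 y y y y y y) ≤ ν (b6 y y y y 0 0) - ν (b6 y y y y 0 y) := by
  have hT := M.T0
  refine shift_R M.H (b6 y y y y 0 y) (b6 y y y y y y) (b6 y y y y 0 0) (b6 y y y y 0 y)
    (M.leg y y y y 0 y hy hyT hy le_rfl hy hyT hy hyT le_rfl hy hy hyT)
    (M.leg y y y y y y hy hyT hy le_rfl hy hyT hy hyT hy le_rfl hy hyT)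
    (M.leg y y y y 0 0 hy hyT hy le_rfl hy hyT hy hyT le_rfl hy le_rfl hT.le)
    (M.leg y y y y 0 y hy hyT hy le_rfl hy hyT hy hyT le_rfl hy hy hyT)
    (by intro s; fin_cases s <;> simp [b6] <;> exact hy) 9 10 (y := y) (by simp [b6])
    (by intro s hs; fin_cases s <;> first | exact absurd rfl hs | simp [b6]) (by simp [b6])
    (fun n k k' => -(fb n k' - fb n k)) (by
      intro ε hε
      filter_upwards [htw ε hε] with n hn i hi S hS hq
      refine hn i hi S hS fun q hq' => ?_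
      have := hq q hq'
      rwa [abs_neg] at this) ?_
  intro C0 hC0
  refine ⟨C0 + 1, by linarith, fun ε hε => ?_⟩
  have hC0ε : 0 < C0 * ε := by positivity
  filter_upwards [M.ev (C0 * ε) hC0ε, M.bd, M.rb, ev_const_le B hε 16] with n hev hbd hrb h16
    k hk k' hk' i i' hi hi' hl hl' hlo
  have hpow : ∀ t : ℝ, 0 < B.d n ^ t := fun t => rpos B n t
  set b := B.d n ^ (y - C0 * ε) with hb
  have hb0 : 0 < b := hpow _
  have hfin : 16 * b ≤ B.d n ^ (y - (C0 + 1) * ε) := by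
    calc 16 * b ≤ B.d n ^ (-ε) * b := mul_le_mul_of_nonneg_right h16 hb0.le
      _ = B.d n ^ (y - (C0 + 1) * ε) := by rw [hb, ← rpow_add']; congr 1; ring
  have E := hev k k' i i' hi hl hi' hl'
  have hη : B.d n ^ (T - C0 * ε) ≤ b := rpow_anti B n (by linarith)
  obtain ⟨z1, a1, b1⟩ := hbd k hk
  obtain ⟨z2, a2, b2⟩ := hbd k' hk'
  have hu : |(G n).z k' - (G n).z k| ≤ 2 := (abs_sub _ _).trans (by linarith)
  have hga : |fa n k' - fa n k| ≤ 2 := (abs_sub _ _).trans (by linarith)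
  have hgb : |fb n k' - fb n k| ≤ 2 := (abs_sub _ _).trans (by linarith)
  have x5 : |(G n).rel k i i' 5| ≤ b := by have := hlo 5; rwa [M.H.base n] at this
  have x6 : |(G n).rel k i i' 6| ≤ b := by have := hlo 6; rwa [M.H.base n] at this
  have x7 : |(G n).rel k i i' 7| ≤ b := by have := hlo 7; rwa [M.H.base n] at this
  have x8 : |(G n).rel k i i' 8| ≤ b := by have := hlo 8; rwa [M.H.base n] at this
  have x10 : |(G n).rel k i i' 10| ≤ b := by have := hlo 10; rwa [M.H.base n] at this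
  have mul2 : ∀ {g x c : ℝ}, |g| ≤ 2 → |x| ≤ c * b → |g * x| ≤ 2 * c * b := by
    intro g x c hg hx
    rw [abs_mul]
    calc |g| * |x| ≤ 2 * (c * b) := mul_le_mul hg hx (abs_nonneg _) (by norm_num)
      _ = 2 * c * b := by ring
  have one : ∀ {x : ℝ}, |x| ≤ b → |x| ≤ 1 * b := fun h => by rwa [one_mul]
  have p5 := abs_le.1 (mul2 hga (one x5))
  have p6 := abs_le.1 (mul2 hgb (one x6))
  have q5 := abs_le.1 (mul2 hu (one x5))
  have q6a := mul2 hu (one x6)
  have q6 := abs_le.1 q6a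
  have q7 := abs_le.1 (mul2 hu (one x7))
  have r8 := abs_le.1 (mul2 hga (one x8))
  have r5 := abs_le.1 (mul2 hga (mul2 hu (one x5)))
  have r6 := abs_le.1 (mul2 hgb (mul2 hu (one x6)))
  have n5 := abs_le.1 (E.e5.trans hη)
  have n6 := abs_le.1 (E.e6.trans hη)
  have n7 := abs_le.1 (E.e7.trans hη)
  have n8 := abs_le.1 (E.e8.trans hη)
  have n10 := abs_le.1 (E.e10.trans hη)
  have w5 := abs_le.1 x5
  have w6 := abs_le.1 x6
  have w7 := abs_le.1 x7
  have w8 := abs_le.1 x8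
  have w10 := abs_le.1 x10
  constructor
  · intro s
    rw [M.H.base n]
    have triv : ∀ s, b6 y y y y 0 0 s = 0 → |(G n).rel k' i i' s| ≤
        B.d n ^ (b6 y y y y 0 0 s - (C0 + 1) * ε) := by
      intro s hs
      rw [hs]
      refine (hrb k' i i' hi' hl' s).trans ?_
      exact Real.one_le_rpow_of_pos_of_le_one_of_nonpos (B.pos n) (B.lt n).le (by
        have : 0 < (C0 + 1) * ε := by positivity
        linarith)
    fin_cases s
    · exact triv 0 rfl
    · exact triv 1 rfl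
    · exact triv 2 rfl
    · exact triv 3 rfl
    · exact triv 4 rfl
    · show |(G n).rel k' i i' 5| ≤ B.d n ^ (y - (C0 + 1) * ε)
      refine le_trans ?_ hfin
      rw [abs_le]; constructor <;> linarith [n5.1, n5.2, w5.1, w5.2]
    · show |(G n).rel k' i i' 6| ≤ B.d n ^ (y - (C0 + 1) * ε)
      refine le_trans ?_ hfin
      rw [abs_le]; constructor <;> linarith [n6.1, n6.2, w6.1, w6.2]
    · show |(G n).rel k' i i' 7| ≤ B.d n ^ (y - (C0 + 1) * ε)
      refine le_trans ?_ hfin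
      rw [abs_le]
      constructor <;> linarith [n7.1, n7.2, w7.1, w7.2, p5.1, p5.2, p6.1, p6.2]
    · show |(G n).rel k' i i' 8| ≤ B.d n ^ (y - (C0 + 1) * ε)
      refine le_trans ?_ hfin
      rw [abs_le]; constructor <;> linarith [n8.1, n8.2, w8.1, w8.2, q5.1, q5.2]
    · exact triv 9 rfl
    · exact triv 10 rfl
  · refine le_trans ?_ hfin
    have e1 : (G n).rel k' i i' 10 - -(fb n k' - fb n k) * (G n).rel k i i' 9 =
        ((G n).rel k' i i' 10 - ((G n).rel k i i' 10 + ((G n).z k' - (G n).z k) *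
          (G n).rel k i i' 7 - (fa n k' - fa n k) * ((G n).rel k i i' 8 +
            ((G n).z k' - (G n).z k) * (G n).rel k i i' 5) - (fb n k' - fb n k) *
            ((G n).rel k i i' 9 + ((G n).z k' - (G n).z k) * (G n).rel k i i' 6))) +
        (G n).rel k i i' 10 + ((G n).z k' - (G n).z k) * (G n).rel k i i' 7 -
        (fa n k' - fa n k) * (G n).rel k i i' 8 -
        (fa n k' - fa n k) * (((G n).z k' - (G n).z k) * (G n).rel k i i' 5) -
        (fb n k' - fb n k) * (((G n).z k' - (G n).z k) * (G n).rel k i i' 6) := by ring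
    rw [e1, abs_le]
    constructor <;> linarith [n10.1, n10.2, w10.1, w10.2, q7.1, q7.2, r8.1, r8.2, r5.1, r5.2,
      r6.1, r6.2]

/-- **visible shift of `X_a`**: `F_b` not level, `fa` has raw twist -/
theorem shift8 (hfb : ∀ n k, fb n k = 0) (htw : RawTw B G fun n k k' => fa n k' - fa n k) {y : ℝ}
    (hy : 0 ≤ y) (hyT : y ≤ T) :
    ν (b6 y 0 y 0 0 y) - ν (b6 y 0 y y 0 y) ≤ ν (b6 y 0 y 0 0 0) - ν (b6 y 0 y 0 0 y) := by
  have hT := M.T0
  refine shift_R M.H (b6 y 0 y 0 0 y) (b6 y 0 y y 0 y) (b6 y 0 y 0 0 0) (b6 y 0 y 0 0 y)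
    (M.leg y 0 y 0 0 y hy hyT le_rfl hy hy hyT le_rfl hT.le le_rfl le_rfl hy hyT)
    (M.leg y 0 y y 0 y hy hyT le_rfl hy hy hyT hy hyT le_rfl hy hy hyT)
    (M.leg y 0 y 0 0 0 hy hyT le_rfl hy hy hyT le_rfl hT.le le_rfl le_rfl le_rfl hT.le)
    (M.leg y 0 y 0 0 y hy hyT le_rfl hy hy hyT le_rfl hT.le le_rfl le_rfl hy hyT)
    (by intro s; fin_cases s <;> simp [b6] <;> exact hy) 8 10 (y := y) (by simp [b6])
    (by intro s hs; fin_cases s <;> first | exact absurd rfl hs | simp [b6]) (by simp [b6])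
    (fun n k k' => -(fa n k' - fa n k)) (by
      intro ε hε
      filter_upwards [htw ε hε] with n hn i hi S hS hq
      refine hn i hi S hS fun q hq' => ?_
      have := hq q hq'
      rwa [abs_neg] at this) ?_
  intro C0 hC0
  refine ⟨C0 + 1, by linarith, fun ε hε => ?_⟩
  have hC0ε : 0 < C0 * ε := by positivity
  filter_upwards [M.ev (C0 * ε) hC0ε, M.bd, M.rb, ev_const_le B hε 16] with n hev hbd hrb h16
    k hk k' hk' i i' hi hi' hl hl' hlo
  have hpow : ∀ t : ℝ, 0 < B.d n ^ t := fun t => rpos B n t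
  set b := B.d n ^ (y - C0 * ε) with hb
  have hb0 : 0 < b := hpow _
  have hfin : 16 * b ≤ B.d n ^ (y - (C0 + 1) * ε) := by
    calc 16 * b ≤ B.d n ^ (-ε) * b := mul_le_mul_of_nonneg_right h16 hb0.le
      _ = B.d n ^ (y - (C0 + 1) * ε) := by rw [hb, ← rpow_add']; congr 1; ring
  have E := hev k k' i i' hi hl hi' hl'
  have hη : B.d n ^ (T - C0 * ε) ≤ b := rpow_anti B n (by linarith)
  obtain ⟨z1, a1, b1⟩ := hbd k hk
  obtain ⟨z2, a2, b2⟩ := hbd k' hk'
  have hu : |(G n).z k' - (G n).z k| ≤ 2 := (abs_sub _ _).trans (by linarith)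
  have hga : |fa n k' - fa n k| ≤ 2 := (abs_sub _ _).trans (by linarith)
  have hgb : fb n k' - fb n k = 0 := by rw [hfb, hfb, sub_zero]
  have x5 : |(G n).rel k i i' 5| ≤ b := by have := hlo 5; rwa [M.H.base n] at this
  have x7 : |(G n).rel k i i' 7| ≤ b := by have := hlo 7; rwa [M.H.base n] at this
  have x10 : |(G n).rel k i i' 10| ≤ b := by have := hlo 10; rwa [M.H.base n] at this
  have mul2 : ∀ {g x c : ℝ}, |g| ≤ 2 → |x| ≤ c * b → |g * x| ≤ 2 * c * b := by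
    intro g x c hg hx
    rw [abs_mul]
    calc |g| * |x| ≤ 2 * (c * b) := mul_le_mul hg hx (abs_nonneg _) (by norm_num)
      _ = 2 * c * b := by ring
  have one : ∀ {x : ℝ}, |x| ≤ b → |x| ≤ 1 * b := fun h => by rwa [one_mul]
  have p5 := abs_le.1 (mul2 hga (one x5))
  have q7 := abs_le.1 (mul2 hu (one x7))
  have r5 := abs_le.1 (mul2 hga (mul2 hu (one x5)))
  have E7 := E.e7
  have E10 := E.e10
  rw [hgb] at E7 E10
  have n5 := abs_le.1 (E.e5.trans hη)
  have n7 := abs_le.1 (E7.trans hη)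
  have n10 := abs_le.1 (E10.trans hη)
  have w5 := abs_le.1 x5
  have w7 := abs_le.1 x7
  have w10 := abs_le.1 x10
  constructor
  · intro s
    rw [M.H.base n]
    have triv : ∀ s, b6 y 0 y 0 0 0 s = 0 → |(G n).rel k' i i' s| ≤
        B.d n ^ (b6 y 0 y 0 0 0 s - (C0 + 1) * ε) := by
      intro s hs
      rw [hs]
      refine (hrb k' i i' hi' hl' s).trans ?_
      exact Real.one_le_rpow_of_pos_of_le_one_of_nonpos (B.pos n) (B.lt n).le (by
        have : 0 < (C0 + 1) * ε := by positivity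
        linarith)
    fin_cases s
    · exact triv 0 rfl
    · exact triv 1 rfl
    · exact triv 2 rfl
    · exact triv 3 rfl
    · exact triv 4 rfl
    · show |(G n).rel k' i i' 5| ≤ B.d n ^ (y - (C0 + 1) * ε)
      refine le_trans ?_ hfin
      rw [abs_le]; constructor <;> linarith [n5.1, n5.2, w5.1, w5.2]
    · exact triv 6 rfl
    · show |(G n).rel k' i i' 7| ≤ B.d n ^ (y - (C0 + 1) * ε)
      refine le_trans ?_ hfin
      rw [abs_le]
      constructor <;> linarith [n7.1, n7.2, w7.1, w7.2, p5.1, p5.2]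
    · exact triv 8 rfl
    · exact triv 9 rfl
    · exact triv 10 rfl
  · refine le_trans ?_ hfin
    have e1 : (G n).rel k' i i' 10 - -(fa n k' - fa n k) * (G n).rel k i i' 8 =
        ((G n).rel k' i i' 10 - ((G n).rel k i i' 10 + ((G n).z k' - (G n).z k) *
          (G n).rel k i i' 7 - (fa n k' - fa n k) * ((G n).rel k i i' 8 +
            ((G n).z k' - (G n).z k) * (G n).rel k i i' 5) - 0 *
            ((G n).rel k i i' 9 + ((G n).z k' - (G n).z k) * (G n).rel k i i' 6))) +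
        (G n).rel k i i' 10 + ((G n).z k' - (G n).z k) * (G n).rel k i i' 7 -
        (fa n k' - fa n k) * (((G n).z k' - (G n).z k) * (G n).rel k i i' 5) := by ring
    rw [e1, abs_le]
    constructor <;> linarith [n10.1, n10.2, w10.1, w10.2, q7.1, q7.2, r5.1, r5.2]

omit M in
theorem bx_b6 (y n p x c : ℝ) : bx ∅ 10 7 8 5 y n p x c = b6 c 0 p x 0 n := by
  funext s
  fin_cases s <;> simp [bx, b6]

/-- **`κ3 = 1`, only `F_a` tied** : `N` is full -/
theorem kappa_one (hfb : ∀ n k, fb n k = 0) (htw : RawTw B G fun n k k' => fa n k' - fa n k)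
    {a m : ℝ} (hm : 0 < m) (β : ℝ → ℝ → ℝ) (γ : ℝ → ℝ)
    (hν : ∀ c p x n : ℝ, 0 ≤ c → c ≤ T → 0 ≤ p → p ≤ T → 0 ≤ x → x ≤ T → 0 ≤ n → n ≤ T →
      ν (b6 c 0 p x 0 n) = ν (b6 0 0 0 0 0 0) - a * n - β p x - γ c)
    (hX : ∀ t : ℝ, 0 ≤ t → t ≤ T → t ≤ β 0 t) (hC : ∀ t : ℝ, 0 ≤ t → t ≤ T → m * t ≤ γ t) :
    1 ≤ a := by
  have hT := M.T0
  have K : K1 B G Leg ν ∅ 10 7 8 5 fa T 1 a m (fun _ p x => β p x) (fun _ c => γ c) := by
    refine ⟨hT, le_rfl, hm, by decide, by decide, by decide, by decide, by decide, by decide,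
      ?_, ?_, ?_, ?_, ?_, ?_⟩
    · intro y n p x c' hy0 hy hn0 hn hp0 hp hx0 hx hc0 hc
      rw [bx_b6]
      exact M.leg c' 0 p x 0 n hc0 (hc.trans hy) le_rfl hc0 hp0 (hp.trans hy) hx0 (hx.trans hy)
        le_rfl hx0 hn0 (hn.trans hy)
    · filter_upwards [M.bd] with n hn k hk
      exact ⟨(hn k hk).1, (hn k hk).2.1⟩
    · intro y hy0 hy ε hε
      filter_upwards [M.ev ε hε, M.loose0 hε] with n hev hlo k₀ k i i' h1 h2 h3 h4 _
      rw [one_mul, bx_b6]
      refine ⟨hlo k i i' h3 h4, ?_⟩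
      have E := (hev k₀ k i i' h1 h2 h3 h4).e10
      rw [hfb, hfb, sub_zero, zero_mul, sub_zero] at E
      exact E.trans (rpow_anti B n (by linarith))
    · intro y n p x c' hy0 hy hn0 hn hp0 hp hx0 hx hc0 hc
      rw [bx_b6, bx_b6]
      exact hν c' p x n hc0 (hc.trans hy) hp0 (hp.trans hy) hx0 (hx.trans hy) hn0 (hn.trans hy)
    · intro y t ht hty hy
      exact hX t ht (hty.trans hy)
    · intro y t ht hty hy
      exact hC t ht (hty.trans hy)
  exact kappa_one_R M.H K htw le_rfl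

end M3

end Crest.Agent.R136.C3c795
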