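import Crest.Agent.R136.C3c_795
import Crest.Agent.R136.C2w_400
import Crest.Agent.R136.Ev8_356

/-!
# R136: the model of case C3 in the windows (helper795)

* `WC` : window with level slots `z, F_a` (and `F_b` on the natural plane), constant top `T`.
* `crd_eight`, `crd_nine`, `lineC` : absolute coordinates; `ev_of`, `ab_of`.
* `m3_of_win` : `M3` for the sheared configuration; `rawTw_gen` : raw twist.
-/

set_option autoImplicit false
set_option linter.unusedVariables false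
set_option linter.unusedSectionVars false

open Filter Topology Finset

namespace Crest.Agent.R136.C3d795

open Crest.Agent.R136.NetQ186 Crest.Agent.R136.Net191 Crest.Agent.R136.Qg926
open Crest.Agent.R136.Gf356 Crest.Agent.R136.Ev356 Crest.Agent.R136.Aw413
open Crest.Agent.R138.Ex926 (Base U)
open Crest.Agent.R136.C3a795 Crest.Agent.R136.C3b795 Crest.Agent.R136.C3c795
open Crest.Agent.R136.Fe1355 (RawTw)
open Crest.Agent.R136.Ab356

variable {ι : ℕ → Type*} [∀ n, DecidableEq (ι n)] {W : Wnd 11 ι} {f : ∀ n, ι n → Fq4}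
  {Ma : Mons 11} {E : ∀ n, Finset (ι n)} {T : ℝ}

/-! ### exact laws -/

section exact

variable (h : QWnd W f)

include h

theorem crd_eight {n : ℕ} (g : W.Good n) {x y z : ι n} (hx : x ∈ W.Cl n) (hy : y ∈ W.Cl n)
    (hz : z ∈ W.Cl n) :
    W.crd n x z 8 = W.crd n x y 8 + W.crd n y z 8 -
      cf W n 0 5 8 * (W.crd n x y 0 * W.crd n y z 5) := by
  obtain ⟨p0, p1, p2, p3, p4, p5, p6, p7, p8, -⟩ := coQ_add (f n x) (f n y) (f n z)
  have hu := (h.un_pos n 8).ne'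
  rw [h.crd_eq g hx hz, h.crd_eq g hx hy, h.crd_eq g hy hz, h.crd_eq g hx hy,
    h.crd_eq g hy hz] at p8
  have : un W n 8 * (W.crd n x y 8 + W.crd n y z 8 -
      cf W n 0 5 8 * (W.crd n x y 0 * W.crd n y z 5)) = un W n 8 * W.crd n x z 8 := by
    rw [p8]
    unfold cf
    field_simp
  exact (mul_left_cancel₀ hu this).symm

theorem crd_nine {n : ℕ} (g : W.Good n) {x y z : ι n} (hx : x ∈ W.Cl n) (hy : y ∈ W.Cl n)
    (hz : z ∈ W.Cl n) :
    W.crd n x z 9 = W.crd n x y 9 + (W.crd n y z 9 -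
      cf W n 0 6 9 * (W.crd n x y 0 * W.crd n y z 6)) +
      cf W n 2 8 9 * (W.crd n x y 2 * (W.crd n y z 8 -
        cf W n 0 5 8 * (W.crd n x y 0 * W.crd n y z 5))) := by
  obtain ⟨p0, p1, p2, p3, p4, p5, p6, p7, p8, p9, -⟩ := coQ_add (f n x) (f n y) (f n z)
  have hu := (h.un_pos n 9).ne'
  have hu8 := (h.un_pos n 8).ne'
  rw [h.crd_eq g hx hz, h.crd_eq g hx hy, h.crd_eq g hy hz, h.crd_eq g hx hy,
    h.crd_eq g hy hz, h.crd_eq g hx hy, h.crd_eq g hy hz, h.crd_eq g hy hz] at p9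
  have : un W n 9 * (W.crd n x y 9 + (W.crd n y z 9 -
      cf W n 0 6 9 * (W.crd n x y 0 * W.crd n y z 6)) +
      cf W n 2 8 9 * (W.crd n x y 2 * (W.crd n y z 8 -
        cf W n 0 5 8 * (W.crd n x y 0 * W.crd n y z 5)))) = un W n 9 * W.crd n x z 9 := by
    rw [p9]
    unfold cf
    field_simp
  exact (mul_left_cancel₀ hu this).symm

end exact

/-- **window of case C3** : natural plane (`3 ∈ S`) or slack `F_b` (`3 ∉ S`) -/
structure WC (W : Wnd 11 ι) (f : ∀ n, ι n → Fq4) (Ma : Mons 11) (T : ℝ) : Prop where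
  qa : QAt W f Ma
  kz : W.kz = 0
  top : W.top = fun _ => T
  T0 : 0 < T
  R' : W.R' = T
  Mw : W.Mw = Ma
  leg : ∀ c5 c6 c7 c8 c9 c10 : ℝ, 0 ≤ c5 → c5 ≤ T → 0 ≤ c6 → c6 ≤ c5 → 0 ≤ c7 → c7 ≤ T →
    0 ≤ c8 → c8 ≤ T → 0 ≤ c9 → c9 ≤ c8 → 0 ≤ c10 → c10 ≤ T →
    cut W.S (b6 c5 c6 c7 c8 c9 c10) (fun _ => T) ∈ coneM Ma
  S4 : (4 : Fin 11) ∈ W.S
  S2 : (2 : Fin 11) ∉ W.S
  m256 : mv 2 5 ∈ Ma.mon 6
  m457 : mv 4 5 ∈ Ma.mon 7
  m058 : mv 0 5 ∈ Ma.mon 8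
  m069 : mv 0 6 ∈ Ma.mon 9
  m289 : mv 2 8 ∈ Ma.mon 9
  m0710 : mv 0 7 ∈ Ma.mon 10
  m4810 : mv 4 8 ∈ Ma.mon 10
  h3 : ((3 : Fin 11) ∈ W.S ∧ mv 2 3 ∈ Ma.mon 4 ∧ mv 3 6 ∈ Ma.mon 7 ∧ mv 3 9 ∈ Ma.mon 10) ∨
    ((3 : Fin 11) ∉ W.S ∧ mv 2 3 ∉ Ma.mon 4 ∧ mv 3 6 ∉ Ma.mon 7 ∧ mv 3 9 ∉ Ma.mon 10)

/-- absolute `E`-coordinate of the line -/
noncomputable def eW (W : Wnd 11 ι) (n k i : ℕ) : ℝ := W.crd n (W.s₀ n) (W.rep n i k) 2

/-- multiplier of `X_b` -/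
noncomputable def fbW (W : Wnd 11 ι) (n k : ℕ) : ℝ := if (3 : Fin 11) ∈ W.S then flg W n k 3 else 0

/-- multiplier of `X_a` -/
noncomputable def faW (W : Wnd 11 ι) (n k : ℕ) : ℝ := flg W n k 4

/-- the hypothesis on the pruned set -/
def HC (W : Wnd 11 ι) (E : ∀ n, Finset (ι n)) : Prop :=
  ∀ᶠ n in (U : Filter ℕ), W.Good n ∧ E n ⊆ W.Cl n ∧ W.cfg E n = W.cfg0 n (E n)

namespace WC

variable (w : WC W f Ma T)

include w

theorem cf1 {i j s : Fin 11} (hm : mv i j ∈ Ma.mon s) (hw : wtQ s = wtQ i + wtQ j) (n : ℕ) :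
    cf W n i j s = 1 := by
  have hX : W.X n s = W.X n i + W.X n j := by
    have := w.qa.act s _ hm n
    rwa [sum_mv] at this
  rw [w.qa.q.cf_eq hX, w.qa.kap_mul hw]

theorem K14 (s : Fin 11) : W.K0 / W.kap s ≤ 1 / 4 := by
  have h1 := w.qa.q.ok.kap s
  rw [div_le_div_iff₀ h1 (by norm_num)]
  linarith [w.qa.kap4 s]

theorem own1 {n : ℕ} (g : W.Good n) {x y : ι n} (hx : x ∈ W.Cl n) (hy : y ∈ W.Cl n)
    (hl : W.lc n x = W.lc n y) {s : Fin 11} (hs : s ∉ W.S) :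
    |W.crd n x y s| ≤ W.B'.d n ^ T := by
  have h1 := w.qa.q.crd_own g hx hy hl hs (t := T) (by rw [w.top])
  have h2 := w.K14 s
  have h3 := Real.rpow_nonneg (W.B'.pos n).le T
  nlinarith

theorem lev1 {n : ℕ} (g : W.Good n) {x y : ι n} (hx : x ∈ W.Cl n) (hy : y ∈ W.Cl n)
    (hl : W.zc n x = W.zc n y) {s : Fin 11} (hs : s ∈ W.S) :
    |W.crd n x y s| ≤ W.B'.d n ^ T := by
  have h1 := w.qa.q.crd_lev g hx hy hl hs (t := T) (by rw [w.top])
  have h2 := w.K14 s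
  have h3 := Real.rpow_nonneg (W.B'.pos n).le T
  nlinarith

/-- `E` of a line -/
theorem eW_own {n : ℕ} (g : W.Good n) (hE : E n ⊆ W.Cl n) {k k' i : ℕ}
    (h1 : (i, k) ∈ (W.cfg0 n (E n)).I) (h2 : (i, k') ∈ (W.cfg0 n (E n)).I) :
    |eW W n k' i - eW W n k i| ≤ W.B'.d n ^ T := by
  obtain ⟨a1, a2, a3⟩ := rep_of_mem hE h1
  obtain ⟨b1, b2, b3⟩ := rep_of_mem hE h2
  have e1 := w.qa.q.crd_add g g.s0 a1 b1 (s := 2) (by simp)
  unfold eW
  rw [e1]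
  have e2 := w.own1 g a1 b1 (a2.trans b2.symm) w.S2
  rwa [add_sub_cancel_left]

theorem eW_le {n : ℕ} (g : W.Good n) (hE : E n ⊆ W.Cl n) {k i : ℕ}
    (h1 : (i, k) ∈ (W.cfg0 n (E n)).I) : |eW W n k i| ≤ 1 / 4 :=
  w.qa.crd4 g g.s0 (rep_of_mem hE h1).1 2

theorem eb (hc : HC W E) : EB (W.cfg E) (fun n k i => eW W n k i) := by
  filter_upwards [hc] with n hn k i hik
  obtain ⟨g, hE, hcfg⟩ := hn
  rw [hcfg] at hik
  exact (w.eW_le g hE hik).trans (by norm_num)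

/-- **own motions** -/
theorem own_eqs (hc : HC W E) : ∀ᶠ n in (U : Filter ℕ), ∀ k₀ k i,
    (i, k₀) ∈ (W.cfg E n).I → (i, k) ∈ (W.cfg E n).I →
    ownC (chi Ma) W n k₀ k (fsl W n i k₀ 2) (fsl W n i k₀ 3) 0 =
      (W.cfg E n).z k - (W.cfg E n).z k₀ ∧
    ownC (chi Ma) W n k₀ k (fsl W n i k₀ 2) (fsl W n i k₀ 3) 2 = 0 ∧
    ownC (chi Ma) W n k₀ k (fsl W n i k₀ 2) (fsl W n i k₀ 3) 3 = fbW W n k - fbW W n k₀ ∧
    |ownC (chi Ma) W n k₀ k (fsl W n i k₀ 2) (fsl W n i k₀ 3) 4 -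
      (faW W n k - faW W n k₀ + eW W n k₀ i * (fbW W n k - fbW W n k₀))| ≤ W.B'.d n ^ T := by
  filter_upwards [hc, w.qa.q.mot_eq hc, w.qa.q.z_eq w.kz hc, w.qa.capp T w.T0.le] with
    n hn hmot hz hca k₀ k i h1 h2
  obtain ⟨g, hE, hcfg⟩ := hn
  have hk0Z : k₀ ∈ (W.cfg E n).Z := by
    rw [hcfg] at h1 ⊢
    exact mem_image.2 (by obtain ⟨u, hu, -, h6⟩ := mem_cfg0 h1; exact ⟨u, hu, h6⟩)
  have hkZ : k ∈ (W.cfg E n).Z := by
    rw [hcfg] at h2 ⊢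
    exact mem_image.2 (by obtain ⟨u, hu, -, h6⟩ := mem_cfg0 h2; exact ⟨u, hu, h6⟩)
  obtain ⟨m1, m4⟩ := hmot k₀ hk0Z k hkZ
  rw [hcfg] at h1 h2
  have hη0 : 0 ≤ W.B'.d n ^ T := Real.rpow_nonneg (W.B'.pos n).le T
  have z1 := (zrep_of_mem hE (show k₀ ∈ (W.cfg0 n (E n)).Z by rwa [hcfg] at hk0Z)).1
  have z2 := (zrep_of_mem hE (show k ∈ (W.cfg0 n (E n)).Z by rwa [hcfg] at hkZ)).1
  obtain ⟨a1, a2, a3⟩ := rep_of_mem hE h1
  have f2 : fsl W n i k₀ 2 = W.crd n (W.zrep n k₀) (W.rep n i k₀) 2 := by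
    unfold fsl; rw [if_neg w.S2]
  have e2 : eW W n k₀ i = flg W n k₀ 2 + fsl W n i k₀ 2 := by
    rw [f2]; exact w.qa.q.crd_add g g.s0 z1 a1 (s := 2) (by simp)
  refine ⟨?_, ?_, ?_, ?_⟩
  · unfold ownC mot
    rw [if_neg (by decide), if_pos w.qa.S0, hz k, hz k₀]
    exact m1 0 (by simp)
  · unfold ownC mot
    rw [if_neg (by decide), if_neg w.S2]
  · unfold ownC mot fbW
    rw [if_neg (by decide)]
    split_ifs
    · exact m1 3 (by simp)
    · ring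
  · have e4 : ownC (chi Ma) W n k₀ k (fsl W n i k₀ 2) (fsl W n i k₀ 3) 4 =
        W.crd n (W.zrep n k₀) (W.zrep n k) 4 + chi Ma 2 3 4 *
        (fsl W n i k₀ 2 * mot W n k₀ k 3 + (fsl W n i k₀ 2 + mot W n k₀ k 2) *
          (W.crd n (W.zrep n k₀) (W.zrep n k) 3 - fsl W n i k₀ 3 - mot W n k₀ k 3)) := by
      unfold ownC
      rw [if_pos rfl, if_pos w.S4]
    rw [e4, m4, e2]
    rcases w.h3 with ⟨h3S, h34, -, -⟩ | ⟨h3S, h34, -, -⟩
    · have c1 : cf W n 2 3 4 = 1 := w.cf1 h34 (by decide) n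
      have c2 : chi Ma 2 3 4 = 1 := if_pos h34
      have m3 : mot W n k₀ k 3 = flg W n k 3 - flg W n k₀ 3 := by
        unfold mot; rw [if_pos h3S]; exact m1 3 (by simp)
      have f3 : fsl W n i k₀ 3 = 0 := by unfold fsl; rw [if_pos h3S]
      rw [c1, c2, m3, f3, m1 3 (by simp)]
      unfold faW fbW
      rw [if_pos h3S, if_pos h3S]
      have : flg W n k 4 - flg W n k₀ 4 + 1 * (flg W n k₀ 2 * (flg W n k 3 - flg W n k₀ 3)) +
        1 * (fsl W n i k₀ 2 * (flg W n k 3 - flg W n k₀ 3) + (fsl W n i k₀ 2 + mot W n k₀ k 2) *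
          (flg W n k 3 - flg W n k₀ 3 - 0 - (flg W n k 3 - flg W n k₀ 3))) -
        (flg W n k 4 - flg W n k₀ 4 + (flg W n k₀ 2 + fsl W n i k₀ 2) *
          (flg W n k 3 - flg W n k₀ 3)) = 0 := by ring
      rw [this, abs_zero]
      exact hη0
    · have c2 : chi Ma 2 3 4 = 0 := if_neg h34
      have c1 := hca.2.2.2.2.2.2.2.2.2.2.d
      rw [c2, sub_zero, one_mul] at c1
      have b2 : |flg W n k₀ 2| ≤ 1 / 4 := w.qa.crd4 g g.s0 z1 2
      have b3 : |flg W n k 3 - flg W n k₀ 3| ≤ 1 / 2 := by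
        have x1 : |flg W n k 3| ≤ 1 / 4 := w.qa.crd4 g g.s0 z2 3
        have x2 : |flg W n k₀ 3| ≤ 1 / 4 := w.qa.crd4 g g.s0 z1 3
        exact (abs_sub _ _).trans (by linarith)
      rw [c2]
      unfold faW fbW
      rw [if_neg h3S, if_neg h3S]
      have e5 : flg W n k 4 - flg W n k₀ 4 +
          cf W n 2 3 4 * (flg W n k₀ 2 * (flg W n k 3 - flg W n k₀ 3)) + 0 *
          (fsl W n i k₀ 2 * mot W n k₀ k 3 + (fsl W n i k₀ 2 + mot W n k₀ k 2) *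
          (W.crd n (W.zrep n k₀) (W.zrep n k) 3 - fsl W n i k₀ 3 - mot W n k₀ k 3)) -
          (flg W n k 4 - flg W n k₀ 4 + (flg W n k₀ 2 + fsl W n i k₀ 2) * (0 - 0)) =
          cf W n 2 3 4 * (flg W n k₀ 2 * (flg W n k 3 - flg W n k₀ 3)) := by ring
      rw [e5, abs_mul, abs_mul]
      have h5 : |flg W n k₀ 2| * |flg W n k 3 - flg W n k₀ 3| ≤ 1 / 4 * (1 / 2) :=
        mul_le_mul b2 b3 (abs_nonneg _) (by norm_num)
      calc |cf W n 2 3 4| * (|flg W n k₀ 2| * |flg W n k 3 - flg W n k₀ 3|)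
          ≤ W.B'.d n ^ T * (1 / 4 * (1 / 2)) :=
            mul_le_mul c1 h5 (by positivity) hη0
        _ ≤ W.B'.d n ^ T := by linarith

/-- **evolution of the sheared slots** -/
theorem ev_of (hc : HC W E) {ε : ℝ} (hε : 0 < ε) : ∀ᶠ n in (U : Filter ℕ), ∀ k k' i l,
    (i, k) ∈ (W.cfg E n).I → (l, k) ∈ (W.cfg E n).I → (i, k') ∈ (W.cfg E n).I →
    (l, k') ∈ (W.cfg E n).I →
    Ev3 (W.B'.d n ^ (T - ε)) ((W.cfg E n).z k' - (W.cfg E n).z k)
      (faW W n k' - faW W n k) (fbW W n k' - fbW W n k)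
      ((shr (W.cfg E) (eW W) n).rel k i l) ((shr (W.cfg E) (eW W) n).rel k' i l) := by
  have hε2 : 0 < ε / 2 := by positivity
  filter_upwards [hc, w.own_eqs hc, w.qa.evoX hc w.T0.le (fun s => by rw [w.top]) hε2,
    ev_const_le W.B' hε2 4] with n hn hown hevo h4 k k' i l h1 h2 h3 h5
  obtain ⟨o0, o2, o3, o4⟩ := hown k k' i h1 h3
  have hev := hevo k k' i l h1 h3 h2 h5
  obtain ⟨g, hE, hcfg⟩ := hn
  have hd0 : 0 < W.B'.d n := W.B'.pos n
  have hpow : ∀ t : ℝ, 0 < W.B'.d n ^ t := fun t => Real.rpow_pos_of_pos hd0 t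
  set o := ownC (chi Ma) W n k k' (fsl W n i k 2) (fsl W n i k 3) with ho
  set x := (W.cfg E n).rel k i l with hx
  set y := (W.cfg E n).rel k' i l with hy
  set u := (W.cfg E n).z k' - (W.cfg E n).z k with hu
  set ga := faW W n k' - faW W n k with hga
  set gb := fbW W n k' - fbW W n k with hgb
  -- bounds
  have rb : ∀ k i l, (i, k) ∈ (W.cfg E n).I → (l, k) ∈ (W.cfg E n).I → ∀ s,
      |(W.cfg E n).rel k i l s| ≤ 1 / 4 := by
    intro k i l a1 a2 s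
    rw [hcfg] at a1 a2 ⊢
    exact w.qa.rel_le g hE a1 a2 s
  have bx := rb k i l h1 h2
  have by' := rb k' i l h3 h5
  rw [← hx] at bx
  rw [← hy] at by'
  have he : |eW W n k' i - eW W n k i| ≤ W.B'.d n ^ T := by
    rw [hcfg] at h1 h3; exact w.eW_own g hE h1 h3
  have he1 : |eW W n k' i| ≤ 1 / 4 := by rw [hcfg] at h3; exact w.eW_le g hE h3
  have hu1 : |u| ≤ 1 / 2 := by
    rw [← o0, ho]
    unfold ownC
    rw [if_neg (by decide)]
    have a1 := h1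
    have a3 := h3
    rw [hcfg] at a1 a3
    exact ((w.qa.bds g hE a1 a3).1 0).trans (by norm_num)
  set η := W.B'.d n ^ (T - ε / 2) with hη
  have hη0 : 0 < η := hpow _
  have hTη : W.B'.d n ^ T ≤ η :=
    Real.rpow_le_rpow_of_exponent_ge hd0 (W.B'.lt n).le (by linarith)
  have hfin : ∀ {v : ℝ}, |v| ≤ 4 * η → |v| ≤ W.B'.d n ^ (T - ε) := by
    intro v hv
    refine hv.trans ?_
    have e1 : W.B'.d n ^ (T - ε) = W.B'.d n ^ (-(ε / 2)) * η := by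
      rw [hη, ← Real.rpow_add hd0]; congr 1; ring
    rw [e1]
    exact mul_le_mul_of_nonneg_right h4 hη0.le
  have hc0 : ∀ s, (s = 5 ∨ s = 6 ∨ s = 7 ∨ s = 8 ∨ s = 9 ∨ s = 10) → s ∉ W.S := by
    intro s hs
    exact w.qa.q.notMem (by tauto)
  have E5 := hev 5 (hc0 5 (by simp))
  have E6 := hev 6 (hc0 6 (by simp))
  have E7 := hev 7 (hc0 7 (by simp))
  have E8 := hev 8 (hc0 8 (by simp))
  have E9 := hev 9 (hc0 9 (by simp))
  have E10 := hev 10 (hc0 10 (by simp))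
  have k256 : chi Ma 2 5 6 = 1 := if_pos w.m256
  have k457 : chi Ma 4 5 7 = 1 := if_pos w.m457
  have k058 : chi Ma 0 5 8 = 1 := if_pos w.m058
  have k069 : chi Ma 0 6 9 = 1 := if_pos w.m069
  have k289 : chi Ma 2 8 9 = 1 := if_pos w.m289
  have k0710 : chi Ma 0 7 10 = 1 := if_pos w.m0710
  have k4810 : chi Ma 4 8 10 = 1 := if_pos w.m4810
  have k017 : chi Ma 0 1 7 = 0 := if_neg w.qa.r
  have k3 : chi Ma 3 6 7 * o 3 = gb ∧ chi Ma 3 9 10 * o 3 = gb := by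
    rw [o3]
    rcases w.h3 with ⟨h3S, -, h37, h310⟩ | ⟨h3S, -, h37, h310⟩
    · have c1 : chi Ma 3 6 7 = 1 := if_pos h37
      have c2 : chi Ma 3 9 10 = 1 := if_pos h310
      rw [c1, c2, one_mul]; exact ⟨rfl, rfl⟩
    · have c1 : chi Ma 3 6 7 = 0 := if_neg h37
      have c2 : chi Ma 3 9 10 = 0 := if_neg h310
      have : gb = 0 := by rw [hgb]; unfold fbW; rw [if_neg h3S, if_neg h3S, sub_zero]
      rw [c1, c2, this]; simp
  obtain ⟨k37, k310⟩ := k3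
  simp only [evoC, Matrix.cons_val] at E5 E6 E7 E8 E9 E10
  rw [k256, o2] at E6
  rw [k017, k457] at E7
  rw [k058, o0] at E8
  rw [k069, k289, k058, o0, o2] at E9
  rw [k0710, k017, k4810, k058, k069, o0] at E10
  have F6 : |y 6 - x 6| ≤ η := by
    have e : y 6 - (x 6 - 1 * (0 * x 5)) = y 6 - x 6 := by ring
    rwa [e] at E6
  have F7 : |y 7 - (x 7 - o 4 * x 5 - gb * x 6)| ≤ η := by
    have e : y 7 - (x 7 + 2 * (0 * (o 0 * x 1)) - 1 * (o 4 * x 5) - chi Ma 3 6 7 * (o 3 * x 6)) =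
        y 7 - (x 7 - o 4 * x 5 - gb * x 6) := by rw [← k37]; ring
    rwa [e] at E7
  have F8 : |y 8 - (x 8 + u * x 5)| ≤ η := by
    have e : y 8 - (x 8 + 1 * (u * x 5)) = y 8 - (x 8 + u * x 5) := by ring
    rwa [e] at E8
  have F9 : |y 9 - (x 9 + u * x 6)| ≤ η := by
    have e : y 9 - (x 9 + 1 * (u * x 6) - 1 * (0 * (x 8 + 1 * (u * x 5)))) =
        y 9 - (x 9 + u * x 6) := by ring
    rwa [e] at E9
  have F10 : |y 10 - (x 10 + u * x 7 - o 4 * (x 8 + u * x 5) - gb * (x 9 + u * x 6))| ≤ η := by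
    have e : y 10 - (x 10 + 1 * (u * x 7) + 1 * (u * (0 * (u * x 1))) -
        1 * (o 4 * (x 8 + 1 * (u * x 5))) - chi Ma 3 9 10 * (o 3 * (x 9 + 1 * (u * x 6)))) =
        y 10 - (x 10 + u * x 7 - o 4 * (x 8 + u * x 5) - gb * (x 9 + u * x 6)) := by
      rw [← k310]; ring
    rwa [e] at E10
  clear E6 E7 E8 E9 E10
  have o4' : |o 4 - (ga + eW W n k i * gb)| ≤ η := o4.trans hTη
  have he' := he.trans hTη
  have mulb : ∀ {p v c : ℝ}, |p| ≤ η → |v| ≤ c → |p * v| ≤ c * η := by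
    intro p v c hp hv
    rw [abs_mul, mul_comm c]
    exact mul_le_mul hp hv (abs_nonneg _) hη0.le
  have ux5 : |u * x 5| ≤ 1 / 4 := by
    rw [abs_mul]
    calc |u| * |x 5| ≤ 1 / 2 * (1 / 4) := mul_le_mul hu1 (bx 5) (abs_nonneg _) (by norm_num)
      _ ≤ 1 / 4 := by norm_num
  have x85 : |x 8 + u * x 5| ≤ 1 / 2 := (abs_add_le _ _).trans (by linarith [bx 8])
  have s5 : ∀ k i l, (shr (W.cfg E) (eW W) n).rel k i l 5 = (W.cfg E n).rel k i l 5 :=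
    fun k i l => shr_of_ne (by decide) (by decide) n k i l
  have s7 : ∀ k i l, (shr (W.cfg E) (eW W) n).rel k i l 7 = (W.cfg E n).rel k i l 7 :=
    fun k i l => shr_of_ne (by decide) (by decide) n k i l
  have s8 : ∀ k i l, (shr (W.cfg E) (eW W) n).rel k i l 8 = (W.cfg E n).rel k i l 8 :=
    fun k i l => shr_of_ne (by decide) (by decide) n k i l
  have s10 : ∀ k i l, (shr (W.cfg E) (eW W) n).rel k i l 10 = (W.cfg E n).rel k i l 10 :=
    fun k i l => shr_of_ne (by decide) (by decide) n k i l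
  refine ⟨?_, ?_, ?_, ?_, ?_, ?_⟩
  · rw [s5, s5]
    exact hfin (E5.trans (by linarith))
  · rw [shr_six, shr_six]
    apply hfin
    have e : y 6 + eW W n k' i * y 5 - (x 6 + eW W n k i * x 5) =
        (y 6 - x 6) + (y 5 - x 5) * eW W n k' i + (eW W n k' i - eW W n k i) * x 5 := by ring
    show |y 6 + eW W n k' i * y 5 - (x 6 + eW W n k i * x 5)| ≤ 4 * η
    rw [e]
    have a1 := mulb E5 he1
    have a2 := mulb he' (bx 5)
    have a3 := abs_add_le ((y 6 - x 6) + (y 5 - x 5) * eW W n k' i)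
      ((eW W n k' i - eW W n k i) * x 5)
    have a4 := abs_add_le (y 6 - x 6) ((y 5 - x 5) * eW W n k' i)
    linarith
  · rw [s7, s7, s5, shr_six]
    apply hfin
    have e : y 7 - (x 7 - ga * x 5 - gb * (x 6 + eW W n k i * x 5)) =
        (y 7 - (x 7 - o 4 * x 5 - gb * x 6)) - (o 4 - (ga + eW W n k i * gb)) * x 5 := by ring
    show |y 7 - (x 7 - ga * x 5 - gb * (x 6 + eW W n k i * x 5))| ≤ 4 * η
    rw [e]
    have a1 := mulb o4' (bx 5)
    have a2 := abs_sub (y 7 - (x 7 - o 4 * x 5 - gb * x 6)) ((o 4 - (ga + eW W n k i * gb)) * x 5)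
    linarith
  · rw [s8, s8, s5]
    exact hfin (F8.trans (by linarith))
  · rw [shr_nine, shr_nine, shr_six]
    apply hfin
    have e : y 9 + eW W n k' i * y 8 - (x 9 + eW W n k i * x 8 + u * (x 6 + eW W n k i * x 5)) =
        (y 9 - (x 9 + u * x 6)) + (y 8 - (x 8 + u * x 5)) * eW W n k' i +
          (eW W n k' i - eW W n k i) * (x 8 + u * x 5) := by ring
    show |y 9 + eW W n k' i * y 8 - (x 9 + eW W n k i * x 8 + u * (x 6 + eW W n k i * x 5))| ≤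
      4 * η
    rw [e]
    have a1 := mulb F8 he1
    have a2 := mulb he' x85
    have a3 := abs_add_le ((y 9 - (x 9 + u * x 6)) + (y 8 - (x 8 + u * x 5)) * eW W n k' i)
      ((eW W n k' i - eW W n k i) * (x 8 + u * x 5))
    have a4 := abs_add_le (y 9 - (x 9 + u * x 6)) ((y 8 - (x 8 + u * x 5)) * eW W n k' i)
    linarith
  · rw [s10, s10, s7, s8, s5, shr_nine, shr_six]
    apply hfin
    have e : y 10 - (x 10 + u * x 7 - ga * (x 8 + u * x 5) -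
          gb * (x 9 + eW W n k i * x 8 + u * (x 6 + eW W n k i * x 5))) =
        (y 10 - (x 10 + u * x 7 - o 4 * (x 8 + u * x 5) - gb * (x 9 + u * x 6))) -
          (o 4 - (ga + eW W n k i * gb)) * (x 8 + u * x 5) := by ring
    show |y 10 - (x 10 + u * x 7 - ga * (x 8 + u * x 5) -
          gb * (x 9 + eW W n k i * x 8 + u * (x 6 + eW W n k i * x 5)))| ≤ 4 * η
    rw [e]
    have a1 := mulb o4' x85
    have a2 := abs_sub (y 10 - (x 10 + u * x 7 - o 4 * (x 8 + u * x 5) - gb * (x 9 + u * x 6)))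
      ((o 4 - (ga + eW W n k i * gb)) * (x 8 + u * x 5))
    linarith

end WC

end Crest.Agent.R136.C3d795
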