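import Crest.Agent.R136.C3d_795

/-!
# R136: the model of case C3 in the windows, part 2 (helper795)

* `lineC` : absolute coordinates of a line at two heights; `ab_of` : `AbsC`.
* `m3_of_win` : `M3` for the sheared configuration; `rawTw_gen`, `rawTw_fb`, `rawTw_fa`.
-/

set_option autoImplicit false
set_option linter.unusedVariables false
set_option linter.unusedSectionVars false

open Filter Topology Finset

namespace Crest.Agent.R136.C3d795

open Crest.Agent.R136.NetQ186 Crest.Agent.R136.Net191 Crest.Agent.R136.Qg926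
open Crest.Agent.R136.Gf356 Crest.Agent.R136.Ev356 Crest.Agent.R136.Aw413
open Crest.Agent.R138.Ex926 (Base U)
open Crest.Agent.R136.C3a795 Crest.Agent.R136.C3b795 Crest.Agent.R136.C3c795
open Crest.Agent.R136.Fe1355 (RawTw)
open Crest.Agent.R136.Ab356
open Crest.Agent.R136.CV366 (NoStr)

variable {ι : ℕ → Type*} [∀ n, DecidableEq (ι n)] {W : Wnd 11 ι} {f : ∀ n, ι n → Fq4}
  {Ma : Mons 11} {E : ∀ n, Finset (ι n)} {T : ℝ}

open Classical in
/-- some height at which the line is alive -/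
noncomputable def kk (W : Wnd 11 ι) (E : ∀ n, Finset (ι n)) (n i : ℕ) : ℕ :=
  if h : ∃ k, (i, k) ∈ (W.cfg0 n (E n)).I then h.choose else 0

theorem kk_mem {n i k : ℕ} (h : (i, k) ∈ (W.cfg0 n (E n)).I) :
    (i, kk W E n i) ∈ (W.cfg0 n (E n)).I := by
  have h' : ∃ k, (i, k) ∈ (W.cfg0 n (E n)).I := ⟨k, h⟩
  unfold kk
  rw [dif_pos h']
  exact h'.choose_spec

/-- absolute coordinate of a line -/
noncomputable def aW (W : Wnd 11 ι) (n k i : ℕ) (s : Fin 11) : ℝ :=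
  W.crd n (W.s₀ n) (W.rep n i k) s

/-- positions of the lines -/
noncomputable def AW (W : Wnd 11 ι) (E : ∀ n, Finset (ι n)) (n i : ℕ) (a : Fin 2) : ℝ :=
  if a = 0 then aW W n (kk W E n i) i 8 else aW W n (kk W E n i) i 9

/-- velocities of the lines -/
noncomputable def VW (W : Wnd 11 ι) (E : ∀ n, Finset (ι n)) (n i : ℕ) (a : Fin 2) : ℝ :=
  if a = 0 then aW W n (kk W E n i) i 5 else aW W n (kk W E n i) i 6

namespace WC

variable (w : WC W f Ma T)

include w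

/-- **absolute coordinates of a line at two heights** -/
theorem lineC {n : ℕ} (g : W.Good n) (hE : E n ⊆ W.Cl n) {k k' i : ℕ}
    (h1 : (i, k) ∈ (W.cfg0 n (E n)).I) (h2 : (i, k') ∈ (W.cfg0 n (E n)).I) :
    |aW W n k' i 5 - aW W n k i 5| ≤ 4 * W.B'.d n ^ T ∧
    |aW W n k' i 6 - aW W n k i 6| ≤ 4 * W.B'.d n ^ T ∧
    |aW W n k' i 8 - aW W n k i 8| ≤ 4 * W.B'.d n ^ T ∧
    |aW W n k' i 9 - aW W n k i 9| ≤ 4 * W.B'.d n ^ T := by
  obtain ⟨a1, a2, a3⟩ := rep_of_mem hE h1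
  obtain ⟨b1, b2, b3⟩ := rep_of_mem hE h2
  have hl := a2.trans b2.symm
  have hη0 : 0 ≤ W.B'.d n ^ T := Real.rpow_nonneg (W.B'.pos n).le T
  set η := W.B'.d n ^ T with hη
  set y := W.rep n i k with hy
  set z := W.rep n i k' with hz
  have nm : ∀ s, (s = 5 ∨ s = 6 ∨ s = 8 ∨ s = 9) → s ∉ W.S := fun s hs =>
    w.qa.q.notMem (by tauto)
  have o5 := w.own1 g a1 b1 hl (nm 5 (by simp))
  have o6 := w.own1 g a1 b1 hl (nm 6 (by simp))
  have o8 := w.own1 g a1 b1 hl (nm 8 (by simp))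
  have o9 := w.own1 g a1 b1 hl (nm 9 (by simp))
  have q0 := w.qa.crd4 g g.s0 a1 0
  have q2 := w.qa.crd4 g g.s0 a1 2
  have e5 := w.qa.q.crd_add g g.s0 a1 b1 (s := 5) (by simp)
  have e6 := w.qa.q.crd_six g g.s0 a1 b1
  have e8 := crd_eight w.qa.q g g.s0 a1 b1
  have e9 := crd_nine w.qa.q g g.s0 a1 b1
  rw [w.cf1 w.m256 (by decide) n, one_mul] at e6
  rw [w.cf1 w.m058 (by decide) n, one_mul] at e8
  rw [w.cf1 w.m069 (by decide) n, w.cf1 w.m289 (by decide) n, w.cf1 w.m058 (by decide) n,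
    one_mul, one_mul, one_mul] at e9
  have mulb : ∀ {p v c : ℝ}, |p| ≤ c → |v| ≤ η → |p * v| ≤ c * η := by
    intro p v c hp hv
    rw [abs_mul]
    exact mul_le_mul hp hv (abs_nonneg _) ((abs_nonneg _).trans hp)
  have p25 := mulb q2 o5
  have p05 := mulb q0 o5
  have p06 := mulb q0 o6
  have p28 := mulb q2 o8
  have p205 : |W.crd n (W.s₀ n) y 2 * (W.crd n (W.s₀ n) y 0 * W.crd n y z 5)| ≤
      1 / 4 * (1 / 4 * η) := by
    rw [abs_mul]
    exact mul_le_mul q2 p05 (abs_nonneg _) (by norm_num)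
  have n5 := abs_le.1 o5
  have n6 := abs_le.1 o6
  have n8 := abs_le.1 o8
  have n9 := abs_le.1 o9
  have m25 := abs_le.1 p25
  have m05 := abs_le.1 p05
  have m06 := abs_le.1 p06
  have m28 := abs_le.1 p28
  have m205 := abs_le.1 p205
  unfold aW
  refine ⟨?_, ?_, ?_, ?_⟩
  · rw [e5, abs_le]; constructor <;> linarith [n5.1, n5.2]
  · rw [e6, abs_le]; constructor <;> linarith [n6.1, n6.2, m25.1, m25.2]
  · rw [e8, abs_le]; constructor <;> linarith [n8.1, n8.2, m05.1, m05.2]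
  · have e : W.crd n (W.s₀ n) y 2 * (W.crd n y z 8 - W.crd n (W.s₀ n) y 0 * W.crd n y z 5) =
        W.crd n (W.s₀ n) y 2 * W.crd n y z 8 -
          W.crd n (W.s₀ n) y 2 * (W.crd n (W.s₀ n) y 0 * W.crd n y z 5) := by ring
    rw [e9, e, abs_le]
    constructor <;> linarith [n9.1, n9.2, m06.1, m06.2, m28.1, m28.2, m205.1, m205.2]

/-- **absolute coordinates** of the sheared configuration -/
theorem ab_of (hc : HC W E) :
    AbsC W.B' (shr (W.cfg E) (eW W)) (b6 0 0 0 0 0 0) 8 9 5 6 T 1 (AW W E) (VW W E)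
      (fun _ _ _ => 0) := by
  -- one statement at equal height
  have key : ∀ᶠ n in (U : Filter ℕ), ∀ k i l, (i, k) ∈ (W.cfg E n).I → (l, k) ∈ (W.cfg E n).I →
      |AW W E n l 0 - AW W E n i 0 + (W.cfg E n).z k * (VW W E n l 0 - VW W E n i 0) -
        (shr (W.cfg E) (eW W) n).rel k i l 8| ≤ 20 * W.B'.d n ^ T ∧
      |AW W E n l 1 - AW W E n i 1 + (W.cfg E n).z k * (VW W E n l 1 - VW W E n i 1) -
        (shr (W.cfg E) (eW W) n).rel k i l 9| ≤ 20 * W.B'.d n ^ T ∧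
      |VW W E n l 0 - VW W E n i 0 - (shr (W.cfg E) (eW W) n).rel k i l 5| ≤
        20 * W.B'.d n ^ T ∧
      |VW W E n l 1 - VW W E n i 1 - (shr (W.cfg E) (eW W) n).rel k i l 6| ≤
        20 * W.B'.d n ^ T := by
    filter_upwards [hc, w.qa.q.z_eq w.kz hc] with n hn hz k i l h1 h2
    obtain ⟨g, hE, hcfg⟩ := hn
    rw [hz k, shr_nine, shr_six, shr_of_ne (by decide) (by decide),
      shr_of_ne (by decide) (by decide), hcfg]
    have hkZ : k ∈ (W.cfg0 n (E n)).Z := by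
      rw [hcfg] at h1
      exact mem_image.2 (by obtain ⟨u, hu, -, h6⟩ := mem_cfg0 h1; exact ⟨u, hu, h6⟩)
    rw [hcfg] at h1 h2
    obtain ⟨a1, a2, a3⟩ := rep_of_mem hE h1
    obtain ⟨b1, b2, b3⟩ := rep_of_mem hE h2
    obtain ⟨z1, z2⟩ := zrep_of_mem hE hkZ
    have hη0 : 0 ≤ W.B'.d n ^ T := Real.rpow_nonneg (W.B'.pos n).le T
    obtain ⟨i5, i6, i8, i9⟩ := w.lineC g hE h1 (kk_mem h1)
    obtain ⟨l5, l6, l8, l9⟩ := w.lineC g hE h2 (kk_mem h2)
    have nm : ∀ s, (s = 5 ∨ s = 6 ∨ s = 8 ∨ s = 9) → s ∉ W.S := fun s hs =>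
      w.qa.q.notMem (by tauto)
    rw [rel_cfg0, rel_cfg0, rel_cfg0, rel_cfg0, if_neg (nm 5 (by simp)), if_neg (nm 6 (by simp)),
      if_neg (nm 8 (by simp)), if_neg (nm 9 (by simp))]
    set η := W.B'.d n ^ T with hη
    set y := W.rep n i k with hy
    set x := W.rep n l k with hx
    have e5 := w.qa.q.crd_add g g.s0 a1 b1 (s := 5) (by simp)
    have e6 := w.qa.q.crd_six g g.s0 a1 b1
    have e8 := crd_eight w.qa.q g g.s0 a1 b1
    have e9 := crd_nine w.qa.q g g.s0 a1 b1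
    rw [w.cf1 w.m256 (by decide) n, one_mul] at e6
    rw [w.cf1 w.m058 (by decide) n, one_mul] at e8
    rw [w.cf1 w.m069 (by decide) n, w.cf1 w.m289 (by decide) n, w.cf1 w.m058 (by decide) n,
      one_mul, one_mul, one_mul] at e9
    have q0 : |flg W n k 0| ≤ 1 / 4 := w.qa.crd4 g g.s0 z1 0
    have d0 : |flg W n k 0 - W.crd n (W.s₀ n) y 0| ≤ η := by
      have e1 := w.qa.q.crd_add g g.s0 a1 z1 (s := 0) (by simp)
      have e2 := w.lev1 g a1 z1 (a3.trans z2.symm) w.qa.S0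
      unfold flg
      rw [e1, add_sub_cancel_left]
      exact e2
    have c5 := w.qa.crd4 g a1 b1 5
    have c6 := w.qa.crd4 g a1 b1 6
    have q2 : |W.crd n (W.s₀ n) y 2| ≤ 1 / 4 := w.qa.crd4 g g.s0 a1 2
    -- names
    have vi5 : VW W E n i 0 = aW W n (kk W E n i) i 5 := by unfold VW; rw [if_pos rfl]
    have vi6 : VW W E n i 1 = aW W n (kk W E n i) i 6 := by unfold VW; rw [if_neg (by decide)]
    have vl5 : VW W E n l 0 = aW W n (kk W E n l) l 5 := by unfold VW; rw [if_pos rfl]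
    have vl6 : VW W E n l 1 = aW W n (kk W E n l) l 6 := by unfold VW; rw [if_neg (by decide)]
    have ai8 : AW W E n i 0 = aW W n (kk W E n i) i 8 := by unfold AW; rw [if_pos rfl]
    have ai9 : AW W E n i 1 = aW W n (kk W E n i) i 9 := by unfold AW; rw [if_neg (by decide)]
    have al8 : AW W E n l 0 = aW W n (kk W E n l) l 8 := by unfold AW; rw [if_pos rfl]
    have al9 : AW W E n l 1 = aW W n (kk W E n l) l 9 := by unfold AW; rw [if_neg (by decide)]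
    have wi : ∀ s, aW W n k i s = W.crd n (W.s₀ n) y s := fun s => rfl
    have wl : ∀ s, aW W n k l s = W.crd n (W.s₀ n) x s := fun s => rfl
    have we : eW W n k i = W.crd n (W.s₀ n) y 2 := rfl
    rw [vi5, vi6, vl5, vl6, ai8, ai9, al8, al9, we]
    rw [wi] at i5 i6 i8 i9
    rw [wl] at l5 l6 l8 l9
    set V5 := aW W n (kk W E n i) i 5
    set V6 := aW W n (kk W E n i) i 6
    set V8 := aW W n (kk W E n i) i 8
    set V9 := aW W n (kk W E n i) i 9
    set L5 := aW W n (kk W E n l) l 5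
    set L6 := aW W n (kk W E n l) l 6
    set L8 := aW W n (kk W E n l) l 8
    set L9 := aW W n (kk W E n l) l 9
    set Z := flg W n k 0
    set y0 := W.crd n (W.s₀ n) y 0
    set y2 := W.crd n (W.s₀ n) y 2
    set c5' := W.crd n y x 5
    set c6' := W.crd n y x 6
    set c8' := W.crd n y x 8
    set c9' := W.crd n y x 9
    have t5 : |(L5 - W.crd n (W.s₀ n) x 5) - (V5 - W.crd n (W.s₀ n) y 5)| ≤ 8 * η :=
      (abs_sub _ _).trans (by linarith)
    have t6 : |(L6 - W.crd n (W.s₀ n) x 6) - (V6 - W.crd n (W.s₀ n) y 6)| ≤ 8 * η :=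
      (abs_sub _ _).trans (by linarith)
    have t8 : |(L8 - W.crd n (W.s₀ n) x 8) - (V8 - W.crd n (W.s₀ n) y 8)| ≤ 8 * η :=
      (abs_sub _ _).trans (by linarith)
    have t9 : |(L9 - W.crd n (W.s₀ n) x 9) - (V9 - W.crd n (W.s₀ n) y 9)| ≤ 8 * η :=
      (abs_sub _ _).trans (by linarith)
    have Z5 : |Z * ((L5 - W.crd n (W.s₀ n) x 5) - (V5 - W.crd n (W.s₀ n) y 5))| ≤
        1 / 4 * (8 * η) := by
      rw [abs_mul]; exact mul_le_mul q0 t5 (abs_nonneg _) (by norm_num)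
    have Z6 : |Z * ((L6 - W.crd n (W.s₀ n) x 6) - (V6 - W.crd n (W.s₀ n) y 6))| ≤
        1 / 4 * (8 * η) := by
      rw [abs_mul]; exact mul_le_mul q0 t6 (abs_nonneg _) (by norm_num)
    have D5 : |(Z - y0) * c5'| ≤ η * (1 / 4) := by
      rw [abs_mul]; exact mul_le_mul d0 c5 (abs_nonneg _) hη0
    have D6 : |(Z - y0) * (c6' + y2 * c5')| ≤ η * 1 := by
      rw [abs_mul]
      refine mul_le_mul d0 ?_ (abs_nonneg _) hη0
      have : |y2 * c5'| ≤ 1 / 4 * (1 / 4) := by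
        rw [abs_mul]; exact mul_le_mul q2 c5 (abs_nonneg _) (by norm_num)
      exact (abs_add_le _ _).trans (by linarith)
    refine ⟨?_, ?_, ?_, ?_⟩
    · have e : L8 - V8 + Z * (L5 - V5) - c8' =
          ((L8 - W.crd n (W.s₀ n) x 8) - (V8 - W.crd n (W.s₀ n) y 8)) +
          Z * ((L5 - W.crd n (W.s₀ n) x 5) - (V5 - W.crd n (W.s₀ n) y 5)) +
          (Z - y0) * c5' := by rw [e8, e5]; ring
      rw [e]
      refine (abs_add_le _ _).trans ?_
      have := abs_add_le ((L8 - W.crd n (W.s₀ n) x 8) - (V8 - W.crd n (W.s₀ n) y 8))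
        (Z * ((L5 - W.crd n (W.s₀ n) x 5) - (V5 - W.crd n (W.s₀ n) y 5)))
      linarith
    · have e : L9 - V9 + Z * (L6 - V6) - (c9' + y2 * c8') =
          ((L9 - W.crd n (W.s₀ n) x 9) - (V9 - W.crd n (W.s₀ n) y 9)) +
          Z * ((L6 - W.crd n (W.s₀ n) x 6) - (V6 - W.crd n (W.s₀ n) y 6)) +
          (Z - y0) * (c6' + y2 * c5') := by rw [e9, e6]; ring
      rw [e]
      refine (abs_add_le _ _).trans ?_
      have := abs_add_le ((L9 - W.crd n (W.s₀ n) x 9) - (V9 - W.crd n (W.s₀ n) y 9))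
        (Z * ((L6 - W.crd n (W.s₀ n) x 6) - (V6 - W.crd n (W.s₀ n) y 6)))
      linarith
    · have e : L5 - V5 - c5' =
          (L5 - W.crd n (W.s₀ n) x 5) - (V5 - W.crd n (W.s₀ n) y 5) := by rw [e5]; ring
      rw [e]
      linarith
    · have e : L6 - V6 - (c6' + y2 * c5') =
          (L6 - W.crd n (W.s₀ n) x 6) - (V6 - W.crd n (W.s₀ n) y 6) := by rw [e6]; ring
      rw [e]
      linarith
  have fin : ∀ ε : ℝ, 0 < ε → ∀ᶠ n in (U : Filter ℕ), 20 * W.B'.d n ^ T ≤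
      W.B'.d n ^ (T - 1 * ε) := by
    intro ε hε
    filter_upwards [ev_const_le W.B' hε 20] with n hn
    have e1 : W.B'.d n ^ (T - 1 * ε) = W.B'.d n ^ (-ε) * W.B'.d n ^ T := by
      rw [← Real.rpow_add (W.B'.pos n)]; congr 1; ring
    rw [e1]
    exact mul_le_mul_of_nonneg_right hn (Real.rpow_nonneg (W.B'.pos n).le T)
  refine ⟨one_pos, Eventually.of_forall fun n k i _ => by simp, ?_, ?_, ?_, ?_⟩
  · intro ε hε
    filter_upwards [key, fin ε hε] with n hn hf k i l h1 h2 _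
    exact (hn k i l h1 h2).1.trans hf
  · intro ε hε
    filter_upwards [key, fin ε hε] with n hn hf k i l h1 h2 _
    rw [zero_mul, add_zero]
    exact (hn k i l h1 h2).2.1.trans hf
  · intro ε hε
    filter_upwards [key, fin ε hε] with n hn hf k i l h1 h2 _
    exact (hn k i l h1 h2).2.2.1.trans hf
  · intro ε hε
    filter_upwards [key, fin ε hε] with n hn hf k i l h1 h2 _
    rw [zero_mul, add_zero]
    exact (hn k i l h1 h2).2.2.2.trans hf

/-- legality of the boxes -/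
theorem legW_b6 {c5 c6 c7 c8 c9 c10 : ℝ} (h50 : 0 ≤ c5) (h5 : c5 ≤ T) (h60 : 0 ≤ c6)
    (h6 : c6 ≤ c5) (h70 : 0 ≤ c7) (h7 : c7 ≤ T) (h80 : 0 ≤ c8) (h8 : c8 ≤ T) (h90 : 0 ≤ c9)
    (h9 : c9 ≤ c8) (h100 : 0 ≤ c10) (h10 : c10 ≤ T) : b6 c5 c6 c7 c8 c9 c10 ∈ W.legW := by
  have hT := w.T0
  have h6T := h6.trans h5
  have h9T := h9.trans h8
  have b0 : ∀ s, 0 ≤ b6 c5 c6 c7 c8 c9 c10 s := by
    intro s; fin_cases s <;> simp [b6] <;> assumption
  have b1 : ∀ s, b6 c5 c6 c7 c8 c9 c10 s ≤ T := by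
    intro s; fin_cases s <;> simp [b6] <;> first | exact hT.le | assumption
  refine ⟨?_, fun s _ => ?_⟩
  · rw [w.top, w.Mw, w.R']
    refine ⟨⟨fun s => ?_, w.leg c5 c6 c7 c8 c9 c10 h50 h5 h60 h6 h70 h7 h80 h8 h90 h9 h100 h10⟩,
      fun s => ?_⟩
    · by_cases hs : s ∈ W.S
      · rw [cut_of_mem hs]; exact hT.le
      · rw [cut_of_notMem hs]; exact b0 s
    · by_cases hs : s ∈ W.S
      · rw [cut_of_mem hs]
      · rw [cut_of_notMem hs]; exact b1 s
  · rw [w.top]; exact b1 s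

/-- **the model of case C3 in a window** -/
theorem m3 (hc : HC W E) (H : RModel W.B' (W.cfg E) 1 T W.legW W.nu W.Dc) :
    M3 W.B' (shr (W.cfg E) (eW W)) (LegS W.legW) W.nu T (4 * W.Dc) (faW W) (fbW W) where
  H := RModel.shr H (w.eb hc)
  T0 := w.T0
  leg := fun c5 c6 c7 c8 c9 c10 h50 h5 h60 h6 h70 h7 h80 h8 h90 h9 h100 h10 =>
    ⟨w.legW_b6 h50 h5 h60 h6 h70 h7 h80 h8 h90 h9 h100 h10, h9, h6⟩
  bd := by
    filter_upwards [hc, w.qa.q.z_eq w.kz hc] with n hn hz k hk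
    obtain ⟨g, hE, hcfg⟩ := hn
    have hk' : k ∈ (W.cfg E n).Z := hk
    rw [hcfg] at hk'
    obtain ⟨z1, z2⟩ := zrep_of_mem hE hk'
    have b : ∀ s, |flg W n k s| ≤ 1 := fun s =>
      (w.qa.crd4 g g.s0 z1 s).trans (by norm_num)
    refine ⟨?_, b 4, ?_⟩
    · show |(W.cfg E n).z k| ≤ 1
      rw [hz k]; exact b 0
    · unfold fbW
      split_ifs
      · exact b 3
      · rw [abs_zero]; norm_num
  rb := by
    filter_upwards [hc] with n hn k i l h1 h2 s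
    obtain ⟨g, hE, hcfg⟩ := hn
    have h1' : (i, k) ∈ (W.cfg0 n (E n)).I := by rw [← hcfg]; exact h1
    have h2' : (l, k) ∈ (W.cfg0 n (E n)).I := by rw [← hcfg]; exact h2
    have rb : ∀ s, |(W.cfg E n).rel k i l s| ≤ 1 / 4 := by
      intro s
      rw [hcfg]
      exact w.qa.rel_le g hE h1' h2' s
    have he : |eW W n k i| ≤ 1 / 4 := w.eW_le g hE h1'
    have key : ∀ a b : ℝ, |a| ≤ 1 / 4 → |b| ≤ 1 / 4 → |a + eW W n k i * b| ≤ 1 := by
      intro a b ha hb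
      have : |eW W n k i * b| ≤ 1 / 4 * (1 / 4) := by
        rw [abs_mul]; exact mul_le_mul he hb (abs_nonneg _) (by norm_num)
      exact (abs_add_le _ _).trans (by linarith)
    by_cases h6 : s = 6
    · subst h6; rw [shr_six]; exact key _ _ (rb 6) (rb 5)
    by_cases h9 : s = 9
    · subst h9; rw [shr_nine]; exact key _ _ (rb 9) (rb 8)
    · rw [shr_of_ne h6 h9]; exact (rb s).trans (by norm_num)
  ev := fun ε hε => w.ev_of hc hε
  ab := ⟨AW W E, VW W E, 1, w.ab_of hc⟩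

end WC

/-- **raw twist**: own flag differences `s` = differences of a function of the heights -/
theorem rawTw_gen (hc : HC W E) {s : Fin 11} {T C : ℝ} (hT : 0 < T) {f : ℕ → ℕ → ℝ}
    (hf : ∀ᶠ n in (U : Filter ℕ), ∀ i k k', (i, k) ∈ (W.cfg E n).I → (i, k') ∈ (W.cfg E n).I →
      |W.crd n (W.rep n i k) (W.rep n i k') s - (f n k' - f n k)| ≤ C * W.B'.d n ^ T)
    (hr : RawL W E s) : RawTw W.B' (W.cfg E) (fun n k k' => f n k' - f n k) := by
  intro ε hε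
  set δ : ℝ := min (ε / 2) (T / 2) with hδ
  have hδ0 : 0 < δ := lt_min (by positivity) (by positivity)
  have hδε : δ < ε := lt_of_le_of_lt (min_le_left _ _) (by linarith)
  have hδT : δ < T := lt_of_le_of_lt (min_le_right _ _) (by linarith)
  filter_upwards [hf, hr δ hδ0 (1 / 2) (by norm_num),
    ev_const_le W.B' (show 0 < ε - δ by linarith) 2,
    ev_const_le W.B' (show 0 < T - δ by linarith) (2 * |C|)] with n hfn hrn h2 h3
  intro i hi S hS hSm
  have hd0 : 0 < W.B'.d n := W.B'.pos n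
  have hpow : ∀ t : ℝ, 0 < W.B'.d n ^ t := fun t => Real.rpow_pos_of_pos hd0 t
  have a1 : W.B'.d n ^ ε ≤ W.B'.d n ^ δ / 2 := by
    have : W.B'.d n ^ ε * W.B'.d n ^ (-(ε - δ)) = W.B'.d n ^ δ := by
      rw [← Real.rpow_add hd0]; congr 1; ring
    have h4 := mul_le_mul_of_nonneg_left h2 (hpow ε).le
    rw [this] at h4
    linarith
  have a2 : |C| * W.B'.d n ^ T ≤ W.B'.d n ^ δ / 2 := by
    have : W.B'.d n ^ T * W.B'.d n ^ (-(T - δ)) = W.B'.d n ^ δ := by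
      rw [← Real.rpow_add hd0]; congr 1; ring
    have h4 := mul_le_mul_of_nonneg_left h3 (hpow T).le
    rw [this] at h4
    linarith
  classical
  have hsub : S ⊆ ((W.cfg E n).hts i).biUnion fun k =>
      (((W.cfg E n).hts i).filter fun k' =>
        |W.crd n (W.rep n i k) (W.rep n i k') s| ≤ W.B'.d n ^ δ).image fun k' => (k, k') := by
    intro q hq
    obtain ⟨q1, q2⟩ := mem_product.1 (hS hq)
    refine mem_biUnion.2 ⟨q.1, q1, mem_image.2 ⟨q.2, mem_filter.2 ⟨q2, ?_⟩, rfl⟩⟩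
    have g1 := (RCfg.mem_hts.1 q1)
    have g2 := (RCfg.mem_hts.1 q2)
    have m2 := hfn i q.1 q.2 g1.2 g2.2
    have m3 := hSm q hq
    have m4 : C * W.B'.d n ^ T ≤ |C| * W.B'.d n ^ T :=
      mul_le_mul_of_nonneg_right (le_abs_self _) (hpow _).le
    have m5 := abs_sub_abs_le_abs_sub (W.crd n (W.rep n i q.1) (W.rep n i q.2) s)
      (f n q.2 - f n q.1)
    have m6 : |f n q.2 - f n q.1| ≤ W.B'.d n ^ ε := m3
    linarith
  have hcard : (S.card : ℝ) ≤ ∑ k ∈ (W.cfg E n).hts i,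
      1 / 2 * (((W.cfg E n).hts i).card : ℝ) := by
    have h5 : (S.card : ℝ) ≤ ∑ k ∈ (W.cfg E n).hts i,
        ((((W.cfg E n).hts i).filter fun k' =>
        |W.crd n (W.rep n i k) (W.rep n i k') s| ≤ W.B'.d n ^ δ).card : ℝ) := by
      have h6 := (card_le_card hsub).trans card_biUnion_le
      have h7 : ∑ k ∈ (W.cfg E n).hts i, ((((W.cfg E n).hts i).filter fun k' =>
          |W.crd n (W.rep n i k) (W.rep n i k') s| ≤ W.B'.d n ^ δ).image
            fun k' => (k, k')).card ≤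
          ∑ k ∈ (W.cfg E n).hts i, (((W.cfg E n).hts i).filter fun k' =>
          |W.crd n (W.rep n i k) (W.rep n i k') s| ≤ W.B'.d n ^ δ).card :=
        sum_le_sum fun k _ => card_image_le
      exact_mod_cast h6.trans h7
    exact h5.trans (sum_le_sum fun k hk => hrn i hi k hk)
  rw [sum_const, nsmul_eq_mul] at hcard
  nlinarith

namespace WC

variable (w : WC W f Ma T)

include w

/-- raw twist of `F_b` (natural plane) -/
theorem rawTw_fb (hc : HC W E) (h3S : (3 : Fin 11) ∈ W.S) (hr : RawL W E 3) :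
    RawTw W.B' (shr (W.cfg E) (eW W)) (fun n k k' => fbW W n k' - fbW W n k) := by
  refine rawTw_gen hc (s := 3) (C := 2) w.T0 (f := fun n k => fbW W n k) ?_ hr
  filter_upwards [hc, w.qa.q.mot_eq hc] with n hn hmot i k k' h1 h2
  obtain ⟨g, hE, hcfg⟩ := hn
  have Zm : ∀ {k}, (i, k) ∈ (W.cfg E n).I → k ∈ (W.cfg E n).Z := by
    intro k hk
    rw [hcfg] at hk ⊢
    exact mem_image.2 (by obtain ⟨u, hu, -, h6⟩ := mem_cfg0 hk; exact ⟨u, hu, h6⟩)
  have m1 := (hmot k (Zm h1) k' (Zm h2)).1 3 (by simp)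
  have zk := Zm h1
  have zk' := Zm h2
  rw [hcfg] at h1 h2 zk zk'
  obtain ⟨x1, x2, x3⟩ := rep_of_mem hE h1
  obtain ⟨y1, y2, y3⟩ := rep_of_mem hE h2
  obtain ⟨z1, z2⟩ := zrep_of_mem hE zk
  obtain ⟨z1', z2'⟩ := zrep_of_mem hE zk'
  have m2 := w.qa.q.own_add g x1 y1 z1 z1' (x3.trans z2.symm) (y3.trans z2'.symm) h3S (by simp)
    (t := T) (by rw [w.top])
  rw [m1] at m2
  have e1 : fbW W n k' - fbW W n k = flg W n k' 3 - flg W n k 3 := by
    unfold fbW; rw [if_pos h3S, if_pos h3S]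
  rw [e1]
  refine m2.trans ?_
  have h4 := w.K14 3
  have h5 : 2 * W.K0 / W.kap 3 = 2 * (W.K0 / W.kap 3) := by ring
  rw [h5]
  have := Real.rpow_nonneg (W.B'.pos n).le T
  nlinarith

/-- raw twist of `F_a` (slack plane) -/
theorem rawTw_fa (hc : HC W E) (h3S : (3 : Fin 11) ∉ W.S) (hr : RawL W E 4) :
    RawTw W.B' (shr (W.cfg E) (eW W)) (fun n k k' => faW W n k' - faW W n k) := by
  have h34 : mv 2 3 ∉ Ma.mon 4 := by
    rcases w.h3 with ⟨h, -⟩ | ⟨-, h, -⟩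
    · exact absurd h h3S
    · exact h
  refine rawTw_gen hc (s := 4) (C := 5) w.T0 (f := fun n k => faW W n k) ?_ hr
  filter_upwards [hc, w.qa.capp T w.T0.le] with n hn hca i k k' h1 h2
  obtain ⟨g, hE, hcfg⟩ := hn
  have c1 := hca.2.2.2.2.2.2.2.2.2.2.d
  have c2 : chi Ma 2 3 4 = 0 := if_neg h34
  rw [c2, sub_zero, one_mul] at c1
  have Zm : ∀ {k}, (i, k) ∈ (W.cfg E n).I → k ∈ (W.cfg0 n (E n)).Z := by
    intro k hk
    rw [hcfg] at hk
    exact mem_image.2 (by obtain ⟨u, hu, -, h6⟩ := mem_cfg0 hk; exact ⟨u, hu, h6⟩)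
  have zk := Zm h1
  have zk' := Zm h2
  rw [hcfg] at h1 h2
  obtain ⟨x1, x2, x3⟩ := rep_of_mem hE h1
  obtain ⟨y1, y2, y3⟩ := rep_of_mem hE h2
  obtain ⟨z1, z2⟩ := zrep_of_mem hE zk
  obtain ⟨z1', z2'⟩ := zrep_of_mem hE zk'
  have hη0 : 0 ≤ W.B'.d n ^ T := Real.rpow_nonneg (W.B'.pos n).le T
  -- `flg k' 4 = crd s₀ x' 4 + crd x' z' 4 - cf ..` etc.
  have l1 := w.lev1 g x1 z1 (x3.trans z2.symm) w.S4
  have l2 := w.lev1 g y1 z1' (y3.trans z2'.symm) w.S4
  have e1 := w.qa.q.crd_four g g.s0 x1 z1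
  have e2 := w.qa.q.crd_four g g.s0 y1 z1'
  have e3 := w.qa.q.crd_four g g.s0 x1 y1
  have pr : ∀ {u v u' v' : ι n}, u ∈ W.Cl n → v ∈ W.Cl n → u' ∈ W.Cl n → v' ∈ W.Cl n →
      |cf W n 2 3 4 * (W.crd n u v 2 * W.crd n u' v' 3)| ≤ W.B'.d n ^ T := by
    intro u v u' v' hu hv hu' hv'
    rw [abs_mul, abs_mul]
    have b1 : |W.crd n u v 2| * |W.crd n u' v' 3| ≤ 1 / 4 * (1 / 4) :=
      mul_le_mul (w.qa.crd4 g hu hv 2) (w.qa.crd4 g hu' hv' 3) (abs_nonneg _) (by norm_num)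
    calc |cf W n 2 3 4| * (|W.crd n u v 2| * |W.crd n u' v' 3|)
        ≤ W.B'.d n ^ T * (1 / 4 * (1 / 4)) := mul_le_mul c1 b1 (by positivity) hη0
      _ ≤ W.B'.d n ^ T := by linarith
  have p1 := abs_le.1 (pr g.s0 x1 x1 z1)
  have p2 := abs_le.1 (pr g.s0 y1 y1 z1')
  have p3 := abs_le.1 (pr g.s0 x1 x1 y1)
  have l1' := abs_le.1 l1
  have l2' := abs_le.1 l2
  have f1 : faW W n k = W.crd n (W.s₀ n) (W.zrep n k) 4 := rfl
  have f2 : faW W n k' = W.crd n (W.s₀ n) (W.zrep n k') 4 := rfl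
  rw [f1, f2, e1, e2, e3, abs_le]
  constructor <;> linarith [p1.1, p1.2, p2.1, p2.2, p3.1, p3.2, l1'.1, l1'.2, l2'.1, l2'.2]

end WC

end Crest.Agent.R136.C3d795
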