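import Crest.Agent.R136.C3c_795
import Crest.Agent.R136.Tb5_628
import Crest.Agent.R136.Rc8_146

/-!
# R136, case (C3), scalar argument (helper795)

* `Slo` : slopes of the two planes (`τ = 1` natural plane, `τ = 0` slack `F_b`), `κ = κ3`.
* `TF` : facts on the tangent; `vv` : the boxes of the windows.
* `TF.grp_eq` : the loss depends only on the group which moves.
* `TF.slope_v` : `lam a = A.1`; `TF.fhalf` : the F-half from the model `M3`.
-/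

set_option autoImplicit false
set_option linter.unusedVariables false
set_option linter.unusedSectionVars false

open Filter Topology Finset

namespace Crest.Agent.R136.C3f795

open Crest.Agent.R138.Ex926 (Base U)
open Crest.Agent.R136.Gf356
open Crest.Agent.R136.Dg219 (gC dhC nC OutS gC_zero gC_eq gset lf)
open Crest.Agent.R136.NatR550 (coneN)
open Crest.Agent.R136.Tb628 (coneF)
open Crest.Agent.R136.NatT550
open Crest.Agent.R136.C3a795 Crest.Agent.R136.C3b795 Crest.Agent.R136.C3c795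
open Crest.Agent.R136.CV366 (NoStr)
open Crest.Agent.R136.Fe1355 (RawTw)

/-- slopes of the planes: `τ = 1` natural plane, `τ = 0` plane with slack `F_b` -/
structure Slo (a b : Fin 11 → ℝ) (κ τ : ℝ) : Prop where
  a0 : a 0 = 1
  a1 : a 1 = 0
  a2 : a 2 = 0
  a3 : a 3 = τ * κ
  a4 : a 4 = κ
  a5 : a 5 = 0
  a6 : a 6 = 0
  a7 : a 7 = κ
  a8 : a 8 = 1
  a9 : a 9 = 1
  a10 : a 10 = 1 + κ
  b0 : b 0 = 0
  b4 : b 4 = 0
  b7 : b 7 = 1
  b8 : b 8 = 1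
  b9 : b 9 = 1
  b10 : b 10 = 1

/-- the boxes -/
def vv (τ z f ca cb p xa xb n : ℝ) : Fin 11 → ℝ := ![z, 0, 0, τ * f, f, ca, cb, p, xa, xb, n]

/-- facts on the tangent -/
structure TF (L : Set (Fin 11 → ℝ)) (lam : (Fin 11 → ℝ) → ℝ) (a b : Fin 11 → ℝ) (A : ℝ × ℝ)
    (φ : ℕ → (Fin 11 → ℝ) → ℝ) (r : ℕ → ℝ) (κ τ m : ℝ) : Prop where
  κ0 : 0 < κ
  m0 : 0 < m
  sl : Slo a b κ τ
  pl : (τ = 1 ∧ L = coneN ∧ b 3 = 0) ∨ (τ = 0 ∧ L = coneF)
  out : OutS (gC a b) L (dhC a b) (nC a b) lam A φ r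
  zero : lam 0 = 0
  anti : ∀ c ∈ L, ∀ c' ∈ L, c ≤ c' → lam c' ≤ lam c
  sharp : ∀ c ∈ L, ∀ c' ∈ L, c ≤ c' → lam c - lam c' ≤ ∑ s, (c' s - c s)
  own : ∀ c ∈ L, 0 ≤ c → c 0 ≤ -lam c
  S1 : ∀ y : ℝ, 0 ≤ y → m * y ≤ -lam (vv τ 0 0 y 0 0 0 0 0)

theorem vv_le {τ z f ca cb p xa xb n z' f' ca' cb' p' xa' xb' n' : ℝ} (hτ : 0 ≤ τ) (h0 : z ≤ z')
    (h1 : f ≤ f') (h3 : ca ≤ ca') (h4 : cb ≤ cb') (h5 : p ≤ p') (h6 : xa ≤ xa')
    (h7 : xb ≤ xb') (h8 : n ≤ n') :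
    vv τ z f ca cb p xa xb n ≤ vv τ z' f' ca' cb' p' xa' xb' n' := by
  intro i
  fin_cases i <;> simp [vv] <;> first | assumption | exact mul_le_mul_of_nonneg_left h1 hτ

/-- slots of one group are parallel -/
theorem grp_par {a b : Fin 11 → ℝ} {i s : Fin 11} (hi : gC a b i = gC a b s) :
    (a i = 0 ↔ a s = 0) ∧ (a i ≠ 0 → b i * a s = b s * a i) := by
  by_cases h1 : a s = 0
  · have h2 : gC a b i = 0 := by rw [hi]; exact gC_zero.2 h1
    have h3 : a i = 0 := gC_zero.1 h2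
    exact ⟨⟨fun _ => h1, fun _ => h3⟩, fun h4 => absurd h3 h4⟩
  · have h3 : a i ≠ 0 := by
      intro h4
      have h5 : gC a b s = 0 := by rw [← hi]; exact gC_zero.2 h4
      exact h1 (gC_zero.1 h5)
    refine ⟨⟨fun h4 => absurd h4 h3, fun h4 => absurd h4 h1⟩, fun _ => ?_⟩
    have h5 := (gC_eq h3 h1).1 hi
    rw [div_eq_div_iff h3 h1] at h5
    linarith

namespace TF

variable {L : Set (Fin 11 → ℝ)} {lam : (Fin 11 → ℝ) → ℝ} {a b : Fin 11 → ℝ} {A : ℝ × ℝ}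
  {φ : ℕ → (Fin 11 → ℝ) → ℝ} {r : ℕ → ℝ} {κ τ m : ℝ}
  (h : TF L lam a b A φ r κ τ m)

include h

theorem τ0 : 0 ≤ τ := by
  rcases h.pl with ⟨h1, -⟩ | ⟨h1, -⟩ <;> rw [h1]
  norm_num

theorem vv_mem {z f ca cb p xa xb n : ℝ} (hcb : cb ≤ ca) (hp : p ≤ f + cb) (hxa : xa ≤ z + ca)
    (hxb : xb ≤ z + cb) (hx : xb ≤ xa) (hn1 : n ≤ z + p) (hn2 : n ≤ f + xb) :
    vv τ z f ca cb p xa xb n ∈ L := by
  rcases h.pl with ⟨h1, h2, -⟩ | ⟨h1, h2⟩
  · rw [h1, h2]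
    simp only [coneN, vv, Set.mem_ofPred_eq, Matrix.cons_val, Fin.isValue]
    refine ⟨?_, ?_, ?_, ?_, ?_, ?_, ?_, ?_, ?_, ?_⟩ <;> linarith
  · rw [h1, h2]
    simp only [coneF, vv, Set.mem_ofPred_eq, Matrix.cons_val, Fin.isValue]
    refine ⟨?_, ?_, ?_, ?_, ?_, ?_, ?_⟩ <;> linarith

/-- the loss depends only on the group which moves -/
theorem grp_eq (s : Fin 11) {c c' d d' : Fin 11 → ℝ} (hc : c ∈ L) (hc' : c' ∈ L) (hd : d ∈ L)
    (hd' : d' ∈ L) (h1 : ∀ i, gC a b i ≠ gC a b s → c i = c' i)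
    (h2 : ∀ i, gC a b i ≠ gC a b s → d i = d' i) (h3 : ∀ i, gC a b i = gC a b s → c i = d i)
    (h4 : ∀ i, gC a b i = gC a b s → c' i = d' i) : lam c - lam c' = lam d - lam d' := by
  have hk : gC a b s ∈ gset (gC a b) := by simp [gset]
  have key : ∀ {c c' : Fin 11 → ℝ}, c ∈ L → c' ∈ L →
      (∀ i, gC a b i ≠ gC a b s → c i = c' i) →
      lam c - lam c' = φ (gC a b s) c - φ (gC a b s) c' := by
    intro c c' hc hc' he
    rw [h.out.sum _ hc, h.out.sum _ hc', ← sum_sub_distrib]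
    rw [sum_eq_single (gC a b s)]
    · intro j _ hj
      rw [h.out.loc j c c' fun i hi => he i (by rw [hi]; exact hj), sub_self]
    · intro hk'; exact absurd hk hk'
  rw [key hc hc' h1, key hd hd' h2, h.out.loc _ c d h3, h.out.loc _ c' d' h4]

/-- one slot moves: `1`-Lipschitz -/
theorem sharp1 (s : Fin 11) {c c' : Fin 11 → ℝ} (hc : c ∈ L) (hc' : c' ∈ L)
    (h1 : ∀ i, i ≠ s → c' i = c i) (h5 : c s ≤ c' s) : lam c - lam c' ≤ c' s - c s := by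
  have h2 := h.sharp c hc c' hc' (fun i => by
    by_cases his : i = s
    · rw [his]; exact h5
    · rw [h1 i his])
  rw [sum_eq_single s (fun j _ hj => by rw [h1 j hj, sub_self])
    (fun hs => absurd (mem_univ s) hs)] at h2
  exact h2

theorem e89 : gC a b 9 = gC a b 8 := by
  have sl := h.sl
  refine (gC_eq (by rw [sl.a9]; norm_num) (by rw [sl.a8]; norm_num)).2 ?_
  rw [sl.a8, sl.a9, sl.b8, sl.b9]

theorem e87 (hκ : κ = 1) : gC a b 7 = gC a b 8 := by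
  have sl := h.sl
  refine (gC_eq (by rw [sl.a7, hκ]; norm_num) (by rw [sl.a8]; norm_num)).2 ?_
  rw [sl.a8, sl.a7, sl.b8, sl.b7, hκ]

theorem b3 (i : Fin 11) (hi : i = 3) (h0 : a i ≠ 0) : b i = 0 := by
  subst hi
  rcases h.pl with ⟨h1, -, h2⟩ | ⟨h1, -⟩
  · exact h2
  · refine absurd ?_ h0
    rw [h.sl.a3, h1, zero_mul]

/-- the group of `(X_a, X_b)` -/
theorem g8 {i : Fin 11} (hi : gC a b i = gC a b 8) : i = 8 ∨ i = 9 ∨ (i = 7 ∧ κ = 1) := by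
  obtain ⟨g1, g2⟩ := grp_par hi
  have sl := h.sl
  have hκ := h.κ0
  have e8 : a 8 ≠ 0 := by rw [sl.a8]; norm_num
  have g3 : a i ≠ 0 := fun h0 => e8 (g1.1 h0)
  have g4 := g2 g3
  rw [sl.a8, sl.b8, mul_one, one_mul] at g4
  by_cases h3 : i = 3
  · rw [h.b3 i h3 g3] at g4
    exact absurd g4.symm g3
  fin_cases i
  · simp [sl.a0, sl.b0] at g4
  · exact absurd sl.a1 g3
  · exact absurd sl.a2 g3
  · exact absurd rfl h3
  · simp [sl.a4, sl.b4] at g4; exact absurd g4.symm hκ.ne'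
  · exact absurd sl.a5 g3
  · exact absurd sl.a6 g3
  · simp [sl.a7, sl.b7] at g4 ⊢; exact g4.symm
  · simp
  · simp
  · simp [sl.a10, sl.b10] at g4; exact absurd g4 hκ.ne'

/-- the group of `N` -/
theorem g10 {i : Fin 11} (hi : gC a b i = gC a b 10) : i = 10 := by
  obtain ⟨g1, g2⟩ := grp_par hi
  have sl := h.sl
  have hκ := h.κ0
  have e8 : a 10 ≠ 0 := by rw [sl.a10]; linarith
  have g3 : a i ≠ 0 := fun h0 => e8 (g1.1 h0)
  have g4 := g2 g3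
  rw [sl.a10, sl.b10, one_mul] at g4
  by_cases h3 : i = 3
  · rw [h.b3 i h3 g3, zero_mul] at g4
    exact absurd g4.symm g3
  fin_cases i
  · simp [sl.a0, sl.b0] at g4
  · exact absurd sl.a1 g3
  · exact absurd sl.a2 g3
  · exact absurd rfl h3
  · simp [sl.a4, sl.b4] at g4; exact absurd g4.symm hκ.ne'
  · exact absurd sl.a5 g3
  · exact absurd sl.a6 g3
  · simp [sl.a7, sl.b7] at g4
  · simp [sl.a8, sl.b8] at g4; exact absurd g4 hκ.ne'
  · simp [sl.a9, sl.b9] at g4; exact absurd g4 hκ.ne'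
  · simp

/-- group `0` -/
theorem g5 {i : Fin 11} (hi : gC a b i = gC a b 5) : i = 1 ∨ i = 2 ∨ i = 3 ∨ i = 5 ∨ i = 6 := by
  obtain ⟨g1, g2⟩ := grp_par hi
  have sl := h.sl
  have hκ := h.κ0
  have g3 : a i = 0 := g1.2 sl.a5
  fin_cases i
  · simp [sl.a0] at g3
  · simp
  · simp
  · simp
  · simp [sl.a4] at g3; exact absurd g3.symm hκ.ne
  · simp
  · simp
  · simp [sl.a7] at g3; exact absurd g3.symm hκ.ne
  · simp [sl.a8] at g3
  · simp [sl.a9] at g3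
  · simp [sl.a10] at g3; linarith

theorem e56 : gC a b 6 = gC a b 5 := by
  rw [gC_zero.2 h.sl.a5, gC_zero.2 h.sl.a6]

/-- level slots -/
theorem g0 {i : Fin 11} (hi : gC a b i = gC a b 0) : i = 0 ∨ i = 3 ∨ i = 4 := by
  obtain ⟨g1, g2⟩ := grp_par hi
  have sl := h.sl
  have hκ := h.κ0
  have e8 : a 0 ≠ 0 := by rw [sl.a0]; norm_num
  have g3 : a i ≠ 0 := fun h0 => e8 (g1.1 h0)
  have g4 := g2 g3
  rw [sl.a0, sl.b0, zero_mul, mul_one] at g4
  fin_cases i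
  · simp
  · exact absurd sl.a1 g3
  · exact absurd sl.a2 g3
  · simp
  · simp
  · exact absurd sl.a5 g3
  · exact absurd sl.a6 g3
  · simp [sl.b7] at g4
  · simp [sl.b8] at g4
  · simp [sl.b9] at g4
  · simp [sl.b10] at g4

/-- **slope in the direction `v`** -/
theorem slope_v : lam (vv τ 1 κ 0 0 κ 1 1 (1 + κ)) = A.1 := by
  have sl := h.sl
  have hm : vv τ 1 κ 0 0 κ 1 1 (1 + κ) ∈ L := h.vv_mem (by linarith) (by linarith) (by linarith)
    (by linarith) (by linarith) (by linarith) (by linarith)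
  have ha : vv τ 1 κ 0 0 κ 1 1 (1 + κ) = a := by
    funext i
    fin_cases i <;> simp [vv, sl.a0, sl.a1, sl.a2, sl.a3, sl.a4, sl.a5, sl.a6, sl.a7, sl.a8,
      sl.a9, sl.a10]
  rw [ha] at hm ⊢
  have h1 := h.out.total (1, 0)
  have h2 : lf A (1, 0) = A.1 := by simp [lf]
  rw [h2] at h1
  rw [h.out.sum _ hm, h1, ← sum_neg_distrib]
  refine sum_congr rfl fun k hk => ?_
  obtain ⟨i, -, rfl⟩ := mem_image.1 hk
  by_cases hi : a i = 0
  · rw [gC_zero.2 hi, Crest.Agent.R136.Dg219.nC_zero]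
    rw [h.out.zero 0 _ fun j hj => gC_zero.1 hj]
    simp [lf]
  · rw [Crest.Agent.R136.Dg219.nC_of hi]
    rw [h.out.rate (gC a b i) _ hm 1 fun j hj => by
      have hj' : a j ≠ 0 := fun h0 => hi ((grp_par hj).1.1 h0)
      rw [dhC, if_neg hj', one_mul]]
    simp [lf]

/-- loss of `N`, linear -/
theorem lossN {z f ca cb p xa xb n : ℝ} (hcb : cb ≤ ca) (hp : p ≤ f + cb) (hxa : xa ≤ z + ca)
    (hxb : xb ≤ z + cb) (hx : xb ≤ xa) (h0 : 0 ≤ n) (hn1 : n ≤ z + p) (hn2 : n ≤ f + xb) :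
    lam (vv τ z f ca cb p xa xb 0) - lam (vv τ z f ca cb p xa xb n) =
      r (gC a b 10) / (1 + κ) * n := by
  have sl := h.sl
  have hκ := h.κ0
  have m1 : vv τ z f ca cb p xa xb 0 ∈ L :=
    h.vv_mem hcb hp hxa hxb hx (by linarith) (by linarith)
  have m2 : vv τ z f ca cb p xa xb n ∈ L := h.vv_mem hcb hp hxa hxb hx hn1 hn2
  have hk : gC a b 10 ∈ gset (gC a b) := by simp [gset]
  have key : lam (vv τ z f ca cb p xa xb 0) - lam (vv τ z f ca cb p xa xb n) =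
      φ (gC a b 10) (vv τ z f ca cb p xa xb 0) - φ (gC a b 10) (vv τ z f ca cb p xa xb n) := by
    rw [h.out.sum _ m1, h.out.sum _ m2, ← sum_sub_distrib]
    rw [sum_eq_single (gC a b 10)]
    · intro j _ hj
      rw [h.out.loc j (vv τ z f ca cb p xa xb 0) (vv τ z f ca cb p xa xb n) fun i hi => ?_,
        sub_self]
      have : i ≠ 10 := by rintro rfl; exact hj hi.symm
      fin_cases i <;> first | exact absurd rfl this | simp [vv]
    · intro hk'; exact absurd hk hk'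
  have dh : dhC a b 10 = 1 + κ := by
    unfold dhC
    rw [sl.a10, if_neg (by linarith)]
  rw [key, h.out.zero (gC a b 10) (vv τ z f ca cb p xa xb 0) (fun i hi => by
    rw [h.g10 hi]; simp [vv]), h.out.rate (gC a b 10) _ m2 (n / (1 + κ)) (fun i hi => by
    rw [h.g10 hi, dh]
    have : (1 : ℝ) + κ ≠ 0 := by linarith
    simp only [vv, Matrix.cons_val, Fin.isValue]
    field_simp)]
  ring

/-- loss of the group of `X`, given anything; `κ ≠ 1` -/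
theorem lossX (hκ1 : κ ≠ 1) {T ca cb p xa xb xa' xb' n : ℝ} (hT : 0 ≤ T) (hcb : cb ≤ ca)
    (hcb0 : 0 ≤ cb) (hp0 : 0 ≤ p) (hp : p ≤ T) (hxa : xa ≤ T) (hxb : 0 ≤ xb) (hx : xb ≤ xa)
    (hxa' : xa' ≤ T) (hxb' : 0 ≤ xb') (hx' : xb' ≤ xa') (hn : n ≤ T) :
    lam (vv τ T T ca cb p xa xb n) - lam (vv τ T T ca cb p xa' xb' n) =
      lam (vv τ T T 0 0 0 xa xb 0) - lam (vv τ T T 0 0 0 xa' xb' 0) := by
  have m : ∀ {ca cb p xa xb n : ℝ}, cb ≤ ca → 0 ≤ cb → 0 ≤ p → p ≤ T → xa ≤ T → 0 ≤ xb →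
      xb ≤ xa → n ≤ T → vv τ T T ca cb p xa xb n ∈ L := by
    intro ca cb p xa xb n h1 h2 h3 h4 h5 h6 h7 h8
    exact h.vv_mem h1 (by linarith) (by linarith) (by linarith) h7 (by linarith) (by linarith)
  refine h.grp_eq 8 (m hcb hcb0 hp0 hp hxa hxb hx hn) (m hcb hcb0 hp0 hp hxa' hxb' hx' hn)
    (m le_rfl le_rfl le_rfl hT hxa hxb hx hT) (m le_rfl le_rfl le_rfl hT hxa' hxb' hx' hT)
    ?_ ?_ ?_ ?_
  · intro i hi
    have h8 : i ≠ 8 := by rintro rfl; exact hi rfl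
    have h9 : i ≠ 9 := by rintro rfl; exact hi h.e89
    fin_cases i <;> first | exact absurd rfl h8 | exact absurd rfl h9 | simp [vv]
  · intro i hi
    have h8 : i ≠ 8 := by rintro rfl; exact hi rfl
    have h9 : i ≠ 9 := by rintro rfl; exact hi h.e89
    fin_cases i <;> first | exact absurd rfl h8 | exact absurd rfl h9 | simp [vv]
  · intro i hi
    rcases h.g8 hi with rfl | rfl | ⟨rfl, hk⟩
    · simp [vv]
    · simp [vv]
    · exact absurd hk hκ1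
  · intro i hi
    rcases h.g8 hi with rfl | rfl | ⟨rfl, hk⟩
    · simp [vv]
    · simp [vv]
    · exact absurd hk hκ1

end TF

/-- **model of one of the two planes**, read off the tangent `lam` -/
structure Mod (L : Set (Fin 11 → ℝ)) (lam : (Fin 11 → ℝ) → ℝ) (τ T : ℝ) (B : Base)
    (G : ℕ → RCfg (Fin 11)) (Leg : Set (Fin 11 → ℝ)) (ν : (Fin 11 → ℝ) → ℝ) (D : ℝ)
    (fa fb : ℕ → ℕ → ℝ) (q R0 : ℝ) : Prop where
  M : M3 B G Leg ν T D fa fb
  ν_eq : ∀ ca cb p xa xb n : ℝ, ν (b6 ca cb p xa xb n) =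
    lam (vv τ T T ca cb p xa xb n) - lam (fun _ => T)
  q0 : 0 < q
  R0p : 0 < R0
  ns : NoStr B G (b6 0 0 0 0 0 0) 5 6 ν q R0
  tw : (τ = 1 ∧ RawTw B G fun n k k' => fb n k' - fb n k) ∨
    (τ = 0 ∧ (∀ n k, fb n k = 0) ∧ RawTw B G fun n k k' => fa n k' - fa n k)

namespace TF

variable {L : Set (Fin 11 → ℝ)} {lam : (Fin 11 → ℝ) → ℝ} {a b : Fin 11 → ℝ} {A : ℝ × ℝ}
  {φ : ℕ → (Fin 11 → ℝ) → ℝ} {r : ℕ → ℝ} {κ τ m : ℝ}
  {T : ℝ} {B : Base} {G : ℕ → RCfg (Fin 11)} {Leg : Set (Fin 11 → ℝ)}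
  {ν : (Fin 11 → ℝ) → ℝ} {D : ℝ} {fa fb : ℕ → ℕ → ℝ} {q R0 : ℝ}
  (h : TF L lam a b A φ r κ τ m) (K : Mod L lam τ T B G Leg ν D fa fb q R0)

include h

theorem win_mem {ca cb p xa xb n : ℝ} (hcb : cb ≤ ca) (hcb0 : 0 ≤ cb) (hp0 : 0 ≤ p) (hp : p ≤ T)
    (hxa : xa ≤ T) (hxb : 0 ≤ xb) (hx : xb ≤ xa) (hn : n ≤ T) :
    vv τ T T ca cb p xa xb n ∈ L :=
  h.vv_mem hcb (by linarith) (by linarith) (by linarith) hx (by linarith) (by linarith)

include K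

/-- splitting of the `C`-group -/
theorem splitC {ca cb p xa xb n : ℝ} (hca : ca ≤ T) (hcb : cb ≤ ca) (hcb0 : 0 ≤ cb) (hp0 : 0 ≤ p)
    (hp : p ≤ T) (hxa : xa ≤ T) (hxb : 0 ≤ xb) (hx : xb ≤ xa) (hn : n ≤ T) :
    ν (b6 0 0 p xa xb n) - ν (b6 ca cb p xa xb n) = ν (b6 0 0 0 0 0 0) - ν (b6 ca cb 0 0 0 0) := by
  have hT := K.M.T0
  rw [K.ν_eq, K.ν_eq, K.ν_eq, K.ν_eq]
  have e := h.grp_eq 5 (h.win_mem (T := T) le_rfl le_rfl hp0 hp hxa hxb hx hn)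
    (h.win_mem (T := T) hcb hcb0 hp0 hp hxa hxb hx hn)
    (h.win_mem (T := T) le_rfl le_rfl le_rfl hT.le hT.le le_rfl le_rfl hT.le)
    (h.win_mem (T := T) hcb hcb0 le_rfl hT.le hT.le le_rfl le_rfl hT.le) ?_ ?_ ?_ ?_
  · linarith
  · intro i hi
    have h8 : i ≠ 5 := by rintro rfl; exact hi rfl
    have h9 : i ≠ 6 := by rintro rfl; exact hi h.e56
    fin_cases i <;> first | exact absurd rfl h8 | exact absurd rfl h9 | simp [vv]
  · intro i hi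
    have h8 : i ≠ 5 := by rintro rfl; exact hi rfl
    have h9 : i ≠ 6 := by rintro rfl; exact hi h.e56
    fin_cases i <;> first | exact absurd rfl h8 | exact absurd rfl h9 | simp [vv]
  · intro i hi
    rcases h.g5 hi with rfl | rfl | rfl | rfl | rfl <;> simp [vv]
  · intro i hi
    rcases h.g5 hi with rfl | rfl | rfl | rfl | rfl <;> simp [vv]

/-- linear loss of `N` -/
theorem splitN {ca cb p xa xb n : ℝ} (hcb : cb ≤ ca) (hcb0 : 0 ≤ cb) (hp0 : 0 ≤ p)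
    (hp : p ≤ T) (hxa : xa ≤ T) (hxb : 0 ≤ xb) (hx : xb ≤ xa) (hn0 : 0 ≤ n) (hn : n ≤ T) :
    ν (b6 ca cb p xa xb 0) - ν (b6 ca cb p xa xb n) = r (gC a b 10) / (1 + κ) * n := by
  have e := h.lossN (z := T) (f := T) hcb (by linarith : p ≤ T + cb) (by linarith) (by linarith)
    hx hn0 (by linarith) (by linarith)
  rw [K.ν_eq, K.ν_eq, ← e]
  ring

/-- the block is full -/
theorem block (hKM : ∀ V : ℝ, Crest.Agent.R138.Tub70.KM32 V) {x : ℝ} (hx : 0 ≤ x) (hxT : x ≤ T) :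
    2 * x ≤ ν (b6 0 0 0 0 0 0) - ν (b6 0 0 0 x x 0) := by
  have hT := K.M.T0
  rcases hx.eq_or_lt with rfl | hx
  · linarith
  refine K.M.block hKM K.q0 K.R0p hx hxT K.ns fun t ht htT => ?_
  have := h.splitC K (ca := t) (cb := t) (p := 0) (xa := x) (xb := x) (n := 0) htT le_rfl ht
    le_rfl hT.le hxT hx.le le_rfl hT.le
  linarith

/-- loss of `X_a` alone -/
theorem full_a (hKM : ∀ V : ℝ, Crest.Agent.R138.Tub70.KM32 V) {x : ℝ} (hx : 0 ≤ x) (hxT : x ≤ T) :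
    x ≤ ν (b6 0 0 0 0 0 0) - ν (b6 0 0 0 x 0 0) := by
  have hT := K.M.T0
  have h1 := h.block K hKM hx hxT
  have h2 := h.sharp1 9 (h.win_mem (T := T) (ca := 0) (cb := 0) (p := 0) (xa := x) (xb := 0)
      (n := 0) le_rfl le_rfl le_rfl hT.le hxT le_rfl hx hT.le)
    (h.win_mem (T := T) (ca := 0) (cb := 0) (p := 0) (xa := x) (xb := x)
      (n := 0) le_rfl le_rfl le_rfl hT.le hxT hx le_rfl hT.le)
    (by intro i hi; fin_cases i <;> first | exact absurd rfl hi | simp [vv])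
    (by simpa [vv] using hx)
  rw [K.ν_eq, K.ν_eq] at h1 ⊢
  have e : (vv τ T T 0 0 0 x x 0 9 - vv τ T T 0 0 0 x 0 0 9 : ℝ) = x := by simp [vv]
  rw [e] at h2
  linarith

/-- loss of `X_b` given `X_a` -/
theorem full_b (hKM : ∀ V : ℝ, Crest.Agent.R138.Tub70.KM32 V) {x : ℝ} (hx : 0 ≤ x) (hxT : x ≤ T) :
    x ≤ ν (b6 0 0 0 x 0 0) - ν (b6 0 0 0 x x 0) := by
  have hT := K.M.T0
  have h1 := h.block K hKM hx hxT
  have h2 := h.sharp1 8 (h.win_mem (T := T) (ca := 0) (cb := 0) (p := 0) (xa := 0) (xb := 0)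
      (n := 0) le_rfl le_rfl le_rfl hT.le hT.le le_rfl le_rfl hT.le)
    (h.win_mem (T := T) (ca := 0) (cb := 0) (p := 0) (xa := x) (xb := 0)
      (n := 0) le_rfl le_rfl le_rfl hT.le hxT le_rfl hx hT.le)
    (by intro i hi; fin_cases i <;> first | exact absurd rfl hi | simp [vv])
    (by simpa [vv] using hx)
  rw [K.ν_eq, K.ν_eq] at h1 ⊢
  have e : (vv τ T T 0 0 0 x 0 0 8 - vv τ T T 0 0 0 0 0 0 8 : ℝ) = x := by simp [vv]
  rw [e] at h2
  linarith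

/-- **`κ ≠ 1`** : `N` is full -/
theorem n_full_ne (hKM : ∀ V : ℝ, Crest.Agent.R138.Tub70.KM32 V) (hκ1 : κ ≠ 1) :
    1 ≤ r (gC a b 10) / (1 + κ) := by
  have hT := K.M.T0
  have hT0 := hT.le
  rcases K.tw with ⟨hτ, htw⟩ | ⟨hτ, hfb, htw⟩
  · have h1 := K.M.shift9 htw hT0 le_rfl
    have h2 := h.full_b K hKM hT0 le_rfl
    have h3 := h.lossX hκ1 (T := T) (ca := T) (cb := T) (p := T) (xa := T) (xb := 0) (xa' := T)
      (xb' := T) (n := T) hT0 le_rfl hT0 hT0 le_rfl le_rfl le_rfl hT0 le_rfl hT0 le_rfl le_rfl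
    have h4 := h.splitN K (ca := T) (cb := T) (p := T) (xa := T) (xb := 0) (n := T) le_rfl hT0 hT0
      le_rfl le_rfl le_rfl hT0 hT0 le_rfl
    rw [h4, K.ν_eq, K.ν_eq] at h1
    rw [K.ν_eq, K.ν_eq] at h2
    have : T * 1 ≤ T * (r (gC a b 10) / (1 + κ)) := by linarith
    exact le_of_mul_le_mul_left this hT
  · have h1 := K.M.shift8 hfb htw hT0 le_rfl
    have h2 := h.full_a K hKM hT0 le_rfl
    have h3 := h.lossX hκ1 (T := T) (ca := T) (cb := 0) (p := T) (xa := 0) (xb := 0) (xa' := T)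
      (xb' := 0) (n := T) hT0 hT0 le_rfl hT0 le_rfl hT0 le_rfl le_rfl le_rfl le_rfl hT0 le_rfl
    have h4 := h.splitN K (ca := T) (cb := 0) (p := T) (xa := 0) (xb := 0) (n := T) hT0 le_rfl hT0
      le_rfl hT0 le_rfl le_rfl hT0 le_rfl
    rw [h4, K.ν_eq, K.ν_eq] at h1
    rw [K.ν_eq, K.ν_eq] at h2
    have : T * 1 ≤ T * (r (gC a b 10) / (1 + κ)) := by linarith
    exact le_of_mul_le_mul_left this hT

/-- splitting of the group `(P, X_a, X_b)`, `κ = 1` -/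
theorem splitX (hκ1 : κ = 1) {ca cb p xa xb : ℝ} (hca : ca ≤ T) (hcb : cb ≤ ca) (hcb0 : 0 ≤ cb)
    (hp0 : 0 ≤ p) (hp : p ≤ T) (hxa : xa ≤ T) (hxb : 0 ≤ xb) (hx : xb ≤ xa) :
    ν (b6 ca cb 0 0 0 0) - ν (b6 ca cb p xa xb 0) =
      ν (b6 0 0 0 0 0 0) - ν (b6 0 0 p xa xb 0) := by
  have hT := K.M.T0
  rw [K.ν_eq, K.ν_eq, K.ν_eq, K.ν_eq]
  have e := h.grp_eq 8 (h.win_mem (T := T) hcb hcb0 le_rfl hT.le hT.le le_rfl le_rfl hT.le)
    (h.win_mem (T := T) hcb hcb0 hp0 hp hxa hxb hx hT.le)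
    (h.win_mem (T := T) le_rfl le_rfl le_rfl hT.le hT.le le_rfl le_rfl hT.le)
    (h.win_mem (T := T) le_rfl le_rfl hp0 hp hxa hxb hx hT.le) ?_ ?_ ?_ ?_
  · linarith
  · intro i hi
    have h7 : i ≠ 7 := by rintro rfl; exact hi (h.e87 hκ1)
    have h8 : i ≠ 8 := by rintro rfl; exact hi rfl
    have h9 : i ≠ 9 := by rintro rfl; exact hi h.e89
    fin_cases i <;> first | exact absurd rfl h7 | exact absurd rfl h8 | exact absurd rfl h9 |
      simp [vv]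
  · intro i hi
    have h7 : i ≠ 7 := by rintro rfl; exact hi (h.e87 hκ1)
    have h8 : i ≠ 8 := by rintro rfl; exact hi rfl
    have h9 : i ≠ 9 := by rintro rfl; exact hi h.e89
    fin_cases i <;> first | exact absurd rfl h7 | exact absurd rfl h8 | exact absurd rfl h9 |
      simp [vv]
  · intro i hi
    rcases h.g8 hi with rfl | rfl | ⟨rfl, -⟩ <;> simp [vv]
  · intro i hi
    rcases h.g8 hi with rfl | rfl | ⟨rfl, -⟩ <;> simp [vv]

/-- **total splitting**, `κ = 1` -/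
theorem split1 (hκ1 : κ = 1) {ca cb p xa xb n : ℝ} (hca : ca ≤ T) (hcb : cb ≤ ca) (hcb0 : 0 ≤ cb)
    (hp0 : 0 ≤ p) (hp : p ≤ T) (hxa : xa ≤ T) (hxb : 0 ≤ xb) (hx : xb ≤ xa) (hn0 : 0 ≤ n)
    (hn : n ≤ T) :
    ν (b6 ca cb p xa xb n) = ν (b6 0 0 0 0 0 0) - r (gC a b 10) / (1 + κ) * n -
      (ν (b6 0 0 0 0 0 0) - ν (b6 0 0 p xa xb 0)) -
      (ν (b6 0 0 0 0 0 0) - ν (b6 ca cb 0 0 0 0)) := by
  have h1 := h.splitX K hκ1 hca hcb hcb0 hp0 hp hxa hxb hx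
  have h2 := h.splitN K hcb hcb0 hp0 hp hxa hxb hx hn0 hn
  linarith

/-- **`κ = 1`, slack `F_b`** : `N` is full -/
theorem n_full_0 (hKM : ∀ V : ℝ, Crest.Agent.R138.Tub70.KM32 V) (hκ1 : κ = 1) (hτ : τ = 0) :
    1 ≤ r (gC a b 10) / (1 + κ) := by
  have hT := K.M.T0
  have hT0 := hT.le
  rcases K.tw with ⟨hτ1, -⟩ | ⟨-, hfb, htw⟩
  · rw [hτ] at hτ1; norm_num at hτ1
  refine K.M.kappa_one hfb htw h.m0
    (fun p x => ν (b6 0 0 0 0 0 0) - ν (b6 0 0 p x 0 0))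
    (fun c => ν (b6 0 0 0 0 0 0) - ν (b6 c 0 0 0 0 0)) ?_ ?_ ?_
  · intro c p x n c0 c1 p0 p1 x0 x1 n0 n1
    exact h.split1 K hκ1 c1 c0 le_rfl p0 p1 x1 le_rfl x0 n0 n1
  · intro t ht htT
    exact h.full_a K hKM ht htT
  · intro t ht htT
    have h1 := h.S1 t ht
    show m * t ≤ ν (b6 0 0 0 0 0 0) - ν (b6 t 0 0 0 0 0)
    rw [K.ν_eq, K.ν_eq]
    have e := h.grp_eq 5
      (h.win_mem (T := T) (ca := 0) (cb := 0) (p := 0) (xa := 0) (xb := 0) (n := 0) le_rfl le_rfl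
        le_rfl hT0 hT0 le_rfl le_rfl hT0)
      (h.win_mem (T := T) (ca := t) (cb := 0) (p := 0) (xa := 0) (xb := 0) (n := 0) ht le_rfl
        le_rfl hT0 hT0 le_rfl le_rfl hT0)
      (d := vv τ 0 0 0 0 0 0 0 0) (d' := vv τ 0 0 t 0 0 0 0 0)
      (h.vv_mem le_rfl (by simp) (by simp) (by simp) le_rfl (by simp) (by simp))
      (h.vv_mem ht (by simp) (by simpa using ht) (by simp) le_rfl (by simp) (by simp))
      ?_ ?_ ?_ ?_
    · have e0 : vv τ 0 0 0 0 0 0 0 0 = 0 := by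
        funext i; fin_cases i <;> simp [vv]
      rw [e0, h.zero] at e
      linarith
    · intro i hi
      have h8 : i ≠ 5 := by rintro rfl; exact hi rfl
      fin_cases i <;> first | exact absurd rfl h8 | simp [vv]
    · intro i hi
      have h8 : i ≠ 5 := by rintro rfl; exact hi rfl
      fin_cases i <;> first | exact absurd rfl h8 | simp [vv]
    · intro i hi
      rcases h.g5 hi with rfl | rfl | rfl | rfl | rfl <;> simp [vv, hτ]
    · intro i hi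
      rcases h.g5 hi with rfl | rfl | rfl | rfl | rfl <;> simp [vv, hτ]

/-- **the F-half** from `N` full -/
theorem fhalf_of (hKM : ∀ V : ℝ, Crest.Agent.R138.Tub70.KM32 V) (hT1 : 1 ≤ T)
    (hN : 1 ≤ r (gC a b 10) / (1 + κ)) : A.1 ≤ -(4 + κ) := by
  have hκ := h.κ0
  have hT := K.M.T0
  have hT0 := hT.le
  have h1 := h.slope_v
  -- the levels
  have c1 : vv τ 1 κ 0 0 0 0 0 0 ∈ L := h.vv_mem le_rfl (by linarith) (by linarith) (by linarith)
    le_rfl (by linarith) (by linarith)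
  have l1 := h.own _ c1 (by
    intro i
    have := h.τ0
    have := mul_nonneg this hκ.le
    fin_cases i <;> simp [vv] <;> linarith)
  have e1 : vv τ 1 κ 0 0 0 0 0 0 0 = 1 := by simp [vv]
  rw [e1] at l1
  -- the block
  have c2 : vv τ 1 κ 0 0 0 1 1 0 ∈ L := h.vv_mem le_rfl (by linarith) (by linarith) (by linarith)
    le_rfl (by linarith) (by linarith)
  have l2 := h.block K hKM (x := 1) zero_le_one hT1
  rw [K.ν_eq, K.ν_eq] at l2
  have e2 := h.grp_eq 8 c1 c2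
    (h.win_mem (T := T) (ca := 0) (cb := 0) (p := 0) (xa := 0) (xb := 0) (n := 0) le_rfl le_rfl
      le_rfl hT0 hT0 le_rfl le_rfl hT0)
    (h.win_mem (T := T) (ca := 0) (cb := 0) (p := 0) (xa := 1) (xb := 1) (n := 0) le_rfl le_rfl
      le_rfl hT0 hT1 zero_le_one le_rfl hT0) (by
    intro i hi
    have h8 : i ≠ 8 := by rintro rfl; exact hi rfl
    have h9 : i ≠ 9 := by rintro rfl; exact hi h.e89
    fin_cases i <;> first | exact absurd rfl h8 | exact absurd rfl h9 | simp [vv]) (by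
    intro i hi
    have h8 : i ≠ 8 := by rintro rfl; exact hi rfl
    have h9 : i ≠ 9 := by rintro rfl; exact hi h.e89
    fin_cases i <;> first | exact absurd rfl h8 | exact absurd rfl h9 | simp [vv]) (by
    intro i hi
    rcases h.g8 hi with rfl | rfl | ⟨rfl, -⟩ <;> simp [vv]) (by
    intro i hi
    rcases h.g8 hi with rfl | rfl | ⟨rfl, -⟩ <;> simp [vv])
  -- `P`
  have c3 : vv τ 1 κ 0 0 κ 1 1 0 ∈ L := h.vv_mem le_rfl (by linarith) (by linarith) (by linarith)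
    le_rfl (by linarith) (by linarith)
  have l3 := h.anti _ c2 _ c3 (vv_le h.τ0 le_rfl le_rfl le_rfl le_rfl hκ.le le_rfl le_rfl le_rfl)
  -- `N`
  have l4 := h.lossN (z := 1) (f := κ) (ca := 0) (cb := 0) (p := κ) (xa := 1) (xb := 1)
    (n := 1 + κ) le_rfl (by linarith) (by linarith) (by linarith) le_rfl (by linarith)
    (by linarith) (by linarith)
  have l5 : 1 * (1 + κ) ≤ r (gC a b 10) / (1 + κ) * (1 + κ) :=
    mul_le_mul_of_nonneg_right hN (by linarith)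
  linarith

end TF

end Crest.Agent.R136.C3f795
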