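import Crest.Agent.R136.NSt4_107
import Crest.Agent.R136.Str6_186
import Crest.Agent.R136.Tb5_628

/-!
# R136: no heavy strips on the planes of the thick table (helper107)

* `StripUp` : rarity of heavy strips up to a fixed width; `gs_small_up`, `wndL_ns'`,
  `wndL_model_ns'` : the glue of parts 3 and 4 under this hypothesis.
* `stripUp_rec` : `Str186.strip_rare` with the record box; `stripUp_row` : at every point of a plane
  through the record line with `a 5 = a 6 = 0`.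
* `row_wndL` : windows with known base points at the point of a `RowPt`.
* `row_model_ns` : **one call**: `RowPt` ⊢ window, model, raw twist, `NoStr`, `AddC`.
-/

set_option autoImplicit false
set_option linter.unusedSectionVars false
set_option linter.unusedVariables false

open Filter Topology

namespace Crest.Agent.R136.NSt107

open Finset Crest.Agent.R138.Ex926 Crest.Agent.R136.Net191 Crest.Agent.R136.Gf356
open Crest.Agent.R136.Qg926 Crest.Agent.R136.Qg4480 Crest.Agent.R136.NetQ186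
open Crest.Agent.R136.Ev356 Crest.Agent.R136.CV366 Crest.Agent.R136.Aw413

/-! ### strips up to a fixed width -/

section generic

variable {m : ℕ} {ι : ℕ → Type*} [∀ n, DecidableEq (ι n)]

/-- classes with a heavy strip of relative width `d ^ y`, `y ≤ Y`, are rare -/
def StripUp (B : Base) (I J : ∀ n, Finset (ι n)) (co : ∀ n, ι n → ι n → Fin m → ℝ)
    (M : Mons m) (C : ℝ) (x : Fin m → ℝ) (cA cB : Fin m) (q Y : ℝ) : Prop :=
  ∀ y : ℝ, 0 < y → y ≤ Y → ∀ δ : ℝ, δ < q * y → ∃ δ' : ℝ, 0 < δ' ∧ ∀ᶠ n in (U : Filter ℕ),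
    ((heavy B I J co M C x cA cB y δ n).card : ℝ) ≤ B.d n ^ δ' * (J n).card

variable {B : Base} {I J : ∀ n, Finset (ι n)} {co : ∀ n, ι n → ι n → Fin m → ℝ}
  {M Ma : Mons m} {C : ℝ} {cA cB : Fin m} {q R0 : ℝ}

theorem StripUp.mono {x : Fin m → ℝ} {Y Y' : ℝ} (h : StripUp B I J co M C x cA cB q Y)
    (hY : Y' ≤ Y) : StripUp B I J co M C x cA cB q Y' :=
  fun y h0 h1 δ hδ => h y h0 (h1.trans hY) δ hδ

/-- the bad incidences of a stage are few -/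
theorem gs_small_up {x : ℕ → Fin m → ℝ} {w : ℕ → ℝ} {l : ℕ} (hw : 0 < w l) (hR0 : 0 < R0)
    (h : StripUp B I J co M C (x l) cA cB q (w l * R0)) (c : ℕ → ℝ) (hc : B.Sub c) :
    ∀ᶠ n in (U : Filter ℕ),
      c n * ((J n \ gs B I J co M C x w cA cB q R0 l n).card : ℝ) ≤ (J n).card := by
  classical
  have key : ∀ᶠ n in (U : Filter ℕ), ∀ j ∈ range (l + 1),
      (((l : ℝ) + 1) * c n) * ((heavy B I J co M C (x l) cA cB
        (w l * (R0 * ((j : ℝ) + 1) / ((l : ℝ) + 1)))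
        (w l * (q * (R0 * ((j : ℝ) + 1) / ((l : ℝ) + 1)) - 1 / ((l : ℝ) + 1))) n).card : ℝ) ≤
        (J n).card := by
    rw [Filter.eventually_all_finset]
    intro j hj
    have hjl : (j : ℝ) + 1 ≤ (l : ℝ) + 1 := by
      have : j + 1 ≤ l + 1 := by have := mem_range.1 hj; omega
      exact_mod_cast this
    have hl0 : (0 : ℝ) < (l : ℝ) + 1 := by positivity
    obtain ⟨δ', hδ', h1⟩ := h (w l * (R0 * ((j : ℝ) + 1) / ((l : ℝ) + 1))) (by positivity)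
      (mul_le_mul_of_nonneg_left (by
        rw [div_le_iff₀ hl0]
        exact mul_le_mul_of_nonneg_left hjl hR0.le) hw.le)
      (w l * (q * (R0 * ((j : ℝ) + 1) / ((l : ℝ) + 1)) - 1 / ((l : ℝ) + 1))) (by
        have : 0 < w l * (1 / ((l : ℝ) + 1)) := by positivity
        nlinarith)
    have hS : B.Sub (fun n => ((l : ℝ) + 1) * c n) :=
      (Base.Sub.const (by positivity)).mul hc
    filter_upwards [h1, hS.ev_le hδ'] with n h2 h3
    have h4 : ((l : ℝ) + 1) * c n ≤ B.d n ^ (-δ') := by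
      rw [← B.exp_eq, ← Real.log_le_iff_le_exp h3.1]
      exact h3.2
    have hJ : (0 : ℝ) ≤ (J n).card := Nat.cast_nonneg _
    calc (((l : ℝ) + 1) * c n) * ((heavy B I J co M C (x l) cA cB
        (w l * (R0 * ((j : ℝ) + 1) / ((l : ℝ) + 1)))
        (w l * (q * (R0 * ((j : ℝ) + 1) / ((l : ℝ) + 1)) - 1 / ((l : ℝ) + 1))) n).card : ℝ)
        ≤ (((l : ℝ) + 1) * c n) * (B.d n ^ δ' * (J n).card) :=
          mul_le_mul_of_nonneg_left h2 h3.1.le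
      _ ≤ B.d n ^ (-δ') * (B.d n ^ δ' * (J n).card) :=
          mul_le_mul_of_nonneg_right h4 (mul_nonneg (Real.rpow_nonneg (B.pos n).le _) hJ)
      _ = (B.d n ^ (-δ') * B.d n ^ δ') * (J n).card := by ring
      _ = (J n).card := by
          rw [← Real.rpow_add (B.pos n), neg_add_cancel, Real.rpow_zero, one_mul]
  have hc1 : ∀ᶠ n in (U : Filter ℕ), 0 < c n := (Base.Sub.iff.1 hc).1
  filter_upwards [key, hc1] with n hn hcn
  have h1 : J n \ gs B I J co M C x w cA cB q R0 l n ⊆ (range (l + 1)).biUnion fun j =>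
      heavy B I J co M C (x l) cA cB (w l * (R0 * ((j : ℝ) + 1) / ((l : ℝ) + 1)))
        (w l * (q * (R0 * ((j : ℝ) + 1) / ((l : ℝ) + 1)) - 1 / ((l : ℝ) + 1))) n := by
    intro i hi
    obtain ⟨h2, h3⟩ := mem_sdiff.1 hi
    unfold gs at h3
    rw [mem_filter, not_and] at h3
    have h4 := h3 h2
    push Not at h4
    obtain ⟨j, hj, hj'⟩ := h4
    exact mem_biUnion.2 ⟨j, hj, hj'⟩
  have h2 : ((J n \ gs B I J co M C x w cA cB q R0 l n).card : ℝ) ≤ ∑ j ∈ range (l + 1),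
      ((heavy B I J co M C (x l) cA cB (w l * (R0 * ((j : ℝ) + 1) / ((l : ℝ) + 1)))
        (w l * (q * (R0 * ((j : ℝ) + 1) / ((l : ℝ) + 1)) - 1 / ((l : ℝ) + 1))) n).card : ℝ) := by
    exact_mod_cast (card_le_card h1).trans card_biUnion_le
  have h3 : (((l : ℝ) + 1) * c n) *
      ((J n \ gs B I J co M C x w cA cB q R0 l n).card : ℝ) ≤ ((l : ℝ) + 1) * (J n).card := by
    calc _ ≤ (((l : ℝ) + 1) * c n) * ∑ j ∈ range (l + 1),
      ((heavy B I J co M C (x l) cA cB (w l * (R0 * ((j : ℝ) + 1) / ((l : ℝ) + 1)))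
        (w l * (q * (R0 * ((j : ℝ) + 1) / ((l : ℝ) + 1)) - 1 / ((l : ℝ) + 1))) n).card : ℝ) :=
          mul_le_mul_of_nonneg_left h2 (by positivity)
      _ = ∑ j ∈ range (l + 1), (((l : ℝ) + 1) * c n) *
      ((heavy B I J co M C (x l) cA cB (w l * (R0 * ((j : ℝ) + 1) / ((l : ℝ) + 1)))
        (w l * (q * (R0 * ((j : ℝ) + 1) / ((l : ℝ) + 1)) - 1 / ((l : ℝ) + 1))) n).card : ℝ) := by
          rw [mul_sum]
      _ ≤ ∑ j ∈ range (l + 1), ((J n).card : ℝ) := sum_le_sum hn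
      _ = ((l : ℝ) + 1) * (J n).card := by
          rw [sum_const, card_range, nsmul_eq_mul]; push_cast; ring
  rw [mul_assoc] at h3
  exact le_of_mul_le_mul_left h3 (by positivity)

/-- **windows without heavy strips** (any offset), strips up to a fixed width -/
theorem wndL_ns' {lam : (Fin m → ℝ) → ℝ} {kz : Fin m} {κ : Fin m → ℝ}
    {V Tw : Fin m → Prop} {y : ℕ → Fin m → ℝ} {w : ℕ → ℝ}
    (hL : WndL B B I J co M Ma C lam kz κ V Tw y w) (hw : ∀ l, 0 < w l)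
    {c0 : Fin m → ℝ} (hc0 : c0 ∈ coneM Ma) (st : WSt m) (hkz : st.kz = kz)
    (hst : st.Ok M {p | c0 + p ∈ coneM Ma}) (s : ℕ → ℕ → ℝ) (hs : ∀ i, B.Sub (s i))
    (E : ∀ n, Finset (ι n)) (Sd : ℕ → ℝ) (hE : ∀ᶠ n in (U : Filter ℕ), E n ⊆ J n)
    (hSd : B.Sub Sd) (hd : ∀ᶠ n in (U : Filter ℕ), ((J n).card : ℝ) ≤ Sd n * (E n).card)
    (hq : 0 ≤ q) (hR0 : 0 < R0)
    (hSR : ∀ᶠ l in atTop, StripUp B I J co M C (y l + w l • c0) cA cB q (w l * R0)) :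
    ∃ k : ℕ → ℕ, Tendsto k U atTop ∧ ∀ k' : ℕ → ℕ, Tendsto k' U atTop →
      (∀ᶠ n in (U : Filter ℕ), k' n ≤ k n) → ∃ W : Wnd m ι,
        WAtO B I co M Ma C lam κ V Tw c0 st W ∧ (∀ i, W.B'.Sub (s i)) ∧
        (W.X = fun n => y (k' n) + w (k' n) • c0) ∧ (W.w = fun n => w (k' n)) ∧ W.J = J ∧
        (∀ᶠ n in (U : Filter ℕ), W.s₀ n ∈ E n ∧ W.s₀ n ∈ W.Cl n) ∧
        NsW W cA cB q R0 ∧
        ((∀ k, V k → c0 k ≤ κ k * c0 st.kz) → (∀ k, V k → k ∈ st.S ∨ st.top k = 0) →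
          ∃ Mx : ℕ → ℝ, ∀ j ∈ st.S, Tw j → 0 < st.top j → c0 j = κ j * c0 st.kz →
            (∃ e : ℝ, 0 < e ∧ c0 + cut st.S st.top (Pi.single j e) ∈ coneM Ma) →
            Qg4480.Tw W {j} (consS Sd s) Mx) := by
  obtain ⟨l0, hl0⟩ := eventually_atTop.1 hSR
  obtain ⟨k, hk, hk2⟩ := hL c0 hc0 st hkz hst s hs E Sd hE hSd hd
    (fun l n => if l0 ≤ l then gs B I J co M C (fun l => y l + w l • c0) w cA cB q R0 l n else J n)
    (fun l c hc => by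
      by_cases hl : l0 ≤ l
      · simp only [if_pos hl]
        exact gs_small_up (x := fun l => y l + w l • c0) (hw l) hR0 (hl0 l hl) c hc
      · simp only [if_neg hl, sdiff_self]
        exact Eventually.of_forall fun n => by
          rw [Finset.bot_eq_empty, card_empty, Nat.cast_zero, mul_zero]
          exact Nat.cast_nonneg _)
  refine ⟨k, hk, fun k' hk' hle => ?_⟩
  obtain ⟨W, h1, h2, h3, h4, h5, h6, h7, h8⟩ := hk2 k' hk' hle
  refine ⟨W, h1, h2, h3, h4, h5, h6, ?_, h8⟩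
  refine nsW_of_gs (B := B) (I := I) (J := J) (co := co) (M := M) (C := C)
    (x := fun l => y l + w l • c0) (w := w) W h1.ok h1.eB h1.eI h1.eco h1.eM h1.eC hk'
    (fun n => by rw [h3]) (fun n => by rw [h1.dw n, h1.eB, h4]) hR0 hq ?_
  filter_upwards [h7, hk'.eventually_ge_atTop l0] with n hn hn0
  simpa only [if_pos hn0] using hn

end generic

section model

variable {ι : ℕ → Type*} [∀ n, DecidableEq (ι n)]
variable {B : Base} {I J : ∀ n, Finset (ι n)} {co : ∀ n, ι n → ι n → Fin 11 → ℝ}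
  {Ma : Mons 11} {C : ℝ} {lam : (Fin 11 → ℝ) → ℝ} {κ : Fin 11 → ℝ}
  {V Tw : Fin 11 → Prop} {f : ∀ n, ι n → Fq4}

/-- **everything in one call, offset `0`**, strips up to a fixed width -/
theorem wndL_model_ns' {kz : Fin 11} {y : ℕ → Fin 11 → ℝ} {w : ℕ → ℝ}
    (hL : WndL B B I J co monQ Ma C lam kz κ V Tw y w) (hw : ∀ l, 0 < w l) (hlam : lam 0 = 0)
    (hco : ∀ n, ∀ i ∈ I n, ∀ j ∈ I n, co n i j = coQ (f n i) (f n j))
    (st : WSt 11) (hkz : st.kz = kz) (hst : st.Ok monQ (coneM Ma))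
    (hS : ∀ s ∈ st.S, s = 0 ∨ s = 2 ∨ s = 3 ∨ s = 4) (h2 : (2 : Fin 11) ∉ st.S)
    (s : ℕ → ℕ → ℝ) (hs : ∀ i, B.Sub (s i))
    {q R0 : ℝ} (hq : 0 ≤ q) (hR0 : 0 < R0) (h5 : R0 ≤ st.top 5) (h6 : R0 ≤ st.top 6)
    (hSR : ∀ᶠ l in atTop, StripUp B I J co monQ C (y l) 5 6 q (w l * R0))
    {σ' R : ℝ} (hden : st.Dens lam σ' R)
    (ex : Wnd 11 ι → ℕ → ∀ n, ι n → ℕ) {g₀ : ℕ → ℝ} (hg₀ : Tendsto g₀ U atTop)
    (hV : ∀ k, V k → k ∈ st.S ∨ st.top k = 0) :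
    ∃ W : Wnd 11 ι, WAt B I co monQ Ma C lam V Tw st W ∧ QWnd W f ∧ (∀ i, W.B'.Sub (s i)) ∧
      W.J = J ∧ NsW W 5 6 q R0 ∧
      ∃ (E' : ∀ n, Finset (ι n)) (g : ℕ → ℝ), Wnd.Pruned W (rich W) E' g (ex W) ∧
      (∀ᶠ n in (U : Filter ℕ), g n ≤ g₀ n) ∧
      RModel W.B' (W.cfg E') σ' R W.legW W.nu W.Dc ∧
      (∀ s ∈ st.S, Tw s → 0 < st.top s →
        (∃ e : ℝ, 0 < e ∧ cut st.S st.top (Pi.single s e) ∈ coneM Ma) → RawL W E' s) ∧
      (∀ p0 : Fin 11 → ℝ, W.nu 0 ≤ W.nu p0 → NoStr W.B' (W.cfg E') p0 5 6 W.nu q R0) ∧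
      (∀ (p0 : Fin 11 → ℝ) (y : ℝ), y ≤ p0 2 → AddC W.B' (W.cfg E') p0 5 6 2 y) ∧
      ∀ᶠ n in (U : Filter ℕ), W.Good n ∧ E' n ⊆ W.Cl n ∧ W.cfg E' n = W.cfg0 n (E' n) := by
  have e : {p : Fin 11 → ℝ | 0 + p ∈ coneM Ma} = coneM Ma := by ext p; simp
  obtain ⟨k, hk, hk2⟩ := wndL_ns' hL hw (c0 := 0) (zero_mem (Ma := Ma)) st hkz
    (by rw [e]; exact hst) s hs J (fun _ => 1) (Eventually.of_forall fun n => Subset.refl _)
    (Base.Sub.const one_pos) (Eventually.of_forall fun n => by rw [one_mul]) hq hR0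
    (cA := 5) (cB := 6) (R0 := R0) (by
      filter_upwards [hSR] with l hl
      rwa [smul_zero, add_zero])
  obtain ⟨W, h1, h3, -, -, h4, -, h7, -⟩ := hk2 k hk (Eventually.of_forall fun n => le_rfl)
  have hA := h1.toWAt hlam
  exact ⟨W, hA, qwnd_of_waT hA hco hS, h3, h4, h7,
    waT_model_ns hA hco hS h2 hq h5 h6 h7 hden (ex W) hg₀ hV⟩

end model

/-! ### the planes of the thick table -/

section thick

open Crest.Agent.R136.NatT550 Crest.Agent.R136.NatR550 Crest.Agent.R136.Wq638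
open Crest.Agent.R136.Lq196 Crest.Agent.R136.Tb628 Crest.Agent.R136.Dg219
open Crest.Agent.R136.Dg262 (X)
open Crest.Agent.R136.Top484 (Par4 Dat4)
open Crest.Agent.R136.GeoQ186 (W0 scl)
open Crest.Agent.R138.Ex926 (Base U QProf IsTan)

variable {η : ℝ} {p : Par4} {D : Dat4} {I1 : ℕ → Finset (ℕ × ℝ)} {π : Equiv.Perm (Fin 3)}
  {eE gA gB : ℕ → ℕ × ℝ → ℝ} {V T : Fin 11 → Prop} {PD : Set (Fin 11 → ℝ)}
  {w0 R T0 cab cby cr cc c₀ : ℝ} {ν own : (Fin 11 → ℝ) → ℝ} {x0 a b : Fin 11 → ℝ}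

/-- the normalised charts of the incidences -/
noncomputable def fQ (D : Dat4) (w0 : ℝ) (π : Equiv.Perm (Fin 3)) (eE gA gB : ℕ → ℕ × ℝ → ℝ)
    (n : ℕ) (i : ℕ × ℝ) : Fq4 :=
  scl (uH D.B D.lev w0 n) (uA D.B D.lev D.w w0 n) (uB D.B D.lev D.w w0 n)
    (uY D.B D.lev D.w w0 n) (incQ π D.L eE gA gB n i)

theorem couQ_fQ (n : ℕ) (i j : ℕ × ℝ) :
    couQ D.B D.lev D.w w0 (incQ π D.L eE gA gB) n i j =
      coQ (fQ D w0 π eE gA gB n i) (fQ D w0 π eE gA gB n j) := rfl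

/-- the record line has exactly the density `D` -/
theorem path_val (h : Thick η p D I1 π eE gA gB V T w0 R T0 PD ν own c₀) {v : ℝ} (h0 : 0 ≤ v)
    (h1 : v < 1) : ν (pathQ p.θ w0 R v) = c₀ + DQ p.g 0 p.q w0 (pathQ p.θ w0 R v) := by
  have hb := h.tp.big
  have e1 := hb.T0
  have e2 := hb.w0T
  have e3 := hb.R0
  have e := rec_eq h (R1 := R) le_rfl (by linarith) h0 h1
  rw [pathQ_nat, e, DQ_DN]

open Classical in
/-- **`Str186.strip_rare` with the record box** -/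
theorem stripUp_rec (h : Thick η p D I1 π eE gA gB V T w0 R T0 PD ν own c₀) (hη : 0 < η)
    {qm : ℝ} (hm1 : qm ≤ p.q 1) (hm2 : qm ≤ p.q 2)
    (hW : W0 D.B D.r0 D.lev D.w cab cby cr cc) {ξ : ℝ} (h0 : 0 ≤ ξ)
    (h1 : ξ < 1) {x : Fin 11 → ℝ} (hx : x ∈ Leg monQ R) (hle : x ≤ pathQ p.θ w0 R ξ)
    (h5 : x 5 = pathQ p.θ w0 R ξ 5) (h6 : x 6 = pathQ p.θ w0 R ξ 6)
    (a1 : (p.θ 2 - p.θ 1) * ξ ≤ cab) (a3 : (1 - p.θ 0) * ξ ≤ cr) (a4 : p.θ 1 * ξ < cc)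
    {Y : ℝ} (hY1 : Y ≤ 1) (hY : Y ≤ (p.θ 2 - p.θ 0) * ξ + cby) :
    StripUp D.B D.I I1 (couQ D.B D.lev D.w w0 (incQ π D.L eE gA gB)) monQ 2 x 5 6 qm Y := by
  intro y hy hyY δ hδ
  have hb := h.tp.big
  have hL := hb.path_leg h0 h1.le
  have b1 := hb.bd h0 h1.le 1
  have b2 := hb.bd h0 h1.le 2
  have e0 := hb.T0
  have e1 := hb.w0T
  have e2 := hb.R0
  have hv := path_val h h0 h1
  obtain ⟨δ', hδ', H⟩ := Crest.Agent.R136.Str186.strip_rare h (q_nonneg h.tp.ok hη) hm1 hm2 hW hx hL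
    hle
    h5 h6 (by simp only [pathQ, Matrix.cons_val]; ring) (by simp only [pathQ, Matrix.cons_val]; ring)
    (by simp only [pathQ, Matrix.cons_val]; linarith)
    (by simp only [pathQ, Matrix.cons_val]; linarith) hy.le
    (by simp only [pathQ, Matrix.cons_val]; linarith)
    (by simp only [pathQ, Matrix.cons_val]; linarith)
    (by simp only [pathQ, Matrix.cons_val]; linarith)
    (by simp only [pathQ, Matrix.cons_val]; linarith)
    (by simp only [pathQ, Matrix.cons_val]; linarith [b1.1])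
    (by simp only [pathQ, Matrix.cons_val]; linarith [b2.1]) (δ := δ)
    (by rw [hv]; linarith)
  refine ⟨δ', hδ', H.mono fun n hn => ?_⟩
  refine le_trans ?_ (hn (I1 n) (Subset.refl _))
  have hsub : heavy D.B D.I I1 (couQ D.B D.lev D.w w0 (incQ π D.L eE gA gB)) monQ 2 x 5 6 y δ n ⊆
      (I1 n).filter fun i => Crest.Agent.R136.Str186.HeavyS (I1 n)
        (couQ D.B D.lev D.w w0 (incQ π D.L eE gA gB) n)
        (nlab D.B D.I (couQ D.B D.lev D.w w0 (incQ π D.L eE gA gB)) monQ 2 n x) (D.B.d n) x y δ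
          i := by
    intro i hi
    unfold heavy at hi
    obtain ⟨hiJ, i1, hi1, f1, b', hb', hc⟩ := mem_filter.1 hi
    refine mem_filter.2 ⟨hiJ, i1, hi1, f1, b', hb', ?_⟩
    simp only [mul_div_assoc]
    convert hc using 4
    unfold cls
    congr!
  convert (Nat.cast_le (α := ℝ)).2 (card_le_card hsub)

/-- record box minus a box of the plane -/
theorem plane_path {θ : Fin 3 → ℝ} (H : PlOk θ w0 R x0 a b) (h1 : 0 < θ 1) (ξ x : ℝ)
    {k : Fin 11} (hk : k ≠ 1) : pathQ θ w0 R ξ k - X x0 a b (pt θ ξ x) k = a k * x := by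
  have e := H.path_sub h1.ne' hk (pt θ ξ x) 0 0
  have e1 : -((pt θ ξ x).2 / θ 1) - 0 / θ 1 = ξ := by
    simp only [pt]; field_simp; ring
  rw [e1, add_zero] at e
  rw [e]; simp only [pt]; ring

theorem plane_le {θ : Fin 3 → ℝ} (H : PlOk θ w0 R x0 a b) (h1 : 0 < θ 1) {ξ x : ℝ} (hx : 0 ≤ x) :
    X x0 a b (pt θ ξ x) ≤ pathQ θ w0 R ξ := by
  intro k
  by_cases hk : k = 1
  · subst hk
    have e1 : X x0 a b (pt θ ξ x) 1 = x0 1 := by simp only [X, H.ra, H.rb]; ring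
    rw [e1]
    exact H.r1.le
  · have e := plane_path H h1 ξ x hk
    have := mul_nonneg (H.a0 k) hx
    linarith

/-- **rarity of heavy strips at every point of a plane through the record line** on which the
velocities `5`, `6` do not depend on `v` -/
theorem stripUp_row (h : Thick η p D I1 π eE gA gB V T w0 R T0 PD ν own c₀) (hη : 0 < η)
    {qm : ℝ} (hm1 : qm ≤ p.q 1) (hm2 : qm ≤ p.q 2) (H : PlOk p.θ w0 R x0 a b) (ha5 : a 5 = 0)
    (ha6 : a 6 = 0)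
    (h20 : p.θ 0 < p.θ 2 ∨ Gap23 D) {ξ x : ℝ} {h' : ℕ → ℝ} {lam : (Fin 11 → ℝ) → ℝ} {A : ℝ × ℝ}
    {φ : ℕ → (Fin 11 → ℝ) → ℝ} {r : ℕ → ℝ}
    (P : RowPt D.B D.I I1 (couQ D.B D.lev D.w w0 (incQ π D.L eE gA gB)) p.θ w0 R ν V T x0 a b
      ξ x h' lam A φ r) :
    ∃ Y : ℝ, 0 < Y ∧ StripUp D.B D.I I1 (couQ D.B D.lev D.w w0 (incQ π D.L eE gA gB)) monQ 2
      (X x0 a b (pt p.θ ξ x)) 5 6 qm Y := by
  have hθ := h.tp.ok.θ1
  have g0 := P.ξ0
  have g1 := P.ξ1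
  have g2 := P.x0'
  have hx : X x0 a b (pt p.θ ξ x) ∈ Leg monQ R := by
    obtain ⟨l, hl⟩ := (P.tan 0 1 one_pos).exists
    have := (hl 0 (zero_mem (Ma := actM monQ x0 a b)) (by simp)).1
    rwa [smul_zero, add_zero] at this
  have e5 := plane_path H hθ ξ x (k := 5) (by decide)
  have e6 := plane_path H hθ ξ x (k := 6) (by decide)
  rw [ha5, zero_mul] at e5
  rw [ha6, zero_mul] at e6
  have key : ∀ u : ℝ, u * ξ ≤ max u 0 := by
    intro u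
    rcases le_total 0 u with hu | hu
    · rw [max_eq_left hu]; nlinarith
    · rw [max_eq_right hu]; nlinarith
  have key2 : ∀ u : ℝ, 0 ≤ u * ξ + max (-u) 0 := by
    intro u
    have := key (-u)
    linarith
  have base : ∀ cby : ℝ, W0 D.B D.r0 D.lev D.w (max (p.θ 2 - p.θ 1) 0) cby (max (1 - p.θ 0) 0)
      (p.θ 1) → 0 < (p.θ 2 - p.θ 0) * ξ + cby →
      ∃ Y : ℝ, 0 < Y ∧ StripUp D.B D.I I1 (couQ D.B D.lev D.w w0 (incQ π D.L eE gA gB)) monQ 2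
        (X x0 a b (pt p.θ ξ x)) 5 6 qm Y := by
    intro cby hW hpos
    exact ⟨min 1 ((p.θ 2 - p.θ 0) * ξ + cby), lt_min one_pos hpos,
      stripUp_rec h hη hm1 hm2 hW (by linarith) (by linarith) hx (plane_le H hθ g2.le) (by linarith)
        (by linarith) (key _) (key _) (by nlinarith) (min_le_left _ _) (min_le_right _ _)⟩
  by_cases hg : Gap23 D
  · obtain ⟨γ, hγ, hW⟩ := Crest.Agent.R136.NatD550.w0_gap h hg
    refine base _ hW ?_
    rcases le_total 0 (p.θ 2 - p.θ 0) with hu | hu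
    · have : 0 ≤ (p.θ 2 - p.θ 0) * ξ := mul_nonneg hu (by linarith)
      have := le_max_right (p.θ 0 - p.θ 2) γ
      linarith
    · rcases hu.eq_or_lt with hu | hu
      · have := le_max_right (p.θ 0 - p.θ 2) γ
        rw [hu, zero_mul, zero_add]; linarith
      · have := le_max_left (p.θ 0 - p.θ 2) γ
        nlinarith
  · have h20' := h20.resolve_right hg
    refine base _ (Crest.Agent.R136.NatD550.w0_base h) ?_
    have : 0 < (p.θ 2 - p.θ 0) * ξ := mul_pos (by linarith) (by linarith)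
    have := le_max_right (p.θ 0 - p.θ 2) 0
    linarith

/-- **windows with known base points at the point of a `RowPt`** -/
theorem row_wndL (h : Thick η p D I1 π eE gA gB V T w0 R T0 PD ν own c₀)
    (H : PlOk p.θ w0 R x0 a b) (ha0 : a 0 = 1) (hb0 : b 0 = 0) (hVb : ∀ k, V k → 0 ≤ b k)
    {ξ x : ℝ} {h' : ℕ → ℝ} {lam : (Fin 11 → ℝ) → ℝ} {A : ℝ × ℝ}
    {φ : ℕ → (Fin 11 → ℝ) → ℝ} {r : ℕ → ℝ}
    (P : RowPt D.B D.I I1 (couQ D.B D.lev D.w w0 (incQ π D.L eE gA gB)) p.θ w0 R ν V T x0 a b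
      ξ x h' lam A φ r) :
    WndL D.B D.B D.I I1 (couQ D.B D.lev D.w w0 (incQ π D.L eE gA gB)) monQ (actM monQ x0 a b) 2
      lam 0 (oS p.θ) (fun k => V k ∧ b k = 0) (fun k => T k ∧ b k = 0)
      (fun _ => X x0 a b (pt p.θ ξ x)) h' := by
  have g0 := P.ξ0
  have g1 := P.ξ1
  have g2 := P.x0'
  have g3 := P.x1
  have hQ := ownP h.tp.slots H h.tp.ok.θ1 ha0 hb0 hVb g2 (by linarith) (by linarith) P.O
  have hV : locV 0 w0 (ownQ p.θ w0 R V) V (X x0 a b (pt p.θ ξ x)) = fun k => V k ∧ b k = 0 := by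
    funext k; exact propext (hQ.loc k).symm
  have hB := bas_plane P.O P.hpos P.h0
  have hOB := ownB_plane P.h0 (fun k hk => ⟨(hQ.sub k hk).1, ((hQ.loc k).1 (hQ.sub k hk).2).1⟩)
    hQ.l0 hQ.l1 hQ.le (fun k hk => ((hQ.loc k).1 (hQ.sub k hk).2).2)
  rw [hV] at hOB
  exact wndL_core (nprof h) hB P.tan hQ.nz
    fun c hc c' hc' hcc hV' hkz hk => drop_tan (ownF h) (ownPath p.θ w0 R V) hOB P.h0 P.hpos
      P.tan hc hc' hcc hV' hkz hk

/-- **one call at a `RowPt`** : window, pruned set of rich pairs, model, raw twist for every tied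
level slot, no heavy strips, additivity -/
theorem row_model_ns (h : Thick η p D I1 π eE gA gB V T w0 R T0 PD ν own c₀) (hη : 0 < η)
    {qm : ℝ} (hm0 : 0 ≤ qm) (hm1 : qm ≤ p.q 1) (hm2 : qm ≤ p.q 2)
    (h20 : p.θ 0 < p.θ 2 ∨ Gap23 D) (H : PlOk p.θ w0 R x0 a b) (ha0 : a 0 = 1) (hb0 : b 0 = 0)
    (ha5 : a 5 = 0) (ha6 : a 6 = 0)
    (hVb : ∀ k, V k → 0 ≤ b k)
    {ξ x : ℝ} {h' : ℕ → ℝ} {lam : (Fin 11 → ℝ) → ℝ} {A : ℝ × ℝ}
    {φ : ℕ → (Fin 11 → ℝ) → ℝ} {r : ℕ → ℝ}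
    (P : RowPt D.B D.I I1 (couQ D.B D.lev D.w w0 (incQ π D.L eE gA gB)) p.θ w0 R ν V T x0 a b
      ξ x h' lam A φ r)
    (st : WSt 11) (hkz : st.kz = 0) (hst : st.Ok monQ (coneM (actM monQ x0 a b)))
    (hS : ∀ s ∈ st.S, s = 0 ∨ s = 2 ∨ s = 3 ∨ s = 4) (h2 : (2 : Fin 11) ∉ st.S)
    (s : ℕ → ℕ → ℝ) (hs : ∀ i, D.B.Sub (s i))
    {R0 : ℝ} (hR0 : 0 < R0) (h5 : R0 ≤ st.top 5) (h6 : R0 ≤ st.top 6)
    {σ' R' : ℝ} (hden : st.Dens lam σ' R')
    (ex : Wnd 11 (fun _ : ℕ => ℕ × ℝ) → ℕ → ∀ n : ℕ, ℕ × ℝ → ℕ) {g₀ : ℕ → ℝ}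
    (hg₀ : Tendsto g₀ U atTop) (hV : ∀ k, V k → b k = 0 → k ∈ st.S ∨ st.top k = 0) :
    ∃ W : Wnd 11 (fun _ : ℕ => ℕ × ℝ),
      WAt D.B D.I (couQ D.B D.lev D.w w0 (incQ π D.L eE gA gB)) monQ (actM monQ x0 a b) 2 lam
        (fun k => V k ∧ b k = 0) (fun k => T k ∧ b k = 0) st W ∧
      QWnd W (fQ D w0 π eE gA gB) ∧ (∀ i, W.B'.Sub (s i)) ∧ W.J = I1 ∧ NsW W 5 6 qm R0 ∧
      ∃ (E' : ∀ n : ℕ, Finset (ℕ × ℝ)) (g : ℕ → ℝ), Wnd.Pruned W (rich W) E' g (ex W) ∧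
      (∀ᶠ n in (U : Filter ℕ), g n ≤ g₀ n) ∧
      RModel W.B' (W.cfg E') σ' R' W.legW W.nu W.Dc ∧
      (∀ s ∈ st.S, (T s ∧ b s = 0) → 0 < st.top s →
        (∃ e : ℝ, 0 < e ∧ cut st.S st.top (Pi.single s e) ∈ coneM (actM monQ x0 a b)) →
        RawL W E' s) ∧
      (∀ p0 : Fin 11 → ℝ, W.nu 0 ≤ W.nu p0 →
        NoStr W.B' (W.cfg E') p0 5 6 W.nu qm R0) ∧
      (∀ (p0 : Fin 11 → ℝ) (y : ℝ), y ≤ p0 2 → AddC W.B' (W.cfg E') p0 5 6 2 y) ∧
      ∀ᶠ n in (U : Filter ℕ), W.Good n ∧ E' n ⊆ W.Cl n ∧ W.cfg E' n = W.cfg0 n (E' n) := by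
  obtain ⟨Y, hY, hSU⟩ := stripUp_row h hη hm1 hm2 H ha5 ha6 h20 P
  have hw : ∀ᶠ l in atTop, h' l * R0 ≤ Y := by
    have : Tendsto (fun l => h' l * R0) atTop (𝓝 0) := by simpa using P.h0.mul_const R0
    exact (this.eventually_lt_const hY).mono fun l hl => hl.le
  exact wndL_model_ns' (row_wndL h H ha0 hb0 hVb P) P.hpos P.aew.zero
    (fun n i _ j _ => couQ_fQ n i j) st hkz hst hS h2 s hs hm0 hR0 h5 h6
    (hw.mono fun l hl => hSU.mono hl) hden ex hg₀ fun k hk => hV k hk.1 hk.2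

end thick

end Crest.Agent.R136.NSt107
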