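import Crest.Agent.R136.C3f_795
import Crest.Agent.R136.C3e_795
import Crest.Agent.R136.C3x_107
import Crest.Agent.R136.C3s_569

/-!
# R136, case (C3): tangent facts and models on the two planes (helper795)

* `aC τ κ`, `bC β`, `xC` : the planes in numbers; `plane_nat`, `plane_F`.
* `Pln` : the cone, the active walls; `stC` : static data; `tf_of_pt : RowPt ⊢ TF`.
* `mod_of_pt : RowPt ⊢ Mod` (107's `row_model_ns`), `T = 1 + κ`.
-/

set_option autoImplicit false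
set_option linter.unusedVariables false
set_option linter.unusedSectionVars false

open Filter Topology Finset

namespace Crest.Agent.R136.C3g795

open Crest.Agent.R138.Ex926 (Base U)
open Crest.Agent.R136.Net191 Crest.Agent.R136.NetQ186 Crest.Agent.R136.Qg926
open Crest.Agent.R136.Gf356 Crest.Agent.R136.Ev356 Crest.Agent.R136.Aw413
open Crest.Agent.R136.NatT550 Crest.Agent.R136.NatR550 Crest.Agent.R136.Lq196
open Crest.Agent.R136.Wq638
open Crest.Agent.R136.Tb628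
open Crest.Agent.R136.Top484 (Par4 Dat4)
open Crest.Agent.R136.Dg219 (gC dhC nC OutS gC_zero gC_eq gset lf)
open Crest.Agent.R136.C3a795 Crest.Agent.R136.C3b795 Crest.Agent.R136.C3c795
open Crest.Agent.R136.C3d795 Crest.Agent.R136.C3f795
open Crest.Agent.R136.NSt107 (row_model_ns)
open Crest.Agent.R136.Fe1355 (RawTw)
open Crest.Agent.R136.CV366 (NoStr)

/-! ### the planes in numbers -/

def aC (τ κ : ℝ) : Fin 11 → ℝ := ![1, 0, 0, τ * κ, κ, 0, 0, κ, 1, 1, 1 + κ]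
def bC (β : ℝ) : Fin 11 → ℝ := ![0, 0, 0, β, 0, 1, 1, 1, 1, 1, 1]
def xC (w0 R : ℝ) : Fin 11 → ℝ :=
  ![w0, R - 1, w0, w0, 2 * w0, w0, 2 * w0, 3 * w0, 2 * w0, 3 * w0, 4 * w0]

theorem s0_eq (w0 R : ℝ) : s0 w0 (R - 1) = xC w0 R := by
  funext i
  fin_cases i <;> simp [s0, nat4, xC]

theorem sA_eq (κ : ℝ) : sA 0 κ = aC 1 κ := by
  funext i
  fin_cases i <;> simp [sA, nL, aC]

theorem sB_eq {θ : Fin 3 → ℝ} {κ : ℝ} (h1 : θ 1 ≠ 0) (h2 : θ 2 = θ 1) (h3 : κ = θ 1 - θ 0) :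
    sB θ 0 κ = bC 0 := by
  have e1 : (θ 2 + 0) / θ 1 = 1 := by rw [add_zero, h2, div_self h1]
  have e2 : (θ 0 + κ) / θ 1 = 1 := by rw [h3, add_sub_cancel, div_self h1]
  unfold sB
  rw [e1, e2]
  funext i
  fin_cases i <;> simp [nL, bC]

theorem fA_eq (κ : ℝ) : fA 0 κ 0 = aC 0 κ := by
  funext i
  by_cases h3 : i = 3
  · subst h3
    rw [fA, Function.update_self]; simp [aC]
  · rw [fA, Function.update_of_ne h3, sA_eq]
    fin_cases i <;> first | exact absurd rfl h3 | simp [aC]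

theorem fB_eq {θ : Fin 3 → ℝ} {κ : ℝ} (h1 : θ 1 ≠ 0) (h2 : θ 2 = θ 1) (h3 : κ = θ 1 - θ 0) :
    fB θ 0 κ 0 = bC ((0 - (θ 2 - θ 0)) / θ 1) := by
  funext i
  by_cases h4 : i = 3
  · subst h4
    rw [fB, Function.update_self]; simp [bC]
  · rw [fB, Function.update_of_ne h4, sB_eq h1 h2 h3]
    fin_cases i <;> first | exact absurd rfl h4 | simp [bC]

theorem slo_C {κ τ β : ℝ} : Slo (aC τ κ) (bC β) κ τ := by
  constructor <;> simp [aC, bC]

/-- the plane and its cone -/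
structure Pln (x0 a b : Fin 11 → ℝ) (w0 R κ τ β : ℝ) : Prop where
  κ0 : 0 < κ
  ex : x0 = xC w0 R
  ea : a = aC τ κ
  eb : b = bC β
  pl : (τ = 1 ∧ coneM (actM monQ x0 a b) = coneN ∧ β = 0) ∨
    (τ = 0 ∧ coneM (actM monQ x0 a b) = coneF)

/-- level slots -/
noncomputable def SC (τ : ℝ) : Finset (Fin 11) := if τ = 1 then {0, 3, 4} else {0, 4}

theorem SC_one : SC 1 = {0, 3, 4} := by unfold SC; rw [if_pos rfl]
theorem SC_zero : SC 0 = {0, 4} := by unfold SC; rw [if_neg (by norm_num)]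

/-- static data -/
noncomputable def stC (τ T : ℝ) (Ma : Mons 11) : WSt 11 where
  S := SC τ
  kz := 0
  top := fun _ => T
  kap := fun s => (4 * cK0 monQ 2) ^ Ab356.wtQ s
  Mw := Ma
  R' := T

variable {x0 a b : Fin 11 → ℝ} {w0 R κ τ β T : ℝ}

/-- membership in the cone by the ten walls -/
theorem mem_cone (P : Pln x0 a b w0 R κ τ β) {c : Fin 11 → ℝ} (h4 : τ = 1 → c 4 ≤ c 2 + c 3)
    (h6 : c 6 ≤ c 2 + c 5) (h7 : c 7 ≤ c 4 + c 5) (h7' : τ = 1 → c 7 ≤ c 3 + c 6)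
    (h8 : c 8 ≤ c 0 + c 5) (h9 : c 9 ≤ c 0 + c 6) (h9' : c 9 ≤ c 2 + c 8)
    (h10 : c 10 ≤ c 0 + c 7) (h10' : c 10 ≤ c 4 + c 8) (h10'' : τ = 1 → c 10 ≤ c 3 + c 9) :
    c ∈ coneM (actM monQ x0 a b) := by
  rcases P.pl with ⟨e, e1, -⟩ | ⟨e, e1⟩
  · rw [e1]
    exact ⟨h4 e, h6, h7, h7' e, h8, h9, h9', h10, h10', h10'' e⟩
  · rw [e1]
    exact ⟨h6, h7, h8, h9, h9', h10, h10'⟩

theorem stC_ok (P : Pln x0 a b w0 R κ τ β) (hT : 0 ≤ T) :
    (stC τ T (actM monQ x0 a b)).Ok monQ (coneM (actM monQ x0 a b)) := by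
  have key : ∀ {c : Fin 11 → ℝ}, (∀ s, 0 ≤ c s) → (∀ s, c s ≤ T) →
      c ∈ coneM (actM monQ x0 a b) → c ∈ Leg (actM monQ x0 a b) T := fun {c} h0 h1 hc =>
    ⟨⟨h0, fun k e he => hc k e he⟩, h1⟩
  refine ⟨hT, leg_cone fun k => Finset.Subset.refl _, ?_, ?_, ?_, ?_, rfl, ?_, ?_⟩
  · show (fun _ => T) ∈ Leg (actM monQ x0 a b) T
    refine key (fun _ => hT) (fun _ => le_rfl) (mem_cone P ?_ ?_ ?_ ?_ ?_ ?_ ?_ ?_ ?_ ?_) <;>
      simp <;> intros <;> linarith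
  · show cut (SC τ) (fun _ => T) 0 ∈ Leg (actM monQ x0 a b) T
    rcases P.pl with ⟨e, -, -⟩ | ⟨e, -⟩
    · subst e
      rw [SC_one]
      refine key (fun s => ?_) (fun s => ?_) (mem_cone P ?_ ?_ ?_ ?_ ?_ ?_ ?_ ?_ ?_ ?_)
      · fin_cases s <;> simp [cut, hT]
      · fin_cases s <;> simp [cut, hT]
      all_goals simp [cut, hT]
    · subst e
      rw [SC_zero]
      refine key (fun s => ?_) (fun s => ?_) (mem_cone P ?_ ?_ ?_ ?_ ?_ ?_ ?_ ?_ ?_ ?_)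
      · fin_cases s <;> simp [cut, hT]
      · fin_cases s <;> simp [cut, hT]
      all_goals simp [cut, hT]
  · show cut (SC τ) 0 (fun _ => T) ∈ Leg (actM monQ x0 a b) T
    rcases P.pl with ⟨e, -, -⟩ | ⟨e, -⟩
    · subst e
      rw [SC_one]
      refine key (fun s => ?_) (fun s => ?_) (mem_cone P ?_ ?_ ?_ ?_ ?_ ?_ ?_ ?_ ?_ ?_)
      · fin_cases s <;> simp [cut, hT]
      · fin_cases s <;> simp [cut, hT]
      all_goals simp [cut, hT]
    · subst e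
      rw [SC_zero]
      refine key (fun s => ?_) (fun s => ?_) (mem_cone P ?_ ?_ ?_ ?_ ?_ ?_ ?_ ?_ ?_ ?_)
      · fin_cases s <;> simp [cut, hT]
      · fin_cases s <;> simp [cut, hT]
      all_goals simp [cut, hT]
  · show (0 : Fin 11) ∈ SC τ
    rcases P.pl with ⟨e, -, -⟩ | ⟨e, -⟩
    · rw [e, SC_one]; decide
    · rw [e, SC_zero]; decide
  · show (actM monQ x0 a b).mon 0 = ∅
    refine Finset.subset_empty.1 fun e he => ?_
    exact (mem_actM.1 he).1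
  · intro s
    show 0 < (4 * cK0 monQ 2) ^ Ab356.wtQ s
    have := cK0_one (M := monQ) (C := 2) (by norm_num)
    positivity

theorem mem_SC (P : Pln x0 a b w0 R κ τ β) (j : Fin 11) : j ∈ SC τ ↔ a j ≠ 0 ∧ b j = 0 := by
  have hκ := P.κ0
  rw [P.ea, P.eb]
  rcases P.pl with ⟨e, -, e2⟩ | ⟨e, -⟩
  · subst e; subst e2
    rw [SC_one]
    fin_cases j <;> simp [aC, bC, hκ.ne']
  · subst e
    rw [SC_zero]
    fin_cases j <;> simp [aC, bC, hκ.ne']

/-! ### active walls -/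

theorem act_of (P : Pln x0 a b w0 R κ τ β) {k i j : Fin 11} (hm : mv i j ∈ monQ.mon k)
    (h1 : xC w0 R k = xC w0 R i + xC w0 R j) (h2 : aC τ κ k = aC τ κ i + aC τ κ j)
    (h3 : bC β k = bC β i + bC β j) : mv i j ∈ (actM monQ x0 a b).mon k := by
  rw [mem_act]
  refine ⟨hm, ?_, ?_, ?_⟩
  · rw [P.ex]; exact h1
  · rw [P.ea]; exact h2
  · rw [P.eb]; exact h3

theorem not_act {k i j : Fin 11} (P : Pln x0 a b w0 R κ τ β)
    (h : aC τ κ k ≠ aC τ κ i + aC τ κ j ∨ bC β k ≠ bC β i + bC β j) :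
    mv i j ∉ (actM monQ x0 a b).mon k := by
  rw [mem_act]
  rintro ⟨-, -, h1, h2⟩
  rw [P.ea] at h1
  rw [P.eb] at h2
  rcases h with h | h
  · exact h h1
  · exact h h2

section wat

variable {ι : ℕ → Type*} [∀ n, DecidableEq (ι n)] {W : Wnd 11 ι} {f : ∀ n, ι n → Fq4}
  {B : Base} {I : ∀ n, Finset (ι n)} {co : ∀ n, ι n → ι n → Fin 11 → ℝ}
  {lam : (Fin 11 → ℝ) → ℝ} {V Tw : Fin 11 → Prop}

/-- **the window of case C3** -/
theorem wc_of_wat (P : Pln x0 a b w0 R κ τ β) (hT : 0 < T)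
    (hW : WAt B I co monQ (actM monQ x0 a b) 2 lam V Tw (stC τ T (actM monQ x0 a b)) W)
    (hQ : QWnd W f) : WC W f (actM monQ x0 a b) T := by
  have hS : W.S = SC τ := hW.eS
  have hκ := P.κ0
  refine
  { qa := QAt.of_wat hW hQ ?_ (fun s => rfl) (not_act P (Or.inr (by simp [bC])))
    kz := hW.ekz
    top := hW.etop
    T0 := hT
    R' := hW.eR
    Mw := hW.eMw
    leg := ?_
    S4 := ?_
    S2 := ?_
    m256 := act_of P (by decide) (by simp [xC]; ring) (by simp [aC]) (by simp [bC])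
    m457 := act_of P (by decide) (by simp [xC]; ring) (by simp [aC]) (by simp [bC])
    m058 := act_of P (by decide) (by simp [xC]; ring) (by simp [aC]) (by simp [bC])
    m069 := act_of P (by decide) (by simp [xC]; ring) (by simp [aC]) (by simp [bC])
    m289 := act_of P (by decide) (by simp [xC]; ring) (by simp [aC]) (by simp [bC])
    m0710 := act_of P (by decide) (by simp [xC]; ring) (by simp [aC]) (by simp [bC])
    m4810 := act_of P (by decide) (by simp [xC]; ring) (by simp [aC]; ring) (by simp [bC])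
    h3 := ?_ }
  · show (0 : Fin 11) ∈ SC τ
    rw [mem_SC P, P.ea, P.eb]; simp [aC, bC]
  · intro c5 c6 c7 c8 c9 c10 h50 h5 h60 h6 h70 h7 h80 h8 h90 h9 h100 h10
    rw [hS]
    rcases P.pl with ⟨e, -, -⟩ | ⟨e, -⟩
    · subst e
      rw [SC_one]
      refine mem_cone P ?_ ?_ ?_ ?_ ?_ ?_ ?_ ?_ ?_ ?_ <;> simp [cut, b6] <;> linarith
    · subst e
      rw [SC_zero]
      refine mem_cone P ?_ ?_ ?_ ?_ ?_ ?_ ?_ ?_ ?_ ?_ <;> simp [cut, b6] <;> linarith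
  · rw [hS, mem_SC P, P.ea, P.eb]; simp [aC, bC, hκ.ne']
  · rw [hS, mem_SC P, P.ea, P.eb]; simp [aC, bC]
  · rcases P.pl with ⟨e, -, e2⟩ | ⟨e, -⟩
    · left
      subst e; subst e2
      refine ⟨?_, act_of P (by decide) (by simp [xC]; ring) (by simp [aC]) (by simp [bC]),
        act_of P (by decide) (by simp [xC]; ring) (by simp [aC]) (by simp [bC]),
        act_of P (by decide) (by simp [xC]; ring) (by simp [aC]; ring) (by simp [bC])⟩
      rw [hS, mem_SC P, P.ea, P.eb]; simp [aC, bC, hκ.ne']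
    · right
      subst e
      refine ⟨?_, not_act P (Or.inl (by simp [aC, hκ.ne'])), not_act P (Or.inl
        (by simp [aC, hκ.ne'])), not_act P (Or.inl (by simp [aC]; linarith))⟩
      rw [hS, mem_SC P, P.ea, P.eb]; simp [aC, bC]

/-- values of the profile -/
theorem nu_of_wat (P : Pln x0 a b w0 R κ τ β)
    (hW : WAt B I co monQ (actM monQ x0 a b) 2 lam V Tw (stC τ T (actM monQ x0 a b)) W)
    (ca cb p xa xb n : ℝ) : W.nu (b6 ca cb p xa xb n) =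
      lam (vv τ T T ca cb p xa xb n) - lam (fun _ => T) := by
  have e1 : W.S = SC τ := hW.eS
  have e2 : W.top = fun _ => T := hW.etop
  unfold Wnd.nu
  rw [hW.elam, e1, e2]
  congr 2
  rcases P.pl with ⟨e, -, -⟩ | ⟨e, -⟩
  · subst e
    rw [SC_one]
    funext i; fin_cases i <;> simp [cut, b6, vv]
  · subst e
    rw [SC_zero]
    funext i; fin_cases i <;> simp [cut, b6, vv]

end wat

/-! ### the facts at a point -/

section pt

variable {η : ℝ} {p : Par4} {D : Dat4} {I1 : ℕ → Finset (ℕ × ℝ)} {π : Equiv.Perm (Fin 3)}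
  {eE gA gB : ℕ → ℕ × ℝ → ℝ} {V T' : Fin 11 → Prop} {PD : Set (Fin 11 → ℝ)} {T0 c₀ : ℝ}
  {ν own : (Fin 11 → ℝ) → ℝ} {ξ x : ℝ} {h' : ℕ → ℝ} {lam : (Fin 11 → ℝ) → ℝ} {A : ℝ × ℝ}
  {φ : ℕ → (Fin 11 → ℝ) → ℝ} {r : ℕ → ℝ} {m : ℝ}

theorem tf_of_pt (P : Pln x0 a b w0 R κ τ β)
    (Pt : RowPt D.B D.I I1 (couQ D.B D.lev D.w w0 (incQ π D.L eE gA gB)) p.θ w0 R ν V T' x0 a b
      ξ x h' lam A φ r) (hm : 0 < m) (hS : RecS p.θ w0 R ν (eCa 1) m) :
    TF (coneM (actM monQ x0 a b)) lam a b A φ r κ τ m where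
  κ0 := P.κ0
  m0 := hm
  sl := by rw [P.ea, P.eb]; exact slo_C
  pl := by
    rcases P.pl with ⟨e, e1, e2⟩ | ⟨e, e1⟩
    · refine Or.inl ⟨e, e1, ?_⟩
      rw [P.eb, e2]; simp [bC]
    · exact Or.inr ⟨e, e1⟩
  out := Pt.aew.out
  zero := Pt.aew.zero
  anti := Pt.aew.anti
  sharp := Pt.aew.sharp
  own := fun c hc h0 => by
    have := Pt.aew.own 0 zero_mem c hc h0 (by simp)
    rw [Pt.aew.zero] at this
    simpa using this
  S1 := fun y hy => by
    have e : vv τ 0 0 y 0 0 0 0 0 = 0 + eCa y := by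
      funext i; fin_cases i <;> simp [vv, eCa]
    have := Pt.S1 (by rw [P.ea]; simp [aC]) (by rw [P.eb]; simp [bC]) hS zero_mem hy (by
      refine mem_cone P ?_ ?_ ?_ ?_ ?_ ?_ ?_ ?_ ?_ ?_ <;> simp [eCa, hy]) (by simp)
    rw [Pt.aew.zero] at this
    rw [e]
    linarith

/-- density of the heights -/
theorem dens_of_pt (P : Pln x0 a b w0 R κ τ β)
    (Pt : RowPt D.B D.I I1 (couQ D.B D.lev D.w w0 (incQ π D.L eE gA gB)) p.θ w0 R ν V T' x0 a b
      ξ x h' lam A φ r) {T : ℝ} (hT : 0 ≤ T) : (stC τ T (actM monQ x0 a b)).Dens lam 1 T := by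
  refine Pt.aew.dens rfl (stC_ok P hT) ?_ zero_le_one le_rfl (le_refl T) ?_
  · intro i j hij hi
    have hi' : i ∈ SC τ := hi
    show j ∈ SC τ
    rw [mem_SC P] at hi' ⊢
    obtain ⟨g1, g2⟩ := grp_par hij
    have g3 : a j ≠ 0 := fun h0 => hi'.1 (g1.2 h0)
    refine ⟨g3, ?_⟩
    have g4 := g2 hi'.1
    rw [hi'.2, zero_mul] at g4
    rcases mul_eq_zero.1 g4.symm with h | h
    · exact h
    · exact absurd h hi'.1
  · intro y hy _
    refine mem_cone P ?_ ?_ ?_ ?_ ?_ ?_ ?_ ?_ ?_ ?_ <;> simp [Pi.single_apply, hy]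

/-- **the model at a point** -/
theorem mod_of_pt (h : Thick η p D I1 π eE gA gB V T' w0 R T0 PD ν own c₀) (hη : 0 < η)
    (h20 : p.θ 0 < p.θ 2) (H : PlOk p.θ w0 R x0 a b) (P : Pln x0 a b w0 R κ τ β)
    (Pt : RowPt D.B D.I I1 (couQ D.B D.lev D.w w0 (incQ π D.L eE gA gB)) p.θ w0 R ν V T' x0 a b
      ξ x h' lam A φ r) (hVb : ∀ k, V k → 0 ≤ b k) (hV : ∀ k, V k → b k = 0 → k ∈ SC τ)
    (hTw : (τ = 1 ∧ T' 3) ∨ (τ = 0 ∧ T' 4)) {T : ℝ} (hT : 0 < T) :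
    ∃ (B' : Base) (G : ℕ → RCfg (Fin 11)) (Leg : Set (Fin 11 → ℝ)) (ν' : (Fin 11 → ℝ) → ℝ)
      (D' : ℝ) (fa fb : ℕ → ℕ → ℝ),
      Mod (coneM (actM monQ x0 a b)) lam τ T B' G Leg ν' D' fa fb (min (p.q 1) (p.q 2)) T := by
  have hqm := min_q_pos h.tp.ok
  have ea := P.ea
  have eb := P.eb
  obtain ⟨W, hW, hQ, -, -, -, E', g, -, -, hR, hL, hns, -, hc⟩ := row_model_ns h hη hqm.le
    (min_le_left _ _) (min_le_right _ _) (Or.inl h20) H (by rw [ea]; simp [aC])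
    (by rw [eb]; simp [bC]) (by rw [ea]; simp [aC]) (by rw [ea]; simp [aC]) hVb Pt
    (stC τ T (actM monQ x0 a b)) rfl (stC_ok P hT.le) (by
      intro s hs
      have hs' : s ∈ SC τ := hs
      rw [mem_SC P, ea, eb] at hs'
      fin_cases s <;> simp [aC, bC] at hs' ⊢) (by
      intro hs
      have hs' : (2 : Fin 11) ∈ SC τ := hs
      rw [mem_SC P, ea, eb] at hs'
      simp [aC] at hs') (fun _ _ => 1) (fun _ => Base.Sub.const one_pos) hT le_rfl le_rfl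
    (dens_of_pt P Pt hT.le) (fun _ _ _ _ => 0) (g₀ := fun n => n)
    (tendsto_natCast_atTop_atTop.mono_left Crest.Agent.R138.Ex926.U_le_atTop) (fun k hk hb =>
      Or.inl (hV k hk hb))
  have w := wc_of_wat P hT hW hQ
  have hc' : HC W E' := hc
  have e0 : b6 0 0 0 0 0 0 = 0 := by
    funext i; fin_cases i <;> simp [b6]
  refine ⟨W.B', shr (W.cfg E') (eW W), LegS W.legW, W.nu, 4 * W.Dc, faW W, fbW W, w.m3 hc' hR,
    nu_of_wat P hW, hqm, hT, ?_, ?_⟩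
  · exact noStr_shr hR.base (w.eb hc') (by simp [b6]) (by simp [b6]) (hns _ (by rw [e0]))
  · rcases hTw with ⟨e, h3⟩ | ⟨e, h4⟩
    · left
      refine ⟨e, ?_⟩
      subst e
      have hS3 : (3 : Fin 11) ∈ SC 1 := by rw [SC_one]; decide
      have h3S : (3 : Fin 11) ∈ W.S := by rw [hW.eS]; exact hS3
      refine w.rawTw_fb hc' h3S (hL 3 hS3 ⟨h3, ?_⟩ hT ⟨T, hT, ?_⟩)
      · rw [mem_SC P] at hS3
        exact hS3.2
      · show cut (SC 1) (fun _ => T) (Pi.single 3 T) ∈ _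
        rw [SC_one]
        refine mem_cone P ?_ ?_ ?_ ?_ ?_ ?_ ?_ ?_ ?_ ?_ <;> simp [cut, Pi.single_apply, hT.le]
    · right
      subst e
      have hS4 : (4 : Fin 11) ∈ SC 0 := by rw [SC_zero]; decide
      have h3S : (3 : Fin 11) ∉ W.S := by
        rw [hW.eS]
        show (3 : Fin 11) ∉ SC 0
        rw [SC_zero]; decide
      refine ⟨rfl, fun n k => by unfold fbW; rw [if_neg h3S], w.rawTw_fa hc' h3S
        (hL 4 hS4 ⟨h4, ?_⟩ hT ⟨T, hT, ?_⟩)⟩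
      · rw [mem_SC P] at hS4
        exact hS4.2
      · show cut (SC 0) (fun _ => T) (Pi.single 4 T) ∈ _
        rw [SC_zero]
        refine mem_cone P ?_ ?_ ?_ ?_ ?_ ?_ ?_ ?_ ?_ ?_ <;> simp [cut, Pi.single_apply, hT.le]

end pt

end Crest.Agent.R136.C3g795
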