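import Crest.Agent.R136.CW5_366
import Crest.Agent.R136.C3c_795

/-!
# R136: `κ = 1`, both slots `31`, `32` tied, `sigma = 1`, over helper795's model `M3` (helper366)

`kappa_one_M3`: `N` decoupled with rate `a`, the velocities `(C_a, C_b)` decoupled and without heavy
strips, `(P, X_a, X_b)` arbitrarily coupled with the block `(X_a, X_b)` full, raw twist of `fb`:
`1 ≤ a`.
-/

set_option autoImplicit false
set_option linter.unusedVariables false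
set_option linter.unusedSectionVars false

open Filter Topology Finset

namespace Crest.Agent.R136.CW366

open Crest.Agent.R138.Ex926 (Base U)
open Crest.Agent.R136.Gf356
open Crest.Agent.R136.CD366
open Crest.Agent.R136.CV366 (NoStr AddC fan_stripK fK unit_le)
open Crest.Agent.R136.C3c795 (M3 b6)
open Crest.Agent.R136.Fe1355 (RawTw)

variable {B : Base} {G : ℕ → RCfg (Fin 11)} {Leg : Set (Fin 11 → ℝ)} {ν : (Fin 11 → ℝ) → ℝ}
  {T D : ℝ} {fa fb : ℕ → ℕ → ℝ} {q R0 a : ℝ} {β : ℝ → ℝ → ℝ → ℝ} {γ : ℝ → ℝ → ℝ}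

theorem bv_b6 (y n p xa xb ca cb : ℝ) : bv y n p xa xb ca cb = b6 ca cb p xa xb n := rfl

theorem b6_5 {c5 c6 c7 c8 c9 c10 : ℝ} : b6 c5 c6 c7 c8 c9 c10 5 = c5 := rfl
theorem b6_6 {c5 c6 c7 c8 c9 c10 : ℝ} : b6 c5 c6 c7 c8 c9 c10 6 = c6 := rfl

theorem b6_off {c5 c6 c7 c8 c9 c10 c5' c6' : ℝ} {s : Fin 11} (h5 : s ≠ 5) (h6 : s ≠ 6) :
    b6 c5 c6 c7 c8 c9 c10 s = b6 c5' c6' c7 c8 c9 c10 s := by
  fin_cases s <;> simp_all [b6]

/-- the numeric data -/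
structure Num (ν : (Fin 11 → ℝ) → ℝ) (T a : ℝ) (β : ℝ → ℝ → ℝ → ℝ) (γ : ℝ → ℝ → ℝ) : Prop where
  nu : ∀ ca cb p xa xb n : ℝ, 0 ≤ cb → cb ≤ ca → ca ≤ T → 0 ≤ p → p ≤ T → 0 ≤ xb → xb ≤ xa →
    xa ≤ T → 0 ≤ n → n ≤ T →
    ν (b6 ca cb p xa xb n) = ν (b6 0 0 0 0 0 0) - a * n - β p xa xb - γ ca cb
  block : ∀ t : ℝ, 0 ≤ t → t ≤ T → 2 * t ≤ ν (b6 0 0 0 0 0 0) - ν (b6 0 0 0 t t 0)
  la : ∀ p xa xa' : ℝ, 0 ≤ p → p ≤ T → 0 ≤ xa → xa ≤ xa' → xa' ≤ T →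
    β p xa' 0 - β p xa 0 ≤ xa' - xa
  lb : ∀ t y : ℝ, 0 ≤ t → t ≤ y → y ≤ T → β 0 y y - β 0 y t ≤ y - t

namespace Num

theorem zero (K : Num ν T a β γ) (hT : 0 ≤ T) : β 0 0 0 + γ 0 0 = 0 := by
  have h0 := K.nu 0 0 0 0 0 0 le_rfl le_rfl hT le_rfl hT le_rfl le_rfl hT le_rfl hT
  linarith

theorem blk (K : Num ν T a β γ) {t : ℝ} (ht : 0 ≤ t) (htT : t ≤ T) :
    2 * t ≤ β 0 t t - β 0 0 0 := by
  have hT : 0 ≤ T := ht.trans htT
  have h := K.block t ht htT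
  have h1 := K.nu 0 0 0 t t 0 le_rfl le_rfl hT le_rfl hT ht le_rfl htT le_rfl hT
  have h2 := K.zero hT
  linarith

/-- monotonicity of `β` in the first slot -/
theorem mono (M : M3 B G Leg ν T D fa fb) (K : Num ν T a β γ) {p xa xb : ℝ} (hp : 0 ≤ p)
    (hpT : p ≤ T) (hb : 0 ≤ xb) (hba : xb ≤ xa) (hx : xa ≤ T) : β 0 xa xb ≤ β p xa xb := by
  have hT := M.T0.le
  have hxa := hb.trans hba
  have h2 := M.H.nu_anti (p := b6 0 0 0 xa xb 0) (p' := b6 0 0 p xa xb 0)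
    (M.leg 0 0 0 xa xb 0 le_rfl hT le_rfl le_rfl le_rfl hT hxa hx hb hba le_rfl hT)
    (M.leg 0 0 p xa xb 0 le_rfl hT le_rfl le_rfl hp hpT hxa hx hb hba le_rfl hT)
    (fun s => bv_mono (y := 0) (y' := 0) le_rfl hp le_rfl le_rfl le_rfl le_rfl s)
  have h3 := K.nu 0 0 0 xa xb 0 le_rfl le_rfl hT le_rfl hT hb hba hx le_rfl hT
  have h4 := K.nu 0 0 p xa xb 0 le_rfl le_rfl hT hp hpT hb hba hx le_rfl hT
  linarith

theorem P (M : M3 B G Leg ν T D fa fb) (K : Num ν T a β γ)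
    (htw : RawTw B G fun n k k' => fb n k' - fb n k) {t : ℝ} (ht : 0 ≤ t) (htT : t ≤ T) :
    (1 - a) * t ≤ β t 0 0 - β 0 0 0 := by
  have hT := M.T0.le
  have key := M.shift9 htw ht htT
  have k1 := K.nu t t t t 0 t ht le_rfl htT ht htT le_rfl ht htT ht htT
  have k2 := K.nu t t t t t t ht le_rfl htT ht htT ht le_rfl htT ht htT
  have k3 := K.nu t t t t 0 0 ht le_rfl htT ht htT le_rfl ht htT le_rfl hT
  have h2 := K.blk ht htT
  have h3 := K.mono M ht htT ht le_rfl htT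
  have h4 := K.la t 0 t ht htT le_rfl ht htT
  linarith

theorem Xb (M : M3 B G Leg ν T D fa fb) (K : Num ν T a β γ) {y t : ℝ} (ht : 0 ≤ t) (hty : t ≤ y)
    (hy : y ≤ T) : t ≤ β t y t - β 0 y 0 := by
  have hT := M.T0.le
  have hy0 : 0 ≤ y := ht.trans hty
  have h1 := K.blk hy0 hy
  have h2 := K.lb t y ht hty hy
  have h3 := K.mono M ht (hty.trans hy) ht hty hy
  have h4 := K.la 0 0 y le_rfl hT le_rfl hy0 hy
  linarith

theorem Xa (K : Num ν T a β γ) {t : ℝ} (ht : 0 ≤ t) (htT : t ≤ T) : t ≤ β 0 t 0 - β 0 0 0 := by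
  have h1 := K.blk ht htT
  have h2 := K.lb 0 t le_rfl ht htT
  linarith

end Num

open Classical in
/-- strips of the fan -/
theorem strip_M3 (M : M3 B G Leg ν T D fa fb) (K : Num ν T a β γ) {Kn Ca : ℝ} (hKn : 0 ≤ Kn)
    (hCa : 0 < Ca) (hadd : AddC B G (b6 0 0 0 0 0 0) 5 6 Ca T)
    (hns : ∀ t : ℝ, 0 < t → t ≤ R0 → ∀ ε : ℝ, 0 < ε → ∀ᶠ n in (U : Filter ℕ),
      ∀ i k, (i, k) ∈ (G n).I → ∀ b : Fin 2 → ℝ, b 0 ^ 2 + b 1 ^ 2 = 1 →
      ((((G n).box (b6 0 0 0 0 0 0) ε i k).filter fun l =>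
        |b 0 * (G n).rel k i l 5 + b 1 * (G n).rel k i l 6| ≤ B.d n ^ (t - ε)).card : ℝ) ≤
        B.d n ^ (-(ν (b6 0 0 0 0 0 0)) + q * t - Kn * ε))
    {y t : ℝ} (ht0 : 0 < t) (htR : t ≤ R0) (hty : t ≤ y) (hy : y ≤ T) :
    ∀ ε : ℝ, 0 < ε → ∀ᶠ n in (U : Filter ℕ),
      ∀ i k, (i, k) ∈ (G n).I → ∀ b : Fin 2 → ℝ, b 0 ^ 2 + b 1 ^ 2 = 1 →
      ((((G n).box (bv y t y y y 0 0) ε i k).filter fun l =>
        |b 0 * (G n).rel k i l 5 + b 1 * (G n).rel k i l 6| ≤ B.d n ^ (t - ε)).card : ℝ) ≤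
        B.d n ^ (-(ν (bv y t y y y 0 0)) + q * t - fK D Ca Kn * ε) := by
  have hT := M.T0.le
  have ht : 0 ≤ t := ht0.le
  have hy0 : 0 ≤ y := ht.trans hty
  have htT : t ≤ T := hty.trans hy
  have LC := M.leg t t 0 0 0 0 ht htT ht le_rfl le_rfl hT le_rfl hT le_rfl le_rfl le_rfl hT
  have LF := M.leg 0 0 y y y t le_rfl hT le_rfl le_rfl hy0 hy hy0 hy hy0 le_rfl ht htT
  have LFC := M.leg t t y y y t ht htT ht le_rfl hy0 hy hy0 hy hy0 le_rfl ht htT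
  have h0C : ∀ s, b6 0 0 0 0 0 0 s ≤ b6 t t 0 0 0 0 s := fun s =>
    bv_mono (y := 0) (y' := 0) le_rfl le_rfl le_rfl le_rfl ht ht s
  have h0F : ∀ s, b6 0 0 0 0 0 0 s ≤ b6 0 0 y y y t s := fun s =>
    bv_mono (y := 0) (y' := 0) ht hy0 hy0 hy0 le_rfl le_rfl s
  have hmax : ∀ s, b6 t t y y y t s ≤ max (b6 t t 0 0 0 0 s) (b6 0 0 y y y t s) := by
    intro s
    by_cases h5 : s = 5
    · subst h5
      rw [b6_5, b6_5]
      exact le_max_left _ _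
    · by_cases h6 : s = 6
      · subst h6
        rw [b6_6, b6_6]
        exact le_max_left _ _
      · exact le_max_of_le_right (le_of_eq (b6_off h5 h6))
  have hprod : ν (b6 0 0 0 0 0 0) - ν (b6 t t 0 0 0 0) ≤
      ν (b6 0 0 y y y t) - ν (b6 t t y y y t) := by
    have g1 := K.nu t t 0 0 0 0 ht le_rfl htT le_rfl hT le_rfl le_rfl hT le_rfl hT
    have g2 := K.nu 0 0 y y y t le_rfl le_rfl hT hy0 hy hy0 le_rfl hy ht htT
    have g3 := K.nu t t y y y t ht le_rfl htT hy0 hy hy0 le_rfl hy ht htT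
    have := K.zero hT
    linarith
  exact fan_stripK M.H.toRUnif M.zero_leg LC LF LFC h0C h0F (by rw [b6_5]) (by rw [b6_6]) hmax
    hCa hKn (hns t ht0 htR) hadd htT hprod

/-- **`κ = 1`, both slots tied** -/
theorem kv_M3 (M : M3 B G Leg ν T D fa fb) (K : Num ν T a β γ) (hq : 0 < q) (hR0 : 0 < R0)
    (hN : NoStr B G (b6 0 0 0 0 0 0) 5 6 ν q R0)
    (htw : RawTw B G fun n k k' => fb n k' - fb n k) (ha1 : a < 1) :
    ∃ c K0 : ℝ, KV B G Leg ν fa fb (min R0 T) 1 a c K0 := by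
  have hD := M.H.D1
  have hD0 : 0 < D := by linarith
  have hT0 := M.T0
  have hT := hT0.le
  obtain ⟨Ca, hCa, hadd⟩ := M.addT (b6 0 0 0 0 0 0) le_rfl
  obtain ⟨Kn, hKn, hns⟩ := hN
  set R1 : ℝ := min R0 T with hR1
  have hR10 : 0 < R1 := lt_min hR0 hT0
  have hR1R : R1 ≤ R0 := min_le_left _ _
  have hR1T : R1 ≤ T := min_le_right _ _
  clear_value R1
  set c : ℝ := min q (1 - a) with hc
  have hc0 : 0 < c := lt_min hq (by linarith)
  have hcq : c ≤ q := min_le_left _ _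
  have hca : c ≤ 1 - a := min_le_right _ _
  clear_value c
  have hfK : 0 ≤ fK D Ca Kn := by unfold fK; positivity
  refine ⟨c, max D (fK D Ca Kn), ⟨hR10, le_rfl, hc0, le_max_of_le_left hD0.le, ?_, M.bd, ?_,
    ?_, ?_, ?_, ?_, ?_⟩⟩
  · intro y n p xa xb ca cb hy0 hy hn0 hn hp0 hp ha0 ha hb0 hb hca0 hca' hcb0 hcb hba hcba
    have hyT := hy.trans hR1T
    exact M.leg ca cb p xa xb n hca0 (hca'.trans hyT) hcb0 hcba hp0 (hp.trans hyT) ha0
      (ha.trans hyT) hb0 hba hn0 (hn.trans hyT)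
  · intro y hy0 hy ε hε
    have hyT := hy.trans hR1T
    filter_upwards [M.ev ε hε, M.loose0 hε] with n hev hlo k₀ k i i' h1 h2 h3 h4 hl
    refine ⟨?_, ?_⟩
    · rw [one_mul]
      exact hlo k i i' h3 h4
    · refine (hev k₀ k i i' h1 h2 h3 h4).e10.trans (rpow_anti B n ?_)
      linarith
  · intro y hy0 hy
    have hyT := hy.trans hR1T
    have h1 := K.nu 0 0 0 0 0 y le_rfl le_rfl hT le_rfl hT le_rfl le_rfl hT hy0 hyT
    have h2 := K.zero hT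
    show ν (b6 0 0 0 0 0 0) - ν (b6 0 0 0 0 0 y) ≤ a * y
    linarith
  · intro y t ht hty hy
    have htT := (hty.trans hy).trans hR1T
    have h0 := K.nu 0 0 t 0 0 t le_rfl le_rfl hT ht htT le_rfl le_rfl hT ht htT
    have h1 := K.P M htw ht htT
    have h2 := K.zero hT
    have h4 : c * t ≤ (1 - a) * t := mul_le_mul_of_nonneg_right hca ht
    show (a + c) * t ≤ ν (b6 0 0 0 0 0 0) - ν (b6 0 0 t 0 0 t)
    linarith
  · intro y t ht hty hy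
    have hy0 : 0 ≤ y := ht.trans hty
    have hyT := hy.trans hR1T
    have htT := hty.trans hyT
    have g1 := K.nu y y 0 y 0 y hy0 le_rfl hyT le_rfl hT le_rfl hy0 hyT hy0 hyT
    have g2 := K.nu y y t y t y hy0 le_rfl hyT ht htT ht hty hyT hy0 hyT
    have h1 := K.Xb M ht hty hyT
    have h4 : c * t ≤ (1 - a) * t := mul_le_mul_of_nonneg_right hca ht
    show (a + c) * t ≤ ν (b6 y y 0 y 0 y) - ν (b6 y y t y t y)
    linarith
  · intro y t ht hty hy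
    have hy0 : 0 ≤ y := ht.trans hty
    have hyT := hy.trans hR1T
    have htT := hty.trans hyT
    have g1 := K.nu y y 0 0 0 y hy0 le_rfl hyT le_rfl hT le_rfl le_rfl hT hy0 hyT
    have g2 := K.nu y y 0 t 0 y hy0 le_rfl hyT le_rfl hT le_rfl ht htT hy0 hyT
    have h1 := K.Xa ht htT
    have h4 : c * t ≤ (1 - a) * t := mul_le_mul_of_nonneg_right hca ht
    show (a + c) * t ≤ ν (b6 y y 0 0 0 y) - ν (b6 y y 0 t 0 y)
    linarith
  · intro y t ht hty hy ε hε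
    have hy0 : 0 ≤ y := ht.trans hty
    have hyT := hy.trans hR1T
    have htT := hty.trans hyT
    have hFL : bv y t y y y 0 0 ∈ Leg :=
      M.leg 0 0 y y y t le_rfl hT le_rfl le_rfl hy0 hyT hy0 hyT hy0 le_rfl ht htT
    have eF : ν (bv y t y y y 0 0) = ν (bv y 0 y y y 0 0) - a * t := by
      have g1 := K.nu 0 0 y y y t le_rfl le_rfl hT hy0 hyT hy0 le_rfl hyT ht htT
      have g2 := K.nu 0 0 y y y 0 le_rfl le_rfl hT hy0 hyT hy0 le_rfl hyT le_rfl hT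
      show ν (b6 0 0 y y y t) = ν (b6 0 0 y y y 0) - a * t
      linarith
    have hct : c * t ≤ q * t := mul_le_mul_of_nonneg_right hcq ht
    rcases ht.eq_or_lt with h0 | ht0
    · filter_upwards [M.H.up _ hFL ε hε] with n hn i k hik b hb
      refine le_trans ?_ ((hn i k hik).trans (rpow_anti B n ?_))
      · exact_mod_cast card_filter_le _ _
      · have h1 : D * ε ≤ max D (fK D Ca Kn) * ε :=
          mul_le_mul_of_nonneg_right (le_max_left _ _) hε.le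
        have h2 : c * t = 0 := by rw [← h0, mul_zero]
        rw [eF]
        linarith
    · filter_upwards [strip_M3 M K hKn hCa hadd hns ht0 ((hty.trans hy).trans hR1R) hty hyT ε hε]
        with n hn i k hik b hb
      refine (hn i k hik b hb).trans (rpow_anti B n ?_)
      have h1 : fK D Ca Kn * ε ≤ max D (fK D Ca Kn) * ε :=
        mul_le_mul_of_nonneg_right (le_max_right _ _) hε.le
      rw [eF]
      linarith

/-- **`κ = 1`, both slots tied**, structure form -/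
theorem kappa_one_num (M : M3 B G Leg ν T D fa fb) (K : Num ν T a β γ) (hq : 0 < q)
    (hR0 : 0 < R0) (hN : NoStr B G (b6 0 0 0 0 0 0) 5 6 ν q R0)
    (htw : RawTw B G fun n k k' => fb n k' - fb n k) : 1 ≤ a := by
  by_contra hcon
  push Not at hcon
  obtain ⟨c, K0, hKV⟩ := kv_M3 M K hq hR0 hN htw hcon
  exact absurd (KVcore M.H hKV (min_le_right _ _)) (not_le.2 hcon)

/-- **`κ = 1`, both slots tied** -/
theorem kappa_one_M3 (M : M3 B G Leg ν T D fa fb) (hq : 0 < q) (hR0 : 0 < R0)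
    (hN : NoStr B G (b6 0 0 0 0 0 0) 5 6 ν q R0)
    (htw : RawTw B G fun n k k' => fb n k' - fb n k) (β : ℝ → ℝ → ℝ → ℝ) (γ : ℝ → ℝ → ℝ)
    (hν : ∀ ca cb p xa xb n : ℝ, 0 ≤ cb → cb ≤ ca → ca ≤ T → 0 ≤ p → p ≤ T → 0 ≤ xb → xb ≤ xa →
      xa ≤ T → 0 ≤ n → n ≤ T →
      ν (b6 ca cb p xa xb n) = ν (b6 0 0 0 0 0 0) - a * n - β p xa xb - γ ca cb)
    (hblock : ∀ t : ℝ, 0 ≤ t → t ≤ T → 2 * t ≤ ν (b6 0 0 0 0 0 0) - ν (b6 0 0 0 t t 0))
    (hla : ∀ p xa xa' : ℝ, 0 ≤ p → p ≤ T → 0 ≤ xa → xa ≤ xa' → xa' ≤ T →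
      β p xa' 0 - β p xa 0 ≤ xa' - xa)
    (hlb : ∀ t y : ℝ, 0 ≤ t → t ≤ y → y ≤ T → β 0 y y - β 0 y t ≤ y - t) : 1 ≤ a :=
  kappa_one_num M ⟨hν, hblock, hla, hlb⟩ hq hR0 hN htw

end Crest.Agent.R136.CW366
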