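import Crest.Agent.R136.C3g_795
import Crest.Agent.R136.CW7_366

/-!
# R136, **case (C3)** (helper795)

* `nFull1` : `κ = 1`, natural plane (366's `kappa_one_M3`).
* `fh3 : FH3 η`, `fh4 : FH4 η`, **`caseC3 : Dead η pC3`**.
-/

set_option autoImplicit false
set_option linter.unusedVariables false
set_option linter.unusedSectionVars false

open Filter Topology Finset

namespace Crest.Agent.R136.C3f795

open Crest.Agent.R138.Ex926 (Base U)
open Crest.Agent.R136.Gf356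
open Crest.Agent.R136.Dg219 (gC dhC nC OutS gC_zero gC_eq gset lf)
open Crest.Agent.R136.C3a795 Crest.Agent.R136.C3b795 Crest.Agent.R136.C3c795
open Crest.Agent.R136.CV366 (NoStr)
open Crest.Agent.R136.Fe1355 (RawTw)

namespace TF

variable {L : Set (Fin 11 → ℝ)} {lam : (Fin 11 → ℝ) → ℝ} {a b : Fin 11 → ℝ} {A : ℝ × ℝ}
  {φ : ℕ → (Fin 11 → ℝ) → ℝ} {r : ℕ → ℝ} {κ τ m : ℝ}
  {T : ℝ} {B : Base} {G : ℕ → RCfg (Fin 11)} {Leg : Set (Fin 11 → ℝ)}
  {ν : (Fin 11 → ℝ) → ℝ} {D : ℝ} {fa fb : ℕ → ℕ → ℝ} {q R0 : ℝ}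
  (h : TF L lam a b A φ r κ τ m) (K : Mod L lam τ T B G Leg ν D fa fb q R0)

include h K

/-- **`κ = 1`, natural plane** : `N` is full -/
theorem nFull1 (hKM : ∀ V : ℝ, Crest.Agent.R138.Tub70.KM32 V) (hκ1 : κ = 1) (hτ : τ = 1) :
    1 ≤ r (gC a b 10) / (1 + κ) := by
  have hT := K.M.T0
  have hT0 := hT.le
  rcases K.tw with ⟨-, htw⟩ | ⟨hτ1, -⟩
  swap
  · rw [hτ] at hτ1; norm_num at hτ1
  refine CW366.kappa_one_M3 K.M K.q0 K.R0p K.ns htw
    (fun p xa xb => ν (b6 0 0 0 0 0 0) - ν (b6 0 0 p xa xb 0))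
    (fun ca cb => ν (b6 0 0 0 0 0 0) - ν (b6 ca cb 0 0 0 0)) ?_ ?_ ?_ ?_
  · intro ca cb p xa xb n h1 h2 h3 h4 h5 h6 h7 h8 h9 h10
    exact h.split1 K hκ1 h3 h2 h1 h4 h5 h8 h6 h7 h9 h10
  · intro t ht htT
    exact h.block K hKM ht htT
  · intro p xa xa' hp0 hp h0 h1 h2
    have e := h.sharp1 8 (h.win_mem (T := T) (ca := 0) (cb := 0) (p := p) (xa := xa) (xb := 0)
        (n := 0) le_rfl le_rfl hp0 hp (h1.trans h2) le_rfl h0 hT0)
      (h.win_mem (T := T) (ca := 0) (cb := 0) (p := p) (xa := xa') (xb := 0)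
        (n := 0) le_rfl le_rfl hp0 hp h2 le_rfl (h0.trans h1) hT0)
      (by intro i hi; fin_cases i <;> first | exact absurd rfl hi | simp [vv])
      (by simpa [vv] using h1)
    have e' : (vv τ T T 0 0 p xa' 0 0 8 - vv τ T T 0 0 p xa 0 0 8 : ℝ) = xa' - xa := by simp [vv]
    rw [e'] at e
    rw [K.ν_eq 0 0 p xa' 0 0, K.ν_eq 0 0 p xa 0 0]
    linarith
  · intro t y h0 h1 h2
    have e := h.sharp1 9 (h.win_mem (T := T) (ca := 0) (cb := 0) (p := 0) (xa := y) (xb := t)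
        (n := 0) le_rfl le_rfl le_rfl hT0 h2 h0 h1 hT0)
      (h.win_mem (T := T) (ca := 0) (cb := 0) (p := 0) (xa := y) (xb := y)
        (n := 0) le_rfl le_rfl le_rfl hT0 h2 (h0.trans h1) le_rfl hT0)
      (by intro i hi; fin_cases i <;> first | exact absurd rfl hi | simp [vv])
      (by simpa [vv] using h1)
    have e' : (vv τ T T 0 0 0 y y 0 9 - vv τ T T 0 0 0 y t 0 9 : ℝ) = y - t := by simp [vv]
    rw [e'] at e
    rw [K.ν_eq 0 0 0 y y 0, K.ν_eq 0 0 0 y t 0]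
    linarith

/-- **the F-half** -/
theorem fhalfAll (hKM : ∀ V : ℝ, Crest.Agent.R138.Tub70.KM32 V) (hT1 : 1 ≤ T) :
    A.1 ≤ -(4 + κ) := by
  refine h.fhalf_of K hKM hT1 ?_
  by_cases hκ : κ = 1
  · rcases K.tw with ⟨e, -⟩ | ⟨e, -⟩
    · exact h.nFull1 K hKM hκ e
    · exact h.n_full_0 K hKM hκ e
  · exact h.n_full_ne K hKM hκ

end TF

end Crest.Agent.R136.C3f795

namespace Crest.Agent.R136.C3h795

open Crest.Agent.R136.Net191 Crest.Agent.R136.NetQ186 Crest.Agent.R136.Qg926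
open Crest.Agent.R136.Gf356 Crest.Agent.R136.Aw413
open Crest.Agent.R136.NatT550 Crest.Agent.R136.NatR550 Crest.Agent.R136.Lq196
open Crest.Agent.R136.Wq638
open Crest.Agent.R136.Tb628
open Crest.Agent.R136.TopB550
open Crest.Agent.R136.C3f795 Crest.Agent.R136.C3g795 Crest.Agent.R136.C3s569

/-- **F-half, natural plane** -/
theorem fh3 {η : ℝ} (hKM : ∀ V : ℝ, Crest.Agent.R138.Tub70.KM32 V) : FH3 η := by
  intro p D I1 π eE gA gB V T w0 R T0 PD ν own c₀ κ3 h h2 h3 h12 hκ hκ0 hS1 hS2 hcone ξ x h' lam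
    A φ r P hom aew
  have ok := h.tp.ok
  have sl := h.tp.slots
  have h1 := ok.θ1.ne'
  have hpl : Pln (s0 w0 (R - 1)) (sA 0 κ3) (sB p.θ 0 κ3) w0 R κ3 1 0 :=
    ⟨hκ0, s0_eq w0 R, sA_eq κ3, sB_eq h1 h12 hκ, Or.inl ⟨rfl, hcone, rfl⟩⟩
  have tf := tf_of_pt hpl P (min_q_pos ok) hS1
  obtain ⟨B', G, Leg, ν', D', fa, fb, K⟩ := mod_of_pt h ok.η_pos (by rw [h12]; linarith)
    (plOk_srf h1 le_rfl hκ0.le) hpl P
    (by
      intro k hk
      rw [sB_eq h1 h12 hκ]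
      rcases (sl.vis k hk).1 with rfl | rfl | rfl <;> simp [bC])
    (by
      intro k hk _
      rw [SC_one]
      rcases (sl.vis k hk).1 with rfl | rfl | rfl
      · exact absurd hk h2
      · decide
      · decide)
    (Or.inl ⟨rfl, (tied_iff sl h2 3).2 h3⟩) zero_lt_one
  exact tf.fhalfAll K hKM le_rfl

/-- **F-half, plane with slack `F_b`** -/
theorem fh4 {η : ℝ} (hKM : ∀ V : ℝ, Crest.Agent.R138.Tub70.KM32 V) : FH4 η := by
  intro p D I1 π eE gA gB V T w0 R T0 PD ν own c₀ κ3 h h2 h3 h4 h12 hκ hκ0 hS1 hS2 hcone ξ x h'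
    lam A φ r P hom aew
  have ok := h.tp.ok
  have sl := h.tp.slots
  have h1 := ok.θ1.ne'
  have hpl : Pln (s0 w0 (R - 1)) (fA 0 κ3 0) (fB p.θ 0 κ3 0) w0 R κ3 0
      ((0 - (p.θ 2 - p.θ 0)) / p.θ 1) :=
    ⟨hκ0, s0_eq w0 R, fA_eq κ3, fB_eq h1 h12 hκ, Or.inr ⟨rfl, hcone⟩⟩
  have tf := tf_of_pt hpl P (min_q_pos ok) hS1
  obtain ⟨B', G, Leg, ν', D', fa, fb, K⟩ := mod_of_pt h ok.η_pos (by rw [h12]; linarith)
    (plOk_F h1 le_rfl hκ0.le le_rfl) hpl P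
    (by
      intro k hk
      rw [fB_eq h1 h12 hκ]
      rcases (sl.vis k hk).1 with rfl | rfl | rfl
      · exact absurd hk h2
      · exact absurd hk h3
      · simp [bC])
    (by
      intro k hk _
      rw [SC_zero]
      rcases (sl.vis k hk).1 with rfl | rfl | rfl
      · exact absurd hk h2
      · exact absurd hk h3
      · decide)
    (Or.inr ⟨rfl, (tied_iff sl h2 4).2 h4⟩) zero_lt_one
  exact tf.fhalfAll K hKM le_rfl

/-- **T.C3** -/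
theorem caseC3 {η : ℝ} (hη1 : η ≤ 1 / 8) (hKM : ∀ V : ℝ, Crest.Agent.R138.Tub70.KM32 V) :
    Dead η pC3 :=
  caseC3_of hη1 (fh3 hKM) (fh4 hKM)

end Crest.Agent.R136.C3h795
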