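import Crest.Agent.R136.CV0_366

/-!
# R136: Kaufman on a heavy set of heights, near counts as hypothesis (helper366)
-/

set_option autoImplicit false
set_option linter.unusedVariables false
set_option linter.unusedSectionVars false

open Filter Topology Finset

namespace Crest.Agent.R136.CV366

open Crest.Agent.R138.Ex926 (Base U)
open Crest.Agent.R138.TwA501 (energy pair_sum_le)
open Crest.Agent.R136.Gf356
open Crest.Agent.R136.CD366

variable {κ : Type} {B : Base} {G : ℕ → RCfg κ} {Leg : Set (κ → ℝ)} {ν : (κ → ℝ) → ℝ}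
  {σ R D : ℝ}

open Classical in
/-- **Kaufman on a heavy set of heights**, fixed losses -/
theorem kauf_box_S (H : RModel B G σ R Leg ν D) (pS pT r : κ → ℝ) (hpS : pS ∈ Leg)
    (hpT : pT ∈ Leg) (hr : r ∈ Leg) (hTr : ∀ j, pT j ≤ r j) (J : ℕ) (x b : ℕ → ℝ)
    (π : ℕ → ℝ) (hbJ : b J = 0) {CT CN Cb CD ε : ℝ}
    (hCT : 0 < CT) (hCN : 0 < CN) (hCb : 0 ≤ Cb) (hε : 0 < ε)
    (Dist : ℕ → ℕ → ℕ → ℕ → ℝ)
    (Hy : ∀ᶠ n in (U : Filter ℕ), ∃ Z' ⊆ (G n).Z, Z'.Nonempty ∧ ∀ k₀ ∈ Z', ∃ K ⊆ Z',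
      (((Z' \ K).card : ℝ) ≤ B.d n ^ ((D + 5) * ε) * Z'.card) ∧
      ∀ i₀ ∈ (G n).slice k₀,
        (∀ i ∈ (G n).box pS ε i₀ k₀, ∀ i' ∈ (G n).box pS ε i₀ k₀,
          Dist n k₀ i i' ≤ B.d n ^ (x 0 - CD * ε)) ∧
        (∀ j ≤ J, ∀ i ∈ (G n).box pS ε i₀ k₀, ((((G n).box pS ε i₀ k₀).filter fun i' =>
          Dist n k₀ i i' ≤ B.d n ^ (x j - CD * ε)).card : ℝ) ≤ B.d n ^ (-π j - CN * ε)) ∧
        (∀ k ∈ K, ∀ i ∈ (G n).box pS ε i₀ k₀, ∀ i' ∈ (G n).box pS ε i₀ k₀,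
          (i, k) ∈ (G n).I → (i', k) ∈ (G n).I → (G n).loose pT (CT * ε) k i i') ∧
        (∀ j < J, ∀ i ∈ (G n).box pS ε i₀ k₀, ∀ i' ∈ (G n).box pS ε i₀ k₀,
          B.d n ^ (x (j + 1) - CD * ε) < Dist n k₀ i i' →
          ((K.filter fun k => (i, k) ∈ (G n).I ∧ (i', k) ∈ (G n).I ∧
            (G n).loose r (D ^ 5 * (CT * ε)) k i i').card : ℝ) ≤
              B.d n ^ (b j - Cb * ε) * Z'.card)) :
    ∃ j ≤ J, (ν pS - π j) + b j ≤ (ν pT - ν r) +
      ((D ^ 2 + 1) * CT + CN + Cb + 2 * D + 12) * ε := by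
  have hD := H.D1
  have hD0 : 0 < D := by linarith
  by_contra hcon
  push Not at hcon
  have hCTε : 0 < CT * ε := by positivity
  suffices hfalse : ∀ᶠ n in (U : Filter ℕ), False by
    obtain ⟨n, hn⟩ := hfalse.exists
    exact hn
  filter_upwards [Hy, pick_R H pS hpS hε, H.low pS hpS ε hε,
    H.exists_lab_loose pT r hpT hr hTr hCTε, ev_small B hε 2,
    ev_small B hε ((J : ℝ) + 2)] with n hH hpick hlow hcell hc2 hcJ
  have hpow : ∀ t : ℝ, 0 < B.d n ^ t := fun t => rpos B n t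
  obtain ⟨Z', hZ', hne, hH⟩ := hH
  obtain ⟨k₀, hk₀, i₀, hi₀, hinc⟩ := hpick Z' hZ' hne
  obtain ⟨K, hKZ, hbad, hH⟩ := hH k₀ hk₀
  obtain ⟨hD1, hnear, hinT, hhts⟩ := hH i₀ hi₀
  have hI0 := H.memSlice.1 hi₀
  have hSne : ((G n).box pS ε i₀ k₀).Nonempty := ⟨i₀, H.self_mem_box pS ε hI0⟩
  have hSlow := hlow i₀ k₀ hI0
  set S := (G n).box pS ε i₀ k₀ with hS
  have hSI : ∀ i ∈ S, (i, k₀) ∈ (G n).I := fun i hi => H.memSlice.1 (RCfg.box_subset_slice hi)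
  have hSc : (0 : ℝ) < S.card := by exact_mod_cast card_pos.2 hSne
  have hZc : (0 : ℝ) < Z'.card := by exact_mod_cast card_pos.2 hne
  -- incidences over `K`
  have hK1 : B.d n ^ ((D + 5) * ε) * ((S.card : ℝ) * Z'.card) ≤
      ∑ k ∈ K, ((S ∩ (G n).slice k).card : ℝ) := by
    have h1 : ∑ k ∈ Z', ((S ∩ (G n).slice k).card : ℝ) =
        ∑ k ∈ Z' \ K, ((S ∩ (G n).slice k).card : ℝ) + ∑ k ∈ K, ((S ∩ (G n).slice k).card : ℝ) :=
      (sum_sdiff hKZ).symm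
    have h2 : ∑ k ∈ Z' \ K, ((S ∩ (G n).slice k).card : ℝ) ≤ (Z' \ K).card * S.card := by
      rw [← nsmul_eq_mul, ← sum_const]
      refine sum_le_sum fun k _ => ?_
      exact_mod_cast card_le_card inter_subset_left
    have h3 : ((Z' \ K).card : ℝ) * S.card ≤ B.d n ^ ((D + 5) * ε) * Z'.card * S.card :=
      mul_le_mul_of_nonneg_right hbad hSc.le
    have e1 : B.d n ^ ((D + 5) * ε) = B.d n ^ ((D + 4) * ε) * B.d n ^ ε := by
      rw [← rpow_add']; congr 1; ring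
    have h4 : 2 * B.d n ^ ((D + 5) * ε) * ((S.card : ℝ) * Z'.card) ≤
        B.d n ^ ((D + 4) * ε) * ((S.card : ℝ) * Z'.card) := by
      refine mul_le_mul_of_nonneg_right ?_ (by positivity)
      rw [e1]
      have := hpow ((D + 4) * ε)
      calc 2 * (B.d n ^ ((D + 4) * ε) * B.d n ^ ε) = B.d n ^ ((D + 4) * ε) * (2 * B.d n ^ ε) := by
            ring
        _ ≤ B.d n ^ ((D + 4) * ε) * 1 := mul_le_mul_of_nonneg_left hc2 this.le
        _ = _ := mul_one _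
    have h5 : B.d n ^ ((D + 4) * ε) * ((S.card : ℝ) * Z'.card) ≤
        ∑ k ∈ Z', ((S ∩ (G n).slice k).card : ℝ) := hinc
    have h6 : B.d n ^ ((D + 5) * ε) * Z'.card * S.card =
        B.d n ^ ((D + 5) * ε) * ((S.card : ℝ) * Z'.card) := by ring
    have h7 : 2 * B.d n ^ ((D + 5) * ε) * ((S.card : ℝ) * Z'.card) =
      2 * (B.d n ^ ((D + 5) * ε) * ((S.card : ℝ) * Z'.card)) := by ring
    linarith
  -- labels
  have hlab : ∀ k ∈ K, ∃ lab : ℕ → ℕ, (∀ t ∈ S ∩ (G n).slice k, ∀ t' ∈ S ∩ (G n).slice k,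
      lab t = lab t' → (G n).loose r (D ^ 5 * (CT * ε)) k t t') ∧
      (((S ∩ (G n).slice k).image lab).card : ℝ) ≤
        B.d n ^ (-(ν pT - ν r) - (D ^ 2 + 1) * (CT * ε)) := by
    intro k hk
    refine hcell k (S ∩ (G n).slice k) inter_subset_right ?_
    intro i hi i' hi'
    rw [mem_inter] at hi hi'
    exact hinT k hk i hi.1 i' hi'.1 (H.memSlice.1 hi.2) (H.memSlice.1 hi'.2)
  choose! lab hlab1 hlab2 using hlab
  set M : ℝ := B.d n ^ (-(ν pT - ν r) - (D ^ 2 + 1) * (CT * ε)) with hM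
  have hen := energy (S := S) (K := K) (fun k => S ∩ (G n).slice k)
    (fun k _ => inter_subset_left) (fun k i => ((lab k i : ℕ) : ℤ))
    (fun k i i' => (i, k) ∈ (G n).I ∧ (i', k) ∈ (G n).I ∧
      (G n).loose r (D ^ 5 * (CT * ε)) k i i') M (by
      intro k hk i hi i' hi' hl
      have hl' : lab k i = lab k i' := by exact_mod_cast hl
      exact ⟨H.memSlice.1 (mem_inter.1 hi).2, H.memSlice.1 (mem_inter.1 hi').2,
        hlab1 k hk i hi i' hi' hl'⟩) (by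
      intro k hk
      refine le_trans ?_ (hlab2 k hk)
      have e1 : ((S ∩ (G n).slice k).image fun i => ((lab k i : ℕ) : ℤ)) =
          ((S ∩ (G n).slice k).image (lab k)).image (fun m : ℕ => (m : ℤ)) := by
        rw [Finset.image_image]; rfl
      rw [e1]
      exact_mod_cast card_image_le)
  set h : ℕ → ℕ → ℝ := fun i i' => ((K.filter fun k => (i, k) ∈ (G n).I ∧ (i', k) ∈ (G n).I ∧
      (G n).loose r (D ^ 5 * (CT * ε)) k i i').card : ℝ) with hh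
  set bb : ℕ → ℝ := fun j => (if j < J then B.d n ^ (b j - Cb * ε) else 1) * Z'.card with hbb
  set aa : ℕ → ℝ := fun j => B.d n ^ (ν pS - π j - (CN + 1) * ε) * S.card with haa
  have hpair := pair_sum_le (S := S) h (Dist n k₀) (fun j => B.d n ^ (x j - CD * ε)) bb J
    (by
      intro j _
      simp only [hbb]
      split_ifs
      · exact (mul_pos (hpow _) hZc).le
      · positivity)
    hD1
    (by
      intro j hj i hi i' hi' hd
      simp only [hbb, if_pos hj]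
      exact hhts j hj i hi i' hi' hd)
    (by
      intro i hi i' hi'
      simp only [hbb, lt_irrefl, if_false, one_mul, hh]
      exact_mod_cast (card_filter_le _ _).trans (card_le_card hKZ))
    aa (by
      intro j hj i hi
      have h2 := hnear j hj i hi
      refine h2.trans ?_
      have e1 : B.d n ^ (-π j - CN * ε) =
          B.d n ^ (ν pS - π j - (CN + 1) * ε) * B.d n ^ (-ν pS + ε) := by
        rw [← rpow_add']; congr 1; ring
      rw [e1]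
      exact mul_le_mul_of_nonneg_left hSlow (hpow _).le)
  -- combine
  set E : ℝ := ((D ^ 2 + 1) * CT + CN + Cb + 2 * D + 12) * ε with hE
  have hterm : ∀ j ∈ range (J + 1), aa j * bb j ≤
      B.d n ^ (ν pT - ν r + E - (CN + 1) * ε - Cb * ε) * (S.card * Z'.card) := by
    intro j hj
    have hjJ : j ≤ J := by simpa [Nat.lt_succ_iff] using hj
    have h1 := hcon j hjJ
    have hSZ : (0 : ℝ) ≤ S.card * Z'.card := by positivity
    simp only [haa, hbb]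
    by_cases hj1 : j < J
    · rw [if_pos hj1]
      have e1 : B.d n ^ (ν pS - π j - (CN + 1) * ε) * (S.card : ℝ) *
          (B.d n ^ (b j - Cb * ε) * Z'.card) =
          B.d n ^ (ν pS - π j + b j - (CN + 1) * ε - Cb * ε) * (S.card * Z'.card) := by
        have : ν pS - π j + b j - (CN + 1) * ε - Cb * ε =
          (ν pS - π j - (CN + 1) * ε) + (b j - Cb * ε) := by ring
        rw [this, rpow_add']; ring
      rw [e1]
      exact mul_le_mul_of_nonneg_right (rpow_anti B n (by linarith)) hSZ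
    · have hj2 : j = J := by omega
      subst hj2
      rw [if_neg hj1, one_mul]
      rw [hbJ, add_zero] at h1
      have e1 : B.d n ^ (ν pS - π j - (CN + 1) * ε) * (S.card : ℝ) * (Z'.card : ℝ) =
          B.d n ^ (ν pS - π j - (CN + 1) * ε) * (S.card * Z'.card) := by ring
      rw [e1]
      refine mul_le_mul_of_nonneg_right (rpow_anti B n ?_) hSZ
      have : 0 ≤ Cb * ε := by positivity
      linarith
  have hsum : ∑ j ∈ range (J + 1), aa j * bb j ≤ ((J : ℝ) + 1) *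
      (B.d n ^ (ν pT - ν r + E - (CN + 1) * ε - Cb * ε) * (S.card * Z'.card)) := by
    refine (sum_le_sum hterm).trans (le_of_eq ?_)
    rw [sum_const, card_range, nsmul_eq_mul]
    push_cast
    ring
  have hfinal : (B.d n ^ ((D + 5) * ε) * ((S.card : ℝ) * Z'.card)) ^ 2 ≤
      (Z'.card : ℝ) * (M * (S.card * (((J : ℝ) + 1) *
      (B.d n ^ (ν pT - ν r + E - (CN + 1) * ε - Cb * ε) * (S.card * Z'.card))))) := by
    have h4 : (B.d n ^ ((D + 5) * ε) * ((S.card : ℝ) * Z'.card)) ^ 2 ≤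
        (∑ k ∈ K, ((S ∩ (G n).slice k).card : ℝ)) ^ 2 := by
      refine pow_le_pow_left₀ ?_ hK1 2
      have := hpow ((D + 5) * ε)
      positivity
    refine h4.trans (hen.trans ?_)
    have hKc : (K.card : ℝ) ≤ Z'.card := by exact_mod_cast card_le_card hKZ
    have hM0 : 0 ≤ M := (hpow _).le
    have h5 : ∑ i ∈ S, ∑ i' ∈ S, h i i' ≤ S.card * (((J : ℝ) + 1) *
        (B.d n ^ (ν pT - ν r + E - (CN + 1) * ε - Cb * ε) * (S.card * Z'.card))) :=
      hpair.trans (mul_le_mul_of_nonneg_left hsum hSc.le)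
    refine mul_le_mul hKc (mul_le_mul_of_nonneg_left h5 hM0) ?_ hZc.le
    refine mul_nonneg hM0 (sum_nonneg fun i _ => sum_nonneg fun i' _ => Nat.cast_nonneg _)
  have hP : (0 : ℝ) < (S.card * Z'.card) ^ 2 := by positivity
  have hfin2 : (B.d n ^ ((D + 5) * ε)) ^ 2 ≤ ((J : ℝ) + 1) *
      (M * B.d n ^ (ν pT - ν r + E - (CN + 1) * ε - Cb * ε)) := by
    refine le_of_mul_le_mul_right ?_ hP
    calc (B.d n ^ ((D + 5) * ε)) ^ 2 * ((S.card : ℝ) * Z'.card) ^ 2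
        = (B.d n ^ ((D + 5) * ε) * ((S.card : ℝ) * Z'.card)) ^ 2 := by ring
      _ ≤ _ := hfinal
      _ = _ := by ring
  have e1 : (B.d n ^ ((D + 5) * ε)) ^ 2 = B.d n ^ ((2 * D + 10) * ε) := by
    rw [sq, ← rpow_add']; congr 1; ring
  have e2 : M * B.d n ^ (ν pT - ν r + E - (CN + 1) * ε - Cb * ε) =
      B.d n ^ ((2 * D + 10) * ε) * B.d n ^ ε := by
    rw [hM, ← rpow_add', ← rpow_add']
    congr 1
    rw [hE]
    ring
  rw [e1, e2] at hfin2
  have h1 := hpow ((2 * D + 10) * ε)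
  have h2 := hpow ε
  have h3 : ((J : ℝ) + 1) * B.d n ^ ε < 1 := by
    have : ((J : ℝ) + 2) * B.d n ^ ε = ((J : ℝ) + 1) * B.d n ^ ε + B.d n ^ ε := by ring
    linarith
  have h4 : ((J : ℝ) + 1) * (B.d n ^ ((2 * D + 10) * ε) * B.d n ^ ε) <
      B.d n ^ ((2 * D + 10) * ε) := by
    calc ((J : ℝ) + 1) * (B.d n ^ ((2 * D + 10) * ε) * B.d n ^ ε) =
          B.d n ^ ((2 * D + 10) * ε) * (((J : ℝ) + 1) * B.d n ^ ε) := by ring
      _ < B.d n ^ ((2 * D + 10) * ε) * 1 := mul_lt_mul_of_pos_left h3 h1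
      _ = _ := mul_one _
  linarith

open Classical in
/-- Kaufman on a heavy set, contradiction form on a mesh -/
theorem kauf_contra_S (H : RModel B G σ R Leg ν D) (pS pT r : κ → ℝ) (hpS : pS ∈ Leg)
    (hpT : pT ∈ Leg) (hr : r ∈ Leg) (hTr : ∀ j, pT j ≤ r j) (J : ℕ) (π : ℕ → ℝ)
    {a c τ hh CT CN Cb CD ε : ℝ} (ha0 : 0 ≤ a) (haτ : a < τ)
    (hτ1 : τ ≤ 1) (hc : 0 < c) (hJ : 4 < min (τ - a) c * ((J : ℝ) - 1)) (hh0 : 0 < hh)
    (hCT : 0 < CT) (hCN : 0 < CN) (hCb : 0 ≤ Cb) (hε : 0 < ε)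
    (hE : ((D ^ 2 + 1) * CT + CN + Cb + 2 * D + 12) * ε ≤ hh)
    (hT : ν pT - ν r ≤ a * (((J : ℝ) + 1) * hh))
    (hQc : ∀ j ≤ J, (a + c) * ((j : ℝ) * hh) ≤ ν pS - π j)
    (Dist : ℕ → ℕ → ℕ → ℕ → ℝ)
    (Hy : ∀ᶠ n in (U : Filter ℕ), ∃ Z' ⊆ (G n).Z, Z'.Nonempty ∧ ∀ k₀ ∈ Z', ∃ K ⊆ Z',
      (((Z' \ K).card : ℝ) ≤ B.d n ^ ((D + 5) * ε) * Z'.card) ∧
      ∀ i₀ ∈ (G n).slice k₀,
        (∀ i ∈ (G n).box pS ε i₀ k₀, ∀ i' ∈ (G n).box pS ε i₀ k₀,
          Dist n k₀ i i' ≤ B.d n ^ (-(CD * ε))) ∧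
        (∀ j ≤ J, ∀ i ∈ (G n).box pS ε i₀ k₀, ((((G n).box pS ε i₀ k₀).filter fun i' =>
          Dist n k₀ i i' ≤ B.d n ^ ((j : ℝ) * hh - CD * ε)).card : ℝ) ≤
            B.d n ^ (-π j - CN * ε)) ∧
        (∀ k ∈ K, ∀ i ∈ (G n).box pS ε i₀ k₀, ∀ i' ∈ (G n).box pS ε i₀ k₀,
          (i, k) ∈ (G n).I → (i', k) ∈ (G n).I → (G n).loose pT (CT * ε) k i i') ∧
        (∀ j < J, ∀ i ∈ (G n).box pS ε i₀ k₀, ∀ i' ∈ (G n).box pS ε i₀ k₀,
          B.d n ^ (((j + 1 : ℕ) : ℝ) * hh - CD * ε) < Dist n k₀ i i' →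
          ((K.filter fun k => (i, k) ∈ (G n).I ∧ (i', k) ∈ (G n).I ∧
            (G n).loose r (D ^ 5 * (CT * ε)) k i i').card : ℝ) ≤
              B.d n ^ (τ * (((J - 1 - j : ℕ) : ℝ) * hh) - Cb * ε) * Z'.card)) : False := by
  obtain ⟨j, hj, h⟩ := kauf_box_S H pS pT r hpS hpT hr hTr J (fun j => (j : ℝ) * hh)
    (bj τ hh J) π (bj_top _ _ _) (CT := CT) (CN := CN) (Cb := Cb) (CD := CD) (ε := ε)
    hCT hCN hCb hε Dist (by
      filter_upwards [Hy] with n hn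
      obtain ⟨Z', hZ', hne, hn⟩ := hn
      refine ⟨Z', hZ', hne, fun k₀ hk₀ => ?_⟩
      obtain ⟨K, hK, hKc, hn⟩ := hn k₀ hk₀
      refine ⟨K, hK, hKc, fun i₀ hi₀ => ?_⟩
      obtain ⟨g1, g2, g3, g4⟩ := hn i₀ hi₀
      refine ⟨?_, g2, g3, ?_⟩
      · intro i hi i' hi'
        refine (g1 i hi i' hi').trans (le_of_eq ?_)
        congr 1
        push_cast
        ring
      · intro j hj i hi i' hi' hd
        rw [bj_lt hj]
        exact g4 j hj i hi i' hi' hd)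
  refine arith hj ha0 haτ hτ1 hc hJ hh0 hE ?_
  have := hQc j hj
  linarith

end Crest.Agent.R136.CV366
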