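import Crest.Agent.R136.CV1_366

/-!
# R136: vector K3core (`sigma = 1`, `κ = 1`, both slots tied): data and flat strips (helper366)

Slots of `coQ`: `2` = E (frozen), `5 6` = C_a C_b, `7` = P, `8 9` = X_a X_b, `10` = N.
-/

set_option autoImplicit false
set_option linter.unusedVariables false
set_option linter.unusedSectionVars false

open Filter Topology Finset

namespace Crest.Agent.R136.CV366

open Crest.Agent.R138.Ex926 (Base U exists_tendsto)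
open Crest.Agent.R138.TwC501 (root_lin root_sq)
open Crest.Agent.R136.Gf356
open Crest.Agent.R136.CD366

/-- the boxes of the isotropic case -/
def bv (y n p xa xb ca cb : ℝ) : Fin 11 → ℝ := ![0, 0, y, 0, 0, ca, cb, p, xa, xb, n]

theorem bv_mono {y n p xa xb ca cb y' n' p' xa' xb' ca' cb' : ℝ} (hy : y ≤ y') (hn : n ≤ n')
    (hp : p ≤ p') (ha : xa ≤ xa') (hb : xb ≤ xb') (hca : ca ≤ ca') (hcb : cb ≤ cb') (s : Fin 11) :
    bv y n p xa xb ca cb s ≤ bv y' n' p' xa' xb' ca' cb' s := by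
  fin_cases s <;> simp only [bv, Matrix.cons_val, Fin.zero_eta, Fin.mk_one, Fin.reduceFinMk,
    Fin.isValue, le_refl] <;> assumption

theorem bv2 {y n p xa xb ca cb : ℝ} : bv y n p xa xb ca cb 2 = y := rfl
theorem bv5 {y n p xa xb ca cb : ℝ} : bv y n p xa xb ca cb 5 = ca := rfl
theorem bv6 {y n p xa xb ca cb : ℝ} : bv y n p xa xb ca cb 6 = cb := rfl
theorem bv7 {y n p xa xb ca cb : ℝ} : bv y n p xa xb ca cb 7 = p := rfl
theorem bv8 {y n p xa xb ca cb : ℝ} : bv y n p xa xb ca cb 8 = xa := rfl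
theorem bv9 {y n p xa xb ca cb : ℝ} : bv y n p xa xb ca cb 9 = xb := rfl
theorem bv10 {y n p xa xb ca cb : ℝ} : bv y n p xa xb ca cb 10 = n := rfl

/-- agreement off a set of slots -/
theorem bv_off {y n p xa xb ca cb n' p' xa' xb' ca' cb' : ℝ} {s : Fin 11}
    (h5 : s = 5 → ca = ca') (h6 : s = 6 → cb = cb') (h7 : s = 7 → p = p') (h8 : s = 8 → xa = xa')
    (h9 : s = 9 → xb = xb') (h10 : s = 10 → n = n') :
    bv y n p xa xb ca cb s = bv y n' p' xa' xb' ca' cb' s := by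
  fin_cases s <;> simp_all [bv]

open Classical in
/-- the data of the vector form -/
structure KV (B : Base) (G : ℕ → RCfg (Fin 11)) (Leg : Set (Fin 11 → ℝ)) (ν : (Fin 11 → ℝ) → ℝ)
    (fa fb : ℕ → ℕ → ℝ) (ee : ℕ → ℕ → ℕ → ℝ) (R0 C1 a c K0 : ℝ) : Prop where
  R0_pos : 0 < R0
  C1_one : 1 ≤ C1
  c_pos : 0 < c
  K0_nonneg : 0 ≤ K0
  leg : ∀ y n p xa xb ca cb : ℝ, 0 ≤ y → y ≤ R0 → 0 ≤ n → n ≤ y → 0 ≤ p → p ≤ y → 0 ≤ xa →
    xa ≤ y → 0 ≤ xb → xb ≤ y → 0 ≤ ca → ca ≤ y → 0 ≤ cb → cb ≤ y → bv y n p xa xb ca cb ∈ Leg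
  bd : ∀ᶠ n in (U : Filter ℕ), ∀ k ∈ (G n).Z, |(G n).z k| ≤ 1 ∧ |fa n k| ≤ 1 ∧ |fb n k| ≤ 1
  /-- the line dependent coefficient (absolute `E` coordinate of the line) -/
  ee_bd : ∃ M : ℝ, 1 ≤ M ∧ ∀ n i k, |ee n i k| ≤ M
  ev : ∀ y : ℝ, 0 ≤ y → y ≤ R0 → ∀ ε : ℝ, 0 < ε → ∀ᶠ n in (U : Filter ℕ), ∀ k₀ k i i',
    (i, k₀) ∈ (G n).I → (i', k₀) ∈ (G n).I → (i, k) ∈ (G n).I → (i', k) ∈ (G n).I →
    (G n).loose (bv y 0 0 0 0 0 0) ε k₀ i i' →
    (G n).loose (bv y 0 0 0 0 0 0) (C1 * ε) k i i' ∧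
    |(G n).rel k i i' 10 - ((G n).rel k₀ i i' 10 + ((G n).z k - (G n).z k₀) * (G n).rel k₀ i i' 7
      - ((fa n k - fa n k₀) + ee n i k₀ * (fb n k - fb n k₀)) * ((G n).rel k₀ i i' 8 +
        ((G n).z k - (G n).z k₀) * (G n).rel k₀ i i' 5)
      - (fb n k - fb n k₀) * ((G n).rel k₀ i i' 9 + ((G n).z k - (G n).z k₀) *
        (G n).rel k₀ i i' 6))| ≤ B.d n ^ (y - C1 * ε)
  hN : ∀ y : ℝ, 0 ≤ y → y ≤ R0 → ν (bv y 0 0 0 0 0 0) - ν (bv y y 0 0 0 0 0) ≤ a * y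
  hP : ∀ y t : ℝ, 0 ≤ t → t ≤ y → y ≤ R0 → (a + c) * t ≤ ν (bv y 0 0 0 0 0 0) -
    ν (bv y t t 0 0 0 0)
  hXb : ∀ y t : ℝ, 0 ≤ t → t ≤ y → y ≤ R0 → (a + c) * t ≤ ν (bv y y 0 y 0 y y) -
    ν (bv y y t y t y y)
  hXa : ∀ y t : ℝ, 0 ≤ t → t ≤ y → y ≤ R0 → (a + c) * t ≤ ν (bv y y 0 0 y y y) -
    ν (bv y y t t y y y)
  strips : ∀ y t : ℝ, 0 ≤ t → t ≤ y → y ≤ R0 → ∀ ε : ℝ, 0 < ε → ∀ᶠ n in (U : Filter ℕ),
    ∀ i k, (i, k) ∈ (G n).I → ∀ b : Fin 2 → ℝ, b 0 ^ 2 + b 1 ^ 2 = 1 →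
    ((((G n).box (bv y t y y y 0 0) ε i k).filter fun l =>
      |b 0 * (G n).rel k i l 5 + b 1 * (G n).rel k i l 6| ≤ B.d n ^ (t - ε)).card : ℝ) ≤
      B.d n ^ (-(ν (bv y 0 y y y 0 0)) + (a + c) * t - K0 * ε)

variable {B : Base} {G : ℕ → RCfg (Fin 11)} {Leg : Set (Fin 11 → ℝ)} {ν : (Fin 11 → ℝ) → ℝ}
  {σ R D : ℝ} {fa fb : ℕ → ℕ → ℝ} {ee : ℕ → ℕ → ℕ → ℝ} {R0 C1 a c K0 : ℝ}

theorem KV.a_nonneg (H : RModel B G σ R Leg ν D) (K : KV B G Leg ν fa fb ee R0 C1 a c K0) :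
    0 ≤ a := by
  have hR := K.R0_pos
  have h1 := K.hN R0 hR.le le_rfl
  have h2 := H.nu_anti (p := bv R0 0 0 0 0 0 0) (p' := bv R0 R0 0 0 0 0 0)
    (K.leg R0 0 0 0 0 0 0 hR.le le_rfl le_rfl hR.le le_rfl hR.le le_rfl hR.le le_rfl hR.le
      le_rfl hR.le le_rfl hR.le)
    (K.leg R0 R0 0 0 0 0 0 hR.le le_rfl hR.le le_rfl le_rfl hR.le le_rfl hR.le le_rfl hR.le
      le_rfl hR.le le_rfl hR.le)
    (fun s => bv_mono le_rfl hR.le le_rfl le_rfl le_rfl le_rfl le_rfl s)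
  by_contra hcon
  push Not at hcon
  have : a * R0 < 0 := mul_neg_of_neg_of_pos hcon hR
  linarith

open Classical in
set_option maxHeartbeats 1600000 in
/-- **flat strips**, both slope functions constant -/
theorem no_flat_V (H : RModel B G σ R Leg ν D)
    (K : KV B G Leg ν fa fb ee R0 C1 a c K0) (hR0 : R0 ≤ R) (ha : a < σ) :
    ∃ η₂ : ℝ, 0 < η₂ ∧ ∀ y, 0 < y → y ≤ R0 → ¬ ∀ᶠ n in (U : Filter ℕ), ∃ Z' ⊆ (G n).Z,
      Z'.Nonempty ∧ B.d n ^ (η₂ * y) * ((G n).Z.card : ℝ) ≤ Z'.card ∧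
      ∀ k ∈ Z', ∀ k' ∈ Z', |fa n k' - fa n k| ≤ B.d n ^ y ∧ |fb n k' - fb n k| ≤ B.d n ^ y := by
  have ha0 := K.a_nonneg H
  have hD := H.D1
  have hD0 : 0 < D := by linarith
  have hC1 := K.C1_one
  have hC10 : 0 < C1 := by linarith
  have hc := K.c_pos
  obtain ⟨Me, hMe1, hMe⟩ := K.ee_bd
  obtain ⟨J, hJ⟩ : ∃ J : ℕ, 4 / min (σ - a) c + 1 < J := exists_nat_gt _
  have hμ0 : 0 < min (σ - a) c := lt_min (by linarith) hc
  have hJ4 : 4 < min (σ - a) c * ((J : ℝ) - 1) := by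
    have : 4 / min (σ - a) c < (J : ℝ) - 1 := by linarith
    rwa [div_lt_iff₀ hμ0, mul_comm] at this
  have hJ0 : (0 : ℝ) < (J : ℝ) + 1 := by positivity
  -- total constant
  set A : ℝ := C1 * D ^ 7 + 1 with hA
  have hA1 : 1 ≤ A := by
    rw [hA]
    have : 0 ≤ C1 * D ^ 7 := by positivity
    linarith
  set Ct : ℝ := (D ^ 2 + 1) * (C1 * D ^ 2) + D * D ^ 2 + 2 + 2 * D + 12 with hCt
  have hCt0 : 0 < Ct := by positivity
  set W : ℝ := ((J : ℝ) + 1) * (Ct + 4 * A) with hW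
  have hW0 : 0 < W := by positivity
  refine ⟨1 / W, by positivity, fun y hy hyR Hy => ?_⟩
  set hh : ℝ := y / ((J : ℝ) + 1) with hhh
  have hh0 : 0 < hh := by positivity
  have hyh : ((J : ℝ) + 1) * hh = y := by rw [hhh]; field_simp
  set ε : ℝ := hh / (Ct + 4 * A) with hε
  have hε0 : 0 < ε := by positivity
  have hεy : 1 / W * y = ε := by
    rw [hε, hhh, hW]; field_simp
  rw [hεy] at Hy
  have hεh : (Ct + 4 * A) * ε = hh := by rw [hε]; field_simp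
  have hε1 : Ct * ε ≤ hh := by
    have h0 : 0 ≤ 4 * A * ε := by positivity
    linarith
  have hε2 : 4 * A * ε ≤ hh := by
    have h0 : 0 ≤ Ct * ε := by positivity
    linarith
  clear_value ε hh
  have hyy : (0 : ℝ) ≤ y := hy.le
  have hxj : ∀ j ≤ J, (0 : ℝ) ≤ (j : ℝ) * hh ∧ (j : ℝ) * hh ≤ y := by
    intro j hj
    have h1 : (j : ℝ) ≤ J := by exact_mod_cast hj
    refine ⟨by positivity, ?_⟩
    have h2 := mul_le_mul_of_nonneg_right h1 hh0.le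
    linarith
  set p0 : Fin 11 → ℝ := bv y 0 0 0 0 0 0 with hp0
  have hp0L : p0 ∈ Leg := K.leg y 0 0 0 0 0 0 hyy hyR le_rfl hyy le_rfl hyy le_rfl hyy le_rfl hyy
    le_rfl hyy le_rfl hyy
  have hD2ε : 0 < D ^ 2 * ε := by positivity
  refine kauf_contra H p0 p0 (bv y y 0 0 0 0 0) hp0L hp0L
    (K.leg y y 0 0 0 0 0 hyy hyR hyy le_rfl le_rfl hyy le_rfl hyy le_rfl hyy le_rfl hyy le_rfl hyy)
    (fun s => bv_mono le_rfl hyy le_rfl le_rfl le_rfl le_rfl le_rfl s) J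
    (fun j => bv y ((j : ℝ) * hh) ((j : ℝ) * hh) 0 0 0 0)
    (fun j hj => K.leg y _ _ 0 0 0 0 hyy hyR (hxj j hj).1 (hxj j hj).2 (hxj j hj).1 (hxj j hj).2
      le_rfl hyy le_rfl hyy le_rfl hyy le_rfl hyy) (a := a) (c := c) (τ := σ) (hh := hh)
    (CT := C1 * D ^ 2)
    (CN := D ^ 2) (Cb := 2) (CD := D ^ 2) (ε := ε) ha0 ha H.σ_le hc hJ4 hh0 (by positivity)
    (by positivity) (by norm_num) hε0 hε1 (by rw [hyh]; exact K.hN y hyy hyR)
    (fun j hj => K.hP y _ (hxj j hj).1 (hxj j hj).2 hyR)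
    (fun n k₀ i i' => max |(G n).rel k₀ i i' 10| |(G n).rel k₀ i i' 7|) ?_
  have hN1 : ((J + 1 : ℕ) : ℝ) * hh ≤ R := by push_cast; rw [hyh]; exact hyR.trans hR0
  filter_upwards [Hy, frost_set H hh0 hN1 hε0, box_pair H.toRUnif p0 hp0L hε0,
    K.ev y hyy hyR (D ^ 2 * ε) hD2ε, ev_const_le B hε0 (8 + 3 * Me), ev_const_le B (half_pos hh0) 8,
    K.bd, ev_const_le B (half_pos hh0) 2] with n hZ hn hpair hev hc5 hc8 hbd hc2
  have hpow : ∀ t : ℝ, 0 < B.d n ^ t := fun t => rpos B n t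
  obtain ⟨Z', hZ', hne, hcard, hf⟩ := hZ
  refine ⟨Z', hZ', hne, fun k₀ hk₀' => ⟨Z', subset_rfl, ?_, ?_⟩⟩
  · rw [Finset.sdiff_self, card_empty, Nat.cast_zero]
    have := hpow ((D + 5) * ε)
    positivity
  have hk₀ := hZ' hk₀'
  intro i₀ hi₀
  have hI0 := H.memSlice.1 hi₀
  have hS : ∀ i ∈ (G n).box p0 ε i₀ k₀, (i, k₀) ∈ (G n).I := fun i hi =>
    H.memSlice.1 (RCfg.box_subset_slice hi)
  have hSS : ∀ i ∈ (G n).box p0 ε i₀ k₀, ∀ i' ∈ (G n).box p0 ε i₀ k₀,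
      (G n).loose p0 (D ^ 2 * ε) k₀ i i' := fun i hi i' hi' => hpair k₀ i₀ i i' hI0 hi hi'
  -- bounds of the slots at the pin
  have hslot : ∀ i ∈ (G n).box p0 ε i₀ k₀, ∀ i' ∈ (G n).box p0 ε i₀ k₀, ∀ s, p0 s = 0 →
      |(G n).rel k₀ i i' s| ≤ B.d n ^ (-(D ^ 2 * ε)) := by
    intro i hi i' hi' s hs
    have := hSS i hi i' hi' s
    rw [H.base n, hs, zero_sub] at this
    exact this
  refine ⟨?_, ?_, ?_, ?_⟩
  · intro i hi i' hi'
    exact max_le (hslot i hi i' hi' 10 rfl) (hslot i hi i' hi' 7 rfl)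
  · intro j hj i hi i' hi' hd s
    have h1 := hSS i hi i' hi' s
    rw [max_le_iff] at hd
    by_cases hsN : s = 10
    · subst hsN
      rw [bv10, H.base n]
      exact hd.1
    · by_cases hsP : s = 7
      · subst hsP
        rw [bv7, H.base n]
        exact hd.2
      · refine h1.trans (le_of_eq ?_)
        rw [hp0, bv_off (s := s) (fun _ => rfl) (fun _ => rfl) (fun h => absurd h hsP)
          (fun _ => rfl) (fun _ => rfl) (fun h => absurd h hsN)]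
  · intro k hk i hi i' hi' hIk hIk'
    have := (hev k₀ k i i' (hS i hi) (hS i' hi') hIk hIk' (hSS i hi i' hi')).1
    refine H.loose_mono (fun _ => le_rfl) (le_of_eq ?_) this
    ring
  · intro j hj i hi i' hi' hd
    have hjJ : ((J - 1 - j : ℕ) : ℝ) = (J : ℝ) - 1 - j := castJ hj
    set T := Z'.filter fun k => (i, k) ∈ (G n).I ∧ (i', k) ∈ (G n).I ∧
      (G n).loose (bv y y 0 0 0 0 0) (D ^ 5 * (C1 * D ^ 2 * ε)) k i i' with hT
    have e57 : D ^ 5 * (C1 * D ^ 2 * ε) = C1 * D ^ 7 * ε := by ring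
    have hA1ε : C1 * (D ^ 2 * ε) ≤ C1 * D ^ 7 * ε := by
      have : D ^ 2 ≤ D ^ 7 := pow_le_pow_right₀ hD (by norm_num)
      have h1 : D ^ 2 * ε ≤ D ^ 7 * ε := mul_le_mul_of_nonneg_right this hε0.le
      calc C1 * (D ^ 2 * ε) ≤ C1 * (D ^ 7 * ε) := mul_le_mul_of_nonneg_left h1 hC10.le
        _ = _ := by ring
    have hA2ε : D ^ 2 * ε ≤ C1 * D ^ 7 * ε := by
      refine le_trans ?_ hA1ε
      have : 1 * (D ^ 2 * ε) ≤ C1 * (D ^ 2 * ε) := mul_le_mul_of_nonneg_right hC1 hD2ε.le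
      linarith
    -- the root condition
    have hgen : ∀ k ∈ T, |(G n).rel k₀ i i' 10 + ((G n).z k - (G n).z k₀) *
        (G n).rel k₀ i i' 7| ≤ B.d n ^ (y - A * ε) := by
      intro k hk
      rw [hT, mem_filter, e57] at hk
      obtain ⟨hkZ, hIk, hIk', hl⟩ := hk
      have g1 := (hev k₀ k i i' (hS i hi) (hS i' hi') hIk hIk' (hSS i hi i' hi')).2
      have g2 := hl 10
      rw [bv10, H.base n] at g2
      obtain ⟨g3a, g3b⟩ := hf k₀ hk₀' k hkZ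
      have hu : |(G n).z k - (G n).z k₀| ≤ 2 := by
        refine (abs_sub _ _).trans ?_
        have := (hbd k (hZ' hkZ)).1; have := (hbd k₀ hk₀).1; linarith
      have gXa := hslot i hi i' hi' 8 rfl
      have gCa := hslot i hi i' hi' 5 rfl
      have gXb := hslot i hi i' hi' 9 rfl
      have gCb := hslot i hi i' hi' 6 rfl
      set b := B.d n ^ (y - C1 * D ^ 7 * ε) with hb
      have hb0 : 0 < b := hpow _
      have k1 : B.d n ^ (y - C1 * (D ^ 2 * ε)) ≤ b := rpow_anti B n (by linarith)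
      have k2 : B.d n ^ y * B.d n ^ (-(D ^ 2 * ε)) ≤ b := by
        rw [← rpow_add']
        exact rpow_anti B n (by linarith)
      have k3 : ∀ c F X C : ℝ, 0 ≤ c → |F| ≤ c * B.d n ^ y → |X| ≤ B.d n ^ (-(D ^ 2 * ε)) →
          |C| ≤ B.d n ^ (-(D ^ 2 * ε)) →
          |F * (X + ((G n).z k - (G n).z k₀) * C)| ≤ c * (3 * b) := by
        intro c F X C hc0 hF hX hC
        have hE0 := hpow (-(D ^ 2 * ε))
        have m1 : |X + ((G n).z k - (G n).z k₀) * C| ≤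
            3 * B.d n ^ (-(D ^ 2 * ε)) := by
          refine (abs_add_le _ _).trans ?_
          rw [abs_mul]
          have : |(G n).z k - (G n).z k₀| * |C| ≤
              2 * B.d n ^ (-(D ^ 2 * ε)) := mul_le_mul hu hC (abs_nonneg _) (by norm_num)
          linarith
        rw [abs_mul]
        calc |F| * |X + ((G n).z k - (G n).z k₀) * C|
            ≤ c * B.d n ^ y * (3 * B.d n ^ (-(D ^ 2 * ε))) :=
              mul_le_mul hF m1 (abs_nonneg _) (mul_nonneg hc0 (hpow _).le)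
          _ = c * (3 * (B.d n ^ y * B.d n ^ (-(D ^ 2 * ε)))) := by ring
          _ ≤ c * (3 * b) := mul_le_mul_of_nonneg_left (by linarith) hc0
      have gF : |(fa n k - fa n k₀) + ee n i k₀ * (fb n k - fb n k₀)| ≤
          (1 + Me) * B.d n ^ y := by
        refine (abs_add_le _ _).trans ?_
        rw [abs_mul]
        have := mul_le_mul (hMe n i k₀) g3b (abs_nonneg _) (by linarith)
        linarith
      have k3a := k3 (1 + Me) _ _ _ (by linarith) gF gXa gCa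
      have k3b := k3 1 _ _ _ zero_le_one (by rw [one_mul]; exact g3b) gXb gCb
      have k4 : |(G n).rel k₀ i i' 10 + ((G n).z k - (G n).z k₀) *
          (G n).rel k₀ i i' 7| ≤ (8 + 3 * Me) * b := by
        have m1 := abs_le.1 (g1.trans k1)
        have m2 := abs_le.1 g2
        have m3 := abs_le.1 k3a
        have m4 := abs_le.1 k3b
        rw [abs_le]
        constructor <;> linarith [m1.1, m1.2, m2.1, m2.2, m3.1, m3.2, m4.1, m4.2]
      refine k4.trans (absorb B ?_)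
      have e : -(y - C1 * D ^ 7 * ε - (y - A * ε)) = -ε := by rw [hA]; ring
      rw [e]
      exact hc5
    have hTZ : T ⊆ (G n).Z := (filter_subset _ _).trans hZ'
    have hclose : ∀ k ∈ T, ∀ k' ∈ T, |(G n).z k' - (G n).z k| ≤
        B.d n ^ (((J - 1 - j : ℕ) : ℝ) * hh) := by
      intro k hk k' hk'
      have g1 := hgen k hk
      have g2 := hgen k' hk'
      have hu : |(G n).z k' - (G n).z k₀| ≤ 2 := by
        refine (abs_sub _ _).trans ?_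
        have := (hbd k' (hTZ hk')).1; have := (hbd k₀ hk₀).1; linarith
      have h2w : 2 * B.d n ^ (y - A * ε) ≤ B.d n ^ (((j + 1 : ℕ) : ℝ) * hh - D ^ 2 * ε) := by
        refine absorb B (hc2.trans (rpow_anti B n ?_))
        push_cast
        have h1 : (j : ℝ) + 1 ≤ J := by
          have : j + 1 ≤ J := hj
          exact_mod_cast this
        have h2 : ((j : ℝ) + 1) * hh ≤ (J : ℝ) * hh := mul_le_mul_of_nonneg_right h1 hh0.le
        have h3 : 0 ≤ D ^ 2 * ε := hD2ε.le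
        linarith
      have g3 := root_lin g2 g1 hu hd h2w
      have g4 : ((G n).z k' - (G n).z k₀) - ((G n).z k - (G n).z k₀) =
        (G n).z k' - (G n).z k := by ring
      rw [g4] at g3
      refine le_div_pow B n g3 (hc8.trans (rpow_anti B n ?_))
      push_cast
      rw [hjJ]
      have h3 : 0 ≤ D ^ 2 * ε := hD2ε.le
      linarith
    have hTc := hn (J - 1 - j) (by simp; omega) T hTZ hclose
    refine hTc.trans ?_
    have e1 : B.d n ^ (σ * (((J - 1 - j : ℕ) : ℝ) * hh) - ε) =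
        B.d n ^ (σ * (((J - 1 - j : ℕ) : ℝ) * hh) - 2 * ε) * B.d n ^ ε := by
      rw [← rpow_add']; congr 1; ring
    rw [e1, mul_assoc]
    exact mul_le_mul_of_nonneg_left hcard (hpow _).le

end Crest.Agent.R136.CV366
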