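import Crest.Agent.R136.CV2_366

/-!
# R136: vector K3core: sloped strips (helper366)
-/

set_option autoImplicit false
set_option linter.unusedVariables false
set_option linter.unusedSectionVars false

open Filter Topology Finset

namespace Crest.Agent.R136.CV366

open Crest.Agent.R138.Ex926 (Base U exists_tendsto)
open Crest.Agent.R138.TwC501 (root_lin root_sq)
open Crest.Agent.R136.Gf356
open Crest.Agent.R136.CD366

variable {B : Base} {G : ℕ → RCfg (Fin 11)} {Leg : Set (Fin 11 → ℝ)} {ν : (Fin 11 → ℝ) → ℝ}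
  {σ R D : ℝ} {fa fb : ℕ → ℕ → ℝ} {ee : ℕ → ℕ → ℕ → ℝ} {R0 C1 a c K0 : ℝ}

/-- polar coordinates -/
theorem polar (u v : ℝ) : ∃ m : ℝ, ∃ b : Fin 2 → ℝ, b 0 ^ 2 + b 1 ^ 2 = 1 ∧ u = m * b 0 ∧
    v = m * b 1 ∧ 0 ≤ m ∧ |u| ≤ m ∧ |v| ≤ m ∧ m ≤ |u| + |v| := by
  have hs : 0 ≤ u ^ 2 + v ^ 2 := by positivity
  by_cases h : u ^ 2 + v ^ 2 = 0
  · have hu : u = 0 := by nlinarith [sq_nonneg u, sq_nonneg v]
    have hv : v = 0 := by nlinarith [sq_nonneg u, sq_nonneg v]
    refine ⟨0, ![1, 0], by simp, by simp [hu], by simp [hv], le_rfl, by simp [hu], by simp [hv],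
      by simp [hu, hv]⟩
  · have hpos : 0 < u ^ 2 + v ^ 2 := lt_of_le_of_ne hs (Ne.symm h)
    set m := Real.sqrt (u ^ 2 + v ^ 2) with hm
    have hm0 : 0 < m := Real.sqrt_pos.2 hpos
    have hm2 : m ^ 2 = u ^ 2 + v ^ 2 := Real.sq_sqrt hs
    refine ⟨m, ![u / m, v / m], ?_, ?_, ?_, hm0.le, ?_, ?_, ?_⟩
    · simp only [Matrix.cons_val]
      rw [div_pow, div_pow, ← add_div, hm2, div_self h]
    · simp only [Matrix.cons_val]; field_simp
    · simp only [Matrix.cons_val]; field_simp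
    · rw [hm]; exact Real.abs_le_sqrt (by nlinarith [sq_nonneg v])
    · rw [hm]; exact Real.abs_le_sqrt (by nlinarith [sq_nonneg u])
    · rw [hm]
      refine Real.sqrt_le_iff.2 ⟨by positivity, ?_⟩
      have e1 := sq_abs u
      have e2 := sq_abs v
      nlinarith [mul_nonneg (abs_nonneg u) (abs_nonneg v)]

/-- the norm of polar coordinates -/
noncomputable def pm (u v : ℝ) : ℝ := (polar u v).choose

/-- the direction of polar coordinates -/
noncomputable def pb (u v : ℝ) : Fin 2 → ℝ := (polar u v).choose_spec.choose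

theorem p_spec (u v : ℝ) : pb u v 0 ^ 2 + pb u v 1 ^ 2 = 1 ∧ u = pm u v * pb u v 0 ∧
    v = pm u v * pb u v 1 ∧ 0 ≤ pm u v ∧ |u| ≤ pm u v ∧ |v| ≤ pm u v ∧ pm u v ≤ |u| + |v| :=
  (polar u v).choose_spec.choose_spec

open Classical in
set_option maxHeartbeats 3200000 in
/-- **sloped strips**: the slope functions are not both affine, with one slope `≥ ρ^(η y)`, up to
`ρ^y` on a set of heights of portion `ρ^(η y)` -/
theorem no_slope_V (H : RModel B G σ R Leg ν D)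
    (K : KV B G Leg ν fa fb ee R0 C1 a c K0) (hR0 : R0 ≤ R) (ha : a < σ) :
    ∃ η₁ : ℝ, 0 < η₁ ∧ ∀ y, 0 < y → y ≤ R0 → ¬ ∀ᶠ n in (U : Filter ℕ), ∃ Z' ⊆ (G n).Z,
      Z'.Nonempty ∧ B.d n ^ (η₁ * y) * ((G n).Z.card : ℝ) ≤ Z'.card ∧
      ∃ μa μb : ℝ, B.d n ^ (η₁ * y) ≤ max |μa| |μb| ∧
      ∀ k ∈ Z', ∀ k' ∈ Z', |fa n k' - fa n k - μa * ((G n).z k' - (G n).z k)| ≤ 2 * B.d n ^ y ∧
        |fb n k' - fb n k - μb * ((G n).z k' - (G n).z k)| ≤ 2 * B.d n ^ y := by
  have ha0 := K.a_nonneg H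
  have hσ0 : 0 < σ := ha0.trans_lt ha
  have hσ1 := H.σ_le
  have hD := H.D1
  have hD0 : 0 < D := by linarith
  have hC1 := K.C1_one
  have hC10 : 0 < C1 := by linarith
  have hc := K.c_pos
  have hK0 := K.K0_nonneg
  obtain ⟨Me, hMe1, hMe⟩ := K.ee_bd
  obtain ⟨J, hJ⟩ : ∃ J : ℕ, 4 / min (σ - a) c + 1 < J := exists_nat_gt _
  have hμ0 : 0 < min (σ - a) c := lt_min (by linarith) hc
  have hJ4 : 4 < min (σ - a) c * ((J : ℝ) - 1) := by
    have : 4 / min (σ - a) c < (J : ℝ) - 1 := by linarith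
    rwa [div_lt_iff₀ hμ0, mul_comm] at this
  have hJ0 : (0 : ℝ) < (J : ℝ) + 1 := by positivity
  set A : ℝ := C1 * D ^ 7 + 1 with hA
  have hA1 : 1 ≤ A := by
    rw [hA]
    have : 0 ≤ C1 * D ^ 7 := by positivity
    linarith
  set Ct : ℝ := (D ^ 2 + 1) * (C1 * D ^ 2) + (K0 * (D ^ 2 + 1) + 1) + 3 + 2 * D + 12 with hCt
  have hCt0 : 0 < Ct := by positivity
  -- total constant, `σ` enters through the neighbourhood of the pin
  set E : ℝ := Ct + 8 * A + 16 * (D + 8) / σ with hE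
  have hE0 : 0 < E := by positivity
  set W : ℝ := ((J : ℝ) + 1) * E with hW
  have hW0 : 0 < W := by positivity
  refine ⟨1 / W, by positivity, fun y hy hyR Hy => ?_⟩
  set hh : ℝ := y / ((J : ℝ) + 1) with hhh
  have hh0 : 0 < hh := by positivity
  have hyh : ((J : ℝ) + 1) * hh = y := by rw [hhh]; field_simp
  set ε : ℝ := hh / E with hε
  have hε0 : 0 < ε := by positivity
  have hεy : 1 / W * y = ε := by
    rw [hε, hhh, hW]; field_simp
  rw [hεy] at Hy
  have hεh : E * ε = hh := by rw [hε]; field_simp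
  have hq0 : 0 ≤ 16 * (D + 8) / σ := by positivity
  have hε1 : Ct * ε ≤ hh := by
    have h0 : 0 ≤ (8 * A + 16 * (D + 8) / σ) * ε := by positivity
    have h1 : E * ε = Ct * ε + (8 * A + 16 * (D + 8) / σ) * ε := by rw [hE]; ring
    linarith
  have hε2 : 8 * A * ε ≤ hh := by
    have h0 : 0 ≤ (Ct + 16 * (D + 8) / σ) * ε := by positivity
    have h1 : E * ε = 8 * A * ε + (Ct + 16 * (D + 8) / σ) * ε := by rw [hE]; ring
    linarith
  have hε3 : 16 * (D + 8) * ε ≤ σ * hh := by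
    have h1 : 16 * (D + 8) / σ * ε ≤ hh := by
      have h0 : 0 ≤ (Ct + 8 * A) * ε := by positivity
      have h1 : E * ε = 16 * (D + 8) / σ * ε + (Ct + 8 * A) * ε := by rw [hE]; ring
      linarith
    have h2 : σ * (16 * (D + 8) / σ * ε) = 16 * (D + 8) * ε := by field_simp
    rw [← h2]
    exact mul_le_mul_of_nonneg_left h1 hσ0.le
  clear_value ε hh E
  set s1 : ℝ := hh / 8 with hs1
  have hs10 : 0 < s1 := by positivity
  have hyy : (0 : ℝ) ≤ y := hy.le
  have hhy : hh ≤ y := by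
    rw [← hyh]
    have : 0 ≤ (J : ℝ) * hh := by positivity
    linarith
  have hs1R : s1 ≤ R := by rw [hs1]; linarith
  have hxj : ∀ j ≤ J, (0 : ℝ) ≤ (j : ℝ) * hh ∧ (j : ℝ) * hh ≤ y := by
    intro j hj
    have h1 : (j : ℝ) ≤ J := by exact_mod_cast hj
    refine ⟨by positivity, ?_⟩
    have h2 := mul_le_mul_of_nonneg_right h1 hh0.le
    linarith
  set p0 : Fin 11 → ℝ := bv y 0 0 0 0 0 0 with hp0
  set p1 : Fin 11 → ℝ := bv y 0 y y y 0 0 with hp1
  have hp0L : p0 ∈ Leg := K.leg y 0 0 0 0 0 0 hyy hyR le_rfl hyy le_rfl hyy le_rfl hyy le_rfl hyy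
    le_rfl hyy le_rfl hyy
  have hp1L : p1 ∈ Leg := K.leg y 0 y y y 0 0 hyy hyR le_rfl hyy hyy le_rfl hyy le_rfl hyy le_rfl
    le_rfl hyy le_rfl hyy
  have h01 : ∀ s, p0 s ≤ p1 s := fun s => bv_mono le_rfl le_rfl hyy hyy hyy le_rfl le_rfl s
  have hD2ε : 0 < D ^ 2 * ε := by positivity
  -- the slopes as sequences
  have Hy2 : ∀ᶠ n in (U : Filter ℕ), ∃ q : ℝ × ℝ,
      ∃ Z' ⊆ (G n).Z, Z'.Nonempty ∧ B.d n ^ ε * ((G n).Z.card : ℝ) ≤ Z'.card ∧
      B.d n ^ ε ≤ max |q.1| |q.2| ∧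
      ∀ k ∈ Z', ∀ k' ∈ Z', |fa n k' - fa n k - q.1 * ((G n).z k' - (G n).z k)| ≤ 2 * B.d n ^ y ∧
        |fb n k' - fb n k - q.2 * ((G n).z k' - (G n).z k)| ≤ 2 * B.d n ^ y := by
    filter_upwards [Hy] with n hn
    obtain ⟨Z', h1, h2, h3, μa, μb, h4, h5⟩ := hn
    exact ⟨(μa, μb), Z', h1, h2, h3, h4, h5⟩
  obtain ⟨q, hq⟩ := Hy2.choice
  have hstr : ∀ᶠ n in (U : Filter ℕ), ∀ j ∈ range (J + 1),
      ∀ i k, (i, k) ∈ (G n).I → ∀ b : Fin 2 → ℝ, b 0 ^ 2 + b 1 ^ 2 = 1 →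
      ((((G n).box (bv y ((j : ℝ) * hh) y y y 0 0) ((D ^ 2 + 1) * ε) i k).filter fun l =>
        |b 0 * (G n).rel k i l 5 + b 1 * (G n).rel k i l 6| ≤
          B.d n ^ ((j : ℝ) * hh - (D ^ 2 + 1) * ε)).card : ℝ) ≤
        B.d n ^ (-(ν (bv y 0 y y y 0 0)) + (a + c) * ((j : ℝ) * hh) -
          K0 * ((D ^ 2 + 1) * ε)) := by
    rw [Filter.eventually_all_finset]
    intro j hj
    have hj' : j ≤ J := by simpa [Nat.lt_succ_iff] using hj
    exact K.strips y _ (hxj j hj').1 (hxj j hj').2 hyR ((D ^ 2 + 1) * ε) (by positivity)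
  refine kauf_contra_S H p1 p0 (bv y y 0 0 0 0 0) hp1L hp0L
    (K.leg y y 0 0 0 0 0 hyy hyR hyy le_rfl le_rfl hyy le_rfl hyy le_rfl hyy le_rfl hyy le_rfl hyy)
    (fun s => bv_mono le_rfl hyy le_rfl le_rfl le_rfl le_rfl le_rfl s) J
    (fun j => ν p1 - (a + c) * ((j : ℝ) * hh)) (a := a) (c := c) (τ := σ) (hh := hh)
    (CT := C1 * D ^ 2)
    (CN := K0 * (D ^ 2 + 1) + 1) (Cb := 3) (CD := D ^ 2 + 1) (ε := ε) ha0 ha H.σ_le hc hJ4 hh0
    (by positivity)
    (by positivity) (by norm_num) hε0 hε1 (by rw [hyh]; exact K.hN y hyy hyR)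
    (fun j hj => by linarith)
    (fun n k₀ i i' => max |(G n).rel k₀ i i' 10|
      |pb ((q n).1 + ee n i k₀ * (q n).2) (q n).2 0 * (G n).rel k₀ i i' 5 +
        pb ((q n).1 + ee n i k₀ * (q n).2) (q n).2 1 * (G n).rel k₀ i i' 6|) ?_
  have hN1 : ((J + 1 : ℕ) : ℝ) * hh ≤ R := by push_cast; rw [hyh]; exact hyR.trans hR0
  filter_upwards [hq, frost_set H hh0 hN1 hε0, box_pair H.toRUnif p1 hp1L hε0,
    K.ev y hyy hyR (D ^ 2 * ε) hD2ε, ev_const_le B hε0 (17 + 6 * Me),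
    ev_const_le B (show 0 < hh / 4 by positivity) (32 * (Me + 2)),
    K.bd, ev_const_le B (half_pos hh0) 2, H.frost s1 hs10.le hs1R ε hε0,
    ev_small B hε0 2, hstr, ev_const_le B hε0 2, ev_const_le B hε0 (1 + Me)]
    with n hZ hn hpair hev hc11 hc32 hbd hc2 hfr hce hst hcv2 hcM
  have hpow : ∀ t : ℝ, 0 < B.d n ^ t := fun t => rpos B n t
  obtain ⟨Z', hZ', hne, hcard, hμ, hf⟩ := hZ
  set μa : ℝ := (q n).1 with hμadef
  set μb : ℝ := (q n).2 with hμbdef
  -- all directions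
  have hslope : ∀ e : ℝ, |e| ≤ Me → B.d n ^ (2 * ε) ≤ |pm (μa + e * μb) μb| ∧
      pm (μa + e * μb) μb ≤ |μa| + (Me + 1) * |μb| := by
    intro e he
    obtain ⟨-, -, -, q4, q5, q6, q7⟩ := p_spec (μa + e * μb) μb
    have g0 : |e * μb| ≤ Me * |μb| := by
      rw [abs_mul]; exact mul_le_mul_of_nonneg_right he (abs_nonneg _)
    have g1 : |μa + e * μb| ≤ |μa| + Me * |μb| := (abs_add_le _ _).trans (by linarith)
    refine ⟨?_, by linarith⟩
    rw [abs_of_nonneg q4]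
    have g2 : |μa| ≤ (1 + Me) * pm (μa + e * μb) μb := by
      have g3 : |μa| = |(μa + e * μb) - e * μb| := by congr 1; ring
      have g3' := abs_sub (μa + e * μb) (e * μb)
      have g4 : Me * |μb| ≤ Me * pm (μa + e * μb) μb :=
        mul_le_mul_of_nonneg_left q6 (by linarith)
      linarith
    have g5 : |μb| ≤ (1 + Me) * pm (μa + e * μb) μb := by
      have g6 : 1 * pm (μa + e * μb) μb ≤ (1 + Me) * pm (μa + e * μb) μb :=
        mul_le_mul_of_nonneg_right (by linarith) q4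
      linarith
    have g7 : B.d n ^ ε ≤ (1 + Me) * pm (μa + e * μb) μb := hμ.trans (max_le g2 g5)
    have g8 : B.d n ^ (2 * ε) = B.d n ^ ε * B.d n ^ ε := by rw [← rpow_add']; congr 1; ring
    have g9 : B.d n ^ ε * B.d n ^ (-ε) = 1 := by
      rw [← rpow_add', add_neg_cancel, Real.rpow_zero]
    have g10 : (1 + Me) * B.d n ^ ε ≤ 1 := by
      calc (1 + Me) * B.d n ^ ε ≤ B.d n ^ (-ε) * B.d n ^ ε :=
            mul_le_mul_of_nonneg_right hcM (hpow ε).le
        _ = 1 := by rw [mul_comm]; exact g9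
    rw [g8]
    calc B.d n ^ ε * B.d n ^ ε ≤ ((1 + Me) * pm (μa + e * μb) μb) * B.d n ^ ε :=
          mul_le_mul_of_nonneg_right g7 (hpow ε).le
      _ = ((1 + Me) * B.d n ^ ε) * pm (μa + e * μb) μb := by ring
      _ ≤ 1 * pm (μa + e * μb) μb := mul_le_mul_of_nonneg_right g10 q4
      _ = _ := one_mul _
  have hZ'c : (0 : ℝ) < Z'.card := by exact_mod_cast card_pos.2 hne
  refine ⟨Z', hZ', hne, fun k₀ hk₀' =>
    ⟨Z'.filter fun k => B.d n ^ s1 < |(G n).z k - (G n).z k₀|, filter_subset _ _, ?_, ?_⟩⟩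
  · have hk₀ := hZ' hk₀'
    have e1 : ((Z' \ Z'.filter fun k => B.d n ^ s1 < |(G n).z k - (G n).z k₀|).card : ℝ) ≤
        (((G n).hbox s1 k₀).card : ℝ) := by
      have : (Z' \ Z'.filter fun k => B.d n ^ s1 < |(G n).z k - (G n).z k₀|) ⊆
          (G n).hbox s1 k₀ := by
        intro k hk
        rw [Finset.mem_sdiff, mem_filter] at hk
        unfold RCfg.hbox
        rw [mem_filter, H.base n]
        refine ⟨hZ' hk.1, ?_⟩
        by_contra hcon
        exact hk.2 ⟨hk.1, not_le.1 hcon⟩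
      exact_mod_cast card_le_card this
    refine e1.trans ((hfr k₀ hk₀).trans ?_)
    have e2 : B.d n ^ (σ * s1 - ε) ≤ B.d n ^ ((D + 5) * ε) * B.d n ^ ε := by
      rw [← rpow_add']
      refine rpow_anti B n ?_
      rw [hs1]
      have hDε := mul_pos hD0 hε0
      linarith
    calc B.d n ^ (σ * s1 - ε) * ((G n).Z.card : ℝ)
        ≤ B.d n ^ ((D + 5) * ε) * B.d n ^ ε * ((G n).Z.card : ℝ) :=
          mul_le_mul_of_nonneg_right e2 (Nat.cast_nonneg _)
      _ = B.d n ^ ((D + 5) * ε) * (B.d n ^ ε * ((G n).Z.card : ℝ)) := by ring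
      _ ≤ _ := mul_le_mul_of_nonneg_left hcard (hpow _).le
  have hk₀ := hZ' hk₀'
  intro i₀ hi₀
  have hI0 := H.memSlice.1 hi₀
  have hS : ∀ i ∈ (G n).box p1 ε i₀ k₀, (i, k₀) ∈ (G n).I := fun i hi =>
    H.memSlice.1 (RCfg.box_subset_slice hi)
  have hSS : ∀ i ∈ (G n).box p1 ε i₀ k₀, ∀ i' ∈ (G n).box p1 ε i₀ k₀,
      (G n).loose p1 (D ^ 2 * ε) k₀ i i' := fun i hi i' hi' => hpair k₀ i₀ i i' hI0 hi hi'
  have hSS0 : ∀ i ∈ (G n).box p1 ε i₀ k₀, ∀ i' ∈ (G n).box p1 ε i₀ k₀,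
      (G n).loose p0 (D ^ 2 * ε) k₀ i i' := fun i hi i' hi' =>
    H.loose_mono h01 le_rfl (hSS i hi i' hi')
  have hslot : ∀ i ∈ (G n).box p1 ε i₀ k₀, ∀ i' ∈ (G n).box p1 ε i₀ k₀, ∀ s, p0 s = 0 →
      |(G n).rel k₀ i i' s| ≤ B.d n ^ (-(D ^ 2 * ε)) := by
    intro i hi i' hi' s hs
    have := hSS0 i hi i' hi' s
    rw [H.base n, hs, zero_sub] at this
    exact this
  have hslot1 : ∀ i ∈ (G n).box p1 ε i₀ k₀, ∀ i' ∈ (G n).box p1 ε i₀ k₀, ∀ s, p1 s = y →
      |(G n).rel k₀ i i' s| ≤ B.d n ^ (y - D ^ 2 * ε) := by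
    intro i hi i' hi' s hs
    have := hSS i hi i' hi' s
    rw [H.base n, hs] at this
    exact this
  refine ⟨?_, ?_, ?_, ?_⟩
  · intro i hi i' hi'
    refine max_le ((hslot i hi i' hi' 10 rfl).trans ?_) ?_
    · exact rpow_anti B n (by linarith)
    · set b := pb (μa + ee n i k₀ * μb) μb with hbdef
      have hbu := unit_le (p_spec (μa + ee n i k₀ * μb) μb).1
      rw [← hbdef] at hbu
      have f1 : |b 0 * (G n).rel k₀ i i' 5| ≤ B.d n ^ (-(D ^ 2 * ε)) := by
        rw [abs_mul]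
        calc |b 0| * |(G n).rel k₀ i i' 5| ≤ 1 * B.d n ^ (-(D ^ 2 * ε)) :=
              mul_le_mul hbu.1 (hslot i hi i' hi' 5 rfl) (abs_nonneg _) zero_le_one
          _ = _ := one_mul _
      have f2 : |b 1 * (G n).rel k₀ i i' 6| ≤ B.d n ^ (-(D ^ 2 * ε)) := by
        rw [abs_mul]
        calc |b 1| * |(G n).rel k₀ i i' 6| ≤ 1 * B.d n ^ (-(D ^ 2 * ε)) :=
              mul_le_mul hbu.2 (hslot i hi i' hi' 6 rfl) (abs_nonneg _) zero_le_one
          _ = _ := one_mul _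
      refine (abs_add_le _ _).trans ?_
      have f3 : 2 * B.d n ^ (-(D ^ 2 * ε)) ≤ B.d n ^ (-((D ^ 2 + 1) * ε)) := by
        refine absorb B ?_
        have e : -(-(D ^ 2 * ε) - -((D ^ 2 + 1) * ε)) = -ε := by ring
        rw [e]; exact hcv2
      linarith
  · intro j hj i hi
    have h1 := hst j (by simp; omega) i k₀ (hS i hi) _
      (p_spec (μa + ee n i k₀ * μb) μb).1
    refine le_trans ?_ (h1.trans (rpow_anti B n ?_))
    · refine mod_cast card_le_card ?_
      intro i' hi'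
      rw [mem_filter] at hi'
      obtain ⟨hi'1, hd⟩ := hi'
      rw [max_le_iff] at hd
      rw [mem_filter, RCfg.mem_box]
      refine ⟨⟨RCfg.box_subset_slice hi'1, fun s => ?_⟩, ?_⟩
      · have h1 := hSS i hi i' hi'1 s
        by_cases hsN : s = 10
        · subst hsN
          rw [bv10, H.base n]
          exact hd.1
        · refine h1.trans ?_
          rw [hp1, bv_off (s := s) (n' := (j : ℝ) * hh) (fun _ => rfl) (fun _ => rfl)
            (fun _ => rfl) (fun _ => rfl) (fun _ => rfl) (fun h => absurd h hsN), H.base n]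
          exact rpow_anti B n (by linarith)
      · exact hd.2
    · rw [hp1]
      have e1 : (K0 * (D ^ 2 + 1) + 1) * ε = K0 * ((D ^ 2 + 1) * ε) + ε := by ring
      rw [e1]
      linarith
  · intro k hk i hi i' hi' hIk hIk'
    have := (hev k₀ k i i' (hS i hi) (hS i' hi') hIk hIk' (hSS0 i hi i' hi')).1
    refine H.loose_mono (fun _ => le_rfl) (le_of_eq ?_) this
    ring
  · intro j hj i hi i' hi' hd0
    obtain ⟨hμm, hmM0⟩ := hslope (ee n i k₀) (hMe n i k₀)
    obtain ⟨hb, hμa, hμb, hm0, hma, hmb, hmab⟩ := p_spec (μa + ee n i k₀ * μb) μb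
    have hbu := unit_le hb
    have hee := hMe n i k₀
    have hd : B.d n ^ (((j + 1 : ℕ) : ℝ) * hh - (D ^ 2 + 1) * ε) < max |(G n).rel k₀ i i' 10|
      |pb (μa + ee n i k₀ * μb) μb 0 * (G n).rel k₀ i i' 5 +
        pb (μa + ee n i k₀ * μb) μb 1 * (G n).rel k₀ i i' 6| := hd0
    clear hd0 hslope
    set e' : ℝ := ee n i k₀ with he'
    set m : ℝ := pm (μa + e' * μb) μb with hm
    set b : Fin 2 → ℝ := pb (μa + e' * μb) μb with hbdef
    clear_value m b e' μa μb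
    have hjJ : ((J - 1 - j : ℕ) : ℝ) = (J : ℝ) - 1 - j := castJ hj
    set K' := Z'.filter fun k => B.d n ^ s1 < |(G n).z k - (G n).z k₀| with hK'
    set T := K'.filter fun k => (i, k) ∈ (G n).I ∧ (i', k) ∈ (G n).I ∧
      (G n).loose (bv y y 0 0 0 0 0) (D ^ 5 * (C1 * D ^ 2 * ε)) k i i' with hT
    have e57 : D ^ 5 * (C1 * D ^ 2 * ε) = C1 * D ^ 7 * ε := by ring
    have hA1ε : C1 * (D ^ 2 * ε) ≤ C1 * D ^ 7 * ε := by
      have : D ^ 2 ≤ D ^ 7 := pow_le_pow_right₀ hD (by norm_num)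
      have h1 : D ^ 2 * ε ≤ D ^ 7 * ε := mul_le_mul_of_nonneg_right this hε0.le
      calc C1 * (D ^ 2 * ε) ≤ C1 * (D ^ 7 * ε) := mul_le_mul_of_nonneg_left h1 hC10.le
        _ = _ := by ring
    have hA2ε : D ^ 2 * ε ≤ C1 * D ^ 7 * ε := by
      refine le_trans ?_ hA1ε
      have : 1 * (D ^ 2 * ε) ≤ C1 * (D ^ 2 * ε) := mul_le_mul_of_nonneg_right hC1 hD2ε.le
      linarith
    have hzz : ∀ k ∈ Z', |(G n).z k - (G n).z k₀| ≤ 2 := by
      intro k hk
      refine (abs_sub _ _).trans ?_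
      have := (hbd k (hZ' hk)).1; have := (hbd k₀ hk₀).1; linarith
    have hff : ∀ k ∈ Z', |fa n k - fa n k₀| ≤ 2 ∧ |fb n k - fb n k₀| ≤ 2 := by
      intro k hk
      have h1 := (hbd k (hZ' hk)).2
      have h2 := (hbd k₀ hk₀).2
      exact ⟨(abs_sub _ _).trans (by linarith [h1.1, h2.1]),
        (abs_sub _ _).trans (by linarith [h1.2, h2.2])⟩
    have hTZ' : ∀ k ∈ T, k ∈ Z' ∧ B.d n ^ s1 < |(G n).z k - (G n).z k₀| := by
      intro k hk
      rw [hT, mem_filter, hK', mem_filter] at hk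
      exact hk.1
    have hgen : ∀ k ∈ T, |(G n).rel k₀ i i' 10 - m * ((G n).z k - (G n).z k₀) ^ 2 *
        (b 0 * (G n).rel k₀ i i' 5 + b 1 * (G n).rel k₀ i i' 6)| ≤ B.d n ^ (y - A * ε) := by
      intro k hk
      obtain ⟨hkZ, hks⟩ := hTZ' k hk
      rw [hT, mem_filter, e57] at hk
      obtain ⟨-, hIk, hIk', hl⟩ := hk
      have g1 := (hev k₀ k i i' (hS i hi) (hS i' hi') hIk hIk' (hSS0 i hi i' hi')).2
      rw [← he'] at g1
      have g2 := hl 10
      rw [bv10, H.base n] at g2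
      obtain ⟨g3a, g3b⟩ := hf k₀ hk₀' k hkZ
      have hu := hzz k hkZ
      obtain ⟨hga, hgb⟩ := hff k hkZ
      have gP := hslot1 i hi i' hi' 7 rfl
      have gXa := hslot1 i hi i' hi' 8 rfl
      have gXb := hslot1 i hi i' hi' 9 rfl
      have gCa := hslot i hi i' hi' 5 rfl
      have gCb := hslot i hi i' hi' 6 rfl
      set w := B.d n ^ (y - C1 * D ^ 7 * ε) with hb
      have hb0 : 0 < w := hpow _
      have k1 : B.d n ^ (y - C1 * (D ^ 2 * ε)) ≤ w := rpow_anti B n (by linarith)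
      have k2 : B.d n ^ y * B.d n ^ (-(D ^ 2 * ε)) ≤ w := by
        rw [← rpow_add']
        exact rpow_anti B n (by linarith)
      have k3 : B.d n ^ (y - D ^ 2 * ε) ≤ w := rpow_anti B n (by linarith)
      have m1 : |((G n).z k - (G n).z k₀) * (G n).rel k₀ i i' 7| ≤ 2 * w := by
        rw [abs_mul]
        exact mul_le_mul hu (gP.trans k3) (abs_nonneg _) (by norm_num)
      have hgF : |(fa n k - fa n k₀) + e' * (fb n k - fb n k₀)| ≤ 2 + 2 * Me := by
        refine (abs_add_le _ _).trans ?_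
        rw [abs_mul]
        have := mul_le_mul hee hgb (abs_nonneg _) (by linarith)
        linarith
      have m2a : |((fa n k - fa n k₀) + e' * (fb n k - fb n k₀)) * (G n).rel k₀ i i' 8| ≤
          (2 + 2 * Me) * w := by
        rw [abs_mul]
        exact mul_le_mul hgF (gXa.trans k3) (abs_nonneg _) (by linarith)
      have m2b : |(fb n k - fb n k₀) * (G n).rel k₀ i i' 9| ≤ 2 * w := by
        rw [abs_mul]
        exact mul_le_mul hgb (gXb.trans k3) (abs_nonneg _) (by norm_num)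
      have m3 : ∀ c F C : ℝ, 0 ≤ c → |F| ≤ c * (2 * B.d n ^ y) →
          |C| ≤ B.d n ^ (-(D ^ 2 * ε)) →
          |F * (((G n).z k - (G n).z k₀) * C)| ≤ c * (4 * w) := by
        intro c F C hc0 hF hC
        rw [abs_mul, abs_mul]
        have hE0 := hpow (-(D ^ 2 * ε))
        calc |F| * (|(G n).z k - (G n).z k₀| * |C|)
            ≤ c * (2 * B.d n ^ y) * (2 * B.d n ^ (-(D ^ 2 * ε))) := by
              refine mul_le_mul hF ?_ (by positivity) (by have := hpow y; positivity)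
              exact mul_le_mul hu hC (abs_nonneg _) (by norm_num)
          _ = c * (4 * (B.d n ^ y * B.d n ^ (-(D ^ 2 * ε)))) := by ring
          _ ≤ c * (4 * w) := mul_le_mul_of_nonneg_left (by linarith) hc0
      have g3F : |(fa n k - fa n k₀) + e' * (fb n k - fb n k₀) -
          (μa + e' * μb) * ((G n).z k - (G n).z k₀)| ≤ (1 + Me) * (2 * B.d n ^ y) := by
        have e0 : (fa n k - fa n k₀) + e' * (fb n k - fb n k₀) -
            (μa + e' * μb) * ((G n).z k - (G n).z k₀) =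
            (fa n k - fa n k₀ - μa * ((G n).z k - (G n).z k₀)) +
            e' * (fb n k - fb n k₀ - μb * ((G n).z k - (G n).z k₀)) := by ring
        rw [e0]
        refine (abs_add_le _ _).trans ?_
        rw [abs_mul]
        have := mul_le_mul hee g3b (abs_nonneg _) (by linarith)
        linarith
      have m3a := m3 (1 + Me) _ _ (by linarith) g3F gCa
      have m3b := m3 1 _ _ zero_le_one (by rw [one_mul]; exact g3b) gCb
      have k4 : |(G n).rel k₀ i i' 10 - m * ((G n).z k - (G n).z k₀) ^ 2 *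
          (b 0 * (G n).rel k₀ i i' 5 + b 1 * (G n).rel k₀ i i' 6)| ≤ (16 + 6 * Me) * w := by
        have e1 : (G n).rel k₀ i i' 10 - m * ((G n).z k - (G n).z k₀) ^ 2 *
            (b 0 * (G n).rel k₀ i i' 5 + b 1 * (G n).rel k₀ i i' 6) = (G n).rel k i i' 10 -
            ((G n).rel k i i' 10 - ((G n).rel k₀ i i' 10 +
              ((G n).z k - (G n).z k₀) * (G n).rel k₀ i i' 7
              - ((fa n k - fa n k₀) + e' * (fb n k - fb n k₀)) * ((G n).rel k₀ i i' 8 +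
              ((G n).z k - (G n).z k₀) * (G n).rel k₀ i i' 5)
              - (fb n k - fb n k₀) * ((G n).rel k₀ i i' 9 +
              ((G n).z k - (G n).z k₀) * (G n).rel k₀ i i' 6))) -
            ((G n).z k - (G n).z k₀) * (G n).rel k₀ i i' 7 +
            ((fa n k - fa n k₀) + e' * (fb n k - fb n k₀)) * (G n).rel k₀ i i' 8 +
            (fb n k - fb n k₀) * (G n).rel k₀ i i' 9 +
            ((fa n k - fa n k₀) + e' * (fb n k - fb n k₀) -
              (μa + e' * μb) * ((G n).z k - (G n).z k₀)) *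
              (((G n).z k - (G n).z k₀) * (G n).rel k₀ i i' 5) +
            (fb n k - fb n k₀ - μb * ((G n).z k - (G n).z k₀)) *
              (((G n).z k - (G n).z k₀) * (G n).rel k₀ i i' 6) := by
          have r1 : m * ((G n).z k - (G n).z k₀) ^ 2 *
              (b 0 * (G n).rel k₀ i i' 5 + b 1 * (G n).rel k₀ i i' 6) =
              (m * b 0) * (((G n).z k - (G n).z k₀) ^ 2 * (G n).rel k₀ i i' 5) +
              (m * b 1) * (((G n).z k - (G n).z k₀) ^ 2 * (G n).rel k₀ i i' 6) := by ring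
          rw [r1, ← hμa, ← hμb]
          ring
        rw [e1]
        have n1 := abs_le.1 (g1.trans k1)
        have n2 := abs_le.1 g2
        have n3 := abs_le.1 m1
        have n4 := abs_le.1 m2a
        have n5 := abs_le.1 m2b
        have n6 := abs_le.1 m3a
        have n7 := abs_le.1 m3b
        rw [abs_le]
        constructor <;> linarith [n1.1, n1.2, n2.1, n2.2, n3.1, n3.2, n4.1, n4.2, n5.1, n5.2,
          n6.1, n6.2, n7.1, n7.2]
      refine (k4.trans (by linarith : (16 + 6 * Me) * w ≤ (17 + 6 * Me) * w)).trans (absorb B ?_)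
      have e : -(y - C1 * D ^ 7 * ε - (y - A * ε)) = -ε := by rw [hA]; ring
      rw [e]
      exact hc11
    have hμM : ∀ k ∈ T, |m| ≤ 4 * (Me + 2) * B.d n ^ (-s1) := by
      intro k hk
      obtain ⟨hk1, hk2⟩ := hTZ' k hk
      obtain ⟨hfma, hfmb⟩ := hf k₀ hk₀' k hk1
      obtain ⟨hg2a, hg2b⟩ := hff k hk1
      have hy1 : B.d n ^ y ≤ 1 := Real.rpow_le_one (B.pos n).le (B.lt n).le hyy
      have e0 : ∀ μ F : ℝ, |F| ≤ 2 → |F - μ * ((G n).z k - (G n).z k₀)| ≤ 2 * B.d n ^ y →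
          |μ| * B.d n ^ s1 ≤ 4 := by
        intro μ F hF1 hF2
        calc |μ| * B.d n ^ s1 ≤ |μ| * |(G n).z k - (G n).z k₀| :=
              mul_le_mul_of_nonneg_left hk2.le (abs_nonneg _)
          _ = |μ * ((G n).z k - (G n).z k₀)| := (abs_mul _ _).symm
          _ = |F - (F - μ * ((G n).z k - (G n).z k₀))| := by ring_nf
          _ ≤ |F| + |F - μ * ((G n).z k - (G n).z k₀)| := abs_sub _ _
          _ ≤ 4 := by linarith
      have e1a := e0 μa _ hg2a hfma
      have e1b := e0 μb _ hg2b hfmb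
      have e2 : B.d n ^ s1 * B.d n ^ (-s1) = 1 := by
        rw [← rpow_add', add_neg_cancel, Real.rpow_zero]
      rw [abs_of_nonneg hm0]
      have e3 : m * B.d n ^ s1 ≤ 4 * (Me + 2) := by
        have h1 := mul_le_mul_of_nonneg_right hmM0 (hpow s1).le
        have h2 : (Me + 1) * (|μb| * B.d n ^ s1) ≤ (Me + 1) * 4 :=
          mul_le_mul_of_nonneg_left e1b (by linarith)
        linarith
      calc m = m * B.d n ^ s1 * B.d n ^ (-s1) := by rw [mul_assoc, e2, mul_one]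
        _ ≤ 4 * (Me + 2) * B.d n ^ (-s1) := mul_le_mul_of_nonneg_right e3 (hpow _).le
    -- one sign
    have hsgn : ∀ T' ⊆ T, (∀ k ∈ T', ∀ k' ∈ T',
        (B.d n ^ s1 ≤ (G n).z k - (G n).z k₀ ∧ B.d n ^ s1 ≤ (G n).z k' - (G n).z k₀) ∨
        ((G n).z k - (G n).z k₀ ≤ -B.d n ^ s1 ∧ (G n).z k' - (G n).z k₀ ≤ -B.d n ^ s1)) →
        (T'.card : ℝ) ≤ B.d n ^ (σ * (((J - 1 - j : ℕ) : ℝ) * hh) - ε) * (G n).Z.card := by
      intro T' hT' hs
      refine hn (J - 1 - j) (by simp; omega) T' (fun k hk => hZ' (hTZ' k (hT' hk)).1) ?_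
      intro k hk k' hk'
      have hkT := hT' hk
      have hkT' := hT' hk'
      have g1 := hgen k hkT
      have g2 := hgen k' hkT'
      have hM1 : (1 : ℝ) ≤ 4 * (Me + 2) * B.d n ^ (-s1) := by
        have h1 : (1 : ℝ) ≤ B.d n ^ (-s1) :=
          Real.one_le_rpow_of_pos_of_le_one_of_nonpos (B.pos n) (B.lt n).le (by linarith)
        calc (1 : ℝ) = 1 * 1 := (one_mul 1).symm
          _ ≤ 4 * (Me + 2) * B.d n ^ (-s1) := mul_le_mul (by linarith) h1 zero_le_one (by linarith)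
      have h2w : 2 * B.d n ^ (y - A * ε) ≤
          B.d n ^ (((j + 1 : ℕ) : ℝ) * hh - (D ^ 2 + 1) * ε) := by
        refine absorb B (hc2.trans (rpow_anti B n ?_))
        push_cast
        have h1 : (j : ℝ) + 1 ≤ J := by
          have : j + 1 ≤ J := hj
          exact_mod_cast this
        have h2 : ((j : ℝ) + 1) * hh ≤ (J : ℝ) * hh := mul_le_mul_of_nonneg_right h1 hh0.le
        have h3 : 0 ≤ D ^ 2 * ε := hD2ε.le
        have h4 : 0 ≤ A * ε := by positivity
        linarith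
      have g3 := root_sq g2 g1 (hzz k' (hTZ' k' hkT').1) hM1 (hμM k hkT) hμm (hpow (2 * ε))
        (hpow s1)
        (hs k' hk' k hk) (hpow _) hd h2w
      have g4 : ((G n).z k' - (G n).z k₀) - ((G n).z k - (G n).z k₀) =
        (G n).z k' - (G n).z k := by ring
      rw [g4] at g3
      have e5 : B.d n ^ (2 * ε) * B.d n ^ s1 *
          B.d n ^ (((j + 1 : ℕ) : ℝ) * hh - (D ^ 2 + 1) * ε) =
          B.d n ^ (2 * ε + s1 + (((j + 1 : ℕ) : ℝ) * hh - (D ^ 2 + 1) * ε)) := by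
        rw [← rpow_add', ← rpow_add']
      have e6 : 8 * (4 * (Me + 2) * B.d n ^ (-s1)) * B.d n ^ (y - A * ε) =
          32 * (Me + 2) * B.d n ^ (-s1 + (y - A * ε)) := by
        rw [rpow_add' B n (-s1)]; ring
      rw [e5, e6] at g3
      refine le_div_pow B n g3 (hc32.trans (rpow_anti B n ?_))
      push_cast
      rw [hjJ, hs1]
      have h3 : 0 ≤ D ^ 2 * ε := hD2ε.le
      have h4 : ε ≤ A * ε := le_mul_of_one_le_left hε0.le hA1
      linarith
    have hTp := hsgn (T.filter fun k => (G n).z k₀ < (G n).z k) (filter_subset _ _) (by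
      intro k hk k' hk'
      rw [mem_filter] at hk hk'
      left
      constructor
      · have := (hTZ' k hk.1).2; rw [abs_of_pos (sub_pos.2 hk.2)] at this; exact this.le
      · have := (hTZ' k' hk'.1).2; rw [abs_of_pos (sub_pos.2 hk'.2)] at this; exact this.le)
    have hTm := hsgn (T.filter fun k => ¬ (G n).z k₀ < (G n).z k) (filter_subset _ _) (by
      intro k hk k' hk'
      rw [mem_filter] at hk hk'
      right
      constructor
      · have := (hTZ' k hk.1).2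
        rw [abs_of_nonpos (sub_nonpos.2 (not_lt.1 hk.2))] at this; linarith
      · have := (hTZ' k' hk'.1).2
        rw [abs_of_nonpos (sub_nonpos.2 (not_lt.1 hk'.2))] at this; linarith)
    have hsum : (T.card : ℝ) = (T.filter fun k => (G n).z k₀ < (G n).z k).card +
        (T.filter fun k => ¬ (G n).z k₀ < (G n).z k).card := by
      exact_mod_cast (card_filter_add_card_filter_not (s := T) _).symm
    have hT2 : (T.card : ℝ) ≤ 2 * (B.d n ^ (σ * (((J - 1 - j : ℕ) : ℝ) * hh) - ε) *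
        (G n).Z.card) := by rw [hsum]; linarith
    refine hT2.trans ?_
    have e1 : B.d n ^ (σ * (((J - 1 - j : ℕ) : ℝ) * hh) - ε) =
        B.d n ^ (σ * (((J - 1 - j : ℕ) : ℝ) * hh) - 3 * ε) * B.d n ^ ε * B.d n ^ ε := by
      rw [← rpow_add', ← rpow_add']; congr 1; ring
    rw [e1]
    have e7 := hpow (σ * (((J - 1 - j : ℕ) : ℝ) * hh) - 3 * ε)
    have e8 := hpow ε
    calc 2 * (B.d n ^ (σ * (((J - 1 - j : ℕ) : ℝ) * hh) - 3 * ε) * B.d n ^ ε * B.d n ^ ε *
          ((G n).Z.card : ℝ))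
        = (2 * B.d n ^ ε) * (B.d n ^ (σ * (((J - 1 - j : ℕ) : ℝ) * hh) - 3 * ε) *
          (B.d n ^ ε * ((G n).Z.card : ℝ))) := by ring
      _ ≤ 1 * (B.d n ^ (σ * (((J - 1 - j : ℕ) : ℝ) * hh) - 3 * ε) *
          (B.d n ^ ε * ((G n).Z.card : ℝ))) := by
          refine mul_le_mul_of_nonneg_right hce ?_
          exact mul_nonneg e7.le (mul_nonneg e8.le (Nat.cast_nonneg _))
      _ = B.d n ^ (σ * (((J - 1 - j : ℕ) : ℝ) * hh) - 3 * ε) *
          (B.d n ^ ε * ((G n).Z.card : ℝ)) := one_mul _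
      _ ≤ _ := mul_le_mul_of_nonneg_left hcard e7.le

end Crest.Agent.R136.CV366
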