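import Crest.Agent.R136.CV3_366

/-!
# R136: vector K3core: no heavy strips (helper366)
-/

set_option autoImplicit false
set_option linter.unusedVariables false
set_option linter.unusedSectionVars false

open Filter Topology Finset

namespace Crest.Agent.R136.CV366

open Crest.Agent.R138.Ex926 (Base U exists_tendsto)
open Crest.Agent.R136.Gf356
open Crest.Agent.R136.CD366

variable {B : Base} {G : ℕ → RCfg (Fin 11)} {Leg : Set (Fin 11 → ℝ)} {ν : (Fin 11 → ℝ) → ℝ}
  {σ R D : ℝ} {fa fb : ℕ → ℕ → ℝ} {ee : ℕ → ℕ → ℕ → ℝ} {R0 C1 a c K0 : ℝ}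

open Classical in
/-- no heavy strips of power width -/
theorem no_strip_V (H : RModel B G σ R Leg ν D)
    (K : KV B G Leg ν fa fb ee R0 C1 a c K0) (hR0 : R0 ≤ R) (ha : a < σ) :
    ∃ η : ℝ, 0 < η ∧ ∀ Y0 Y1 : ℝ, 0 < Y0 → Y1 ≤ R0 → ¬ ∀ᶠ n in (U : Filter ℕ),
      ∃ w : ℝ, B.d n ^ Y1 ≤ w ∧ w ≤ B.d n ^ Y0 ∧ ∃ Z' ⊆ (G n).Z, Z'.Nonempty ∧
        w ^ η * ((G n).Z.card : ℝ) ≤ Z'.card ∧ ∃ μa μb : ℝ, ∀ k ∈ Z', ∀ k' ∈ Z',
        |fa n k' - fa n k - μa * ((G n).z k' - (G n).z k)| ≤ 2 * w ∧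
        |fb n k' - fb n k - μb * ((G n).z k' - (G n).z k)| ≤ 2 * w := by
  obtain ⟨η₁, hη₁, H1⟩ := no_slope_V H K hR0 ha
  obtain ⟨η₂, hη₂, H2⟩ := no_flat_V H K hR0 ha
  set e1 : ℝ := min η₁ 1 with he1
  have he10 : 0 < e1 := lt_min hη₁ one_pos
  have he1η : e1 ≤ η₁ := min_le_left _ _
  have he11 : e1 ≤ 1 := min_le_right _ _
  refine ⟨min (e1 / 2) (e1 * η₂ / 4), lt_min (by positivity) (by positivity), ?_⟩
  set η : ℝ := min (e1 / 2) (e1 * η₂ / 4) with hη
  have hη0 : 0 < η := lt_min (by positivity) (by positivity)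
  have hηa : η ≤ e1 / 2 := min_le_left _ _
  have hηb : η ≤ e1 * η₂ / 4 := min_le_right _ _
  intro Y0 Y1 hY0 hY1 Hy
  obtain ⟨w, hw⟩ := Hy.choice
  -- exponent of the width
  have hlog : ∀ n, Real.log (B.d n) < 0 := fun n => Real.log_neg (B.pos n) (B.lt n)
  have hv : ∀ᶠ n in (U : Filter ℕ), Y0 ≤ Real.log (w n) / Real.log (B.d n) ∧
      Real.log (w n) / Real.log (B.d n) ≤ Y1 := by
    filter_upwards [hw] with n hn
    have hw0 : 0 < w n := (rpos B n _).trans_le hn.1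
    have g1 := Real.log_le_log (rpos B n _) hn.1
    have g2 := Real.log_le_log hw0 hn.2.1
    rw [Real.log_rpow (B.pos n)] at g1 g2
    constructor
    · rw [le_div_iff_of_neg (hlog n)]; exact g2
    · rw [div_le_iff_of_neg (hlog n)]; exact g1
  obtain ⟨v, hvt, -⟩ := exists_tendsto (f := fun n => Real.log (w n) / Real.log (B.d n))
    (C := |Y1|) (by
      filter_upwards [hv] with n hn
      rw [abs_of_nonneg (hY0.le.trans hn.1)]
      exact hn.2.trans (le_abs_self _))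
  have hv0 : Y0 ≤ v := ge_of_tendsto hvt (hv.mono fun n hn => hn.1)
  have hv1 : v ≤ Y1 := le_of_tendsto hvt (hv.mono fun n hn => hn.2)
  have hvpos : 0 < v := hY0.trans_le hv0
  set y : ℝ := 3 / 4 * v with hy
  have hypos : 0 < y := by positivity
  have hyR : y ≤ R0 := by rw [hy]; linarith
  have hwy : ∀ᶠ n in (U : Filter ℕ), w n ≤ B.d n ^ y ∧ B.d n ^ (3 / 2 * y) ≤ w n := by
    have h1 : ∀ᶠ n in (U : Filter ℕ), |Real.log (w n) / Real.log (B.d n) - v| < v / 8 := by
      have := (Metric.tendsto_nhds.1 hvt) (v / 8) (by positivity)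
      simpa [Real.dist_eq] using this
    filter_upwards [h1, hw] with n hn hwn
    have hw0 : 0 < w n := (rpos B n _).trans_le hwn.1
    have e2 : w n = B.d n ^ (Real.log (w n) / Real.log (B.d n)) := by
      rw [Real.rpow_def_of_pos (B.pos n), mul_div_cancel₀ _ (hlog n).ne, Real.exp_log hw0]
    rw [abs_lt] at hn
    rw [e2]
    constructor
    · exact rpow_anti B n (by rw [hy]; linarith [hn.1])
    · exact rpow_anti B n (by rw [hy]; linarith [hn.2])
  clear_value y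
  have hn1 := Ultrafilter.eventually_not.2 (H1 y hypos hyR)
  have hn2 := Ultrafilter.eventually_not.2 (H2 (e1 * y / 2) (by positivity) (by nlinarith))
  obtain ⟨n, hwn, hwyn, hN1, hN2, hc4, hbd⟩ := (hw.and (hwy.and (hn1.and (hn2.and
    ((ev_small B (show 0 < e1 * y / 2 by positivity) 4).and K.bd))))).exists
  obtain ⟨hw1, hw2, Z', hZ', hne, hμ, μa, μb, haff0⟩ := hwn
  have hw0 : 0 < w n := (rpos B n _).trans_le hw1
  have hZc : (0 : ℝ) ≤ (G n).Z.card := Nat.cast_nonneg _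
  have hmass : B.d n ^ (3 / 2 * y * η) * ((G n).Z.card : ℝ) ≤ Z'.card := by
    refine le_trans ?_ hμ
    refine mul_le_mul_of_nonneg_right ?_ hZc
    rw [Real.rpow_mul (B.pos n).le]
    exact Real.rpow_le_rpow (rpos B n _).le hwyn.2 hη0.le
  have haff : ∀ k ∈ Z', ∀ k' ∈ Z',
      |fa n k' - fa n k - μa * ((G n).z k' - (G n).z k)| ≤ 2 * B.d n ^ y ∧
      |fb n k' - fb n k - μb * ((G n).z k' - (G n).z k)| ≤ 2 * B.d n ^ y := by
    intro k hk k' hk'
    have g0 := haff0 k hk k' hk'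
    have g1 := hwyn.1
    exact ⟨g0.1.trans (by linarith), g0.2.trans (by linarith)⟩
  rcases le_or_gt (B.d n ^ (η₁ * y)) (max |μa| |μb|) with hcase | hcase
  · refine hN1 ⟨Z', hZ', hne, ?_, μa, μb, hcase, haff⟩
    refine le_trans ?_ hmass
    refine mul_le_mul_of_nonneg_right (rpow_anti B n ?_) hZc
    nlinarith
  · refine hN2 ⟨Z', hZ', hne, ?_, ?_⟩
    · refine le_trans ?_ hmass
      refine mul_le_mul_of_nonneg_right (rpow_anti B n ?_) hZc
      have : y * η ≤ y * (e1 * η₂ / 4) := mul_le_mul_of_nonneg_left hηb hypos.le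
      nlinarith
    · intro k hk k' hk'
      have g1 := haff k hk k' hk'
      have hz1 := (hbd k (hZ' hk)).1
      have hz2 := (hbd k' (hZ' hk')).1
      have g2 : |(G n).z k' - (G n).z k| ≤ 2 := (abs_sub _ _).trans (by linarith)
      have g4 : B.d n ^ y ≤ B.d n ^ (e1 * y) := rpow_anti B n (by nlinarith)
      have g5 : B.d n ^ (e1 * y) = B.d n ^ (e1 * y / 2) * B.d n ^ (e1 * y / 2) := by
        rw [← rpow_add']; congr 1; ring
      have g6 := rpos B n (e1 * y / 2)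
      have key : ∀ F μ : ℝ, |F - μ * ((G n).z k' - (G n).z k)| ≤ 2 * B.d n ^ y →
          |μ| ≤ B.d n ^ (η₁ * y) → |F| ≤ B.d n ^ (e1 * y / 2) := by
        intro F μ hF hμ'
        have g3 : |μ| ≤ B.d n ^ (e1 * y) := hμ'.trans (rpow_anti B n (by nlinarith))
        calc |F| = |(F - μ * ((G n).z k' - (G n).z k)) + μ * ((G n).z k' - (G n).z k)| := by
              ring_nf
          _ ≤ |F - μ * ((G n).z k' - (G n).z k)| +
              |μ| * |(G n).z k' - (G n).z k| := by rw [← abs_mul]; exact abs_add_le _ _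
          _ ≤ 2 * B.d n ^ (e1 * y) + B.d n ^ (e1 * y) * 2 := by
              have g7 := rpos B n (e1 * y)
              refine add_le_add (by linarith) ?_
              exact mul_le_mul g3 g2 (abs_nonneg _) g7.le
          _ = (4 * B.d n ^ (e1 * y / 2)) * B.d n ^ (e1 * y / 2) := by rw [g5]; ring
          _ ≤ 1 * B.d n ^ (e1 * y / 2) := mul_le_mul_of_nonneg_right hc4 g6.le
          _ = _ := one_mul _
      exact ⟨key _ _ g1.1 ((le_max_left _ _).trans hcase.le),
        key _ _ g1.2 ((le_max_right _ _).trans hcase.le)⟩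

end Crest.Agent.R136.CV366
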