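import Crest.Agent.R136.CD3_366
import Crest.Agent.R136.Rgo_569

/-!
# R136: [RIG-0] on a heavy set of heights, line dependent shear (helper366)

`rig_onL` : helper569's `rig_on` where `P` is replaced by `P - m_i X`, `m_i` any line dependent
number of size `≤ ρ^(-γ y)`; the evolution is needed between heights of `Z0` only.
-/

set_option autoImplicit false
set_option linter.unusedVariables false
set_option linter.unusedSectionVars false

open Filter Topology Finset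

namespace Crest.Agent.R136.CV366

open Crest.Agent.R138.Ex926 (Base U)
open Crest.Agent.R138.TwA501 (ev_const ev_const_mul dpow_pos dpow_anti dpow_add dpow_le_one)
open Crest.Agent.R136.Gf356
open Crest.Agent.R136.CD366
open Crest.Agent.R136.Rg0_501 (bpr markov_compl)
open Crest.Agent.R136.Rg1_501 (few_common_mesh)
open Crest.Agent.R136.Rgo569 (few_bad_g Qt)

open Classical in
set_option maxHeartbeats 3200000 in
/-- **[RIG-0] on a heavy set `Z0` of heights** with a line dependent shear `m` of `P` along `X`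
(helper569's `rig_on` is the case `m = 0`) : `f` is affine in `z` up to a power on a heavy part of
`Z0`. -/
theorem rig_onL {σ a s c η D C1 : ℝ} (ha0 : 0 ≤ a) (has : a < s) (hsσ : s < σ) (hsc : s < a + c)
    (hc : 0 < c) (hσ1 : σ ≤ 1) (hη : 0 < η) (hD : 1 ≤ D) (hC1 : 1 ≤ C1) :
    ∃ α γ : ℝ, 0 < α ∧ α ≤ 1 ∧ 0 < γ ∧ ∀ {κ : Type} [DecidableEq κ] {B : Base}
      {G : ℕ → RCfg κ} {Leg : Set (κ → ℝ)} {ν : (κ → ℝ) → ℝ} {R : ℝ}
      (H : RModel B G σ R Leg ν D) (p0 p1 r : κ → ℝ) (sN sP sX : κ) (f : ℕ → ℕ → ℝ)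
      (m : ℕ → ℕ → ℕ → ℝ) (y : ℝ),
      sP ≠ sX → 0 < y → y ≤ R → p0 ∈ Leg → p1 ∈ Leg → r ∈ Leg →
      (∀ t, 0 ≤ t → t ≤ y → Qt p1 sP sX t ∈ Leg) → (∀ j, p0 j ≤ p1 j) → (∀ j, p0 j ≤ r j) →
      r sN = y → p1 sP = 0 → p1 sX = 0 → ν p0 - ν r ≤ a * y →
      (∀ t, 0 ≤ t → t ≤ y → (a + c) * t ≤ ν p1 - ν (Qt p1 sP sX t)) →
      (∀ᶠ n in (U : Filter ℕ), ∀ k ∈ (G n).Z, |(G n).z k| ≤ 1 ∧ |f n k| ≤ 1) →
      ∀ Z0 : ℕ → Finset ℕ, (∀ᶠ n in (U : Filter ℕ), Z0 n ⊆ (G n).Z ∧ (Z0 n).Nonempty ∧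
        B.d n ^ (γ * y) * ((G n).Z.card : ℝ) ≤ (Z0 n).card) →
      (∀ᶠ n in (U : Filter ℕ), ∀ i k, |m n i k| ≤ B.d n ^ (-(γ * y))) →
      (∀ ε : ℝ, 0 < ε → ∀ᶠ n in (U : Filter ℕ), ∀ k₀ ∈ Z0 n, ∀ k ∈ Z0 n, ∀ i i',
        (i, k₀) ∈ (G n).I → (i', k₀) ∈ (G n).I → (i, k) ∈ (G n).I → (i', k) ∈ (G n).I →
        (G n).loose p1 ε k₀ i i' → (G n).loose p0 (C1 * ε) k i i' ∧
        |(G n).rel k i i' sN - (((G n).z k - (G n).z k₀) * ((G n).rel k₀ i i' sP -
          m n i k₀ * (G n).rel k₀ i i' sX) -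
          (f n k - f n k₀) * (G n).rel k₀ i i' sX)| ≤ B.d n ^ (y - C1 * ε)) →
      ∀ᶠ n in (U : Filter ℕ), ∃ w μ : ℝ, B.d n ^ y ≤ w ∧ w ≤ B.d n ^ (α * y) ∧ ∃ k₁ ∈ Z0 n,
        w ^ η * ((Z0 n).card : ℝ) ≤ (((Z0 n).filter fun k =>
          |f n k - f n k₁ - μ * ((G n).z k - (G n).z k₁)| ≤ w).card : ℝ) := by
  have hs0 : 0 < s := ha0.trans_lt has
  have hσ0 : 0 < σ := hs0.trans hsσ
  have hs1 : s ≤ 1 := (hsσ.trans_le hσ1).le
  have hD0 : 0 < D := by linarith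
  have hC10 : 0 < C1 := by linarith
  obtain ⟨α, c', hα, hα1, hc'0, hc'10, HB⟩ := few_bad_g hσ0 hs0 hsσ hσ1 hη
  -- the mesh
  have hμ0 : 0 < min (s - a) c := lt_min (by linarith) hc
  obtain ⟨J, hJ⟩ : ∃ J : ℕ, 4 / min (s - a) c + 1 < J := exists_nat_gt _
  have hJ4 : 4 < min (s - a) c * ((J : ℝ) - 1) := by
    have : 4 / min (s - a) c < (J : ℝ) - 1 := by linarith
    rwa [div_lt_iff₀ hμ0, mul_comm] at this
  have hJ0 : (0 : ℝ) < (J : ℝ) + 1 := by positivity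
  have hσc' : 0 < σ * c' := by positivity
  set A : ℝ := C1 * D ^ 7 with hA
  have hA1 : 1 ≤ A := by
    rw [hA]
    have h1 : 1 ≤ D ^ 7 := one_le_pow₀ hD
    calc (1 : ℝ) = 1 * 1 := (one_mul 1).symm
      _ ≤ C1 * D ^ 7 := mul_le_mul hC1 h1 zero_le_one hC10.le
  set Ct : ℝ := (D ^ 2 + 1) * (C1 * D ^ 2) + D * (D ^ 2 + 4) + 2 + 2 * D + 12 with hCt
  have hCt0 : 0 < Ct := by positivity
  set E : ℝ := Ct + 8 * A + 16 * (D + 8) / (σ * c') with hE
  have hE0 : 0 < E := by positivity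
  set γ : ℝ := min (σ * c' / (16 * ((J : ℝ) + 1))) (1 / (((J : ℝ) + 1) * E)) with hγ
  have hγ0 : 0 < γ := lt_min (by positivity) (by positivity)
  have hγa : γ ≤ σ * c' / (16 * ((J : ℝ) + 1)) := min_le_left _ _
  have hγb : γ ≤ 1 / (((J : ℝ) + 1) * E) := min_le_right _ _
  clear_value γ
  refine ⟨α / ((J : ℝ) + 1), γ, by positivity, ?_, hγ0, ?_⟩
  · rw [div_le_one hJ0]
    linarith [Nat.cast_nonneg (α := ℝ) J]
  intro κ _ B G Leg ν R H p0 p1 r sN sP sX f m y hPX hy0 hyR hp0L hp1L hrL hQL h01 h0r hrN hP0 hX0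
    hN hQ hbd0 Z0 hZ0' hm0 hev0
  set hh : ℝ := y / ((J : ℝ) + 1) with hhh
  have hh0 : 0 < hh := by positivity
  have hyh : ((J : ℝ) + 1) * hh = y := by rw [hhh]; field_simp
  have hαy : α / ((J : ℝ) + 1) * y = α * hh := by rw [hhh]; ring
  have hγy : γ * y ≤ σ * (c' * hh) / 16 := by
    have h1 := mul_le_mul_of_nonneg_right hγa hy0.le
    have h2 : σ * c' / (16 * ((J : ℝ) + 1)) * y = σ * (c' * hh) / 16 := by
      rw [hhh]; field_simp
    linarith
  have hγε : γ * y ≤ hh / E := by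
    have h1 := mul_le_mul_of_nonneg_right hγb hy0.le
    have h2 : 1 / (((J : ℝ) + 1) * E) * y = hh / E := by
      rw [hhh]; field_simp
    linarith
  rw [hαy]
  have hZ0 : ∀ᶠ n in (U : Filter ℕ), Z0 n ⊆ (G n).Z ∧ (Z0 n).Nonempty ∧
      B.d n ^ (σ * (c' * hh) / 16) * ((G n).Z.card : ℝ) ≤ (Z0 n).card := by
    filter_upwards [hZ0'] with n hn
    exact ⟨hn.1, hn.2.1, (mul_le_mul_of_nonneg_right (rpow_anti B n hγy)
      (Nat.cast_nonneg _)).trans hn.2.2⟩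
  clear_value hh
  set ε : ℝ := hh / E with hε
  have hm : ∀ᶠ n in (U : Filter ℕ), ∀ i k, |m n i k| ≤ B.d n ^ (-ε) := by
    filter_upwards [hm0] with n hn i k
    exact (hn i k).trans (rpow_anti B n (by linarith))
  have hε0 : 0 < ε := by positivity
  have hεh : E * ε = hh := by rw [hε]; field_simp
  have hq0 : 0 ≤ 16 * (D + 8) / (σ * c') := by positivity
  have hε1 : Ct * ε ≤ hh := by
    have h0 : 0 ≤ (8 * A + 16 * (D + 8) / (σ * c')) * ε := by positivity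
    have h1 : E * ε = Ct * ε + (8 * A + 16 * (D + 8) / (σ * c')) * ε := by rw [hE]; ring
    linarith
  have hε2 : 8 * A * ε ≤ hh := by
    have h0 : 0 ≤ (Ct + 16 * (D + 8) / (σ * c')) * ε := by positivity
    have h1 : E * ε = 8 * A * ε + (Ct + 16 * (D + 8) / (σ * c')) * ε := by rw [hE]; ring
    linarith
  have hε3 : 16 * (D + 8) * ε ≤ σ * (c' * hh) := by
    have h1 : 16 * (D + 8) / (σ * c') * ε ≤ hh := by
      have h0 : 0 ≤ (Ct + 8 * A) * ε := by positivity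
      have h1 : E * ε = 16 * (D + 8) / (σ * c') * ε + (Ct + 8 * A) * ε := by rw [hE]; ring
      linarith
    have h2 : (σ * c') * (16 * (D + 8) / (σ * c') * ε) = 16 * (D + 8) * ε := by field_simp
    rw [← h2]
    calc (σ * c') * (16 * (D + 8) / (σ * c') * ε) ≤ (σ * c') * hh :=
          mul_le_mul_of_nonneg_left h1 hσc'.le
      _ = _ := by ring
  clear_value ε E
  have hch0 : 0 < c' * hh := by positivity
  have hch : c' * hh ≤ hh / 10 := by
    have := mul_le_mul_of_nonneg_right hc'10 hh0.le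
    linarith
  have hσch : σ * (c' * hh) ≤ c' * hh := by
    have := mul_le_mul_of_nonneg_right hσ1 hch0.le
    linarith
  have hσch0 : 0 < σ * (c' * hh) := by positivity
  have hhy : hh ≤ y := by
    rw [← hyh]
    have : 0 ≤ (J : ℝ) * hh := by positivity
    linarith
  have hchR : c' * hh ≤ R := by linarith
  by_contra hcon
  rw [← Ultrafilter.eventually_not] at hcon
  -- no strips at all scales
  have hno : ∀ᶠ n in (U : Filter ℕ), ¬ ∃ w μ : ℝ, B.d n ^ y ≤ w ∧ w ≤ B.d n ^ (α * hh) ∧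
      |μ| ≤ B.d n ^ (-(η * y)) ∧ ∃ k₁ ∈ Z0 n, w ^ η * ((Z0 n).card : ℝ) ≤
        (((Z0 n).filter fun k => |f n k - f n k₁ - μ * ((G n).z k - (G n).z k₁)| ≤
          w).card : ℝ) := by
    filter_upwards [hcon] with n hn
    rintro ⟨w, μ, h1, h2, -, k₁, hk₁, h3⟩
    exact hn ⟨w, μ, h1, h2, k₁, hk₁, h3⟩
  have hfrZ : ∀ t : ℝ, 0 ≤ t → t ≤ y → ∀ᶠ n in (U : Filter ℕ), ∀ k ∈ Z0 n,
      ((((Z0 n)).filter fun k' => |(G n).z k' - (G n).z k| ≤ B.d n ^ t).card : ℝ) ≤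
        B.d n ^ (σ * t - σ * (c' * hh) / 8) * ((Z0 n).card : ℝ) := by
    intro t ht0 hty
    filter_upwards [H.frost t ht0 (hty.trans hyR) (σ * (c' * hh) / 16) (by positivity), hZ0]
      with n hn hz k hk
    obtain ⟨hz1, hz2, hz3⟩ := hz
    have g1 : (((Z0 n).filter fun k' => |(G n).z k' - (G n).z k| ≤ B.d n ^ t).card : ℝ) ≤
        (((G n).hbox t k).card : ℝ) := by
      refine mod_cast card_le_card ?_
      intro k' hk'
      unfold RCfg.hbox
      rw [mem_filter] at hk' ⊢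
      rw [H.base n]
      exact ⟨hz1 hk'.1, hk'.2⟩
    refine g1.trans ((hn k (hz1 hk)).trans ?_)
    have g2 : B.d n ^ (σ * t - σ * (c' * hh) / 16) * ((G n).Z.card : ℝ) =
        B.d n ^ (σ * t - σ * (c' * hh) / 8) *
          (B.d n ^ (σ * (c' * hh) / 16) * ((G n).Z.card : ℝ)) := by
      have g3 : σ * t - σ * (c' * hh) / 16 = (σ * t - σ * (c' * hh) / 8) + σ * (c' * hh) / 16 := by
        ring
      rw [g3, rpow_add']; ring
    rw [g2]
    exact mul_le_mul_of_nonneg_left hz3 (rpos B n _).le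
  have hbd : ∀ᶠ n in (U : Filter ℕ), ∀ k ∈ Z0 n, |(G n).z k| ≤ 1 ∧ |f n k| ≤ 1 := by
    filter_upwards [hbd0, hZ0] with n h1 h2 k hk
    exact h1 k (h2.1 hk)
  have hbadAll := HB B Z0 (fun n => (G n).z) f y hh (σ * (c' * hh) / 8) J hh0 hyh
    (by positivity) (by linarith) hbd hfrZ hno
  have hxj : ∀ j ≤ J, (0 : ℝ) ≤ (j : ℝ) * hh ∧ (j : ℝ) * hh ≤ y := by
    intro j hj
    have h1 : (j : ℝ) ≤ J := by exact_mod_cast hj
    refine ⟨by positivity, ?_⟩
    have h2 := mul_le_mul_of_nonneg_right h1 hh0.le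
    linarith
  have hD2ε : 0 < D ^ 2 * ε := by positivity
  refine kauf_contra H p1 p0 r hp1L hp0L hrL h0r J
    (fun j => Qt p1 sP sX ((j : ℝ) * hh))
    (fun j hj => hQL _ (hxj j hj).1 (hxj j hj).2) (a := a) (c := c) (τ := s) (hh := hh)
    (CT := C1 * D ^ 2) (CN := D ^ 2 + 4) (Cb := 2) (CD := D ^ 2 + 2) (ε := ε) ha0 has hs1 hc
    hJ4 hh0
    (by positivity) (by positivity) (by norm_num) hε0 hε1
    (by rw [hyh]; exact hN)
    (fun j hj => hQ _ (hxj j hj).1 (hxj j hj).2)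
    (fun n k₀ i i' => max |(G n).rel k₀ i i' sP - m n i k₀ * (G n).rel k₀ i i' sX|
      |(G n).rel k₀ i i' sX|) ?_
  filter_upwards [hm, ev_const_le B hε0 2, hbadAll, H.frost (c' * hh) hch0.le hchR ε hε0,
    box_pair H.toRUnif p1 hp1L hε0, hev0 (D ^ 2 * ε) hD2ε, hbd0, hZ0,
    ev_small B (show 0 < c' * hh / 2 by positivity) (2 * (J : ℝ)),
    ev_small B (half_pos hh0) 16, ev_small B hε0 4,
    ev_small B (show 0 < ε by exact hε0) (4 * (J : ℝ))]
    with n hmn hc2 hbad hfr hpair hev hbdZ hZn hcJ hc16 hce hceJ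
  obtain ⟨hZ0Z, hZ0ne, hZ0c⟩ := hZn
  have hpow : ∀ t : ℝ, 0 < B.d n ^ t := fun t => rpos B n t
  have hZpos : (0 : ℝ) < (Z0 n).card := by exact_mod_cast card_pos.2 hZ0ne
  set θ : ℝ := B.d n ^ (c' * hh / 2) with hθ
  have hθ0 : 0 < θ := hpow _
  set bad : ℕ → Finset (ℕ × ℕ) := fun l =>
    bpr (Z0 n) (G n).z (f n) (B.d n ^ (((l + 1 : ℕ) : ℝ) * hh)) c' s with hbaddef
  set Z' := (Z0 n).filter fun k₀ => ∀ l ∈ range J,
    (((Z0 n).filter fun k => (k₀, k) ∈ bad l).card : ℝ) ≤ θ * (Z0 n).card with hZ'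
  have hmk0 : (((Z0 n) \ Z').card : ℝ) ≤ J * (θ * (Z0 n).card) := by
    have := markov_compl (Z0 n) J bad hθ0 hbad
    convert this using 3
  have hmk : ((Z0 n).card : ℝ) ≤ 2 * (Z'.card : ℝ) := by
    have h1 : (((Z0 n) \ Z').card : ℝ) + Z'.card = (Z0 n).card := by
      exact_mod_cast card_sdiff_add_card_eq_card (filter_subset _ _)
    have h2 : (J : ℝ) * (θ * (Z0 n).card) ≤ (Z0 n).card / 2 := by
      have : 2 * (J : ℝ) * θ * (Z0 n).card ≤ 1 * (Z0 n).card :=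
        mul_le_mul_of_nonneg_right hcJ hZpos.le
      linarith
    linarith
  have hZ'pos : (0 : ℝ) < Z'.card := by linarith
  have hZ'Z0 : Z' ⊆ Z0 n := filter_subset _ _
  have hZ'Z : Z' ⊆ (G n).Z := hZ'Z0.trans hZ0Z
  have hpin : ∀ k₀ ∈ Z', ∀ l ∈ range J,
      (((Z0 n).filter fun k => (k₀, k) ∈ bad l).card : ℝ) ≤ θ * (Z0 n).card := by
    intro k₀ hk₀'
    rw [hZ', mem_filter] at hk₀'; exact hk₀'.2
  clear_value Z'
  refine ⟨Z', hZ'Z, card_pos.1 (by exact_mod_cast hZ'pos), fun k₀ hk₀' =>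
    ⟨Z'.filter fun k => B.d n ^ (c' * hh) < |(G n).z k - (G n).z k₀| ∧ ∀ l ∈ range J,
      (k₀, k) ∉ bad l, filter_subset _ _, ?_, ?_⟩⟩
  · -- the removed heights
    have hk₀ := hZ'Z hk₀'
    have hcard := Crest.Agent.R138.TwF501.sdiff_count Z' ((G n).hbox (c' * hh) k₀) J
      (fun l => (Z0 n).filter fun k => (k₀, k) ∈ bad l)
      (fun k => B.d n ^ (c' * hh) < |(G n).z k - (G n).z k₀| ∧ ∀ l ∈ range J,
        (k₀, k) ∉ bad l) (by
        intro k hk hgood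
        by_cases hz : B.d n ^ (c' * hh) < |(G n).z k - (G n).z k₀|
        · right
          have h3 : ¬ ∀ l ∈ range J, (k₀, k) ∉ bad l := fun h4 => hgood ⟨hz, h4⟩
          push Not at h3
          obtain ⟨l, hl, h4⟩ := h3
          exact ⟨l, hl, mem_filter.2 ⟨hZ'Z0 hk, h4⟩⟩
        · left
          unfold RCfg.hbox
          rw [mem_filter, H.base n]
          exact ⟨hZ'Z hk, not_lt.1 hz⟩) (hpin k₀ hk₀')
    have h1 := hfr k₀ hk₀
    have e5 : B.d n ^ (σ * (c' * hh) - ε) * ((G n).Z.card : ℝ) ≤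
        B.d n ^ ((D + 5) * ε) * B.d n ^ ε * ((Z0 n).card : ℝ) := by
      have g1 : B.d n ^ (σ * (c' * hh) - ε) ≤
          B.d n ^ ((D + 5) * ε) * B.d n ^ ε * B.d n ^ (σ * (c' * hh) / 16) := by
        rw [← rpow_add', ← rpow_add']
        refine rpow_anti B n ?_
        have hDε := mul_pos hD0 hε0
        linarith
      calc B.d n ^ (σ * (c' * hh) - ε) * ((G n).Z.card : ℝ)
          ≤ B.d n ^ ((D + 5) * ε) * B.d n ^ ε * B.d n ^ (σ * (c' * hh) / 16) *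
              ((G n).Z.card : ℝ) := mul_le_mul_of_nonneg_right g1 (Nat.cast_nonneg _)
        _ = B.d n ^ ((D + 5) * ε) * B.d n ^ ε *
              (B.d n ^ (σ * (c' * hh) / 16) * ((G n).Z.card : ℝ)) := by ring
        _ ≤ _ := mul_le_mul_of_nonneg_left hZ0c (mul_pos (hpow _) (hpow _)).le
    have e6 : θ ≤ B.d n ^ ((D + 5) * ε) * B.d n ^ ε := by
      rw [← rpow_add', hθ]
      refine rpow_anti B n ?_
      have hDε := mul_pos hD0 hε0
      linarith
    set de := B.d n ^ ((D + 5) * ε) with hde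
    have hde0 : 0 < de := hpow _
    have hε' := hpow ε
    have g1 : B.d n ^ (σ * (c' * hh) - ε) * ((G n).Z.card : ℝ) ≤ de / 2 * Z'.card := by
      calc B.d n ^ (σ * (c' * hh) - ε) * ((G n).Z.card : ℝ) ≤
            de * B.d n ^ ε * ((Z0 n).card : ℝ) := e5
        _ ≤ de * B.d n ^ ε * (2 * Z'.card) :=
            mul_le_mul_of_nonneg_left hmk (by positivity)
        _ = de / 2 * (4 * B.d n ^ ε) * Z'.card := by ring
        _ ≤ de / 2 * 1 * Z'.card := by gcongr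
        _ = _ := by ring
    have g2 : (J : ℝ) * (θ * (Z0 n).card) ≤ de / 2 * Z'.card := by
      calc (J : ℝ) * (θ * (Z0 n).card) ≤ J * (de * B.d n ^ ε * (2 * Z'.card)) := by
            gcongr
        _ = de / 2 * (4 * J * B.d n ^ ε) * Z'.card := by ring
        _ ≤ de / 2 * 1 * Z'.card := by gcongr
        _ = _ := by ring
    refine le_trans (le_of_eq ?_) (hcard.trans ?_)
    · congr
    · linarith
  have hk₀ := hZ'Z hk₀'
  intro i₀ hi₀
  have hI0 := H.memSlice.1 hi₀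
  have hS : ∀ i ∈ (G n).box p1 ε i₀ k₀, (i, k₀) ∈ (G n).I := fun i hi =>
    H.memSlice.1 (RCfg.box_subset_slice hi)
  have hSS : ∀ i ∈ (G n).box p1 ε i₀ k₀, ∀ i' ∈ (G n).box p1 ε i₀ k₀,
      (G n).loose p1 (D ^ 2 * ε) k₀ i i' := fun i hi i' hi' => hpair k₀ i₀ i i' hI0 hi hi'
  have hslot : ∀ i ∈ (G n).box p1 ε i₀ k₀, ∀ i' ∈ (G n).box p1 ε i₀ k₀, ∀ s : κ, p1 s = 0 →
      |(G n).rel k₀ i i' s| ≤ B.d n ^ (-(D ^ 2 * ε)) := by
    intro i hi i' hi' s hs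
    have := hSS i hi i' hi' s
    rw [H.base n, hs, zero_sub] at this
    exact this
  refine ⟨?_, ?_, ?_, ?_⟩
  · intro i hi i' hi'
    have gP := hslot i hi i' hi' sP hP0
    have gX := hslot i hi i' hi' sX hX0
    refine max_le ?_ (gX.trans (rpow_anti B n (by linarith)))
    have g1 : |m n i k₀ * (G n).rel k₀ i i' sX| ≤ B.d n ^ (-((D ^ 2 + 1) * ε)) := by
      rw [abs_mul]
      calc |m n i k₀| * |(G n).rel k₀ i i' sX| ≤ B.d n ^ (-ε) * B.d n ^ (-(D ^ 2 * ε)) :=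
            mul_le_mul (hmn i k₀) gX (abs_nonneg _) (hpow _).le
        _ = B.d n ^ (-((D ^ 2 + 1) * ε)) := by rw [← rpow_add']; congr 1; ring
    have g2 : B.d n ^ (-(D ^ 2 * ε)) ≤ B.d n ^ (-((D ^ 2 + 1) * ε)) :=
      rpow_anti B n (by linarith)
    have g3 : 2 * B.d n ^ (-((D ^ 2 + 1) * ε)) ≤ B.d n ^ (-((D ^ 2 + 2) * ε)) := by
      refine absorb B ?_
      have e : -(-((D ^ 2 + 1) * ε) - -((D ^ 2 + 2) * ε)) = -ε := by ring
      rw [e]; exact hc2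
    refine (abs_sub _ _).trans ?_
    linarith
  · intro j hj i hi i' hi' hd s
    have h1 := hSS i hi i' hi' s
    rw [max_le_iff] at hd
    by_cases hsP : s = sP
    · subst hsP
      simp only [Qt, if_true]
      rw [H.base n]
      have g1 : |m n i k₀ * (G n).rel k₀ i i' sX| ≤
          B.d n ^ ((j : ℝ) * hh - (D ^ 2 + 3) * ε) := by
        rw [abs_mul]
        calc |m n i k₀| * |(G n).rel k₀ i i' sX| ≤
              B.d n ^ (-ε) * B.d n ^ ((j : ℝ) * hh - (D ^ 2 + 2) * ε) :=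
              mul_le_mul (hmn i k₀) hd.2 (abs_nonneg _) (hpow _).le
          _ = B.d n ^ ((j : ℝ) * hh - (D ^ 2 + 3) * ε) := by rw [← rpow_add']; congr 1; ring
      have g2 : B.d n ^ ((j : ℝ) * hh - (D ^ 2 + 2) * ε) ≤
          B.d n ^ ((j : ℝ) * hh - (D ^ 2 + 3) * ε) := rpow_anti B n (by linarith)
      have g3 : 2 * B.d n ^ ((j : ℝ) * hh - (D ^ 2 + 3) * ε) ≤
          B.d n ^ ((j : ℝ) * hh - (D ^ 2 + 4) * ε) := by
        refine absorb B ?_
        have e : -(((j : ℝ) * hh - (D ^ 2 + 3) * ε) - ((j : ℝ) * hh - (D ^ 2 + 4) * ε)) =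
          -ε := by ring
        rw [e]; exact hc2
      have g4 : (G n).rel k₀ i i' s = ((G n).rel k₀ i i' s -
          m n i k₀ * (G n).rel k₀ i i' sX) + m n i k₀ * (G n).rel k₀ i i' sX := by ring
      rw [g4]
      refine (abs_add_le _ _).trans ?_
      linarith [hd.1]
    · by_cases hsX : s = sX
      · subst hsX
        simp only [Qt, if_neg hsP, if_true]
        rw [H.base n]
        exact hd.2.trans (rpow_anti B n (by linarith))
      · rw [H.base n] at h1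
        refine h1.trans ?_
        simp only [Qt, if_neg hsP, if_neg hsX]
        rw [H.base n]
        exact rpow_anti B n (by linarith)
  · intro k hk i hi i' hi' hIk hIk'
    have := (hev k₀ (hZ'Z0 hk₀') k (hZ'Z0 (mem_filter.1 hk).1) i i' (hS i hi) (hS i' hi') hIk
      hIk' (hSS i hi i' hi')).1
    refine H.loose_mono (fun _ => le_rfl) (le_of_eq ?_) this
    ring
  · intro j hj i hi i' hi' hd
    set K' := Z'.filter fun k => B.d n ^ (c' * hh) < |(G n).z k - (G n).z k₀| ∧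
      ∀ l ∈ range J, (k₀, k) ∉ bad l with hK'
    have e57 : D ^ 5 * (C1 * D ^ 2 * ε) = C1 * D ^ 7 * ε := by ring
    have hA1ε : C1 * (D ^ 2 * ε) ≤ A * ε := by
      have : D ^ 2 ≤ D ^ 7 := pow_le_pow_right₀ hD (by norm_num)
      have h1 : D ^ 2 * ε ≤ D ^ 7 * ε := mul_le_mul_of_nonneg_right this hε0.le
      calc C1 * (D ^ 2 * ε) ≤ C1 * (D ^ 7 * ε) := mul_le_mul_of_nonneg_left h1 hC10.le
        _ = _ := by rw [hA]; ring
    have hKZ0 : K' ⊆ Z0 n := (filter_subset _ _).trans hZ'Z0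
    have hKZ : K' ⊆ (G n).Z := hKZ0.trans hZ0Z
    have hsub : (K'.filter fun k => (i, k) ∈ (G n).I ∧ (i', k) ∈ (G n).I ∧
        (G n).loose r (D ^ 5 * (C1 * D ^ 2 * ε)) k i i') ⊆
        K'.filter fun k => |((G n).z k - (G n).z k₀) * ((G n).rel k₀ i i' sP -
          m n i k₀ * (G n).rel k₀ i i' sX) -
          (f n k - f n k₀) * (G n).rel k₀ i i' sX| ≤ 2 * B.d n ^ (y - A * ε) := by
      intro k hk
      rw [mem_filter, e57] at hk
      rw [mem_filter]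
      obtain ⟨hkK, hIk, hIk', hl⟩ := hk
      refine ⟨hkK, ?_⟩
      have g1 := (hev k₀ (hZ'Z0 hk₀') k (hKZ0 hkK) i i' (hS i hi) (hS i' hi') hIk hIk'
        (hSS i hi i' hi')).2
      have g2 := hl sN
      rw [hrN, H.base n] at g2
      have k1 : B.d n ^ (y - C1 * (D ^ 2 * ε)) ≤ B.d n ^ (y - A * ε) :=
        rpow_anti B n (by linarith)
      have g3 : |(G n).rel k i i' sN| ≤ B.d n ^ (y - A * ε) := g2
      have n1 := abs_le.1 (g1.trans k1)
      have n2 := abs_le.1 g3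
      rw [abs_le]
      constructor <;> linarith [n1.1, n1.2, n2.1, n2.2]
    refine le_trans (Nat.cast_le.2 (card_le_card hsub)) ?_
    have hd' : B.d n ^ (((j + 1 : ℕ) : ℝ) * hh) <
        max |(G n).rel k₀ i i' sP - m n i k₀ * (G n).rel k₀ i i' sX| |(G n).rel k₀ i i' sX| :=
      lt_of_le_of_lt (rpow_anti B n (by linarith)) hd
    have key := few_common_mesh B n (Z0 n) K' (G n).z (f n) (fun k hk => hbdZ k (hZ0Z hk))
      (hZ'Z0 hk₀') hKZ0 hj (s := s)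
      (c := c') (x := y) (ε := A * ε)
      (DP := (G n).rel k₀ i i' sP - m n i k₀ * (G n).rel k₀ i i' sX)
      (DX := (G n).rel k₀ i i' sX) hh0 hc'0 hyh (by linarith) hc16
      (fun k hk => (mem_filter.1 hk).2) hd'
    refine key.trans ?_
    have hpw := hpow (s * (((J - 1 - j : ℕ) : ℝ) * hh))
    have e1 : B.d n ^ (s * (((J - 1 - j : ℕ) : ℝ) * hh) - 2 * ε) * (B.d n ^ ε) ^ 2 =
        B.d n ^ (s * (((J - 1 - j : ℕ) : ℝ) * hh)) := by
      rw [sq, ← rpow_add', ← rpow_add']; congr 1; ring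
    have e2 : B.d n ^ (s * (((J - 1 - j : ℕ) : ℝ) * hh)) * 2 ≤
        B.d n ^ (s * (((J - 1 - j : ℕ) : ℝ) * hh) - 2 * ε) := by
      rw [← e1]
      have h1 := hpow (s * (((J - 1 - j : ℕ) : ℝ) * hh) - 2 * ε)
      have h2 := hpow ε
      have h3 : (B.d n ^ ε) ^ 2 * 2 ≤ 1 := by
        have h4 : B.d n ^ ε ≤ 1 / 4 := by linarith
        have h5 : (B.d n ^ ε) * (B.d n ^ ε) ≤ 1 / 4 * (1 / 4) := mul_le_mul h4 h4 h2.le (by norm_num)
        rw [sq]
        linarith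
      calc B.d n ^ (s * (((J - 1 - j : ℕ) : ℝ) * hh) - 2 * ε) * (B.d n ^ ε) ^ 2 * 2
          = B.d n ^ (s * (((J - 1 - j : ℕ) : ℝ) * hh) - 2 * ε) * ((B.d n ^ ε) ^ 2 * 2) := by
            ring
        _ ≤ B.d n ^ (s * (((J - 1 - j : ℕ) : ℝ) * hh) - 2 * ε) * 1 :=
            mul_le_mul_of_nonneg_left h3 h1.le
        _ = _ := mul_one _
    calc B.d n ^ (s * (((J - 1 - j : ℕ) : ℝ) * hh)) * ((Z0 n).card : ℝ)
        ≤ B.d n ^ (s * (((J - 1 - j : ℕ) : ℝ) * hh)) * (2 * Z'.card) :=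
          mul_le_mul_of_nonneg_left hmk hpw.le
      _ = B.d n ^ (s * (((J - 1 - j : ℕ) : ℝ) * hh)) * 2 * Z'.card := by ring
      _ ≤ _ := mul_le_mul_of_nonneg_right e2 hZ'pos.le

end Crest.Agent.R136.CV366
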