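import Crest.Agent.R136.CV4_366
import Crest.Agent.R136.Rgl_366

/-!
# R136: **vector K3core** (helper366): `σ ≤ a`

The rigidity of one component (on all heights) and of the other one (on the strip of the first
one, `rig_onL` with the shear `m_i = e_i μ`) give a strip of both components; `no_strip_V`.
-/

set_option autoImplicit false
set_option linter.unusedVariables false
set_option linter.unusedSectionVars false

open Filter Topology Finset

namespace Crest.Agent.R136.CV366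

open Crest.Agent.R138.Ex926 (Base U exists_tendsto)
open Crest.Agent.R136.Gf356
open Crest.Agent.R136.CD366
open Crest.Agent.R136.Rgo569 (Qt)

variable {B : Base} {G : ℕ → RCfg (Fin 11)} {Leg : Set (Fin 11 → ℝ)} {ν : (Fin 11 → ℝ) → ℝ}
  {σ R D : ℝ} {fa fb : ℕ → ℕ → ℝ} {ee : ℕ → ℕ → ℕ → ℝ} {R0 C1 a c K0 : ℝ}

/-- evolution in the fibre of one component -/
theorem KV.evb (H : RModel B G σ R Leg ν D) (K : KV B G Leg ν fa fb ee R0 C1 a c K0) {y : ℝ}
    (hy0 : 0 ≤ y) (hy : y ≤ R0) : ∀ ε : ℝ, 0 < ε → ∀ᶠ n in (U : Filter ℕ), ∀ k₀ k i i',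
    (i, k₀) ∈ (G n).I → (i', k₀) ∈ (G n).I → (i, k) ∈ (G n).I → (i', k) ∈ (G n).I →
    (G n).loose (bv y y 0 y 0 y y) ε k₀ i i' →
    (G n).loose (bv y 0 0 0 0 0 0) ((C1 + 2) * ε) k i i' ∧
    |(G n).rel k i i' 10 - (((G n).z k - (G n).z k₀) * (G n).rel k₀ i i' 7 -
      (fb n k - fb n k₀) * (G n).rel k₀ i i' 9)| ≤ B.d n ^ (y - (C1 + 2) * ε) := by
  intro ε hε
  have hC1 := K.C1_one
  obtain ⟨M, hM1, hM⟩ := K.ee_bd
  filter_upwards [K.ev y hy0 hy ε hε, K.bd, ev_const_le B hε (12 + 6 * M)] with n hev hbd h12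
    k₀ k i i' h1 h2 h3 h4 hl
  have hk₀ := H.memZ h1
  have hk := H.memZ h3
  have hpow : ∀ t : ℝ, 0 < B.d n ^ t := fun t => rpos B n t
  have hl0 : (G n).loose (bv y 0 0 0 0 0 0) ε k₀ i i' := H.loose_mono (fun s =>
    bv_mono le_rfl hy0 le_rfl hy0 le_rfl hy0 hy0 s) le_rfl hl
  obtain ⟨g1, g2⟩ := hev k₀ k i i' h1 h2 h3 h4 hl0
  refine ⟨H.loose_mono (fun _ => le_rfl) (by linarith) g1, ?_⟩
  have gN := hl 10
  have gXa := hl 8
  have gCa := hl 5
  have gCb := hl 6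
  rw [H.base n] at gN gXa gCa gCb
  rw [bv10] at gN
  rw [bv8] at gXa
  rw [bv5] at gCa
  rw [bv6] at gCb
  have hu : |(G n).z k - (G n).z k₀| ≤ 2 := by
    refine (abs_sub _ _).trans ?_
    have := (hbd k hk).1; have := (hbd k₀ hk₀).1; linarith
  have hga : |fa n k - fa n k₀| ≤ 2 := by
    refine (abs_sub _ _).trans ?_
    have := (hbd k hk).2.1; have := (hbd k₀ hk₀).2.1; linarith
  have hgb : |fb n k - fb n k₀| ≤ 2 := by
    refine (abs_sub _ _).trans ?_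
    have := (hbd k hk).2.2; have := (hbd k₀ hk₀).2.2; linarith
  have hF : |(fa n k - fa n k₀) + ee n i k₀ * (fb n k - fb n k₀)| ≤ 2 + 2 * M := by
    refine (abs_add_le _ _).trans ?_
    rw [abs_mul]
    have := mul_le_mul (hM n i k₀) hgb (abs_nonneg _) (by linarith)
    linarith
  set w := B.d n ^ (y - (C1 + 1) * ε) with hw
  have hw0 : 0 < w := hpow _
  have k1 : B.d n ^ (y - C1 * ε) ≤ w := rpow_anti B n (by linarith)
  have hCε : 0 ≤ C1 * ε := by positivity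
  have k2 : B.d n ^ (y - ε) ≤ w := rpow_anti B n (by linarith)
  have m1 : |((fa n k - fa n k₀) + ee n i k₀ * (fb n k - fb n k₀)) * (G n).rel k₀ i i' 8| ≤
      (2 + 2 * M) * w := by
    rw [abs_mul]
    exact mul_le_mul hF (gXa.trans k2) (abs_nonneg _) (by linarith)
  have m0 : ∀ c F C : ℝ, 0 ≤ c → |F| ≤ c → |C| ≤ w →
      |F * (((G n).z k - (G n).z k₀) * C)| ≤ c * (2 * w) := by
    intro c F C hc hF hC
    rw [abs_mul, abs_mul]
    refine mul_le_mul hF ?_ (by positivity) hc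
    exact mul_le_mul hu hC (abs_nonneg _) (by norm_num)
  have m2 := m0 (2 + 2 * M) _ _ (by linarith) hF (gCa.trans k2)
  have m3 := m0 2 _ _ (by norm_num) hgb (gCb.trans k2)
  have k4 : |(G n).rel k i i' 10 - (((G n).z k - (G n).z k₀) * (G n).rel k₀ i i' 7 -
      (fb n k - fb n k₀) * (G n).rel k₀ i i' 9)| ≤ (12 + 6 * M) * w := by
    have e1 : (G n).rel k i i' 10 - (((G n).z k - (G n).z k₀) * (G n).rel k₀ i i' 7 -
        (fb n k - fb n k₀) * (G n).rel k₀ i i' 9) =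
        ((G n).rel k i i' 10 - ((G n).rel k₀ i i' 10 +
          ((G n).z k - (G n).z k₀) * (G n).rel k₀ i i' 7
          - ((fa n k - fa n k₀) + ee n i k₀ * (fb n k - fb n k₀)) * ((G n).rel k₀ i i' 8 +
          ((G n).z k - (G n).z k₀) * (G n).rel k₀ i i' 5)
          - (fb n k - fb n k₀) * ((G n).rel k₀ i i' 9 +
          ((G n).z k - (G n).z k₀) * (G n).rel k₀ i i' 6))) +
        (G n).rel k₀ i i' 10 -
        ((fa n k - fa n k₀) + ee n i k₀ * (fb n k - fb n k₀)) * (G n).rel k₀ i i' 8 -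
        ((fa n k - fa n k₀) + ee n i k₀ * (fb n k - fb n k₀)) *
          (((G n).z k - (G n).z k₀) * (G n).rel k₀ i i' 5) -
        (fb n k - fb n k₀) * (((G n).z k - (G n).z k₀) * (G n).rel k₀ i i' 6) := by ring
    rw [e1]
    have n1 := abs_le.1 (g2.trans k1)
    have n2 := abs_le.1 (gN.trans k2)
    have n3 := abs_le.1 m1
    have n4 := abs_le.1 m2
    have n5 := abs_le.1 m3
    rw [abs_le]
    constructor <;> linarith [n1.1, n1.2, n2.1, n2.2, n3.1, n3.2, n4.1, n4.2, n5.1, n5.2]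
  refine k4.trans (absorb B ?_)
  have e : -(y - (C1 + 1) * ε - (y - (C1 + 2) * ε)) = -ε := by ring
  rw [e]
  exact h12

/-- evolution in the fibre of the other component, heights in a strip of the first one -/
theorem KV.eva (H : RModel B G σ R Leg ν D) (K : KV B G Leg ν fa fb ee R0 C1 a c K0) {y : ℝ}
    (hy0 : 0 ≤ y) (hy : y ≤ R0) : ∀ ε : ℝ, 0 < ε → ∀ᶠ n in (U : Filter ℕ), ∀ μ : ℝ, ∀ k₀ k i i',
    |fb n k - fb n k₀ - μ * ((G n).z k - (G n).z k₀)| ≤ 2 * B.d n ^ y →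
    (i, k₀) ∈ (G n).I → (i', k₀) ∈ (G n).I → (i, k) ∈ (G n).I → (i', k) ∈ (G n).I →
    (G n).loose (bv y y 0 0 y y y) ε k₀ i i' →
    (G n).loose (bv y 0 0 0 0 0 0) ((C1 + 2) * ε) k i i' ∧
    |(G n).rel k i i' 10 - (((G n).z k - (G n).z k₀) * ((G n).rel k₀ i i' 7 -
      (ee n i k₀ * μ) * (G n).rel k₀ i i' 8) -
      (fa n k - fa n k₀) * (G n).rel k₀ i i' 8)| ≤ B.d n ^ (y - (C1 + 2) * ε) := by
  intro ε hε
  have hC1 := K.C1_one
  obtain ⟨M, hM1, hM⟩ := K.ee_bd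
  filter_upwards [K.ev y hy0 hy ε hε, K.bd, ev_const_le B hε (12 + 6 * M)] with n hev hbd h12
    μ k₀ k i i' hμ h1 h2 h3 h4 hl
  have hk₀ := H.memZ h1
  have hk := H.memZ h3
  have hpow : ∀ t : ℝ, 0 < B.d n ^ t := fun t => rpos B n t
  have hl0 : (G n).loose (bv y 0 0 0 0 0 0) ε k₀ i i' := H.loose_mono (fun s =>
    bv_mono le_rfl hy0 le_rfl le_rfl hy0 hy0 hy0 s) le_rfl hl
  obtain ⟨g1, g2⟩ := hev k₀ k i i' h1 h2 h3 h4 hl0
  refine ⟨H.loose_mono (fun _ => le_rfl) (by linarith) g1, ?_⟩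
  have gN := hl 10
  have gXa := hl 8
  have gXb := hl 9
  have gCa := hl 5
  have gCb := hl 6
  rw [H.base n] at gN gXa gXb gCa gCb
  rw [bv10] at gN
  rw [bv8, zero_sub] at gXa
  rw [bv9] at gXb
  rw [bv5] at gCa
  rw [bv6] at gCb
  have hu : |(G n).z k - (G n).z k₀| ≤ 2 := by
    refine (abs_sub _ _).trans ?_
    have := (hbd k hk).1; have := (hbd k₀ hk₀).1; linarith
  have hga : |fa n k - fa n k₀| ≤ 2 := by
    refine (abs_sub _ _).trans ?_
    have := (hbd k hk).2.1; have := (hbd k₀ hk₀).2.1; linarith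
  have hgb : |fb n k - fb n k₀| ≤ 2 := by
    refine (abs_sub _ _).trans ?_
    have := (hbd k hk).2.2; have := (hbd k₀ hk₀).2.2; linarith
  have hF : |(fa n k - fa n k₀) + ee n i k₀ * (fb n k - fb n k₀)| ≤ 2 + 2 * M := by
    refine (abs_add_le _ _).trans ?_
    rw [abs_mul]
    have := mul_le_mul (hM n i k₀) hgb (abs_nonneg _) (by linarith)
    linarith
  set w := B.d n ^ (y - (C1 + 1) * ε) with hw
  have hw0 : 0 < w := hpow _
  have k1 : B.d n ^ (y - C1 * ε) ≤ w := rpow_anti B n (by linarith)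
  have hCε : 0 ≤ C1 * ε := by positivity
  have k2 : B.d n ^ (y - ε) ≤ w := rpow_anti B n (by linarith)
  have k3 : B.d n ^ y * B.d n ^ (-ε) ≤ w := by
    rw [← rpow_add']
    exact rpow_anti B n (by linarith)
  have m1 : |(fb n k - fb n k₀) * (G n).rel k₀ i i' 9| ≤ 2 * w := by
    rw [abs_mul]
    exact mul_le_mul hgb (gXb.trans k2) (abs_nonneg _) (by norm_num)
  have m0 : ∀ c F C : ℝ, 0 ≤ c → |F| ≤ c → |C| ≤ w →
      |F * (((G n).z k - (G n).z k₀) * C)| ≤ c * (2 * w) := by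
    intro c F C hc hF hC
    rw [abs_mul, abs_mul]
    refine mul_le_mul hF ?_ (by positivity) hc
    exact mul_le_mul hu hC (abs_nonneg _) (by norm_num)
  have m2 := m0 (2 + 2 * M) _ _ (by linarith) hF (gCa.trans k2)
  have m3 := m0 2 _ _ (by norm_num) hgb (gCb.trans k2)
  have m4 : |ee n i k₀ * (fb n k - fb n k₀ - μ * ((G n).z k - (G n).z k₀)) *
      (G n).rel k₀ i i' 8| ≤ M * (2 * w) := by
    rw [abs_mul, abs_mul]
    calc |ee n i k₀| * |fb n k - fb n k₀ - μ * ((G n).z k - (G n).z k₀)| *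
          |(G n).rel k₀ i i' 8| ≤ M * (2 * B.d n ^ y) * B.d n ^ (-ε) := by
          refine mul_le_mul ?_ gXa (abs_nonneg _) ?_
          · exact mul_le_mul (hM n i k₀) hμ (abs_nonneg _) (by linarith)
          · exact mul_nonneg (by linarith) (by have := hpow y; linarith)
      _ = M * (2 * (B.d n ^ y * B.d n ^ (-ε))) := by ring
      _ ≤ M * (2 * w) := mul_le_mul_of_nonneg_left (by linarith) (by linarith)
  have k4 : |(G n).rel k i i' 10 - (((G n).z k - (G n).z k₀) * ((G n).rel k₀ i i' 7 -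
      (ee n i k₀ * μ) * (G n).rel k₀ i i' 8) -
      (fa n k - fa n k₀) * (G n).rel k₀ i i' 8)| ≤ (12 + 6 * M) * w := by
    have e1 : (G n).rel k i i' 10 - (((G n).z k - (G n).z k₀) * ((G n).rel k₀ i i' 7 -
        (ee n i k₀ * μ) * (G n).rel k₀ i i' 8) -
        (fa n k - fa n k₀) * (G n).rel k₀ i i' 8) =
        ((G n).rel k i i' 10 - ((G n).rel k₀ i i' 10 +
          ((G n).z k - (G n).z k₀) * (G n).rel k₀ i i' 7
          - ((fa n k - fa n k₀) + ee n i k₀ * (fb n k - fb n k₀)) * ((G n).rel k₀ i i' 8 +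
          ((G n).z k - (G n).z k₀) * (G n).rel k₀ i i' 5)
          - (fb n k - fb n k₀) * ((G n).rel k₀ i i' 9 +
          ((G n).z k - (G n).z k₀) * (G n).rel k₀ i i' 6))) +
        (G n).rel k₀ i i' 10 -
        ee n i k₀ * (fb n k - fb n k₀ - μ * ((G n).z k - (G n).z k₀)) *
          (G n).rel k₀ i i' 8 -
        ((fa n k - fa n k₀) + ee n i k₀ * (fb n k - fb n k₀)) *
          (((G n).z k - (G n).z k₀) * (G n).rel k₀ i i' 5) -
        (fb n k - fb n k₀) * (G n).rel k₀ i i' 9 -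
        (fb n k - fb n k₀) * (((G n).z k - (G n).z k₀) * (G n).rel k₀ i i' 6) := by ring
    rw [e1]
    have n1 := abs_le.1 (g2.trans k1)
    have n2 := abs_le.1 (gN.trans k2)
    have n3 := abs_le.1 m1
    have n4 := abs_le.1 m2
    have n5 := abs_le.1 m3
    have n6 := abs_le.1 m4
    rw [abs_le]
    constructor <;> linarith [n1.1, n1.2, n2.1, n2.2, n3.1, n3.2, n4.1, n4.2, n5.1, n5.2,
      n6.1, n6.2]
  refine k4.trans (absorb B ?_)
  have e : -(y - (C1 + 1) * ε - (y - (C1 + 2) * ε)) = -ε := by ring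
  rw [e]
  exact h12

theorem Qt_b {y t : ℝ} : Qt (bv y y 0 y 0 y y) 7 9 t = bv y y t y t y y := by
  funext s
  unfold Qt
  fin_cases s <;> simp [bv]

theorem Qt_a {y t : ℝ} : Qt (bv y y 0 0 y y y) 7 8 t = bv y y t t y y y := by
  funext s
  unfold Qt
  fin_cases s <;> simp [bv]

/-- exponents of a sequence of widths -/
theorem width_lim (B : Base) {w : ℕ → ℝ} {Y0 Y1 : ℝ} (hY0 : 0 < Y0)
    (hw : ∀ᶠ n in (U : Filter ℕ), B.d n ^ Y1 ≤ w n ∧ w n ≤ B.d n ^ Y0) :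
    ∃ v : ℝ, Y0 ≤ v ∧ v ≤ Y1 ∧ ∀ᶠ n in (U : Filter ℕ), w n ≤ B.d n ^ (3 / 4 * v) ∧
      B.d n ^ (3 / 2 * (3 / 4 * v)) ≤ w n := by
  have hlog : ∀ n, Real.log (B.d n) < 0 := fun n => Real.log_neg (B.pos n) (B.lt n)
  have hv : ∀ᶠ n in (U : Filter ℕ), Y0 ≤ Real.log (w n) / Real.log (B.d n) ∧
      Real.log (w n) / Real.log (B.d n) ≤ Y1 := by
    filter_upwards [hw] with n hn
    have hw0 : 0 < w n := (rpos B n _).trans_le hn.1
    have g1 := Real.log_le_log (rpos B n _) hn.1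
    have g2 := Real.log_le_log hw0 hn.2
    rw [Real.log_rpow (B.pos n)] at g1 g2
    constructor
    · rw [le_div_iff_of_neg (hlog n)]; exact g2
    · rw [div_le_iff_of_neg (hlog n)]; exact g1
  obtain ⟨v, hvt, -⟩ := exists_tendsto (f := fun n => Real.log (w n) / Real.log (B.d n))
    (C := |Y1|) (by
      filter_upwards [hv] with n hn
      rw [abs_of_nonneg (hY0.le.trans hn.1)]
      exact hn.2.trans (le_abs_self _))
  have hv0 : Y0 ≤ v := ge_of_tendsto hvt (hv.mono fun n hn => hn.1)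
  have hv1 : v ≤ Y1 := le_of_tendsto hvt (hv.mono fun n hn => hn.2)
  have hvpos : 0 < v := hY0.trans_le hv0
  refine ⟨v, hv0, hv1, ?_⟩
  have h1 : ∀ᶠ n in (U : Filter ℕ), |Real.log (w n) / Real.log (B.d n) - v| < v / 8 := by
    have := (Metric.tendsto_nhds.1 hvt) (v / 8) (by positivity)
    simpa [Real.dist_eq] using this
  filter_upwards [h1, hw] with n hn hwn
  have hw0 : 0 < w n := (rpos B n _).trans_le hwn.1
  have e2 : w n = B.d n ^ (Real.log (w n) / Real.log (B.d n)) := by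
    rw [Real.rpow_def_of_pos (B.pos n), mul_div_cancel₀ _ (hlog n).ne, Real.exp_log hw0]
  rw [abs_lt] at hn
  rw [e2]
  constructor
  · exact rpow_anti B n (by linarith [hn.1])
  · exact rpow_anti B n (by linarith [hn.2])

open Classical in
/-- the slope of a heavy strip is at most `ρ^(-t)` up to a constant -/
theorem slope_bd (H : RModel B G σ R Leg ν D) {Z1 : ℕ → Finset ℕ} {μ : ℕ → ℝ} {t κ' : ℝ}
    (ht0 : 0 < t) (htR : t ≤ R) (hκ : κ' < σ * t)
    (hbd : ∀ᶠ n in (U : Filter ℕ), ∀ k ∈ (G n).Z, |(G n).z k| ≤ 1 ∧ |fb n k| ≤ 1)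
    (hZ1 : ∀ᶠ n in (U : Filter ℕ), Z1 n ⊆ (G n).Z ∧ (Z1 n).Nonempty ∧
      B.d n ^ κ' * ((G n).Z.card : ℝ) ≤ (Z1 n).card)
    (hμ : ∀ᶠ n in (U : Filter ℕ), ∀ k ∈ Z1 n, ∀ k' ∈ Z1 n,
      |fb n k' - fb n k - μ n * ((G n).z k' - (G n).z k)| ≤ 2) :
    ∀ᶠ n in (U : Filter ℕ), |μ n| * B.d n ^ t ≤ 4 := by
  have hε : 0 < (σ * t - κ') / 2 := by linarith
  filter_upwards [H.frost t ht0.le htR _ hε, hbd, hZ1, hμ, ev_small B hε 2] with
    n hfr hb hz hm hs
  obtain ⟨hz1, ⟨k₁, hk₁⟩, hz3⟩ := hz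
  have hpow : ∀ t : ℝ, 0 < B.d n ^ t := fun t => rpos B n t
  have hZpos : (0 : ℝ) < (G n).Z.card := by
    exact_mod_cast card_pos.2 ⟨k₁, hz1 hk₁⟩
  obtain ⟨k, hk, hzk⟩ : ∃ k ∈ Z1 n, B.d n ^ t < |(G n).z k - (G n).z k₁| := by
    by_contra hcon
    push Not at hcon
    have g1 : ((Z1 n).card : ℝ) ≤ (((G n).hbox t k₁).card : ℝ) := by
      refine mod_cast card_le_card ?_
      intro k hk
      unfold RCfg.hbox
      rw [mem_filter, H.base n]
      exact ⟨hz1 hk, hcon k hk⟩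
    have g2 := hfr k₁ (hz1 hk₁)
    have g3 : B.d n ^ (σ * t - (σ * t - κ') / 2) = B.d n ^ ((σ * t - κ') / 2) * B.d n ^ κ' := by
      rw [← rpow_add']; congr 1; ring
    have g4 : B.d n ^ κ' * ((G n).Z.card : ℝ) ≤
        B.d n ^ ((σ * t - κ') / 2) * (B.d n ^ κ' * ((G n).Z.card : ℝ)) := by
      refine hz3.trans (g1.trans (g2.trans (le_of_eq ?_)))
      rw [g3, mul_assoc]
    have g5 : 0 < B.d n ^ κ' * ((G n).Z.card : ℝ) := mul_pos (hpow _) hZpos
    have g6 : B.d n ^ ((σ * t - κ') / 2) * (B.d n ^ κ' * ((G n).Z.card : ℝ)) ≤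
        1 / 2 * (B.d n ^ κ' * ((G n).Z.card : ℝ)) :=
      mul_le_mul_of_nonneg_right (by linarith) g5.le
    linarith
  have h1 := hm k₁ hk₁ k hk
  have h2 := (hb k (hz1 hk)).2
  have h3 := (hb k₁ (hz1 hk₁)).2
  calc |μ n| * B.d n ^ t ≤ |μ n| * |(G n).z k - (G n).z k₁| :=
        mul_le_mul_of_nonneg_left hzk.le (abs_nonneg _)
    _ = |μ n * ((G n).z k - (G n).z k₁)| := (abs_mul _ _).symm
    _ = |(fb n k - fb n k₁) - (fb n k - fb n k₁ - μ n * ((G n).z k - (G n).z k₁))| := by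
        congr 1; ring
    _ ≤ |fb n k - fb n k₁| + |fb n k - fb n k₁ - μ n * ((G n).z k - (G n).z k₁)| := abs_sub _ _
    _ ≤ (1 + 1) + 2 := by
        refine add_le_add ((abs_sub _ _).trans (by linarith)) h1
    _ = 4 := by norm_num

open Classical in
set_option maxHeartbeats 1600000 in
/-- **vector K3core** -/
theorem KVcore (H : RModel B G σ R Leg ν D) (K : KV B G Leg ν fa fb ee R0 C1 a c K0)
    (hR0 : R0 ≤ R) : σ ≤ a := by
  by_contra hcon
  push Not at hcon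
  have ha0 := K.a_nonneg H
  have hσ0 : 0 < σ := ha0.trans_lt hcon
  have hσ1 := H.σ_le
  have hD := H.D1
  have hC1 := K.C1_one
  have hc := K.c_pos
  have hRp := K.R0_pos
  obtain ⟨M, hM1, hM⟩ := K.ee_bd
  obtain ⟨η, hη, HS⟩ := no_strip_V H K hR0 hcon
  obtain ⟨s, has, hsmin⟩ : ∃ s, a < s ∧ s < min σ (a + c) :=
    exists_between (lt_min hcon (by linarith))
  have hsσ : s < σ := hsmin.trans_le (min_le_left _ _)
  have hsc : s < a + c := hsmin.trans_le (min_le_right _ _)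
  -- second component
  obtain ⟨α₂, γ₂, hα₂, hα₂1, hγ₂, H2⟩ := rig_onL (σ := σ) (a := a) (s := s) (c := c)
    (η := η / 2) (D := D) (C1 := C1 + 2) ha0 has hsσ hsc hc hσ1 (half_pos hη) hD (by linarith)
  set g2 : ℝ := min γ₂ 1 with hg2
  have hg20 : 0 < g2 := lt_min hγ₂ one_pos
  have hg2γ : g2 ≤ γ₂ := min_le_left _ _
  have hg21 : g2 ≤ 1 := min_le_right _ _
  clear_value g2
  have hσg : 0 < σ * g2 := mul_pos hσ0 hg20
  have hσg1 : σ * g2 ≤ g2 := by
    have := mul_le_mul_of_nonneg_right hσ1 hg20.le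
    linarith
  set η₁ : ℝ := min (σ * g2 / 8) (α₂ * η / 4) with hη₁
  have hη₁0 : 0 < η₁ := lt_min (by positivity) (by positivity)
  have hη₁a : η₁ ≤ σ * g2 / 8 := min_le_left _ _
  have hη₁b : η₁ ≤ α₂ * η / 4 := min_le_right _ _
  clear_value η₁
  obtain ⟨α₁, γ₁, hα₁, hα₁1, hγ₁, H1⟩ := rig_onL (σ := σ) (a := a) (s := s) (c := c)
    (η := η₁) (D := D) (C1 := C1 + 2) ha0 has hsσ hsc hc hσ1 hη₁0 hD (by linarith)
  -- step 1
  have hR : (0 : ℝ) ≤ R0 := hRp.le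
  have S1 := H1 H (bv R0 0 0 0 0 0 0) (bv R0 R0 0 R0 0 R0 R0) (bv R0 R0 0 0 0 0 0) 10 7 9 fb
    (fun _ _ _ => 0) R0
    (by decide) hRp hR0
    (K.leg R0 0 0 0 0 0 0 hR le_rfl le_rfl hR le_rfl hR le_rfl hR le_rfl hR le_rfl hR le_rfl hR)
    (K.leg R0 R0 0 R0 0 R0 R0 hR le_rfl hR le_rfl le_rfl hR hR le_rfl le_rfl hR hR le_rfl hR le_rfl)
    (K.leg R0 R0 0 0 0 0 0 hR le_rfl hR le_rfl le_rfl hR le_rfl hR le_rfl hR le_rfl hR le_rfl hR)
    (fun t ht hty => by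
      rw [Qt_b]
      exact K.leg R0 R0 t R0 t R0 R0 hR le_rfl hR le_rfl ht hty hR le_rfl ht hty hR le_rfl hR le_rfl)
    (fun j => bv_mono le_rfl hR le_rfl hR le_rfl hR hR j)
    (fun j => bv_mono le_rfl hR le_rfl le_rfl le_rfl le_rfl le_rfl j) rfl rfl rfl
    (K.hN R0 hR le_rfl) (fun t ht hty => by rw [Qt_b]; exact K.hXb R0 t ht hty le_rfl)
    (by filter_upwards [K.bd] with n hn k hk; exact ⟨(hn k hk).1, (hn k hk).2.2⟩)
    (fun n => (G n).Z) (by
      refine Filter.Eventually.of_forall fun n => ?_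
      obtain ⟨⟨i1, k1⟩, hI1⟩ := H.nonempty n
      refine ⟨subset_rfl, ⟨k1, H.memZ hI1⟩, ?_⟩
      have h1 : B.d n ^ (γ₁ * R0) ≤ 1 := Real.rpow_le_one (B.pos n).le (B.lt n).le (by positivity)
      calc B.d n ^ (γ₁ * R0) * ((G n).Z.card : ℝ) ≤ 1 * ((G n).Z.card : ℝ) :=
            mul_le_mul_of_nonneg_right h1 (Nat.cast_nonneg _)
        _ = _ := one_mul _)
    (by
      refine Filter.Eventually.of_forall fun n i k => ?_
      rw [abs_zero]
      exact (rpos B n _).le)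
    (by
      intro ε hε
      filter_upwards [K.evb H hR le_rfl ε hε] with n hn k₀ hk₀ k hk i i' h1 h2 h3 h4 hl
      obtain ⟨g1, g2⟩ := hn k₀ k i i' h1 h2 h3 h4 hl
      refine ⟨g1, ?_⟩
      rw [zero_mul, sub_zero]
      exact g2)
  have S1' : ∀ᶠ n in (U : Filter ℕ), ∃ q : ℝ × ℝ × ℕ, B.d n ^ R0 ≤ q.1 ∧
      q.1 ≤ B.d n ^ (α₁ * R0) ∧ q.2.2 ∈ (G n).Z ∧
      q.1 ^ η₁ * ((G n).Z.card : ℝ) ≤ (((G n).Z.filter fun k =>
        |fb n k - fb n q.2.2 - q.2.1 * ((G n).z k - (G n).z q.2.2)| ≤ q.1).card : ℝ) := by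
    filter_upwards [S1] with n hn
    obtain ⟨w, μ, h1, h2, k₁, hk₁, h3⟩ := hn
    exact ⟨(w, μ, k₁), h1, h2, hk₁, h3⟩
  obtain ⟨q, hq⟩ := S1'.choice
  obtain ⟨v, hv0, hv1, hv⟩ := width_lim B (w := fun n => (q n).1) (Y0 := α₁ * R0) (Y1 := R0)
    (by positivity) (hq.mono fun n hn => ⟨hn.1, hn.2.1⟩)
  have hvpos : 0 < v := lt_of_lt_of_le (by positivity) hv0
  set y : ℝ := 3 / 4 * v with hy
  have hy0 : 0 < y := by positivity
  have hyR : y ≤ R0 := by rw [hy]; linarith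
  clear_value y
  set Z1 : ℕ → Finset ℕ := fun n => (G n).Z.filter fun k =>
    |fb n k - fb n (q n).2.2 - (q n).2.1 * ((G n).z k - (G n).z (q n).2.2)| ≤ (q n).1 with hZ1
  have hZ1m : ∀ᶠ n in (U : Filter ℕ), Z1 n ⊆ (G n).Z ∧ (Z1 n).Nonempty ∧
      B.d n ^ (3 / 2 * y * η₁) * ((G n).Z.card : ℝ) ≤ (Z1 n).card := by
    filter_upwards [hq, hv] with n hn hvn
    have hw0 : 0 < (q n).1 := (rpos B n _).trans_le hn.1
    refine ⟨filter_subset _ _, ⟨(q n).2.2, ?_⟩, ?_⟩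
    · simp only [hZ1]
      rw [mem_filter]
      refine ⟨hn.2.2.1, ?_⟩
      simp only [sub_self, mul_zero, abs_zero]
      exact hw0.le
    · refine le_trans ?_ hn.2.2.2
      refine mul_le_mul_of_nonneg_right ?_ (Nat.cast_nonneg _)
      rw [Real.rpow_mul (B.pos n).le]
      exact Real.rpow_le_rpow (rpos B n _).le hvn.2 hη₁0.le
  -- the strip, two points
  have hZ1f : ∀ᶠ n in (U : Filter ℕ), ∀ k ∈ Z1 n, ∀ k' ∈ Z1 n,
      |fb n k' - fb n k - (q n).2.1 * ((G n).z k' - (G n).z k)| ≤ 2 * B.d n ^ y := by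
    filter_upwards [hv] with n hvn k hk k' hk'
    simp only [hZ1] at hk hk'
    rw [mem_filter] at hk hk'
    have f3 := abs_le.1 (hk.2.trans hvn.1)
    have f4 := abs_le.1 (hk'.2.trans hvn.1)
    rw [abs_le]
    constructor <;> linarith [f3.1, f3.2, f4.1, f4.2]
  -- step 2
  have hyy : (0 : ℝ) ≤ y := hy0.le
  have hg2y : 0 < g2 * y / 2 := by positivity
  have hμbd : ∀ᶠ n in (U : Filter ℕ), |(q n).2.1| * B.d n ^ (g2 * y / 2) ≤ 4 := by
    refine slope_bd H (Z1 := Z1) (μ := fun n => (q n).2.1) (κ' := 3 / 2 * y * η₁) hg2y ?_ ?_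
      (by filter_upwards [K.bd] with n hn k hk; exact ⟨(hn k hk).1, (hn k hk).2.2⟩) hZ1m ?_
    · have h1 : g2 * y ≤ 1 * y := mul_le_mul_of_nonneg_right hg21 hyy
      linarith
    · have h1 : y * η₁ ≤ y * (σ * g2 / 8) := mul_le_mul_of_nonneg_left hη₁a hyy
      have h2 : 0 < σ * g2 * y := mul_pos hσg hy0
      linarith
    · filter_upwards [hZ1f] with n hn k hk k' hk'
      have h1 : B.d n ^ y ≤ 1 := Real.rpow_le_one (B.pos n).le (B.lt n).le hyy
      exact (hn k hk k' hk').trans (by linarith)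
  have hm : ∀ᶠ n in (U : Filter ℕ), ∀ i k, |ee n i k * (q n).2.1| ≤ B.d n ^ (-(γ₂ * y)) := by
    filter_upwards [hμbd, ev_const_le B hg2y (4 * M)] with n h1 h2 i k
    have hp := rpos B n (g2 * y / 2)
    have hpn := rpos B n (-(g2 * y / 2))
    have e2 : B.d n ^ (g2 * y / 2) * B.d n ^ (-(g2 * y / 2)) = 1 := by
      rw [← rpow_add', add_neg_cancel, Real.rpow_zero]
    have h3 : |(q n).2.1| ≤ 4 * B.d n ^ (-(g2 * y / 2)) := by
      calc |(q n).2.1| = |(q n).2.1| * B.d n ^ (g2 * y / 2) * B.d n ^ (-(g2 * y / 2)) := by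
            rw [mul_assoc, e2, mul_one]
        _ ≤ 4 * B.d n ^ (-(g2 * y / 2)) := mul_le_mul_of_nonneg_right h1 hpn.le
    rw [abs_mul]
    calc |ee n i k| * |(q n).2.1| ≤ M * (4 * B.d n ^ (-(g2 * y / 2))) :=
          mul_le_mul (hM n i k) h3 (abs_nonneg _) (by linarith)
      _ = (4 * M) * B.d n ^ (-(g2 * y / 2)) := by ring
      _ ≤ B.d n ^ (-(g2 * y / 2)) * B.d n ^ (-(g2 * y / 2)) :=
          mul_le_mul_of_nonneg_right h2 hpn.le
      _ = B.d n ^ (-(g2 * y)) := by rw [← rpow_add']; congr 1; ring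
      _ ≤ B.d n ^ (-(γ₂ * y)) := rpow_anti B n (by
          have := mul_le_mul_of_nonneg_right hg2γ hyy
          linarith)
  have S2 := H2 H (bv y 0 0 0 0 0 0) (bv y y 0 0 y y y) (bv y y 0 0 0 0 0) 10 7 8 fa
    (fun n i k => ee n i k * (q n).2.1) y
    (by decide) hy0 (hyR.trans hR0)
    (K.leg y 0 0 0 0 0 0 hyy hyR le_rfl hyy le_rfl hyy le_rfl hyy le_rfl hyy le_rfl hyy le_rfl hyy)
    (K.leg y y 0 0 y y y hyy hyR hyy le_rfl le_rfl hyy le_rfl hyy hyy le_rfl hyy le_rfl hyy le_rfl)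
    (K.leg y y 0 0 0 0 0 hyy hyR hyy le_rfl le_rfl hyy le_rfl hyy le_rfl hyy le_rfl hyy le_rfl hyy)
    (fun t ht hty => by
      rw [Qt_a]
      exact K.leg y y t t y y y hyy hyR hyy le_rfl ht hty ht hty hyy le_rfl hyy le_rfl hyy le_rfl)
    (fun j => bv_mono le_rfl hyy le_rfl le_rfl hyy hyy hyy j)
    (fun j => bv_mono le_rfl hyy le_rfl le_rfl le_rfl le_rfl le_rfl j) rfl rfl rfl
    (K.hN y hyy hyR) (fun t ht hty => by rw [Qt_a]; exact K.hXa y t ht hty hyR)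
    (by filter_upwards [K.bd] with n hn k hk; exact ⟨(hn k hk).1, (hn k hk).2.1⟩)
    Z1 (by
      filter_upwards [hZ1m] with n hn
      refine ⟨hn.1, hn.2.1, le_trans ?_ hn.2.2⟩
      refine mul_le_mul_of_nonneg_right (rpow_anti B n ?_) (Nat.cast_nonneg _)
      have h1 : y * η₁ ≤ y * (σ * g2 / 8) := mul_le_mul_of_nonneg_left hη₁a hyy
      have h2 : σ * g2 * y ≤ g2 * y := mul_le_mul_of_nonneg_right hσg1 hyy
      have h3 : g2 * y ≤ γ₂ * y := mul_le_mul_of_nonneg_right hg2γ hyy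
      have h4 : 0 < g2 * y := mul_pos hg20 hy0
      linarith) hm
    (by
      intro ε hε
      filter_upwards [K.eva H hyy hyR ε hε, hZ1f] with n hn hf k₀ hk₀ k hk i i' h1 h2 h3 h4 hl
      exact hn (q n).2.1 k₀ k i i' (hf k₀ hk₀ k hk) h1 h2 h3 h4 hl)
  refine HS (α₂ * y) y (by positivity) hyR ?_
  filter_upwards [S2, hZ1m, hv, hq, hZ1f] with n h2 h1 hvn hqn hf
  obtain ⟨w, μ, hw1, hw2, k₂, hk₂, hm⟩ := h2
  have hw0 : 0 < w := (rpos B n _).trans_le hw1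
  refine ⟨w, hw1, hw2, (Z1 n).filter fun k =>
    |fa n k - fa n k₂ - μ * ((G n).z k - (G n).z k₂)| ≤ w, (filter_subset _ _).trans h1.1,
    ⟨k₂, ?_⟩, ?_, μ, (q n).2.1, ?_⟩
  · rw [mem_filter]
    refine ⟨hk₂, ?_⟩
    simp only [sub_self, mul_zero, abs_zero]
    exact hw0.le
  · refine le_trans ?_ hm
    have e1 : w ^ η = w ^ (η / 2) * w ^ (η / 2) := by
      rw [← Real.rpow_add hw0]; congr 1; ring
    have e2 : w ^ (η / 2) ≤ B.d n ^ (3 / 2 * y * η₁) := by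
      have h3 : w ^ (η / 2) ≤ (B.d n ^ (α₂ * y)) ^ (η / 2) :=
        Real.rpow_le_rpow hw0.le hw2 (by positivity)
      refine h3.trans ?_
      rw [← Real.rpow_mul (B.pos n).le]
      refine rpow_anti B n ?_
      have h4 : y * η₁ ≤ y * (α₂ * η / 4) := mul_le_mul_of_nonneg_left hη₁b hyy
      have h5 : 0 < α₂ * y * η := by positivity
      linarith
    rw [e1, mul_assoc]
    refine mul_le_mul_of_nonneg_left ?_ (Real.rpow_nonneg hw0.le _)
    exact (mul_le_mul_of_nonneg_right e2 (Nat.cast_nonneg _)).trans h1.2.2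
  · intro k hk k' hk'
    rw [mem_filter] at hk hk'
    obtain ⟨hkZ, hka⟩ := hk
    obtain ⟨hkZ', hka'⟩ := hk'
    have f1 := abs_le.1 hka
    have f2 := abs_le.1 hka'
    have f3 := hf k hkZ k' hkZ'
    constructor
    · rw [abs_le]
      constructor <;> linarith [f1.1, f1.2, f2.1, f2.2]
    · exact f3.trans (by linarith)

end Crest.Agent.R136.CV366
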