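import Crest.Agent.R136.CV5_366
import Crest.Agent.R136.Fe1_355

/-!
# R136: `κ = 1`, both slots `31`, `32` tied, `sigma = 1` (helper366)

`kappa_one_V`: `N` decoupled with rate `a`, the velocities `(C_a, C_b)` decoupled and without heavy
strips, `(P, X_a, X_b)` arbitrarily coupled with the block `(X_a, X_b)` full, `E` free, raw twist of
one of the two slope functions: `σ ≤ a`.
-/

set_option autoImplicit false
set_option linter.unusedVariables false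
set_option linter.unusedSectionVars false

open Filter Topology Finset

namespace Crest.Agent.R136.CV366

open Crest.Agent.R138.Ex926 (Base U)
open Crest.Agent.R136.Gf356
open Crest.Agent.R136.CD366
open Crest.Agent.R136.Fe1355 (RawTw shift_R)

/-- the data of `kappa_one_V`: `ν` splits over `N`, `(P, X_a, X_b)`, `(C_a, C_b)` -/
structure V1 (B : Base) (G : ℕ → RCfg (Fin 11)) (Leg : Set (Fin 11 → ℝ)) (ν : (Fin 11 → ℝ) → ℝ)
    (fa fb : ℕ → ℕ → ℝ) (ee : ℕ → ℕ → ℕ → ℝ) (R0 C1 a q Ca : ℝ) (β : ℝ → ℝ → ℝ → ℝ → ℝ) (γ : ℝ → ℝ → ℝ → ℝ) : Prop where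
  R0_pos : 0 < R0
  C1_one : 1 ≤ C1
  q_pos : 0 < q
  Ca_pos : 0 < Ca
  leg : ∀ y n p xa xb ca cb : ℝ, 0 ≤ y → y ≤ R0 → 0 ≤ n → n ≤ y → 0 ≤ p → p ≤ y → 0 ≤ xa →
    xa ≤ y → 0 ≤ xb → xb ≤ y → 0 ≤ ca → ca ≤ y → 0 ≤ cb → cb ≤ y → bv y n p xa xb ca cb ∈ Leg
  bd : ∀ᶠ n in (U : Filter ℕ), ∀ k ∈ (G n).Z, |(G n).z k| ≤ 1 ∧ |fa n k| ≤ 1 ∧ |fb n k| ≤ 1
  /-- the line dependent coefficient (absolute `E` coordinate of the line) -/
  ee_bd : ∃ M : ℝ, 1 ≤ M ∧ ∀ᶠ n in (U : Filter ℕ), ∀ i k, (i, k) ∈ (G n).I → |ee n i k| ≤ M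
  ev : ∀ y : ℝ, 0 ≤ y → y ≤ R0 → ∀ ε : ℝ, 0 < ε → ∀ᶠ n in (U : Filter ℕ), ∀ k₀ k i i',
    (i, k₀) ∈ (G n).I → (i', k₀) ∈ (G n).I → (i, k) ∈ (G n).I → (i', k) ∈ (G n).I →
    (G n).loose (bv y 0 0 0 0 0 0) ε k₀ i i' →
    (G n).loose (bv y 0 0 0 0 0 0) (C1 * ε) k i i' ∧
    |(G n).rel k i i' 10 - ((G n).rel k₀ i i' 10 + ((G n).z k - (G n).z k₀) * (G n).rel k₀ i i' 7
      - ((fa n k - fa n k₀) + ee n i k₀ * (fb n k - fb n k₀)) * ((G n).rel k₀ i i' 8 +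
        ((G n).z k - (G n).z k₀) * (G n).rel k₀ i i' 5)
      - (fb n k - fb n k₀) * ((G n).rel k₀ i i' 9 + ((G n).z k - (G n).z k₀) *
        (G n).rel k₀ i i' 6))| ≤ B.d n ^ (y - C1 * ε)
  /-- splitting, `β y p xa xb` = loss of `(P, X_a, X_b)`, `γ y ca cb` = loss of `(C_a, C_b)` -/
  nu : ∀ y n p xa xb ca cb : ℝ, 0 ≤ y → y ≤ R0 → 0 ≤ n → n ≤ y → 0 ≤ p → p ≤ y → 0 ≤ xa →
    xa ≤ y → 0 ≤ xb → xb ≤ y → 0 ≤ ca → ca ≤ y → 0 ≤ cb → cb ≤ y →
    ν (bv y n p xa xb ca cb) = ν (bv y 0 0 0 0 0 0) - a * n - β y p xa xb - γ y ca cb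
  E_free : ∀ y : ℝ, 0 ≤ y → y ≤ R0 → ν (bv 0 0 0 0 0 0 0) ≤ ν (bv y 0 0 0 0 0 0)
  /-- the block `(X_a, X_b)` is full -/
  block : ∀ y t : ℝ, 0 ≤ t → t ≤ y → y ≤ R0 →
    2 * t ≤ ν (bv y 0 0 0 0 0 0) - ν (bv y 0 0 t t 0 0)
  lipa : ∀ y p xa xa' xb : ℝ, 0 ≤ y → y ≤ R0 → 0 ≤ p → p ≤ y → 0 ≤ xa → xa ≤ xa' → xa' ≤ y →
    0 ≤ xb → xb ≤ y → ν (bv y 0 p xa xb 0 0) - ν (bv y 0 p xa' xb 0 0) ≤ xa' - xa
  lipb : ∀ y p xa xb xb' : ℝ, 0 ≤ y → y ≤ R0 → 0 ≤ p → p ≤ y → 0 ≤ xa → xa ≤ y → 0 ≤ xb →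
    xb ≤ xb' → xb' ≤ y → ν (bv y 0 p xa xb 0 0) - ν (bv y 0 p xa xb' 0 0) ≤ xb' - xb
  noStr : NoStr B G (bv 0 0 0 0 0 0 0) 5 6 ν q R0
  addC : ∀ y : ℝ, 0 ≤ y → y ≤ R0 → AddC B G (bv y 0 0 0 0 0 0) 5 6 Ca y

variable {B : Base} {G : ℕ → RCfg (Fin 11)} {Leg : Set (Fin 11 → ℝ)} {ν : (Fin 11 → ℝ) → ℝ}
  {σ R D : ℝ} {fa fb : ℕ → ℕ → ℝ} {ee : ℕ → ℕ → ℕ → ℝ} {R0 C1 a q Ca : ℝ} {β : ℝ → ℝ → ℝ → ℝ → ℝ} {γ : ℝ → ℝ → ℝ → ℝ}

theorem V1.a_nonneg (H : RModel B G σ R Leg ν D) (K : V1 B G Leg ν fa fb ee R0 C1 a q Ca β γ) :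
    0 ≤ a := by
  have hR := K.R0_pos
  have h1 := K.nu R0 R0 0 0 0 0 0 hR.le le_rfl hR.le le_rfl le_rfl hR.le le_rfl hR.le le_rfl hR.le
    le_rfl hR.le le_rfl hR.le
  have h0 := K.nu R0 0 0 0 0 0 0 hR.le le_rfl le_rfl hR.le le_rfl hR.le le_rfl hR.le le_rfl hR.le
    le_rfl hR.le le_rfl hR.le
  have h2 := H.nu_anti (p := bv R0 0 0 0 0 0 0) (p' := bv R0 R0 0 0 0 0 0)
    (K.leg R0 0 0 0 0 0 0 hR.le le_rfl le_rfl hR.le le_rfl hR.le le_rfl hR.le le_rfl hR.le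
      le_rfl hR.le le_rfl hR.le)
    (K.leg R0 R0 0 0 0 0 0 hR.le le_rfl hR.le le_rfl le_rfl hR.le le_rfl hR.le le_rfl hR.le
      le_rfl hR.le le_rfl hR.le)
    (fun s => bv_mono le_rfl hR.le le_rfl le_rfl le_rfl le_rfl le_rfl s)
  by_contra hcon
  push Not at hcon
  have : a * R0 < 0 := mul_neg_of_neg_of_pos hcon hR
  linarith

/-- the visible shift inside `V1`: loss of `X_b` given `(N, P, X_a, C_a, C_b)` is at most the loss
of `N` -/
theorem V1.shift (H : RModel B G σ R Leg ν D)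
    (K : V1 B G Leg ν fa fb ee R0 C1 a q Ca β γ)
    (htw : RawTw B G fun n k k' => fb n k' - fb n k) {y t : ℝ} (ht : 0 ≤ t) (hty : t ≤ y)
    (hy : y ≤ R0) : β y t t t - β y t t 0 ≤ a * t := by
  have hy0 : 0 ≤ y := ht.trans hty
  have hC1 := K.C1_one
  have hC10 : 0 < C1 := by linarith
  obtain ⟨M, hM1, hM⟩ := K.ee_bd
  have key := shift_R H (bv y t t t 0 t t) (bv y t t t t t t)
    (bv y 0 0 0 0 0 0) (bv y t 0 0 0 0 0)
    (K.leg y t t t 0 t t hy0 hy ht hty ht hty ht hty le_rfl hy0 ht hty ht hty)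
    (K.leg y t t t t t t hy0 hy ht hty ht hty ht hty ht hty ht hty ht hty)
    (K.leg y 0 0 0 0 0 0 hy0 hy le_rfl hy0 le_rfl hy0 le_rfl hy0 le_rfl hy0 le_rfl hy0 le_rfl hy0)
    (K.leg y t 0 0 0 0 0 hy0 hy ht hty le_rfl hy0 le_rfl hy0 le_rfl hy0 le_rfl hy0 le_rfl hy0)
    (fun s => bv_mono le_rfl ht le_rfl le_rfl le_rfl le_rfl le_rfl s) 9 10 (y := t)
    (by rw [bv9])
    (fun s hs => le_of_eq (bv_off (fun _ => rfl) (fun _ => rfl) (fun _ => rfl) (fun _ => rfl)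
      (fun h => absurd h hs) (fun _ => rfl)))
    (by rw [bv10]) (fun n k k' => -(fb n k' - fb n k)) (by
      intro ε hε
      filter_upwards [htw ε hε] with n hn i hi T hT hq
      refine hn i hi T hT fun q hq' => ?_
      have := hq q hq'
      rwa [abs_neg] at this) (by
      intro C0 hC0
      refine ⟨(C1 * C0 + C0 + 1), by positivity, fun ε hε => ?_⟩
      have hC0ε : 0 < C0 * ε := by positivity
      filter_upwards [K.ev y hy0 hy (C0 * ε) hC0ε, K.bd, ev_const_le B hε (16 + 6 * M), hM]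
        with n hev hbd hc8 hMn k hk k' hk' i i' hi hi' hl hl' hlo
      have hpow : ∀ t : ℝ, 0 < B.d n ^ t := fun t => rpos B n t
      have hlo0 : (G n).loose (bv y 0 0 0 0 0 0) (C0 * ε) k i i' :=
        H.loose_mono (fun s => bv_mono le_rfl ht ht ht le_rfl ht ht s) le_rfl hlo
      obtain ⟨g1, g2⟩ := hev k k' i i' hi hl hi' hl' hlo0
      refine ⟨H.loose_mono (fun _ => le_rfl) (by linarith) g1, ?_⟩
      have gN := hlo 10
      have gP := hlo 7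
      have gXa := hlo 8
      have gCa := hlo 5
      have gCb := hlo 6
      rw [bv10, H.base n] at gN
      rw [bv7, H.base n] at gP
      rw [bv8, H.base n] at gXa
      rw [bv5, H.base n] at gCa
      rw [bv6, H.base n] at gCb
      have hu : |(G n).z k' - (G n).z k| ≤ 2 := by
        refine (abs_sub _ _).trans ?_
        have := (hbd k' hk').1; have := (hbd k hk).1; linarith
      have hga : |fa n k' - fa n k| ≤ 2 := by
        refine (abs_sub _ _).trans ?_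
        have := (hbd k' hk').2.1; have := (hbd k hk).2.1; linarith
      have hgb : |fb n k' - fb n k| ≤ 2 := by
        refine (abs_sub _ _).trans ?_
        have := (hbd k' hk').2.2; have := (hbd k hk).2.2; linarith
      have hF : |(fa n k' - fa n k) + ee n i k * (fb n k' - fb n k)| ≤ 2 + 2 * M := by
        refine (abs_add_le _ _).trans ?_
        rw [abs_mul]
        have := mul_le_mul (hMn i k hi) hgb (abs_nonneg _) (by linarith)
        linarith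
      clear hlo hlo0 hev hbd g1 hMn hM
      set b := B.d n ^ (t - (C1 * C0 + C0) * ε) with hb
      have hb0 : 0 < b := hpow _
      have hCC : 0 ≤ C1 * C0 * ε := by positivity
      have k1 : B.d n ^ (y - C1 * (C0 * ε)) ≤ b := rpow_anti B n (by
        have h1 : 0 ≤ C0 * ε := hC0ε.le
        have h2 : C1 * (C0 * ε) = C1 * C0 * ε := by ring
        have h3 : (C1 * C0 + C0) * ε = C1 * C0 * ε + C0 * ε := by ring
        linarith)
      have k2 : B.d n ^ (t - C0 * ε) ≤ b := rpow_anti B n (by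
        have h3 : (C1 * C0 + C0) * ε = C1 * C0 * ε + C0 * ε := by ring
        linarith)
      have m1 : |((G n).z k' - (G n).z k) * (G n).rel k i i' 7| ≤ 2 * b := by
        rw [abs_mul]
        exact mul_le_mul hu (gP.trans k2) (abs_nonneg _) (by norm_num)
      have m0 : |((fa n k' - fa n k) + ee n i k * (fb n k' - fb n k)) * (G n).rel k i i' 8| ≤
          (2 + 2 * M) * b := by
        rw [abs_mul]
        exact mul_le_mul hF (gXa.trans k2) (abs_nonneg _) (by linarith)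
      have m2 : ∀ c F C : ℝ, 0 ≤ c → |F| ≤ c → |C| ≤ b →
          |F * (((G n).z k' - (G n).z k) * C)| ≤ c * (2 * b) := by
        intro c F C hc hF hC
        rw [abs_mul, abs_mul]
        refine mul_le_mul hF ?_ (by positivity) hc
        exact mul_le_mul hu hC (abs_nonneg _) (by norm_num)
      have m2a := m2 (2 + 2 * M) _ _ (by linarith) hF (gCa.trans k2)
      have m2b := m2 2 _ _ (by norm_num) hgb (gCb.trans k2)
      have m3 : |(G n).rel k' i i' 10 - -(fb n k' - fb n k) * (G n).rel k i i' 9| ≤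
          (16 + 6 * M) * b := by
        have e1 : (G n).rel k' i i' 10 - -(fb n k' - fb n k) * (G n).rel k i i' 9 =
            ((G n).rel k' i i' 10 - ((G n).rel k i i' 10 +
              ((G n).z k' - (G n).z k) * (G n).rel k i i' 7
              - ((fa n k' - fa n k) + ee n i k * (fb n k' - fb n k)) *
                ((G n).rel k i i' 8 + ((G n).z k' - (G n).z k) * (G n).rel k i i' 5)
              - (fb n k' - fb n k) * ((G n).rel k i i' 9 + ((G n).z k' - (G n).z k) *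
                (G n).rel k i i' 6))) +
            (G n).rel k i i' 10 + ((G n).z k' - (G n).z k) * (G n).rel k i i' 7 -
            ((fa n k' - fa n k) + ee n i k * (fb n k' - fb n k)) * (G n).rel k i i' 8 -
            ((fa n k' - fa n k) + ee n i k * (fb n k' - fb n k)) *
              (((G n).z k' - (G n).z k) * (G n).rel k i i' 5) -
            (fb n k' - fb n k) * (((G n).z k' - (G n).z k) * (G n).rel k i i' 6) := by ring
        rw [e1]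
        have n1 := abs_le.1 (g2.trans k1)
        have n2 := abs_le.1 (gN.trans k2)
        have n3 := abs_le.1 m1
        have n4 := abs_le.1 m2a
        have n5 := abs_le.1 m2b
        have n6 := abs_le.1 m0
        rw [abs_le]
        constructor <;> linarith [n1.1, n1.2, n2.1, n2.2, n3.1, n3.2, n4.1, n4.2, n5.1, n5.2,
          n6.1, n6.2]
      refine m3.trans (absorb B ?_)
      have e : -(t - (C1 * C0 + C0) * ε - (t - (C1 * C0 + C0 + 1) * ε)) = -ε := by ring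
      rw [e]
      exact hc8)
  rw [K.nu y t t t 0 t t hy0 hy ht hty ht hty ht hty le_rfl hy0 ht hty ht hty,
    K.nu y t t t t t t hy0 hy ht hty ht hty ht hty ht hty ht hty ht hty,
    K.nu y t 0 0 0 0 0 hy0 hy ht hty le_rfl hy0 le_rfl hy0 le_rfl hy0 le_rfl hy0 le_rfl hy0] at key
  have h0 := K.nu y 0 0 0 0 0 0 hy0 hy le_rfl hy0 le_rfl hy0 le_rfl hy0 le_rfl hy0 le_rfl hy0
    le_rfl hy0
  linarith

theorem V1.zero (K : V1 B G Leg ν fa fb ee R0 C1 a q Ca β γ) {y : ℝ} (hy0 : 0 ≤ y) (hy : y ≤ R0) :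
    β y 0 0 0 + γ y 0 0 = 0 := by
  have h0 := K.nu y 0 0 0 0 0 0 hy0 hy le_rfl hy0 le_rfl hy0 le_rfl hy0 le_rfl hy0 le_rfl hy0
    le_rfl hy0
  linarith

theorem V1.La (K : V1 B G Leg ν fa fb ee R0 C1 a q Ca β γ) {y p xa xa' xb : ℝ} (hy0 : 0 ≤ y)
    (hy : y ≤ R0) (hp : 0 ≤ p) (hpy : p ≤ y) (hx : 0 ≤ xa) (hxx : xa ≤ xa') (hxy : xa' ≤ y)
    (hb : 0 ≤ xb) (hby : xb ≤ y) : β y p xa' xb - β y p xa xb ≤ xa' - xa := by
  have h := K.lipa y p xa xa' xb hy0 hy hp hpy hx hxx hxy hb hby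
  have h1 := K.nu y 0 p xa xb 0 0 hy0 hy le_rfl hy0 hp hpy hx (hxx.trans hxy) hb hby le_rfl hy0
    le_rfl hy0
  have h2 := K.nu y 0 p xa' xb 0 0 hy0 hy le_rfl hy0 hp hpy (hx.trans hxx) hxy hb hby le_rfl hy0
    le_rfl hy0
  linarith

theorem V1.Lb (K : V1 B G Leg ν fa fb ee R0 C1 a q Ca β γ) {y p xa xb xb' : ℝ} (hy0 : 0 ≤ y)
    (hy : y ≤ R0) (hp : 0 ≤ p) (hpy : p ≤ y) (hx : 0 ≤ xa) (hxy : xa ≤ y) (hb : 0 ≤ xb)
    (hbb : xb ≤ xb') (hby : xb' ≤ y) : β y p xa xb' - β y p xa xb ≤ xb' - xb := by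
  have h := K.lipb y p xa xb xb' hy0 hy hp hpy hx hxy hb hbb hby
  have h1 := K.nu y 0 p xa xb 0 0 hy0 hy le_rfl hy0 hp hpy hx hxy hb (hbb.trans hby) le_rfl hy0
    le_rfl hy0
  have h2 := K.nu y 0 p xa xb' 0 0 hy0 hy le_rfl hy0 hp hpy hx hxy (hb.trans hbb) hby le_rfl hy0
    le_rfl hy0
  linarith

theorem V1.blk (K : V1 B G Leg ν fa fb ee R0 C1 a q Ca β γ) {y t : ℝ} (ht : 0 ≤ t) (hty : t ≤ y)
    (hy : y ≤ R0) : 2 * t ≤ β y 0 t t - β y 0 0 0 := by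
  have hy0 : 0 ≤ y := ht.trans hty
  have h := K.block y t ht hty hy
  have h1 := K.nu y 0 0 t t 0 0 hy0 hy le_rfl hy0 le_rfl hy0 ht hty ht hty le_rfl hy0 le_rfl hy0
  have h2 := K.zero hy0 hy
  linarith

/-- monotonicity of `β` in the first slot -/
theorem V1.mono (H : RModel B G σ R Leg ν D) (K : V1 B G Leg ν fa fb ee R0 C1 a q Ca β γ)
    {y p xa xb : ℝ} (hy0 : 0 ≤ y) (hy : y ≤ R0) (hp : 0 ≤ p) (hpy : p ≤ y) (hx : 0 ≤ xa)
    (hxy : xa ≤ y) (hb : 0 ≤ xb) (hby : xb ≤ y) : β y 0 xa xb ≤ β y p xa xb := by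
  have h2 := H.nu_anti (p := bv y 0 0 xa xb 0 0) (p' := bv y 0 p xa xb 0 0)
    (K.leg y 0 0 xa xb 0 0 hy0 hy le_rfl hy0 le_rfl hy0 hx hxy hb hby le_rfl hy0 le_rfl hy0)
    (K.leg y 0 p xa xb 0 0 hy0 hy le_rfl hy0 hp hpy hx hxy hb hby le_rfl hy0 le_rfl hy0)
    (fun s => bv_mono le_rfl le_rfl hp le_rfl le_rfl le_rfl le_rfl s)
  have h3 := K.nu y 0 0 xa xb 0 0 hy0 hy le_rfl hy0 le_rfl hy0 hx hxy hb hby le_rfl hy0 le_rfl hy0
  have h4 := K.nu y 0 p xa xb 0 0 hy0 hy le_rfl hy0 hp hpy hx hxy hb hby le_rfl hy0 le_rfl hy0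
  linarith

theorem V1.P (H : RModel B G σ R Leg ν D) (K : V1 B G Leg ν fa fb ee R0 C1 a q Ca β γ)
    (htw : RawTw B G fun n k k' => fb n k' - fb n k) {y t : ℝ} (ht : 0 ≤ t) (hty : t ≤ y)
    (hy : y ≤ R0) : (1 - a) * t ≤ β y t 0 0 - β y 0 0 0 := by
  have hy0 : 0 ≤ y := ht.trans hty
  have h1 := K.shift H htw ht hty hy
  have h2 := K.blk ht hty hy
  have h3 := K.mono H hy0 hy ht hty ht hty ht hty
  have h4 := K.La hy0 hy ht hty le_rfl ht hty le_rfl hy0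
  linarith

theorem V1.Xb (H : RModel B G σ R Leg ν D) (K : V1 B G Leg ν fa fb ee R0 C1 a q Ca β γ)
    {y t : ℝ} (ht : 0 ≤ t) (hty : t ≤ y) (hy : y ≤ R0) : t ≤ β y t y t - β y 0 y 0 := by
  have hy0 : 0 ≤ y := ht.trans hty
  have h1 := K.blk hy0 le_rfl hy
  have h2 := K.Lb hy0 hy le_rfl hy0 hy0 le_rfl ht hty le_rfl
  have h3 := K.mono H hy0 hy ht hty hy0 le_rfl ht hty
  have h4 := K.La hy0 hy le_rfl hy0 le_rfl hy0 le_rfl le_rfl hy0
  linarith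

theorem V1.Xa (H : RModel B G σ R Leg ν D) (K : V1 B G Leg ν fa fb ee R0 C1 a q Ca β γ)
    {y t : ℝ} (ht : 0 ≤ t) (hty : t ≤ y) (hy : y ≤ R0) : t ≤ β y t t y - β y 0 0 y := by
  have hy0 : 0 ≤ y := ht.trans hty
  have h1 := K.blk hy0 le_rfl hy
  have h2 := K.La hy0 hy le_rfl hy0 ht hty le_rfl hy0 le_rfl
  have h3 := K.mono H hy0 hy ht hty ht hty hy0 le_rfl
  have h4 := K.Lb hy0 hy le_rfl hy0 le_rfl hy0 le_rfl hy0 le_rfl
  linarith

open Classical in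
/-- strips of the fan -/
theorem V1.strip (H : RModel B G σ R Leg ν D) (K : V1 B G Leg ν fa fb ee R0 C1 a q Ca β γ)
    {Kn : ℝ} (hKn : 0 ≤ Kn)
    (hns : ∀ t : ℝ, 0 < t → t ≤ R0 → ∀ ε : ℝ, 0 < ε → ∀ᶠ n in (U : Filter ℕ),
      ∀ i k, (i, k) ∈ (G n).I → ∀ b : Fin 2 → ℝ, b 0 ^ 2 + b 1 ^ 2 = 1 →
      ((((G n).box (bv 0 0 0 0 0 0 0) ε i k).filter fun l =>
        |b 0 * (G n).rel k i l 5 + b 1 * (G n).rel k i l 6| ≤ B.d n ^ (t - ε)).card : ℝ) ≤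
        B.d n ^ (-(ν (bv 0 0 0 0 0 0 0)) + q * t - Kn * ε))
    {y t : ℝ} (ht0 : 0 < t) (hty : t ≤ y) (hy : y ≤ R0) :
    ∀ ε : ℝ, 0 < ε → ∀ᶠ n in (U : Filter ℕ),
      ∀ i k, (i, k) ∈ (G n).I → ∀ b : Fin 2 → ℝ, b 0 ^ 2 + b 1 ^ 2 = 1 →
      ((((G n).box (bv y t y y y 0 0) ε i k).filter fun l =>
        |b 0 * (G n).rel k i l 5 + b 1 * (G n).rel k i l 6| ≤ B.d n ^ (t - ε)).card : ℝ) ≤
        B.d n ^ (-(ν (bv y t y y y 0 0)) + q * t - fK D Ca Kn * ε) := by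
  have ht : 0 ≤ t := ht0.le
  have hy0 : 0 ≤ y := ht.trans hty
  have hCa := K.Ca_pos
  have L0 := K.leg y 0 0 0 0 0 0 hy0 hy le_rfl hy0 le_rfl hy0 le_rfl hy0 le_rfl hy0 le_rfl hy0
    le_rfl hy0
  have LC := K.leg y 0 0 0 0 t t hy0 hy le_rfl hy0 le_rfl hy0 le_rfl hy0 le_rfl hy0 ht hty ht hty
  have LF := K.leg y t y y y 0 0 hy0 hy ht hty hy0 le_rfl hy0 le_rfl hy0 le_rfl le_rfl hy0
    le_rfl hy0
  have LFC := K.leg y t y y y t t hy0 hy ht hty hy0 le_rfl hy0 le_rfl hy0 le_rfl ht hty ht hty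
  have h0C : ∀ s, bv y 0 0 0 0 0 0 s ≤ bv y 0 0 0 0 t t s := fun s =>
    bv_mono le_rfl le_rfl le_rfl le_rfl le_rfl ht ht s
  have h0F : ∀ s, bv y 0 0 0 0 0 0 s ≤ bv y t y y y 0 0 s := fun s =>
    bv_mono le_rfl ht hy0 hy0 hy0 le_rfl le_rfl s
  have hmax : ∀ s, bv y t y y y t t s ≤ max (bv y 0 0 0 0 t t s) (bv y t y y y 0 0 s) := by
    intro s
    by_cases h5 : s = 5
    · subst h5
      rw [bv5, bv5]
      exact le_max_left _ _
    · by_cases h6 : s = 6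
      · subst h6
        rw [bv6, bv6]
        exact le_max_left _ _
      · refine le_max_of_le_right (le_of_eq ?_)
        exact bv_off (fun h => absurd h h5) (fun h => absurd h h6) (fun _ => rfl)
          (fun _ => rfl) (fun _ => rfl) (fun _ => rfl)
  have hN : ∀ ε : ℝ, 0 < ε → ∀ᶠ n in (U : Filter ℕ),
      ∀ i k, (i, k) ∈ (G n).I → ∀ b : Fin 2 → ℝ, b 0 ^ 2 + b 1 ^ 2 = 1 →
      ((((G n).box (bv y 0 0 0 0 0 0) ε i k).filter fun l =>
        |b 0 * (G n).rel k i l 5 + b 1 * (G n).rel k i l 6| ≤ B.d n ^ (t - ε)).card : ℝ) ≤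
        B.d n ^ (-(ν (bv y 0 0 0 0 0 0)) + q * t - Kn * ε) := by
    intro ε hε
    filter_upwards [hns t ht0 (hty.trans hy) ε hε] with n hn i k hik b hb
    refine le_trans ?_ ((hn i k hik b hb).trans (rpow_anti B n ?_))
    · refine mod_cast card_le_card ?_
      intro l hl
      rw [mem_filter, RCfg.mem_box] at hl ⊢
      exact ⟨⟨hl.1.1, H.loose_mono (fun s => bv_mono hy0 le_rfl le_rfl le_rfl le_rfl
        le_rfl le_rfl s) le_rfl hl.1.2⟩, hl.2⟩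
    · have := K.E_free y hy0 hy
      linarith
  have hprod : ν (bv y 0 0 0 0 0 0) - ν (bv y 0 0 0 0 t t) ≤
      ν (bv y t y y y 0 0) - ν (bv y t y y y t t) := by
    have g1 := K.nu y 0 0 0 0 t t hy0 hy le_rfl hy0 le_rfl hy0 le_rfl hy0 le_rfl hy0 ht hty ht hty
    have g2 := K.nu y t y y y 0 0 hy0 hy ht hty hy0 le_rfl hy0 le_rfl hy0 le_rfl le_rfl hy0 le_rfl
      hy0
    have g3 := K.nu y t y y y t t hy0 hy ht hty hy0 le_rfl hy0 le_rfl hy0 le_rfl ht hty ht hty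
    have := K.zero hy0 hy
    linarith
  exact fan_stripK H.toRUnif L0 LC LF LFC h0C h0F (by rw [bv5]) (by rw [bv6]) hmax hCa hKn hN
    (K.addC y hy0 hy) hty hprod

/-- **`κ = 1`, both slots tied** -/
theorem V1.kv (H : RModel B G σ R Leg ν D) (K : V1 B G Leg ν fa fb ee R0 C1 a q Ca β γ)
    (htw : RawTw B G fun n k k' => fb n k' - fb n k) (ha1 : a < 1) :
    ∃ c K0 : ℝ, ∃ e' : ℕ → ℕ → ℕ → ℝ, KV B G Leg ν fa fb e' R0 C1 a c K0 := by
  have hD := H.D1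
  have hD0 : 0 < D := by linarith
  have hCa := K.Ca_pos
  have hR := K.R0_pos
  have hq := K.q_pos
  obtain ⟨Kn, hKn, hns⟩ := K.noStr
  set c : ℝ := min q (1 - a) with hc
  have hc0 : 0 < c := lt_min hq (by linarith)
  have hcq : c ≤ q := min_le_left _ _
  have hca : c ≤ 1 - a := min_le_right _ _
  clear_value c
  have hfK : 0 ≤ fK D Ca Kn := by unfold fK; positivity
  obtain ⟨M, hM1, hM⟩ := K.ee_bd
  refine ⟨c, max D (fK D Ca Kn), fun n i k => max (-M) (min M (ee n i k)),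
    ⟨hR, K.C1_one, hc0, le_max_of_le_left hD0.le, K.leg, K.bd, ⟨M, hM1, ?_⟩, ?_,
    ?_, ?_, ?_, ?_, ?_⟩⟩
  · intro n i k
    rw [abs_le]
    exact ⟨le_max_left _ _, max_le (by linarith) (min_le_left _ _)⟩
  · intro y hy0 hy ε hε
    filter_upwards [K.ev y hy0 hy ε hε, hM] with n hn hMn k₀ k i i' h1 h2 h3 h4 hl
    have h5 := abs_le.1 (hMn i k₀ h1)
    have h6 : max (-M) (min M (ee n i k₀)) = ee n i k₀ := by
      rw [min_eq_right h5.2, max_eq_right h5.1]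
    rw [h6]
    exact hn k₀ k i i' h1 h2 h3 h4 hl
  · intro y hy0 hy
    have h1 := K.nu y y 0 0 0 0 0 hy0 hy hy0 le_rfl le_rfl hy0 le_rfl hy0 le_rfl hy0 le_rfl hy0
      le_rfl hy0
    have h2 := K.zero hy0 hy
    linarith
  · intro y t ht hty hy
    have hy0 : 0 ≤ y := ht.trans hty
    have h0 := K.nu y t t 0 0 0 0 hy0 hy ht hty ht hty le_rfl hy0 le_rfl hy0 le_rfl hy0 le_rfl hy0
    have h1 := K.P H htw ht hty hy
    have h2 := K.zero hy0 hy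
    have h4 : c * t ≤ (1 - a) * t := mul_le_mul_of_nonneg_right hca ht
    linarith
  · intro y t ht hty hy
    have hy0 : 0 ≤ y := ht.trans hty
    have g1 := K.nu y y 0 y 0 y y hy0 hy hy0 le_rfl le_rfl hy0 hy0 le_rfl le_rfl hy0 hy0 le_rfl hy0
      le_rfl
    have g2 := K.nu y y t y t y y hy0 hy hy0 le_rfl ht hty hy0 le_rfl ht hty hy0 le_rfl hy0 le_rfl
    have h1 := K.Xb H ht hty hy
    have h4 : c * t ≤ (1 - a) * t := mul_le_mul_of_nonneg_right hca ht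
    linarith
  · intro y t ht hty hy
    have hy0 : 0 ≤ y := ht.trans hty
    have g1 := K.nu y y 0 0 y y y hy0 hy hy0 le_rfl le_rfl hy0 le_rfl hy0 hy0 le_rfl hy0 le_rfl hy0
      le_rfl
    have g2 := K.nu y y t t y y y hy0 hy hy0 le_rfl ht hty ht hty hy0 le_rfl hy0 le_rfl hy0 le_rfl
    have h1 := K.Xa H ht hty hy
    have h4 : c * t ≤ (1 - a) * t := mul_le_mul_of_nonneg_right hca ht
    linarith
  · intro y t ht hty hy ε hε
    have hy0 : 0 ≤ y := ht.trans hty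
    have hFL := K.leg y t y y y 0 0 hy0 hy ht hty hy0 le_rfl hy0 le_rfl hy0 le_rfl le_rfl hy0
      le_rfl hy0
    have eF : ν (bv y t y y y 0 0) = ν (bv y 0 y y y 0 0) - a * t := by
      have g1 := K.nu y t y y y 0 0 hy0 hy ht hty hy0 le_rfl hy0 le_rfl hy0 le_rfl le_rfl hy0
        le_rfl hy0
      have g2 := K.nu y 0 y y y 0 0 hy0 hy le_rfl hy0 hy0 le_rfl hy0 le_rfl hy0 le_rfl le_rfl hy0
        le_rfl hy0
      linarith
    have hct : c * t ≤ q * t := mul_le_mul_of_nonneg_right hcq ht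
    rcases ht.eq_or_lt with h0 | ht0
    · filter_upwards [H.up _ hFL ε hε] with n hn i k hik b hb
      refine le_trans ?_ ((hn i k hik).trans (rpow_anti B n ?_))
      · exact_mod_cast card_filter_le _ _
      · have h1 : D * ε ≤ max D (fK D Ca Kn) * ε :=
          mul_le_mul_of_nonneg_right (le_max_left _ _) hε.le
        have h2 : c * t = 0 := by rw [← h0, mul_zero]
        rw [eF]
        linarith
    · filter_upwards [K.strip H hKn hns ht0 hty hy ε hε] with n hn i k hik b hb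
      refine (hn i k hik b hb).trans (rpow_anti B n ?_)
      have h1 : fK D Ca Kn * ε ≤ max D (fK D Ca Kn) * ε :=
        mul_le_mul_of_nonneg_right (le_max_right _ _) hε.le
      rw [eF]
      linarith

/-- **`κ = 1`, both slots tied** -/
theorem kappa_one_V (H : RModel B G σ R Leg ν D)
    (K : V1 B G Leg ν fa fb ee R0 C1 a q Ca β γ)
    (htw : RawTw B G fun n k k' => fb n k' - fb n k) (hR0 : R0 ≤ R) : σ ≤ a := by
  by_contra hcon
  push Not at hcon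
  obtain ⟨c, K0, e', hKV⟩ := K.kv H htw (hcon.trans_le H.σ_le)
  exact absurd (KVcore H hKV hR0) (not_le.2 hcon)

end Crest.Agent.R136.CV366
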