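import Crest.Agent.R136.C2w_400
import Crest.Agent.R136.Ev8_356
import Crest.Agent.R136.CD6_366

/-!
# R136: the base row for `21` tied (helper403)

`NE` : model of a window in which `z` and `E` are level slots (`S ⊇ {z, E}`), evolution of the
slots `C_a, C_b, X_a, X_b` only.  Nothing about `F_a, F_b, P, N, R` (dropped, free, narrow or not
resolved at all).  `f n k` = flag `E` of the height `k`.

* `NE.xa` : `X_a` is full if `C_a` costs something after `X_a`;
* `NE.xb_shift` : loss of `X_a` given `(C_a, C_b, X_b)` is at most the loss of `X_b` given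
  `(C_a, C_b)`;
* `NE.kappa_one` : `X_b` decoupled, `C_a` decoupled with a rate, `(C_b, X_a)` arbitrarily coupled,
  `X_a` full ⊢ `X_b` full;
* producers: Xb2_403.
-/

set_option autoImplicit false
set_option linter.unusedVariables false
set_option linter.unusedSectionVars false

open Filter Topology Finset

namespace Crest.Agent.R136.Xb403

open Crest.Agent.R138.Ex926 (Base U)
open Crest.Agent.R136.Gf356
open Crest.Agent.R136.Fe1355
open Crest.Agent.R136.Fe2355

/-- box vector: `C_a, C_b, X_a, X_b` -/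
def bw (ca cb xa xb : ℝ) : Fin 11 → ℝ := ![0, 0, 0, 0, 0, ca, cb, 0, xa, xb, 0]

/-- evolution of the slots `C_a, C_b, X_a, X_b`, error `δ` -/
structure EvE (δ u φ : ℝ) (r r' : Fin 11 → ℝ) : Prop where
  e5 : |r' 5 - r 5| ≤ δ
  e6 : |r' 6 - (r 6 - φ * r 5)| ≤ δ
  e8 : |r' 8 - (r 8 + u * r 5)| ≤ δ
  e9 : |r' 9 - (r 9 + u * r 6 - φ * (r 8 + u * r 5))| ≤ δ

/-- **window with level slots `z`, `E`** (and maybe others) -/
structure NE (B : Base) (G : ℕ → RCfg (Fin 11)) (Leg : Set (Fin 11 → ℝ))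
    (ν : (Fin 11 → ℝ) → ℝ) (T D : ℝ) (f : ℕ → ℕ → ℝ) : Prop where
  H : RModel B G 1 T Leg ν D
  T0 : 0 < T
  leg : ∀ ca cb xa xb : ℝ, 0 ≤ ca → ca ≤ T → 0 ≤ cb → cb ≤ T → 0 ≤ xa → xa ≤ T → 0 ≤ xb →
    xb ≤ T → bw ca cb xa xb ∈ Leg
  zb : ∀ᶠ n in (U : Filter ℕ), ∀ k ∈ (G n).Z, |(G n).z k| ≤ 1 ∧ |f n k| ≤ 1
  rb : ∀ᶠ n in (U : Filter ℕ), ∀ k i l, (i, k) ∈ (G n).I → (l, k) ∈ (G n).I → ∀ s,
    |(G n).rel k i l s| ≤ 1
  ev : ∀ ε : ℝ, 0 < ε → ∀ᶠ n in (U : Filter ℕ), ∀ k k' i l, (i, k) ∈ (G n).I →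
    (l, k) ∈ (G n).I → (i, k') ∈ (G n).I → (l, k') ∈ (G n).I →
    EvE (B.d n ^ (T - ε)) ((G n).z k' - (G n).z k) (f n k' - f n k) ((G n).rel k i l)
      ((G n).rel k' i l)

variable {B : Base} {G : ℕ → RCfg (Fin 11)} {Leg : Set (Fin 11 → ℝ)} {ν : (Fin 11 → ℝ) → ℝ}
  {T D : ℝ} {f : ℕ → ℕ → ℝ}

theorem bw_X (x c : ℝ) : Fx940.bx2 (bw 0 0 0 0) 8 5 x c = bw c 0 x 0 := by
  funext j
  fin_cases j <;> simp [Fx940.bx2, bw]

theorem bw_bx (y n p x c : ℝ) : CD366.bx ∅ 9 6 8 5 y n p x c = bw c p x n := by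
  funext j
  fin_cases j <;> simp [CD366.bx, bw]

namespace NE

variable (h : NE B G Leg ν T D f)

include h

theorem leg' {ca cb xa xb : ℝ} (h1 : 0 ≤ ca ∧ ca ≤ T) (h2 : 0 ≤ cb ∧ cb ≤ T)
    (h3 : 0 ≤ xa ∧ xa ≤ T) (h4 : 0 ≤ xb ∧ xb ≤ T) : bw ca cb xa xb ∈ Leg :=
  h.leg ca cb xa xb h1.1 h1.2 h2.1 h2.2 h3.1 h3.2 h4.1 h4.2

/-- **`X_a` is full** -/
theorem xa {y c : ℝ} (hy : 0 < y) (hyT : y ≤ T) (hc : 0 < c)
    (hs : ∀ t : ℝ, 0 ≤ t → t ≤ y → c * t ≤ ν (bw 0 0 t 0) - ν (bw t 0 t 0))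
    (hl : ∀ t : ℝ, 0 ≤ t → t ≤ y → ν (bw 0 0 t 0) - ν (bw 0 0 y 0) ≤ y - t) :
    y ≤ ν (bw 0 0 0 0) - ν (bw 0 0 y 0) := by
  have hT := h.T0
  have z0 : (0 : ℝ) ≤ 0 ∧ (0 : ℝ) ≤ T := ⟨le_rfl, hT.le⟩
  have L : ∀ t t' : ℝ, 0 ≤ t → t ≤ T → 0 ≤ t' → t' ≤ T → bw t' 0 t 0 ∈ Leg :=
    fun t t' h1 h2 h3 h4 => h.leg' ⟨h3, h4⟩ z0 ⟨h1, h2⟩ z0
  have key := full_nl_R h.H (sX := 8) (sC := 5) (by decide) (p := bw 0 0 0 0)
    (by simp [bw]) (by simp [bw]) (y := y) (C := 1) (m := c) hy hyT one_pos hc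
    (L 0 0 le_rfl hT.le le_rfl hT.le)
    (by rw [bw_X]; exact L y 0 hy.le hyT le_rfl hT.le)
    (by intro t h1 h2; rw [bw_X]; exact L t t h1 (h2.trans hyT) h1 (h2.trans hyT))
    (by
      intro C' hC'
      refine ⟨1, one_pos, fun ε hε => ?_⟩
      filter_upwards [h.rb, ev_const_le B hε 1] with n hn hk k k' i l h1 h2 h3 h4 hlo j
      rw [h.H.base n]
      have : bw 0 0 0 0 j = 0 := by fin_cases j <;> simp [bw]
      rw [this, one_mul, zero_sub]
      exact (hn k' i l h3 h4 j).trans hk)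
    (by
      intro ε hε
      filter_upwards [h.zb, ev_const_le B hε 2] with n hn h2 k hk k' hk'
      rw [one_mul]
      refine ((abs_sub _ _).trans ?_).trans h2
      linarith [(hn k hk).1, (hn k' hk').1])
    (by
      intro C' hC'
      refine ⟨1, one_pos, fun ε hε => ?_⟩
      filter_upwards [h.ev ε hε] with n hn k k' i l h1 h2 h3 h4 hlo
      refine (hn k k' i l h1 h2 h3 h4).e8.trans (rpow_anti B n (by linarith)))
    (by
      intro t h1 h2
      refine ⟨ν (bw 0 0 t 0), ?_, ?_, ?_⟩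
      · rw [bw_X]; exact hs t h1 h2
      · rw [bw_X]; exact hl t h1 h2
      · refine h.H.nu_anti (L 0 0 le_rfl hT.le le_rfl hT.le)
          (L t 0 h1 (h2.trans hyT) le_rfl hT.le) ?_
        intro j
        fin_cases j <;> simp [bw, h1])
  rwa [bw_X] at key

/-- bounds of the differences -/
theorem db : ∀ᶠ n in (U : Filter ℕ), ∀ k ∈ (G n).Z, ∀ k' ∈ (G n).Z,
    |(G n).z k' - (G n).z k| ≤ 2 ∧ |f n k' - f n k| ≤ 2 := by
  filter_upwards [h.zb] with n hn k hk k' hk'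
  constructor
  · refine (abs_sub _ _).trans ?_
    linarith [(hn k hk).1, (hn k' hk').1]
  · refine (abs_sub _ _).trans ?_
    linarith [(hn k hk).2, (hn k' hk').2]

/-- **visible shift**: loss of `X_a` given `(C_a, C_b, X_b : y)` is at most the loss of `X_b` given
`(C_a, C_b : y)` -/
theorem xb_shift (htw : RawTw B G fun n k k' => f n k' - f n k) {y : ℝ} (hy : 0 ≤ y)
    (hyT : y ≤ T) : ν (bw y y 0 y) - ν (bw y y y y) ≤ ν (bw y y 0 0) - ν (bw y y 0 y) := by
  have hT := h.T0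
  have z0 : (0 : ℝ) ≤ 0 ∧ (0 : ℝ) ≤ T := ⟨le_rfl, hT.le⟩
  have zy : (0 : ℝ) ≤ y ∧ y ≤ T := ⟨hy, hyT⟩
  refine shift_R h.H (bw y y 0 y) (bw y y y y) (bw y y 0 0) (bw y y 0 y)
    (h.leg' zy zy z0 zy) (h.leg' zy zy zy zy) (h.leg' zy zy z0 z0) (h.leg' zy zy z0 zy)
    (fun j => by fin_cases j <;> simp [bw, hy]) 8 9 (y := y)
    (by simp [bw]) (fun j hj => by fin_cases j <;> simp [bw] at hj ⊢) (by simp [bw])
    (fun n k k' => -(f n k' - f n k)) (by
      intro ε hε
      filter_upwards [htw ε hε] with n hn i hi T hT hq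
      refine hn i hi T hT fun q hq' => ?_
      have := hq q hq'
      rwa [abs_neg] at this) (by
      intro C0 hC0
      refine ⟨C0 + 2, by positivity, fun ε hε => ?_⟩
      filter_upwards [h.ev ε hε, h.rb, h.db, ev_const_le B hε 10] with n hev hrb hdb h8
        k hk k' hk' i i' hi hi' hl hl' hlo
      obtain ⟨hu, hg⟩ := hdb k hk k' hk'
      have E := hev k k' i i' hi hl hi' hl'
      have hpow : ∀ t : ℝ, 0 < B.d n ^ t := fun t => rpos B n t
      have hC0ε : 0 < C0 * ε := by positivity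
      set b := B.d n ^ (y - (C0 + 1) * ε) with hb
      have hb0 : 0 < b := hpow _
      have k1 : B.d n ^ (T - ε) ≤ b := rpow_anti B n (by nlinarith)
      have k2 : B.d n ^ (y - C0 * ε) ≤ b := rpow_anti B n (by nlinarith)
      have g5 := hlo 5
      have g6 := hlo 6
      have g9 := hlo 9
      rw [h.H.base n] at g5 g6 g9
      have v5 : bw y y 0 y 5 = y := by simp [bw]
      have v6 : bw y y 0 y 6 = y := by simp [bw]
      have v9 : bw y y 0 y 9 = y := by simp [bw]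
      rw [v5] at g5
      rw [v6] at g6
      rw [v9] at g9
      have hA : b * 10 ≤ B.d n ^ (y - (C0 + 2) * ε) := by
        have e1 : B.d n ^ (y - (C0 + 2) * ε) = B.d n ^ (-ε) * b := by
          rw [hb, ← rpow_add']; congr 1; ring
        rw [e1]
        nlinarith
      set u := (G n).z k' - (G n).z k
      set φ := f n k' - f n k
      set r := (G n).rel k i i'
      set r' := (G n).rel k' i i'
      have hu5 : |u * r 5| ≤ 2 * b := by
        rw [abs_mul]; exact mul_le_mul hu (g5.trans k2) (abs_nonneg _) (by norm_num)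
      have hu6 : |u * r 6| ≤ 2 * b := by
        rw [abs_mul]; exact mul_le_mul hu (g6.trans k2) (abs_nonneg _) (by norm_num)
      have hφ5 : |φ * r 5| ≤ 2 * b := by
        rw [abs_mul]; exact mul_le_mul hg (g5.trans k2) (abs_nonneg _) (by norm_num)
      have hφu5 : |φ * (u * r 5)| ≤ 4 * b := by
        rw [abs_mul]
        calc |φ| * |u * r 5| ≤ 2 * (2 * b) :=
              mul_le_mul hg hu5 (abs_nonneg _) (by norm_num)
          _ = 4 * b := by ring
      have s5 : |r' 5| ≤ 10 * b := by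
        have e : r' 5 = (r' 5 - r 5) + r 5 := by ring
        rw [e]
        have := abs_add_le (r' 5 - r 5) (r 5)
        linarith [E.e5.trans k1, g5.trans k2]
      have s6 : |r' 6| ≤ 10 * b := by
        have e : r' 6 = (r' 6 - (r 6 - φ * r 5)) + (r 6 - φ * r 5) := by ring
        rw [e]
        have t1 := abs_add_le (r' 6 - (r 6 - φ * r 5)) (r 6 - φ * r 5)
        have t2 := abs_sub (r 6) (φ * r 5)
        linarith [E.e6.trans k1, g6.trans k2]
      have s9 : |r' 9 - -φ * r 8| ≤ 10 * b := by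
        have e : r' 9 - -φ * r 8 = (r' 9 - (r 9 + u * r 6 - φ * (r 8 + u * r 5))) +
            (r 9 + u * r 6 - φ * (u * r 5)) := by ring
        rw [e]
        have t1 := abs_add_le (r' 9 - (r 9 + u * r 6 - φ * (r 8 + u * r 5)))
          (r 9 + u * r 6 - φ * (u * r 5))
        have t2 := abs_sub (r 9 + u * r 6) (φ * (u * r 5))
        have t3 := abs_add_le (r 9) (u * r 6)
        linarith [E.e9.trans k1, g9.trans k2]
      refine ⟨fun j => ?_, ?_⟩
      · rw [h.H.base n]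
        have hz : ∀ j, bw y y 0 0 j = 0 → |(G n).rel k' i i' j| ≤
            B.d n ^ (bw y y 0 0 j - (C0 + 2) * ε) := by
          intro j hj
          rw [hj]
          refine (hrb k' i i' hi' hl' j).trans ?_
          have : (1 : ℝ) ≤ B.d n ^ (-ε) := by linarith
          refine this.trans (rpow_anti B n (by nlinarith))
        have c5 : bw y y 0 0 5 = y := by simp [bw]
        have c6 : bw y y 0 0 6 = y := by simp [bw]
        by_cases j5 : j = 5
        · subst j5; rw [c5]; exact s5.trans (by linarith)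
        by_cases j6 : j = 6
        · subst j6; rw [c6]; exact s6.trans (by linarith)
        refine hz j ?_
        fin_cases j <;> simp [bw] at j5 j6 ⊢
      · exact s9.trans (by linarith))

/-- **`X_b` is full for every coupling of `C_b` and `X_a`** -/
theorem kappa_one {a m : ℝ} {β : ℝ → ℝ → ℝ} {γ : ℝ → ℝ} (hm : 0 < m)
    (htw : RawTw B G fun n k k' => f n k' - f n k)
    (nu : ∀ ca cb xa xb : ℝ, 0 ≤ ca → ca ≤ T → 0 ≤ cb → cb ≤ T → 0 ≤ xa → xa ≤ T → 0 ≤ xb →
      xb ≤ T → ν (bw ca cb xa xb) = ν (bw 0 0 0 0) - a * xb - β cb xa - γ ca)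
    (Xf : ∀ t : ℝ, 0 ≤ t → t ≤ T → t ≤ β 0 t)
    (Cr : ∀ t : ℝ, 0 ≤ t → t ≤ T → m * t ≤ γ t) : 1 ≤ a := by
  have hT := h.T0
  have K : CD366.K1 B G Leg ν ∅ 9 6 8 5 f T 4 a m (fun _ p x => β p x) (fun _ c => γ c) := by
    refine ⟨hT, by norm_num, hm, by decide, by decide, by decide, by decide, by decide, by decide,
      ?_, h.zb, ?_, ?_, ?_, ?_⟩
    · intro y n p x c' hy hyT hn hny hp hpy hx hxy hc hcy
      rw [bw_bx]
      exact h.leg c' p x n hc (hcy.trans hyT) hp (hpy.trans hyT) hx (hxy.trans hyT) hn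
        (hny.trans hyT)
    · intro y hy hyT ε hε
      filter_upwards [h.ev ε hε, h.rb, ev_const_le B hε 1] with n hev hrb h1 k₀ k i i' hi hi' hk hk'
        hlo
      have E := hev k₀ k i i' hi hi' hk hk'
      refine ⟨fun j => ?_, ?_⟩
      · rw [h.H.base n, bw_bx]
        have : bw 0 0 0 0 j = 0 := by fin_cases j <;> simp [bw]
        rw [this]
        refine ((hrb k i i' hk hk' j).trans h1).trans (rpow_anti B n (by linarith))
      · exact E.e9.trans (rpow_anti B n (by linarith))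
    · intro y n p x c' hy hyT hn hny hp hpy hx hxy hc hcy
      rw [bw_bx, bw_bx]
      exact nu c' p x n hc (hcy.trans hyT) hp (hpy.trans hyT) hx (hxy.trans hyT) hn
        (hny.trans hyT)
    · intro y t ht hty hyT
      exact Xf t ht (hty.trans hyT)
    · intro y t ht hty hyT
      exact Cr t ht (hty.trans hyT)
  exact CD366.kappa_one_R h.H K htw le_rfl

end NE

end Crest.Agent.R136.Xb403
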