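import Crest.Agent.R136.Xd12_272
import Crest.Agent.R136.Xb1_403

/-!
# R136, row D2 of the thick table (helper272), part 1: the window `DWin` and the rates
-/

set_option autoImplicit false
set_option linter.unusedVariables false
set_option linter.unusedSectionVars false

open Finset Filter Topology

namespace Crest.Agent.R136.Xd272

open Crest.Agent.R138.Ex926 (Base U)
open Crest.Agent.R138.TwA501 (ev_const_mul)
open Crest.Agent.R136.Gf356
open Crest.Agent.R136.Fe1355 (RawTw shift_R)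
open Crest.Agent.R136.Prn779 (OneBox)
open Crest.Agent.R136.Xb403 (NE bw EvE)

/-- **window with level slots `z, E, F_b, F_a`**; `e, fa, fb` = flags of the heights -/
structure DWin (B : Base) (G : ℕ → RCfg (Fin 11)) (Leg : Set (Fin 11 → ℝ))
    (ν : (Fin 11 → ℝ) → ℝ) (T D : ℝ) (e fa fb : ℕ → ℕ → ℝ) : Prop where
  H : RModel B G 1 T Leg ν D
  T0 : 0 < T
  W : LinWin B G T 1 (fun _ => 0) e fa fb
  leg : ∀ ca cb p xa xb n : ℝ, ca ∈ Set.Icc 0 T → cb ∈ Set.Icc 0 T → p ∈ Set.Icc 0 T →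
    xa ∈ Set.Icc 0 T → xb ∈ Set.Icc 0 T → n ∈ Set.Icc 0 T →
    bxD (fun _ => 0) ca cb p xa xb n ∈ Leg
  rb : ∀ᶠ n in (U : Filter ℕ), ∀ k i l, (i, k) ∈ (G n).I → (l, k) ∈ (G n).I → ∀ s,
    |(G n).rel k i l s| ≤ 1
  twE : RawTw B G fun n k k' => e n k' - e n k
  twF : RawTw B G fun n k k' => fb n k' - fb n k

/-- the box with level entries `0` -/
def b0 (ca cb p xa xb n : ℝ) : Fin 11 → ℝ := bxD (fun _ => 0) ca cb p xa xb n

theorem bw_eq (ca cb xa xb : ℝ) : bw ca cb xa xb = b0 ca cb 0 xa xb 0 := rfl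

theorem RawTw.neg {κ : Type} {B : Base} {G : ℕ → RCfg κ} {φ : ℕ → ℕ → ℕ → ℝ}
    (h : RawTw B G φ) : RawTw B G fun n k k' => -(φ n k k') := by
  intro ε hε
  filter_upwards [h ε hε] with n hn i hi T hT hq
  refine hn i hi T hT fun q hq' => ?_
  have := hq q hq'
  rwa [abs_neg] at this

variable {B : Base} {G : ℕ → RCfg (Fin 11)} {Leg : Set (Fin 11 → ℝ)} {ν : (Fin 11 → ℝ) → ℝ}
  {T D : ℝ} {e fa fb : ℕ → ℕ → ℝ}

namespace DWin

variable (h : DWin B G Leg ν T D e fa fb)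

include h

/-- the window of helper403 -/
theorem ne : NE B G Leg ν T D e where
  H := h.H
  T0 := h.T0
  leg := fun ca cb xa xb h1 h2 h3 h4 h5 h6 h7 h8 =>
    h.leg ca cb 0 xa xb 0 ⟨h1, h2⟩ ⟨h3, h4⟩ ⟨le_rfl, h.T0.le⟩ ⟨h5, h6⟩ ⟨h7, h8⟩ ⟨le_rfl, h.T0.le⟩
  zb := by
    filter_upwards [h.W.bd] with n hn k hk using ⟨(hn k hk).1, (hn k hk).2.1⟩
  rb := h.rb
  ev := fun ε hε => by
    filter_upwards [h.W.mv ε hε] with n hn k k' i l h1 h2 h3 h4
    obtain ⟨e5, e6, e7, e8, e9, e10⟩ := hn i l k k' h1 h2 h3 h4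
    exact ⟨e5, e6, e8, e9⟩

theorem leg' {ca cb p xa xb n : ℝ} (h1 : ca ∈ Set.Icc 0 T) (h2 : cb ∈ Set.Icc 0 T)
    (h3 : p ∈ Set.Icc 0 T) (h4 : xa ∈ Set.Icc 0 T) (h5 : xb ∈ Set.Icc 0 T)
    (h6 : n ∈ Set.Icc 0 T) : b0 ca cb p xa xb n ∈ Leg := h.leg ca cb p xa xb n h1 h2 h3 h4 h5 h6

/-- the boxes `b0` at the other height -/
theorem loose0 {ε : ℝ} (hε : 0 < ε) : ∀ᶠ n in (U : Filter ℕ), ∀ k i l, (i, k) ∈ (G n).I →
    (l, k) ∈ (G n).I → ∀ s, |(G n).rel k i l s| ≤ B.d n ^ (0 - ε) := by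
  filter_upwards [h.rb, ev_const_le B hε 1] with n hn h1 k i l h2 h3 s
  rw [zero_sub]
  exact (hn k i l h2 h3 s).trans h1

/-- **`C_b` costs at least as much as `C_a` given `C_b`** -/
theorem cb_shift {y : ℝ} (hy : 0 ≤ y) (hyT : y ≤ T) :
    ν (b0 0 y 0 0 0 0) - ν (b0 y y 0 0 0 0) ≤ ν (b0 0 0 0 0 0 0) - ν (b0 0 y 0 0 0 0) := by
  have hT := h.T0
  have z0 : (0 : ℝ) ∈ Set.Icc 0 T := ⟨le_rfl, hT.le⟩
  have zy : y ∈ Set.Icc 0 T := ⟨hy, hyT⟩
  refine shift_R h.H _ _ _ _ (h.leg' z0 zy z0 z0 z0 z0) (h.leg' zy zy z0 z0 z0 z0)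
    (h.leg' z0 z0 z0 z0 z0 z0) (h.leg' z0 zy z0 z0 z0 z0)
    (bxD_le le_rfl hy le_rfl le_rfl le_rfl le_rfl) 5 6 (y := y) (le_refl y) ?_ (le_refl y)
    (fun n k k' => -(e n k' - e n k)) (RawTw.neg h.twE) ?_
  · intro j hj
    fin_cases j <;> first | exact absurd rfl hj | exact le_refl (0 : ℝ) | exact le_refl y
  intro C0 hC0
  refine ⟨C0 + 2, by positivity, fun ε hε => ?_⟩
  filter_upwards [h.W.mv ε hε, h.loose0 hε, ev_const_le B hε 2] with n hev hrb h8
    k hk k' hk' i i' hi hi' hl hl' hlo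
  have hpow : ∀ t : ℝ, 0 < B.d n ^ t := fun t => rpos B n t
  obtain ⟨e5, e6, e7, e8, e9, e10⟩ := hev i i' k k' hi hl hi' hl'
  have hC0ε : 0 < C0 * ε := by positivity
  have g6 := hlo 6
  rw [h.H.base n] at g6
  have g6' : |(G n).rel k i i' 6| ≤ B.d n ^ (y - C0 * ε) := g6
  refine ⟨fun j => ?_, ?_⟩
  · rw [h.H.base n]
    refine (hrb k' i i' hi' hl' j).trans (rpow_anti B n ?_)
    have : b0 0 0 0 0 0 0 j = 0 := by fin_cases j <;> rfl
    rw [this]
    linarith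
  · have k1 : B.d n ^ (T - ε) ≤ B.d n ^ (y - (C0 + 1) * ε) := rpow_anti B n (by linarith)
    have k2 : B.d n ^ (y - C0 * ε) ≤ B.d n ^ (y - (C0 + 1) * ε) := rpow_anti B n (by linarith)
    have e1 : B.d n ^ (y - (C0 + 2) * ε) = B.d n ^ (-ε) * B.d n ^ (y - (C0 + 1) * ε) := by
      rw [← rpow_add']; congr 1; ring
    rw [e1]
    refine le_trans ?_ (mul_le_mul_of_nonneg_right h8 (hpow _).le)
    have e2 : (G n).rel k' i i' 6 - -(e n k' - e n k) * (G n).rel k i i' 5 =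
        ((G n).rel k' i i' 6 - ((G n).rel k i i' 6 - (e n k' - e n k) * (G n).rel k i i' 5)) +
        (G n).rel k i i' 6 := by ring
    rw [e2]
    refine (abs_add_le _ _).trans ?_
    linarith

/-- **`P` costs at least as much as `C_b` given `C_a, P`** -/
theorem p_shift {y : ℝ} (hy : 0 ≤ y) (hyT : y ≤ T) :
    ν (b0 y 0 y 0 0 0) - ν (b0 y y y 0 0 0) ≤ ν (b0 y 0 0 0 0 0) - ν (b0 y 0 y 0 0 0) := by
  have hT := h.T0
  have z0 : (0 : ℝ) ∈ Set.Icc 0 T := ⟨le_rfl, hT.le⟩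
  have zy : y ∈ Set.Icc 0 T := ⟨hy, hyT⟩
  refine shift_R h.H _ _ _ _ (h.leg' zy z0 zy z0 z0 z0) (h.leg' zy zy zy z0 z0 z0)
    (h.leg' zy z0 z0 z0 z0 z0) (h.leg' zy z0 zy z0 z0 z0)
    (bxD_le le_rfl le_rfl hy le_rfl le_rfl le_rfl) 6 7 (y := y) (le_refl y) ?_ (le_refl y)
    (fun n k k' => -(fb n k' - fb n k)) (RawTw.neg h.twF) ?_
  · intro j hj
    fin_cases j <;> first | exact absurd rfl hj | exact le_refl (0 : ℝ) | exact le_refl y
  intro C0 hC0
  refine ⟨C0 + 2, by positivity, fun ε hε => ?_⟩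
  filter_upwards [h.W.mv ε hε, h.loose0 hε, ev_const_le B hε 6, h.W.mot] with n hev hrb h8 hmot
    k hk k' hk' i i' hi hi' hl hl' hlo
  have hpow : ∀ t : ℝ, 0 < B.d n ^ t := fun t => rpos B n t
  obtain ⟨e5, e6, e7, e8, e9, e10⟩ := hev i i' k k' hi hl hi' hl'
  obtain ⟨m1, m2, m3, m4⟩ := hmot k hk k' hk'
  have hC0ε : 0 < C0 * ε := by positivity
  have g5 := hlo 5
  have g7 := hlo 7
  rw [h.H.base n] at g5 g7
  have g5' : |(G n).rel k i i' 5| ≤ B.d n ^ (y - C0 * ε) := g5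
  have g7' : |(G n).rel k i i' 7| ≤ B.d n ^ (y - C0 * ε) := g7
  have k1 : B.d n ^ (T - ε) ≤ B.d n ^ (y - (C0 + 1) * ε) := rpow_anti B n (by linarith)
  have k2 : B.d n ^ (y - C0 * ε) ≤ B.d n ^ (y - (C0 + 1) * ε) := rpow_anti B n (by linarith)
  have e1 : B.d n ^ (y - (C0 + 2) * ε) = B.d n ^ (-ε) * B.d n ^ (y - (C0 + 1) * ε) := by
    rw [← rpow_add']; congr 1; ring
  have hfin := mul_le_mul_of_nonneg_right h8 (hpow (y - (C0 + 1) * ε)).le
  rw [← e1] at hfin
  have g5'' := g5'.trans k2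
  have g7'' := g7'.trans k2
  have e5' := e5.trans k1
  have e7' := e7.trans k1
  have hX := hpow (y - (C0 + 1) * ε)
  have q := bm m4 g5''
  refine ⟨fun j => ?_, ?_⟩
  · rw [h.H.base n]
    by_cases hj : j = 5
    · subst hj
      refine le_trans ?_ hfin
      generalize B.d n ^ (y - (C0 + 1) * ε) = X at *
      rw [abs_le] at g5'' e5' ⊢
      constructor <;> linarith [g5''.1, g5''.2, e5'.1, e5'.2]
    · refine (hrb k' i i' hi' hl' j).trans (rpow_anti B n ?_)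
      have : b0 y 0 0 0 0 0 j = 0 := by fin_cases j <;> first | exact absurd rfl hj | rfl
      rw [this]
      linarith
  · refine le_trans ?_ hfin
    have e2 : (G n).rel k' i i' 7 - -(fb n k' - fb n k) * (G n).rel k i i' 6 =
        ((G n).rel k' i i' 7 - ((G n).rel k i i' 7 - (fa n k' - fa n k + e n k *
          (fb n k' - fb n k)) * (G n).rel k i i' 5 - (fb n k' - fb n k) *
          (G n).rel k i i' 6)) + (G n).rel k i i' 7 - (fa n k' - fa n k + e n k *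
          (fb n k' - fb n k)) * (G n).rel k i i' 5 := by ring
    rw [e2]
    generalize B.d n ^ (y - (C0 + 1) * ε) = X at *
    generalize (G n).rel k' i i' 7 - ((G n).rel k i i' 7 - (fa n k' - fa n k + e n k *
          (fb n k' - fb n k)) * (G n).rel k i i' 5 - (fb n k' - fb n k) *
          (G n).rel k i i' 6) = Er at *
    generalize (fa n k' - fa n k + e n k * (fb n k' - fb n k)) * (G n).rel k i i' 5 = Q at *
    rw [abs_le] at g7'' e7' q ⊢
    constructor <;> linarith [g7''.1, g7''.2, e7'.1, e7'.2, q.1, q.2]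

/-- **`N` costs at least as much as `X_b` given everything else** -/
theorem n_shift {y : ℝ} (hy : 0 ≤ y) (hyT : y ≤ T) :
    ν (b0 y y y y 0 y) - ν (b0 y y y y y y) ≤ ν (b0 y y y y 0 0) - ν (b0 y y y y 0 y) := by
  have hT := h.T0
  have z0 : (0 : ℝ) ∈ Set.Icc 0 T := ⟨le_rfl, hT.le⟩
  have zy : y ∈ Set.Icc 0 T := ⟨hy, hyT⟩
  refine shift_R h.H _ _ _ _ (h.leg' zy zy zy zy z0 zy) (h.leg' zy zy zy zy zy zy)
    (h.leg' zy zy zy zy z0 z0) (h.leg' zy zy zy zy z0 zy)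
    (bxD_le le_rfl le_rfl le_rfl le_rfl le_rfl hy) 9 10 (y := y) (le_refl y) ?_ (le_refl y)
    (fun n k k' => -(fb n k' - fb n k)) (RawTw.neg h.twF) ?_
  · intro j hj
    fin_cases j <;> first | exact absurd rfl hj | exact le_refl (0 : ℝ) | exact le_refl y
  intro C0 hC0
  refine ⟨C0 + 2, by positivity, fun ε hε => ?_⟩
  filter_upwards [h.W.mv ε hε, h.loose0 hε, ev_const_le B hε 20, h.W.mot] with n hev hrb h8 hmot
    k hk k' hk' i i' hi hi' hl hl' hlo
  have hpow : ∀ t : ℝ, 0 < B.d n ^ t := fun t => rpos B n t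
  obtain ⟨e5, e6, e7, e8, e9, e10⟩ := hev i i' k k' hi hl hi' hl'
  obtain ⟨m1, m2, m3, m4⟩ := hmot k hk k' hk'
  have hC0ε : 0 < C0 * ε := by positivity
  have g5 := hlo 5
  have g6 := hlo 6
  have g7 := hlo 7
  have g8 := hlo 8
  have g10 := hlo 10
  rw [h.H.base n] at g5 g6 g7 g8 g10
  have g5' : |(G n).rel k i i' 5| ≤ B.d n ^ (y - C0 * ε) := g5
  have g6' : |(G n).rel k i i' 6| ≤ B.d n ^ (y - C0 * ε) := g6
  have g7' : |(G n).rel k i i' 7| ≤ B.d n ^ (y - C0 * ε) := g7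
  have g8' : |(G n).rel k i i' 8| ≤ B.d n ^ (y - C0 * ε) := g8
  have g10' : |(G n).rel k i i' 10| ≤ B.d n ^ (y - C0 * ε) := g10
  have k1 : B.d n ^ (T - ε) ≤ B.d n ^ (y - (C0 + 1) * ε) := rpow_anti B n (by linarith)
  have k2 : B.d n ^ (y - C0 * ε) ≤ B.d n ^ (y - (C0 + 1) * ε) := rpow_anti B n (by linarith)
  have e1 : B.d n ^ (y - (C0 + 2) * ε) = B.d n ^ (-ε) * B.d n ^ (y - (C0 + 1) * ε) := by
    rw [← rpow_add']; congr 1; ring
  have hfin := mul_le_mul_of_nonneg_right h8 (hpow (y - (C0 + 1) * ε)).le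
  rw [← e1] at hfin
  replace g5' := g5'.trans k2
  replace g6' := g6'.trans k2
  replace g7' := g7'.trans k2
  replace g8' := g8'.trans k2
  replace g10' := g10'.trans k2
  replace e5 := e5.trans k1
  replace e6 := e6.trans k1
  replace e7 := e7.trans k1
  replace e8 := e8.trans k1
  replace e10 := e10.trans k1
  have hX := hpow (y - (C0 + 1) * ε)
  clear g5 g6 g7 g8 g10 e9 k1 k2 e1 hC0ε h8
  have q5 := bm m4 g5'
  have r5 := bm m2 g5'
  have u5 := bm m1 g5'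
  have b6 := bm m3 g6'
  have u7 := bm m1 g7'
  have a8 := bm m4 g8'
  have au5 := bm m4 u5
  have bu6 := bm m3 (bm m1 g6')
  refine ⟨fun j => ?_, ?_⟩
  · rw [h.H.base n]
    by_cases hj5 : j = 5
    · subst hj5
      refine le_trans ?_ hfin
      generalize B.d n ^ (y - (C0 + 1) * ε) = X at *
      rw [abs_le] at g5' e5 ⊢
      constructor <;> linarith [g5'.1, g5'.2, e5.1, e5.2]
    by_cases hj6 : j = 6
    · subst hj6
      refine le_trans ?_ hfin
      generalize B.d n ^ (y - (C0 + 1) * ε) = X at *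
      rw [abs_le] at g6' e6 r5 ⊢
      constructor <;> linarith [g6'.1, g6'.2, e6.1, e6.2, r5.1, r5.2]
    by_cases hj7 : j = 7
    · subst hj7
      refine le_trans ?_ hfin
      generalize B.d n ^ (y - (C0 + 1) * ε) = X at *
      rw [abs_le] at g7' e7 q5 b6 ⊢
      constructor <;> linarith [g7'.1, g7'.2, e7.1, e7.2, q5.1, q5.2, b6.1, b6.2]
    by_cases hj8 : j = 8
    · subst hj8
      refine le_trans ?_ hfin
      generalize B.d n ^ (y - (C0 + 1) * ε) = X at *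
      rw [abs_le] at g8' e8 u5 ⊢
      constructor <;> linarith [g8'.1, g8'.2, e8.1, e8.2, u5.1, u5.2]
    · refine (hrb k' i i' hi' hl' j).trans (rpow_anti B n ?_)
      have : b0 y y y y 0 0 j = 0 := by
        fin_cases j <;> first | exact absurd rfl hj5 | exact absurd rfl hj6 |
          exact absurd rfl hj7 | exact absurd rfl hj8 | rfl
      rw [this]
      have : 0 ≤ C0 * ε := by positivity
      linarith
  · refine le_trans ?_ hfin
    have e2 : (G n).rel k' i i' 10 - -(fb n k' - fb n k) * (G n).rel k i i' 9 =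
        ((G n).rel k' i i' 10 - ((G n).rel k i i' 10 + ((G n).z k' - (G n).z k) *
          (G n).rel k i i' 7 - (fa n k' - fa n k + e n k * (fb n k' - fb n k)) *
          ((G n).rel k i i' 8 + ((G n).z k' - (G n).z k) * (G n).rel k i i' 5) -
          (fb n k' - fb n k) * ((G n).rel k i i' 9 + ((G n).z k' - (G n).z k) *
          (G n).rel k i i' 6))) + (G n).rel k i i' 10 + ((G n).z k' - (G n).z k) *
          (G n).rel k i i' 7 - (fa n k' - fa n k + e n k * (fb n k' - fb n k)) *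
          (G n).rel k i i' 8 - (fa n k' - fa n k + e n k * (fb n k' - fb n k)) *
          (((G n).z k' - (G n).z k) * (G n).rel k i i' 5) -
          (fb n k' - fb n k) * (((G n).z k' - (G n).z k) * (G n).rel k i i' 6) := by ring
    rw [e2]
    generalize B.d n ^ (y - (C0 + 1) * ε) = X at *
    generalize (G n).rel k' i i' 10 - ((G n).rel k i i' 10 + ((G n).z k' - (G n).z k) *
          (G n).rel k i i' 7 - (fa n k' - fa n k + e n k * (fb n k' - fb n k)) *
          ((G n).rel k i i' 8 + ((G n).z k' - (G n).z k) * (G n).rel k i i' 5) -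
          (fb n k' - fb n k) * ((G n).rel k i i' 9 + ((G n).z k' - (G n).z k) *
          (G n).rel k i i' 6)) = Er at *
    generalize (fa n k' - fa n k + e n k * (fb n k' - fb n k)) * (G n).rel k i i' 8 = Q8 at *
    generalize (fa n k' - fa n k + e n k * (fb n k' - fb n k)) *
      (((G n).z k' - (G n).z k) * (G n).rel k i i' 5) = Q5 at *
    generalize (fb n k' - fb n k) * (((G n).z k' - (G n).z k) * (G n).rel k i i' 6) = Q6 at *
    generalize ((G n).z k' - (G n).z k) * (G n).rel k i i' 7 = Q7 at *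
    rw [abs_le] at g10' e10 u7 a8 au5 bu6 ⊢
    constructor <;> linarith [g10'.1, g10'.2, e10.1, e10.2, u7.1, u7.2, a8.1, a8.2, au5.1,
      au5.2, bu6.1, bu6.2]

end DWin

end Crest.Agent.R136.Xd272
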