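import Crest.Agent.R136.D2a_272

/-!
# R136, row D2 of the thick table (helper272), part 2: the rates `X_a, X_b, N` are full
-/

set_option autoImplicit false
set_option linter.unusedVariables false
set_option linter.unusedSectionVars false

open Finset Filter Topology

namespace Crest.Agent.R136.Xd272

open Crest.Agent.R138.Ex926 (Base U)
open Crest.Agent.R136.Gf356
open Crest.Agent.R136.Xb403 (NE bw EvE)

variable {B : Base} {G : ℕ → RCfg (Fin 11)} {Leg : Set (Fin 11 → ℝ)} {ν : (Fin 11 → ℝ) → ℝ}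
  {T D : ℝ} {e fa fb : ℕ → ℕ → ℝ}

/-- the profile of the window: `C_a` and `N` decoupled, `X_b` linear while `P` is free; and either
`(X_a, C_b)`, `(X_b, P)` decoupled or `X_b` decoupled -/
structure Spl (ν : (Fin 11 → ℝ) → ℝ) (T m a b : ℝ) (Ψ : ℝ → ℝ → ℝ → ℝ → ℝ) : Prop where
  eq : ∀ ca cb p xa xb n : ℝ, ca ∈ Set.Icc 0 T → cb ∈ Set.Icc 0 T → p ∈ Set.Icc 0 T →
    xa ∈ Set.Icc 0 T → xb ∈ Set.Icc 0 T → n ∈ Set.Icc 0 T →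
    ν (b0 ca cb p xa xb n) = ν (b0 0 0 0 0 0 0) - (m * ca + a * n + Ψ cb p xa xb)
  m0 : 0 < m
  a0 : 0 ≤ a
  lipX : ∀ t y : ℝ, 0 ≤ t → t ≤ y → y ≤ T → Ψ 0 0 y 0 - Ψ 0 0 t 0 ≤ y - t
  u1 : ∀ cb xa xb : ℝ, cb ∈ Set.Icc 0 T → xa ∈ Set.Icc 0 T → xb ∈ Set.Icc 0 T →
    Ψ cb 0 xa xb = b * xb + Ψ cb 0 xa 0
  alt : (∀ cb p xa xb : ℝ, cb ∈ Set.Icc 0 T → p ∈ Set.Icc 0 T → xa ∈ Set.Icc 0 T →
      xb ∈ Set.Icc 0 T → Ψ cb p xa xb = Ψ cb 0 xa 0 + Ψ 0 p 0 xb) ∨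
    (∀ cb p xa xb : ℝ, cb ∈ Set.Icc 0 T → p ∈ Set.Icc 0 T → xa ∈ Set.Icc 0 T →
      xb ∈ Set.Icc 0 T → Ψ cb p xa xb = b * xb + Ψ cb p xa 0)

/-- **`X_a`, `X_b`, `N` are full** -/
theorem DWin.rates (h : DWin B G Leg ν T D e fa fb) {m a b : ℝ} {Ψ : ℝ → ℝ → ℝ → ℝ → ℝ}
    (S : Spl ν T m a b Ψ) :
    (∀ y, 0 ≤ y → y ≤ T → y ≤ Ψ 0 0 y 0) ∧ 1 ≤ b ∧ 1 ≤ a := by
  have hT := h.T0
  have z0 : (0 : ℝ) ∈ Set.Icc 0 T := ⟨le_rfl, hT.le⟩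
  have zT : T ∈ Set.Icc 0 T := ⟨hT.le, le_rfl⟩
  have hΨ0 : Ψ 0 0 0 0 = 0 := by
    have := S.eq 0 0 0 0 0 0 z0 z0 z0 z0 z0 z0
    linarith
  have hm := S.m0
  -- `X_a`
  have hX : ∀ y, 0 ≤ y → y ≤ T → y ≤ Ψ 0 0 y 0 := by
    intro y hy hyT
    rcases hy.eq_or_lt with h0 | hy0
    · rw [← h0, hΨ0]
    have key := h.ne.xa (y := y) (c := m) hy0 hyT hm (by
      intro t h1 h2
      have zt : t ∈ Set.Icc 0 T := ⟨h1, h2.trans hyT⟩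
      rw [bw_eq, bw_eq, S.eq 0 0 0 t 0 0 z0 z0 z0 zt z0 z0, S.eq t 0 0 t 0 0 zt z0 z0 zt z0 z0]
      linarith) (by
      intro t h1 h2
      have zt : t ∈ Set.Icc 0 T := ⟨h1, h2.trans hyT⟩
      rw [bw_eq, bw_eq, S.eq 0 0 0 t 0 0 z0 z0 z0 zt z0 z0,
        S.eq 0 0 0 y 0 0 z0 z0 z0 ⟨hy, hyT⟩ z0 z0]
      have := S.lipX t y h1 h2 hyT
      linarith)
    rw [bw_eq, bw_eq, S.eq 0 0 0 y 0 0 z0 z0 z0 ⟨hy, hyT⟩ z0 z0] at key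
    linarith
  -- `X_b`
  have hb : 1 ≤ b := by
    refine h.ne.kappa_one (m := m) (β := fun cb xa => Ψ cb 0 xa 0) (γ := fun ca => m * ca) hm
      h.twE ?_ (fun t h1 h2 => hX t h1 h2) (fun t _ _ => le_rfl)
    intro ca cb xa xb h1 h2 h3 h4 h5 h6 h7 h8
    rw [bw_eq, bw_eq, S.eq ca cb 0 xa xb 0 ⟨h1, h2⟩ ⟨h3, h4⟩ z0 ⟨h5, h6⟩ ⟨h7, h8⟩ z0,
      S.u1 cb xa xb ⟨h3, h4⟩ ⟨h5, h6⟩ ⟨h7, h8⟩]
    ring
  refine ⟨hX, hb, ?_⟩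
  rcases S.alt with hs | hs
  · -- crossed
    by_contra hcon
    push Not at hcon
    have hV : SplitD Leg ν (fun _ => 0) T a m (fun xa cb => Ψ cb 0 xa 0)
        (fun xb p => Ψ 0 p 0 xb) := by
      refine ⟨h.leg, ?_, hΨ0, hΨ0⟩
      intro ca cb p xa xb n h1 h2 h3 h4 h5 h6
      have := S.eq ca cb p xa xb n h1 h2 h3 h4 h5 h6
      rw [hs cb p xa xb h2 h3 h4 h5] at this
      have e1 : ν (bxD (fun _ => 0) ca cb p xa xb n) = ν (b0 ca cb p xa xb n) := rfl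
      have e2 : ν (bxD (fun _ => 0) 0 0 0 0 0 0) = ν (b0 0 0 0 0 0 0) := rfl
      rw [e1, e2, this]
      ring
    have hα : ∀ t, 0 ≤ t → t ≤ T → m * t ≤ Ψ t 0 0 0 := by
      intro t h1 h2
      have zt : t ∈ Set.Icc 0 T := ⟨h1, h2⟩
      have key := h.cb_shift h1 h2
      rw [S.eq 0 t 0 0 0 0 z0 zt z0 z0 z0 z0, S.eq t t 0 0 0 0 zt zt z0 z0 z0 z0] at key
      linarith
    have hβ : ∀ t, 0 ≤ t → t ≤ T → m * t ≤ Ψ 0 t 0 0 := by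
      intro t h1 h2
      have zt : t ∈ Set.Icc 0 T := ⟨h1, h2⟩
      have key := h.p_shift h1 h2
      rw [S.eq t 0 t 0 0 0 zt z0 zt z0 z0 z0, S.eq t t t 0 0 0 zt zt zt z0 z0 z0,
        S.eq t 0 0 0 0 0 zt z0 z0 z0 z0 z0, hs t t 0 0 zt zt z0 z0, hΨ0] at key
      have := hα t h1 h2
      linarith
    have h1 := crossed (x := T) (R := T) h.H h.W hV hT le_rfl le_rfl (γ := m) (s := 1) hm le_rfl
      hα hβ S.a0 hcon (by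
        intro t h1 h2
        have zt : t ∈ Set.Icc 0 T := ⟨h1, h2⟩
        have h3 := h.H.nu_anti (h.leg' z0 z0 z0 z0 zt z0) (h.leg' z0 z0 zt z0 zt z0)
          (bxD_le le_rfl le_rfl h1 le_rfl le_rfl le_rfl)
        rw [S.eq 0 0 0 0 t 0 z0 z0 z0 z0 zt z0, S.eq 0 0 t 0 t 0 z0 z0 zt z0 zt z0,
          S.u1 0 0 t z0 z0 zt, hΨ0] at h3
        have h4 : 1 * t ≤ b * t := mul_le_mul_of_nonneg_right hb h1
        linarith)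
    linarith
  · -- shift
    have key := h.n_shift hT.le le_rfl
    rw [S.eq T T T T 0 T zT zT zT zT z0 zT, S.eq T T T T T T zT zT zT zT zT zT,
      S.eq T T T T 0 0 zT zT zT zT z0 z0, hs T T T T zT zT zT zT] at key
    have h1 : b * T ≤ a * T := by linarith
    exact hb.trans (le_of_mul_le_mul_right h1 hT)

end Crest.Agent.R136.Xd272
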