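import Crest.Agent.R136.D2b_272
import Crest.Agent.R136.Aw0_413
import Crest.Agent.R136.NatR_550

/-!
# R136, row D2 of the thick table (helper272), part 3: the splitting of the tangent
-/

set_option autoImplicit false
set_option linter.unusedVariables false
set_option linter.unusedSectionVars false

open Finset Filter Topology

namespace Crest.Agent.R136.Xd272

open Crest.Agent.R136.Net191
open Crest.Agent.R136.NetQ186
open Crest.Agent.R136.NatR550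
open Crest.Agent.R136.Dg219
open Crest.Agent.R136.Aw413 (coneM leg_cone)

/-! ### splitting -/

section split

variable {ι : Type*} [Fintype ι] [DecidableEq ι] {grp : ι → ℕ} {L : Set (ι → ℝ)} {dh : ι → ℝ}
  {nn : ℕ → ℝ × ℝ} {lam : (ι → ℝ) → ℝ} {A : ℝ × ℝ} {φ : ℕ → (ι → ℝ) → ℝ} {r : ℕ → ℝ}

/-- increments in a union of groups do not depend on the other slots -/
theorem inc4 (H : OutS grp L dh nn lam A φ r) (K : ℕ → Prop) {p q p' q' : ι → ℝ} (hp : p ∈ L)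
    (hq : q ∈ L) (hp' : p' ∈ L) (hq' : q' ∈ L)
    (h : ∀ i, (K (grp i) ∧ p i = p' i ∧ q i = q' i) ∨ (¬ K (grp i) ∧ p i = q i ∧ p' i = q' i)) :
    lam p - lam q = lam p' - lam q' := by
  rw [H.sum _ hp, H.sum _ hq, H.sum _ hp', H.sum _ hq', ← sum_sub_distrib, ← sum_sub_distrib]
  refine sum_congr rfl fun k _ => ?_
  by_cases hk : K k
  · rw [H.loc k p p' fun i hi => ?_, H.loc k q q' fun i hi => ?_]
    · rcases h i with h1 | h1
      · exact h1.2.2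
      · exact absurd (hi ▸ hk) h1.1
    · rcases h i with h1 | h1
      · exact h1.2.1
      · exact absurd (hi ▸ hk) h1.1
  · rw [H.loc k p q fun i hi => ?_, H.loc k p' q' fun i hi => ?_]
    · ring
    · rcases h i with h1 | h1
      · exact absurd (hi ▸ h1.1) hk
      · exact h1.2.2
    · rcases h i with h1 | h1
      · exact absurd (hi ▸ h1.1) hk
      · exact h1.2.1

/-- increments in one group -/
theorem inc2 (H : OutS grp L dh nn lam A φ r) (k : ℕ) {p q : ι → ℝ} (hp : p ∈ L)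
    (hq : q ∈ L) (h : ∀ i, grp i ≠ k → p i = q i) : lam p - lam q = φ k p - φ k q := by
  rw [H.sum _ hp, H.sum _ hq, ← sum_sub_distrib]
  have h0 : ∀ j, j ≠ k → φ j p - φ j q = 0 := fun j hj => by
    rw [H.loc j p q fun i hi => h i (by rw [hi]; exact hj), sub_self]
  by_cases hk : k ∈ gset grp
  · rw [sum_eq_single_of_mem k hk fun j _ hj => h0 j hj]
  · have h1 : φ k p - φ k q = 0 := by
      rw [H.loc k p q fun i hi => absurd (hi ▸ mem_image_of_mem _ (mem_univ i)) hk, sub_self]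
    rw [h1]
    refine sum_eq_zero fun j hj => h0 j fun hjk => hk (hjk ▸ hj)

end split

/-! ### the groups of the plane of row D2 -/

section groups

variable {κ κ3 : ℝ}

/-- slopes in `v`, `t` -/
theorem aV_vals : nL 1 0 κ κ3 = ![1, 0, κ - 0, κ3 - κ, κ3 - 0, 0, κ, κ3, 1 + 0, 1 + κ, 1 + κ3] := rfl

theorem bV_vals : nL 0 1 1 1 = ![0, 0, 1 - 1, 1 - 1, 1 - 1, 1, 1, 1, 0 + 1, 0 + 1, 0 + 1] := rfl

/-- groups -/
structure GF (κ κ3 : ℝ) (g : Fin 11 → ℕ) : Prop where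
  g1 : g 1 = 0
  g5 : g 5 = 0
  n : ∀ i : Fin 11, i ≠ 1 → i ≠ 5 → g i ≠ 0
  lev : g 2 = g 0 ∧ g 3 = g 0 ∧ g 4 = g 0
  l6 : g 0 ≠ g 6
  l7 : g 0 ≠ g 7
  l8 : g 0 ≠ g 8
  l9 : g 0 ≠ g 9
  l10 : g 0 ≠ g 10
  h106 : g 10 ≠ g 6
  h107 : g 10 ≠ g 7
  h108 : g 10 ≠ g 8
  h109 : g 10 ≠ g 9
  h96 : g 9 ≠ g 6
  h98 : g 9 ≠ g 8
  h76 : g 7 ≠ g 6
  h97 : κ3 ≠ 1 + κ → g 9 ≠ g 7
  h78 : κ3 = 1 + κ → g 7 ≠ g 8

theorem gf (hκ : 0 < κ) (hκ3 : κ < κ3) : GF κ κ3 (gC (nL 1 0 κ κ3) (nL 0 1 1 1)) := by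
  have hκ30 : 0 < κ3 := hκ.trans hκ3
  set a := nL 1 0 κ κ3 with ha
  set b := nL 0 1 1 1 with hb
  have a0 : a 0 = 1 := rfl
  have a2 : a 2 = κ := by show κ - 0 = κ; ring
  have a3 : a 3 = κ3 - κ := rfl
  have a4 : a 4 = κ3 := by show κ3 - 0 = κ3; ring
  have a6 : a 6 = κ := rfl
  have a7 : a 7 = κ3 := rfl
  have a8 : a 8 = 1 := by show (1 : ℝ) + 0 = 1; ring
  have a9 : a 9 = 1 + κ := rfl
  have a10 : a 10 = 1 + κ3 := rfl
  have b0 : b 0 = 0 := rfl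
  have b2 : b 2 = 0 := by show (1 : ℝ) - 1 = 0; ring
  have b3 : b 3 = 0 := by show (1 : ℝ) - 1 = 0; ring
  have b4 : b 4 = 0 := by show (1 : ℝ) - 1 = 0; ring
  have b6 : b 6 = 1 := rfl
  have b7 : b 7 = 1 := rfl
  have b8 : b 8 = 1 := by show (0 : ℝ) + 1 = 1; ring
  have b9 : b 9 = 1 := by show (0 : ℝ) + 1 = 1; ring
  have b10 : b 10 = 1 := by show (0 : ℝ) + 1 = 1; ring
  have n0 : a 0 ≠ 0 := by rw [a0]; norm_num
  have n2 : a 2 ≠ 0 := by rw [a2]; exact hκ.ne'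
  have n3 : a 3 ≠ 0 := by rw [a3]; linarith
  have n4 : a 4 ≠ 0 := by rw [a4]; exact hκ30.ne'
  have n6 : a 6 ≠ 0 := by rw [a6]; exact hκ.ne'
  have n7 : a 7 ≠ 0 := by rw [a7]; exact hκ30.ne'
  have n8 : a 8 ≠ 0 := by rw [a8]; norm_num
  have n9 : a 9 ≠ 0 := by rw [a9]; linarith
  have n10 : a 10 ≠ 0 := by rw [a10]; linarith
  have lv : ∀ {i : Fin 11}, a i ≠ 0 → b i = 1 → gC a b 0 ≠ gC a b i := by
    intro i hi hbi h
    have := (gC_eq n0 hi).1 h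
    rw [b0, zero_div, hbi] at this
    exact one_div_ne_zero hi this.symm
  have nq : ∀ {i j : Fin 11}, a i ≠ 0 → a j ≠ 0 → b i = 1 → b j = 1 → a i ≠ a j →
      gC a b i ≠ gC a b j := by
    intro i j hi hj hbi hbj hne h
    have := (gC_eq hi hj).1 h
    rw [hbi, hbj] at this
    rw [one_div, one_div] at this
    exact hne (inv_injective this)
  refine ⟨gC_zero.2 rfl, gC_zero.2 rfl, ?_, ⟨(gC_eq n2 n0).2 ?_, (gC_eq n3 n0).2 ?_,
    (gC_eq n4 n0).2 ?_⟩, lv n6 b6, lv n7 b7, lv n8 b8, lv n9 b9, lv n10 b10,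
    nq n10 n6 b10 b6 ?_, nq n10 n7 b10 b7 ?_, nq n10 n8 b10 b8 ?_, nq n10 n9 b10 b9 ?_,
    nq n9 n6 b9 b6 ?_, nq n9 n8 b9 b8 ?_, nq n7 n6 b7 b6 ?_, fun h => nq n9 n7 b9 b7 ?_,
    fun h => nq n7 n8 b7 b8 ?_⟩
  · intro i h1 h5 h
    have h2 := gC_zero.1 h
    fin_cases i
    · exact n0 h2
    · exact h1 rfl
    · exact n2 h2
    · exact n3 h2
    · exact n4 h2
    · exact h5 rfl
    · exact n6 h2
    · exact n7 h2
    · exact n8 h2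
    · exact n9 h2
    · exact n10 h2
  · rw [b2, b0, zero_div, zero_div]
  · rw [b3, b0, zero_div, zero_div]
  · rw [b4, b0, zero_div, zero_div]
  · rw [a10, a6]; intro h; linarith
  · rw [a10, a7]; intro h; linarith
  · rw [a10, a8]; intro h; linarith
  · rw [a10, a9]; intro h; linarith
  · rw [a9, a6]; intro h; linarith
  · rw [a9, a8]; intro h; linarith
  · rw [a7, a6]; intro h; linarith
  · rw [a9, a7]; intro h'; exact h h'.symm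
  · rw [a7, a8]; intro h'; linarith

end groups

/-- the box of the tangent -/
def vT (T ca cb p xa xb n : ℝ) : Fin 11 → ℝ := ![T, 0, T, T, T, ca, cb, p, xa, xb, n]

theorem vT_mem {T ca cb p xa xb n : ℝ}
    (hT : 0 ≤ T) (h5 : ca ∈ Set.Icc 0 T) (h6 : cb ∈ Set.Icc 0 T) (h7 : p ∈ Set.Icc 0 T)
    (h8 : xa ∈ Set.Icc 0 T) (h9 : xb ∈ Set.Icc 0 T) (h10 : n ∈ Set.Icc 0 T) :
    vT T ca cb p xa xb n ∈ coneN := by
  obtain ⟨a5, b5⟩ := h5
  obtain ⟨a6, b6⟩ := h6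
  obtain ⟨a7, b7⟩ := h7
  obtain ⟨a8, b8⟩ := h8
  obtain ⟨a9, b9⟩ := h9
  obtain ⟨a10, b10⟩ := h10
  refine ⟨?_, ?_, ?_, ?_, ?_, ?_, ?_, ?_, ?_, ?_⟩
  · show T ≤ T + T
    linarith
  · show cb ≤ T + ca
    linarith
  · show p ≤ T + ca
    linarith
  · show p ≤ T + cb
    linarith
  · show xa ≤ T + ca
    linarith
  · show xb ≤ T + cb
    linarith
  · show xb ≤ T + xa
    linarith
  · show n ≤ T + p
    linarith
  · show n ≤ T + xa
    linarith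
  · show n ≤ T + xb
    linarith

/-- level part of the slopes -/
def lv1 (κ κ3 : ℝ) : Fin 11 → ℝ := ![1, 0, κ, κ3 - κ, κ3, 0, 0, 0, 0, 0, 0]

theorem lv1_mem {κ κ3 : ℝ} (hκ : 0 ≤ κ) (hκ3 : κ ≤ κ3) : lv1 κ κ3 ∈ coneN := by
  refine ⟨?_, ?_, ?_, ?_, ?_, ?_, ?_, ?_, ?_, ?_⟩
  · show κ3 ≤ κ + (κ3 - κ)
    linarith
  · show (0 : ℝ) ≤ κ + 0
    linarith
  · show (0 : ℝ) ≤ κ3 + 0
    linarith
  · show (0 : ℝ) ≤ (κ3 - κ) + 0
    linarith
  · show (0 : ℝ) ≤ 1 + 0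
    linarith
  · show (0 : ℝ) ≤ 1 + 0
    linarith
  · show (0 : ℝ) ≤ κ + 0
    linarith
  · show (0 : ℝ) ≤ 1 + 0
    linarith
  · show (0 : ℝ) ≤ κ3 + 0
    linarith
  · show (0 : ℝ) ≤ (κ3 - κ) + 0
    linarith

theorem aV_mem {κ κ3 : ℝ} (hκ : 0 ≤ κ) (hκ3 : κ ≤ κ3) : nL 1 0 κ κ3 ∈ coneN := by
  refine ⟨?_, ?_, ?_, ?_, ?_, ?_, ?_, ?_, ?_, ?_⟩
  · show κ3 - 0 ≤ (κ - 0) + (κ3 - κ)
    linarith
  · show κ ≤ (κ - 0) + 0
    linarith
  · show κ3 ≤ (κ3 - 0) + 0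
    linarith
  · show κ3 ≤ (κ3 - κ) + κ
    linarith
  · show 1 + 0 ≤ 1 + (0 : ℝ)
    linarith
  · show 1 + κ ≤ 1 + κ
    linarith
  · show 1 + κ ≤ (κ - 0) + (1 + 0)
    linarith
  · show 1 + κ3 ≤ 1 + κ3
    linarith
  · show 1 + κ3 ≤ (κ3 - 0) + (1 + 0)
    linarith
  · show 1 + κ3 ≤ (κ3 - κ) + (1 + κ)
    linarith

end Crest.Agent.R136.Xd272
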