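import Crest.Agent.R136.D2c_272

/-!
# R136, row D2 of the thick table (helper272), part 4: the F-half
-/

set_option autoImplicit false
set_option linter.unusedVariables false
set_option linter.unusedSectionVars false

open Finset Filter Topology

namespace Crest.Agent.R136.Xd272

open Crest.Agent.R138.Ex926 (Base U)
open Crest.Agent.R136.Gf356
open Crest.Agent.R136.NatR550
open Crest.Agent.R136.Dg219

variable {κ κ3 T : ℝ} {lam : (Fin 11 → ℝ) → ℝ} {A : ℝ × ℝ} {φ : ℕ → (Fin 11 → ℝ) → ℝ} {r : ℕ → ℝ}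

/-! ### components -/

theorem f11 {P : Fin 11 → Prop} (h0 : P 0) (h1 : P 1) (h2 : P 2) (h3 : P 3) (h4 : P 4)
    (h5 : P 5) (h6 : P 6) (h7 : P 7) (h8 : P 8) (h9 : P 9) (h10 : P 10) : ∀ i, P i := by
  intro i
  fin_cases i <;> assumption

section comp

variable {T ca cb p xa xb n κ κ3 : ℝ}

theorem vT_0 : vT T ca cb p xa xb n 0 = T := rfl
theorem vT_1 : vT T ca cb p xa xb n 1 = 0 := rfl
theorem vT_2 : vT T ca cb p xa xb n 2 = T := rfl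
theorem vT_3 : vT T ca cb p xa xb n 3 = T := rfl
theorem vT_4 : vT T ca cb p xa xb n 4 = T := rfl
theorem vT_5 : vT T ca cb p xa xb n 5 = ca := rfl
theorem vT_6 : vT T ca cb p xa xb n 6 = cb := rfl
theorem vT_7 : vT T ca cb p xa xb n 7 = p := rfl
theorem vT_8 : vT T ca cb p xa xb n 8 = xa := rfl
theorem vT_9 : vT T ca cb p xa xb n 9 = xb := rfl
theorem vT_10 : vT T ca cb p xa xb n 10 = n := rfl

theorem lv_0 : lv1 κ κ3 0 = 1 := rfl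
theorem lv_1 : lv1 κ κ3 1 = 0 := rfl
theorem lv_2 : lv1 κ κ3 2 = κ := rfl
theorem lv_3 : lv1 κ κ3 3 = κ3 - κ := rfl
theorem lv_4 : lv1 κ κ3 4 = κ3 := rfl
theorem lv_5 : lv1 κ κ3 5 = 0 := rfl
theorem lv_6 : lv1 κ κ3 6 = 0 := rfl
theorem lv_7 : lv1 κ κ3 7 = 0 := rfl
theorem lv_8 : lv1 κ κ3 8 = 0 := rfl
theorem lv_9 : lv1 κ κ3 9 = 0 := rfl
theorem lv_10 : lv1 κ κ3 10 = 0 := rfl

theorem nL_0 : nL 1 0 κ κ3 0 = 1 := rfl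
theorem nL_1 : nL 1 0 κ κ3 1 = 0 := rfl
theorem nL_2 : nL 1 0 κ κ3 2 = κ := by
  show κ - 0 = κ
  ring
theorem nL_3 : nL 1 0 κ κ3 3 = κ3 - κ := rfl
theorem nL_4 : nL 1 0 κ κ3 4 = κ3 := by
  show κ3 - 0 = κ3
  ring
theorem nL_5 : nL 1 0 κ κ3 5 = 0 := rfl
theorem nL_6 : nL 1 0 κ κ3 6 = κ := rfl
theorem nL_7 : nL 1 0 κ κ3 7 = κ3 := rfl
theorem nL_8 : nL 1 0 κ κ3 8 = 1 := by
  show (1 : ℝ) + 0 = 1
  ring
theorem nL_9 : nL 1 0 κ κ3 9 = 1 + κ := rfl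
theorem nL_10 : nL 1 0 κ κ3 10 = 1 + κ3 := rfl

end comp

theorem vT_n {T ca cb p xa xb n n' : ℝ} : ∀ i : Fin 11, i ≠ 10 →
    vT T ca cb p xa xb n i = vT T ca cb p xa xb n' i := by
  refine f11 ?_ ?_ ?_ ?_ ?_ ?_ ?_ ?_ ?_ ?_ ?_ <;> intro hi
  · rw [vT_0, vT_0]
  · rw [vT_1, vT_1]
  · rw [vT_2, vT_2]
  · rw [vT_3, vT_3]
  · rw [vT_4, vT_4]
  · rw [vT_5, vT_5]
  · rw [vT_6, vT_6]
  · rw [vT_7, vT_7]
  · rw [vT_8, vT_8]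
  · rw [vT_9, vT_9]
  · exact absurd rfl hi

theorem vT_ca {T ca cb p xa xb n ca' : ℝ} : ∀ i : Fin 11, i ≠ 5 →
    vT T ca cb p xa xb n i = vT T ca' cb p xa xb n i := by
  refine f11 ?_ ?_ ?_ ?_ ?_ ?_ ?_ ?_ ?_ ?_ ?_ <;> intro hi
  · rw [vT_0, vT_0]
  · rw [vT_1, vT_1]
  · rw [vT_2, vT_2]
  · rw [vT_3, vT_3]
  · rw [vT_4, vT_4]
  · exact absurd rfl hi
  · rw [vT_6, vT_6]
  · rw [vT_7, vT_7]
  · rw [vT_8, vT_8]
  · rw [vT_9, vT_9]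
  · rw [vT_10, vT_10]

theorem vT_xb {T ca cb p xa xb n xb' : ℝ} : ∀ i : Fin 11, i ≠ 9 →
    vT T ca cb p xa xb n i = vT T ca cb p xa xb' n i := by
  refine f11 ?_ ?_ ?_ ?_ ?_ ?_ ?_ ?_ ?_ ?_ ?_ <;> intro hi
  · rw [vT_0, vT_0]
  · rw [vT_1, vT_1]
  · rw [vT_2, vT_2]
  · rw [vT_3, vT_3]
  · rw [vT_4, vT_4]
  · rw [vT_5, vT_5]
  · rw [vT_6, vT_6]
  · rw [vT_7, vT_7]
  · rw [vT_8, vT_8]
  · exact absurd rfl hi
  · rw [vT_10, vT_10]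

theorem vT_le {T ca cb p xa xb n ca' cb' p' xa' xb' n' : ℝ} (h5 : ca ≤ ca') (h6 : cb ≤ cb')
    (h7 : p ≤ p') (h8 : xa ≤ xa') (h9 : xb ≤ xb') (h10 : n ≤ n') :
    vT T ca cb p xa xb n ≤ vT T ca' cb' p' xa' xb' n' := by
  show ∀ i, vT T ca cb p xa xb n i ≤ vT T ca' cb' p' xa' xb' n' i
  refine f11 ?_ ?_ ?_ ?_ ?_ ?_ ?_ ?_ ?_ ?_ ?_
  · rw [vT_0, vT_0]
  · rw [vT_1, vT_1]
  · rw [vT_2, vT_2]
  · rw [vT_3, vT_3]
  · rw [vT_4, vT_4]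
  · rw [vT_5, vT_5]; exact h5
  · rw [vT_6, vT_6]; exact h6
  · rw [vT_7, vT_7]; exact h7
  · rw [vT_8, vT_8]; exact h8
  · rw [vT_9, vT_9]; exact h9
  · rw [vT_10, vT_10]; exact h10

theorem vT_sum {T xa xa' : ℝ} :
    ∑ s, (vT T 0 0 0 xa' 0 0 s - vT T 0 0 0 xa 0 0 s) = xa' - xa := by
  simp only [Fin.sum_univ_succ, Fin.sum_univ_zero]
  simp [vT]

variable {G : Fin 11 → ℕ} {dh : Fin 11 → ℝ} {nn : ℕ → ℝ × ℝ}

/-- the splitting of the tangent at a point of the plane of row D2 -/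
structure TD (κ κ3 T : ℝ) (lam : (Fin 11 → ℝ) → ℝ) (A : ℝ × ℝ) (φ : ℕ → (Fin 11 → ℝ) → ℝ)
    (r : ℕ → ℝ) (G : Fin 11 → ℕ) (dh : Fin 11 → ℝ) (nn : ℕ → ℝ × ℝ) : Prop where
  hκ : 0 < κ
  hκ3 : κ < κ3
  hT : 1 + κ3 ≤ T
  g : GF κ κ3 G
  d1 : dh 1 = 0
  d5 : dh 5 = 1
  dp : ∀ k, k ≠ 0 → ∀ i, G i = k → 0 < dh i
  out : OutS G coneN dh nn lam A φ r
  hom : ∀ k, (∀ i, G i = k → 0 < dh i) →
    ∀ c ∈ coneN, ∀ s : ℝ, 0 ≤ s → φ k (s • c) = s * φ k c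
  sharp : ∀ c ∈ coneN, ∀ c' ∈ coneN, c ≤ c' → lam c - lam c' ≤ ∑ s, (c' s - c s)
  anti : ∀ c ∈ coneN, ∀ c' ∈ coneN, c ≤ c' → lam c' ≤ lam c
  lev : lam (lv1 κ κ3) ≤ -1
  sw : ∃ q : ℝ, 0 < q ∧ q * T ≤ lam (vT T 0 0 0 0 0 0) - lam (vT T T 0 0 0 0 0)
  A_eq : A.1 = lam (nL 1 0 κ κ3)

theorem a_nonneg (hκ : 0 < κ) (hκ3 : κ < κ3) : ∀ i, 0 ≤ nL 1 0 κ κ3 i := by
  refine f11 ?_ ?_ ?_ ?_ ?_ ?_ ?_ ?_ ?_ ?_ ?_
  · rw [nL_0]; norm_num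
  · rw [nL_1]
  · rw [nL_2]; linarith
  · rw [nL_3]; linarith
  · rw [nL_4]; linarith
  · rw [nL_5]
  · rw [nL_6]; linarith
  · rw [nL_7]; linarith
  · rw [nL_8]; norm_num
  · rw [nL_9]; linarith
  · rw [nL_10]; linarith

/-- slope of the profile = value of the tangent at the slopes -/
theorem A_eq_of (hκ : 0 < κ) (hκ3 : κ < κ3)
    (out : OutS (gC (nL 1 0 κ κ3) (nL 0 1 1 1)) coneN (dhC (nL 1 0 κ κ3) (nL 0 1 1 1))
      (nC (nL 1 0 κ κ3) (nL 0 1 1 1)) lam A φ r) : A.1 = lam (nL 1 0 κ κ3) := by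
  have hm : nL 1 0 κ κ3 ∈ coneN := aV_mem hκ.le hκ3.le
  generalize nL 1 0 κ κ3 = a at out hm ⊢
  generalize nL 0 1 1 1 = b at out ⊢
  have h1 := out.total (1, 0)
  rw [out.sum _ hm]
  have e1 : lf A (1, 0) = A.1 := by simp [lf]
  rw [e1] at h1
  rw [h1, ← sum_neg_distrib]
  refine sum_congr rfl fun k hk => ?_
  obtain ⟨i, -, hi⟩ := mem_image.1 hk
  by_cases hk0 : k = 0
  · subst hk0
    rw [nC_zero]
    have e2 : φ 0 a = -(r 0 * 0) :=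
      out.rate 0 _ hm 0 fun i hi => by
        rw [gC_zero.1 hi, zero_mul]
    rw [e2]
    simp [lf]
  · have ha : a i ≠ 0 := fun h0 => hk0 (hi.symm.trans (gC_zero.2 h0))
    have e2 : φ k a = -(r k * 1) :=
      out.rate k _ hm 1 fun j hj => by
        have hj' : a j ≠ 0 := fun h0 => hk0 (hj.symm.trans (gC_zero.2 h0))
        unfold dhC
        rw [if_neg hj', one_mul]
    have e3 : nC a b k = (1, b i / a i) := by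
      rw [← hi]; exact nC_of ha
    rw [e2, e3]
    simp [lf]

theorem TD.mk' (hκ : 0 < κ) (hκ3 : κ < κ3) (hT : 1 + κ3 ≤ T)
    (out : OutS (gC (nL 1 0 κ κ3) (nL 0 1 1 1)) coneN (dhC (nL 1 0 κ κ3) (nL 0 1 1 1))
      (nC (nL 1 0 κ κ3) (nL 0 1 1 1)) lam A φ r)
    (hom : ∀ k, (∀ i, gC (nL 1 0 κ κ3) (nL 0 1 1 1) i = k →
      0 < dhC (nL 1 0 κ κ3) (nL 0 1 1 1) i) →
      ∀ c ∈ coneN, ∀ s : ℝ, 0 ≤ s → φ k (s • c) = s * φ k c)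
    (sharp : ∀ c ∈ coneN, ∀ c' ∈ coneN, c ≤ c' → lam c - lam c' ≤ ∑ s, (c' s - c s))
    (anti : ∀ c ∈ coneN, ∀ c' ∈ coneN, c ≤ c' → lam c' ≤ lam c)
    (lev : lam (lv1 κ κ3) ≤ -1)
    (sw : ∃ q : ℝ, 0 < q ∧ q * T ≤ lam (vT T 0 0 0 0 0 0) - lam (vT T T 0 0 0 0 0)) :
    TD κ κ3 T lam A φ r (gC (nL 1 0 κ κ3) (nL 0 1 1 1)) (dhC (nL 1 0 κ κ3) (nL 0 1 1 1))
      (nC (nL 1 0 κ κ3) (nL 0 1 1 1)) where
  hκ := hκ
  hκ3 := hκ3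
  hT := hT
  g := gf hκ hκ3
  d1 := by
    unfold dhC
    rw [if_pos (show nL 1 0 κ κ3 1 = 0 from rfl)]
    rfl
  d5 := by
    unfold dhC
    rw [if_pos (show nL 1 0 κ κ3 5 = 0 from rfl)]
    rfl
  dp := by
    intro k hk i hi
    have h1 : nL 1 0 κ κ3 i ≠ 0 := fun h0 => hk (hi.symm.trans (gC_zero.2 h0))
    unfold dhC
    rw [if_neg h1]
    exact lt_of_le_of_ne (a_nonneg hκ hκ3 i) (Ne.symm h1)
  out := out
  hom := hom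
  sharp := sharp
  anti := anti
  lev := lev
  sw := sw
  A_eq := A_eq_of hκ hκ3 out

namespace TD

variable (h : TD κ κ3 T lam A φ r G dh nn)

include h

theorem T0 : 0 < T := by linarith [h.hκ, h.hκ3, h.hT]

theorem mem {ca cb p xa xb n : ℝ}
    (h5 : ca ∈ Set.Icc 0 T) (h6 : cb ∈ Set.Icc 0 T) (h7 : p ∈ Set.Icc 0 T)
    (h8 : xa ∈ Set.Icc 0 T) (h9 : xb ∈ Set.Icc 0 T) (h10 : n ∈ Set.Icc 0 T) :
    vT T ca cb p xa xb n ∈ coneN := vT_mem h.T0.le h5 h6 h7 h8 h9 h10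

theorem only10 : ∀ i, G i = G 10 →
    i = 10 := by
  have g := h.g
  refine f11 ?_ ?_ ?_ ?_ ?_ ?_ ?_ ?_ ?_ ?_ ?_ <;> intro hi
  · exact absurd hi g.l10
  · exact absurd (hi.symm.trans g.g1) (g.n 10 (by decide) (by decide))
  · exact absurd (g.lev.1.symm.trans hi) g.l10
  · exact absurd (g.lev.2.1.symm.trans hi) g.l10
  · exact absurd (g.lev.2.2.symm.trans hi) g.l10
  · exact absurd (hi.symm.trans g.g5) (g.n 10 (by decide) (by decide))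
  · exact absurd hi.symm g.h106
  · exact absurd hi.symm g.h107
  · exact absurd hi.symm g.h108
  · exact absurd hi.symm g.h109
  · rfl

theorem only9 : ∀ i, G i = G 9 →
    i = 9 ∨ (i = 7 ∧ κ3 = 1 + κ) := by
  have g := h.g
  refine f11 ?_ ?_ ?_ ?_ ?_ ?_ ?_ ?_ ?_ ?_ ?_ <;> intro hi
  · exact absurd hi g.l9
  · exact absurd (hi.symm.trans g.g1) (g.n 9 (by decide) (by decide))
  · exact absurd (g.lev.1.symm.trans hi) g.l9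
  · exact absurd (g.lev.2.1.symm.trans hi) g.l9
  · exact absurd (g.lev.2.2.symm.trans hi) g.l9
  · exact absurd (hi.symm.trans g.g5) (g.n 9 (by decide) (by decide))
  · exact absurd hi.symm g.h96
  · refine Or.inr ⟨rfl, ?_⟩
    by_contra hc
    exact g.h97 hc hi.symm
  · exact absurd hi.symm g.h98
  · exact Or.inl rfl
  · exact absurd hi g.h109

theorem only0 : ∀ i, G i = 0 → i = 1 ∨ i = 5 := by
  have g := h.g
  intro i hi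
  by_contra hc
  push Not at hc
  exact g.n i hc.1 hc.2 hi

/-- group functions are linear on `[0, T]` -/
theorem lin {k : ℕ} (hk : k ≠ 0) {c1 p : Fin 11 → ℝ} (hc : c1 ∈ coneN) {s : ℝ} (hs : 0 ≤ s)
    (hp : ∀ i, G i = k → p i = s * c1 i) :
    φ k p = s * φ k c1 := by
  rw [← h.hom k (h.dp k hk) c1 hc s hs]
  exact h.out.loc k _ _ fun i hi => by rw [hp i hi, Pi.smul_apply, smul_eq_mul]

/-- rate of `N` -/
noncomputable def aN (T : ℝ) (G : Fin 11 → ℕ) (φ : ℕ → (Fin 11 → ℝ) → ℝ) : ℝ :=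
  -φ (G 10) (vT T 0 0 0 0 0 T) / T

/-- rate of `X_b` -/
noncomputable def bX (T : ℝ) (G : Fin 11 → ℕ) (φ : ℕ → (Fin 11 → ℝ) → ℝ) : ℝ :=
  -φ (G 9) (vT T 0 0 0 0 T 0) / T

theorem stepN {ca cb p xa xb n : ℝ}
    (h5 : ca ∈ Set.Icc 0 T) (h6 : cb ∈ Set.Icc 0 T) (h7 : p ∈ Set.Icc 0 T)
    (h8 : xa ∈ Set.Icc 0 T) (h9 : xb ∈ Set.Icc 0 T) (h10 : n ∈ Set.Icc 0 T) :
    lam (vT T ca cb p xa xb n) = lam (vT T ca cb p xa xb 0) - aN T G φ * n := by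
  have hT := h.T0
  have z0 : (0 : ℝ) ∈ Set.Icc 0 T := ⟨le_rfl, hT.le⟩
  have zT : T ∈ Set.Icc 0 T := ⟨hT.le, le_rfl⟩
  have hk : G 10 ≠ 0 := h.g.n 10 (by decide) (by decide)
  have e1 := inc2 h.out (G 10) (h.mem h5 h6 h7 h8 h9 h10)
    (h.mem h5 h6 h7 h8 h9 z0) fun i hi => vT_n i fun h' => hi (by rw [h'])
  have e2 : φ (G 10) (vT T ca cb p xa xb 0) = 0 :=
    h.out.zero _ _ fun i hi => by rw [h.only10 i hi, vT_10]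
  have e3 := h.lin hk (p := vT T ca cb p xa xb n) (h.mem z0 z0 z0 z0 z0 zT)
    (div_nonneg h10.1 hT.le) (s := n / T) fun i hi => by
      rw [h.only10 i hi, vT_10, vT_10, div_mul_cancel₀ n hT.ne']
  rw [e2, e3, sub_zero] at e1
  unfold aN
  have e4 : -φ (G 10) (vT T 0 0 0 0 0 T) / T * n =
      -(n / T * φ (G 10) (vT T 0 0 0 0 0 T)) := by ring
  rw [e4]
  linarith

theorem stepC {ca cb p xa xb n : ℝ}
    (h5 : ca ∈ Set.Icc 0 T) (h6 : cb ∈ Set.Icc 0 T) (h7 : p ∈ Set.Icc 0 T)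
    (h8 : xa ∈ Set.Icc 0 T) (h9 : xb ∈ Set.Icc 0 T) (h10 : n ∈ Set.Icc 0 T) :
    lam (vT T ca cb p xa xb n) = lam (vT T 0 cb p xa xb n) - r 0 * ca := by
  have hT := h.T0
  have z0 : (0 : ℝ) ∈ Set.Icc 0 T := ⟨le_rfl, hT.le⟩
  have e1 := inc2 h.out 0 (h.mem h5 h6 h7 h8 h9 h10) (h.mem z0 h6 h7 h8 h9 h10)
    fun i hi => vT_ca i fun h' => hi (by rw [h']; exact h.g.g5)
  have e2 : ∀ ca' : ℝ, ca' ∈ Set.Icc 0 T → φ 0 (vT T ca' cb p xa xb n) = -(r 0 * ca') :=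
    fun ca' h' => h.out.rate 0 _ (h.mem h' h6 h7 h8 h9 h10) ca' fun i hi => by
      rcases h.only0 i hi with rfl | rfl
      · rw [h.d1, mul_zero, vT_1]
      · rw [h.d5, mul_one, vT_5]
  rw [e2 ca h5, e2 0 z0] at e1
  linarith

theorem stepB {cb p xa xb : ℝ}
    (h6 : cb ∈ Set.Icc 0 T) (h7 : p ∈ Set.Icc 0 T)
    (h8 : xa ∈ Set.Icc 0 T) (h9 : xb ∈ Set.Icc 0 T) (hp : p = 0 ∨ κ3 ≠ 1 + κ) :
    lam (vT T 0 cb p xa xb 0) = lam (vT T 0 cb p xa 0 0) - bX T G φ * xb := by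
  have hT := h.T0
  have z0 : (0 : ℝ) ∈ Set.Icc 0 T := ⟨le_rfl, hT.le⟩
  have zT : T ∈ Set.Icc 0 T := ⟨hT.le, le_rfl⟩
  have hk : G 9 ≠ 0 := h.g.n 9 (by decide) (by decide)
  have e1 := inc2 h.out (G 9) (h.mem z0 h6 h7 h8 h9 z0)
    (h.mem z0 h6 h7 h8 z0 z0) fun i hi => vT_xb i fun h' => hi (by rw [h'])
  have e2 : φ (G 9) (vT T 0 cb p xa 0 0) = 0 :=
    h.out.zero _ _ fun i hi => by
      rcases h.only9 i hi with rfl | ⟨rfl, h2⟩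
      · rw [vT_9]
      · rcases hp with h3 | h3
        · rw [vT_7, h3]
        · exact absurd h2 h3
  have e3 := h.lin hk (p := vT T 0 cb p xa xb 0) (h.mem z0 z0 z0 z0 zT z0)
    (div_nonneg h9.1 hT.le) (s := xb / T) fun i hi => by
      rcases h.only9 i hi with rfl | ⟨rfl, h2⟩
      · rw [vT_9, vT_9, div_mul_cancel₀ xb hT.ne']
      · rcases hp with h3 | h3
        · rw [vT_7, vT_7, h3, mul_zero]
        · exact absurd h2 h3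
  rw [e2, e3, sub_zero] at e1
  unfold bX
  have e4 : -φ (G 9) (vT T 0 0 0 0 T 0) / T * xb =
      -(xb / T * φ (G 9) (vT T 0 0 0 0 T 0)) := by ring
  rw [e4]
  linarith

theorem stepX {cb p xa xb : ℝ} (hc : κ3 = 1 + κ)
    (h6 : cb ∈ Set.Icc 0 T) (h7 : p ∈ Set.Icc 0 T)
    (h8 : xa ∈ Set.Icc 0 T) (h9 : xb ∈ Set.Icc 0 T) :
    lam (vT T 0 cb p xa xb 0) - lam (vT T 0 cb 0 xa 0 0) =
      lam (vT T 0 0 p 0 xb 0) - lam (vT T 0 0 0 0 0 0) := by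
  have hT := h.T0
  have z0 : (0 : ℝ) ∈ Set.Icc 0 T := ⟨le_rfl, hT.le⟩
  have g := h.g
  refine inc4 h.out (fun k => k = G 7 ∨
    k = G 9) (h.mem z0 h6 h7 h8 h9 z0) (h.mem z0 h6 z0 h8 z0 z0)
    (h.mem z0 z0 h7 z0 h9 z0) (h.mem z0 z0 z0 z0 z0 z0) ?_
  have n7 := g.n 7 (by decide) (by decide)
  have n9 := g.n 9 (by decide) (by decide)
  refine f11 ?_ ?_ ?_ ?_ ?_ ?_ ?_ ?_ ?_ ?_ ?_
  · exact Or.inr ⟨fun h => h.elim g.l7 g.l9, by rw [vT_0, vT_0], by rw [vT_0, vT_0]⟩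
  · exact Or.inr ⟨fun h => h.elim (fun h => n7 (h.symm.trans g.g1))
      fun h => n9 (h.symm.trans g.g1), by rw [vT_1, vT_1], by rw [vT_1, vT_1]⟩
  · exact Or.inr ⟨fun h => h.elim (fun h => g.l7 (g.lev.1.symm.trans h))
      fun h => g.l9 (g.lev.1.symm.trans h), by rw [vT_2, vT_2], by rw [vT_2, vT_2]⟩
  · exact Or.inr ⟨fun h => h.elim (fun h => g.l7 (g.lev.2.1.symm.trans h))
      fun h => g.l9 (g.lev.2.1.symm.trans h), by rw [vT_3, vT_3], by rw [vT_3, vT_3]⟩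
  · exact Or.inr ⟨fun h => h.elim (fun h => g.l7 (g.lev.2.2.symm.trans h))
      fun h => g.l9 (g.lev.2.2.symm.trans h), by rw [vT_4, vT_4], by rw [vT_4, vT_4]⟩
  · exact Or.inr ⟨fun h => h.elim (fun h => n7 (h.symm.trans g.g5))
      fun h => n9 (h.symm.trans g.g5), by rw [vT_5, vT_5], by rw [vT_5, vT_5]⟩
  · exact Or.inr ⟨fun h => h.elim (fun h => g.h76 h.symm) fun h => g.h96 h.symm,
      by rw [vT_6, vT_6], by rw [vT_6, vT_6]⟩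
  · exact Or.inl ⟨Or.inl rfl, by rw [vT_7, vT_7], by rw [vT_7, vT_7]⟩
  · exact Or.inr ⟨fun h => h.elim (fun h => g.h78 hc h.symm) fun h => g.h98 h.symm,
      by rw [vT_8, vT_8], by rw [vT_8, vT_8]⟩
  · exact Or.inl ⟨Or.inr rfl, by rw [vT_9, vT_9], by rw [vT_9, vT_9]⟩
  · exact Or.inr ⟨fun h => h.elim g.h107 g.h109, by rw [vT_10, vT_10], by rw [vT_10, vT_10]⟩

/-- the profile of the window splits -/
theorem spl {ν : (Fin 11 → ℝ) → ℝ} {c₀ : ℝ}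
    (hν : ∀ ca cb p xa xb n : ℝ, ca ∈ Set.Icc 0 T → cb ∈ Set.Icc 0 T → p ∈ Set.Icc 0 T →
      xa ∈ Set.Icc 0 T → xb ∈ Set.Icc 0 T → n ∈ Set.Icc 0 T →
      ν (b0 ca cb p xa xb n) = lam (vT T ca cb p xa xb n) - c₀) :
    Spl ν T (r 0) (aN T G φ) (bX T G φ) fun cb p xa xb =>
      lam (vT T 0 0 0 0 0 0) - lam (vT T 0 cb p xa xb 0) := by
  have hT := h.T0
  have z0 : (0 : ℝ) ∈ Set.Icc 0 T := ⟨le_rfl, hT.le⟩
  have zT : T ∈ Set.Icc 0 T := ⟨hT.le, le_rfl⟩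
  refine ⟨?_, ?_, ?_, ?_, ?_, ?_⟩
  · intro ca cb p xa xb n h5 h6 h7 h8 h9 h10
    rw [hν _ _ _ _ _ _ h5 h6 h7 h8 h9 h10, hν _ _ _ _ _ _ z0 z0 z0 z0 z0 z0,
      h.stepN h5 h6 h7 h8 h9 h10, h.stepC h5 h6 h7 h8 h9 z0]
    ring
  · obtain ⟨q, hq, h1⟩ := h.sw
    have h2 := h.stepC zT z0 z0 z0 z0 z0
    have h3 : q * T ≤ r 0 * T := by linarith
    exact hq.trans_le (le_of_mul_le_mul_right h3 hT)
  · have h2 := h.stepN z0 z0 z0 z0 z0 zT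
    have h3 := h.anti _ (h.mem z0 z0 z0 z0 z0 z0) _ (h.mem z0 z0 z0 z0 z0 zT)
      (vT_le le_rfl le_rfl le_rfl le_rfl le_rfl hT.le)
    have h4 : 0 * T ≤ aN T G φ * T := by linarith
    exact le_of_mul_le_mul_right h4 hT
  · intro t y h1 h2 h3
    have h4 := h.sharp _ (h.mem z0 z0 z0 ⟨h1, h2.trans h3⟩ z0 z0) _
      (h.mem z0 z0 z0 ⟨h1.trans h2, h3⟩ z0 z0)
      (vT_le le_rfl le_rfl le_rfl h2 le_rfl le_rfl)
    rw [vT_sum] at h4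
    linarith
  · intro cb xa xb h6 h8 h9
    have := h.stepB h6 z0 h8 h9 (Or.inl rfl)
    linarith
  · by_cases hc : κ3 = 1 + κ
    · left
      intro cb p xa xb h6 h7 h8 h9
      have := h.stepX hc h6 h7 h8 h9
      linarith
    · right
      intro cb p xa xb h6 h7 h8 h9
      have := h.stepB h6 h7 h8 h9 (Or.inr hc)
      linarith

/-- **the F-half of row D2** -/
theorem conc {B : Base} {G₀ : ℕ → RCfg (Fin 11)} {Leg : Set (Fin 11 → ℝ)}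
    {ν : (Fin 11 → ℝ) → ℝ} {D c₀ : ℝ} {e fa fb : ℕ → ℕ → ℝ} (hD : DWin B G₀ Leg ν T D e fa fb)
    (hν : ∀ ca cb p xa xb n : ℝ, ca ∈ Set.Icc 0 T → cb ∈ Set.Icc 0 T → p ∈ Set.Icc 0 T →
      xa ∈ Set.Icc 0 T → xb ∈ Set.Icc 0 T → n ∈ Set.Icc 0 T →
      ν (b0 ca cb p xa xb n) = lam (vT T ca cb p xa xb n) - c₀) :
    A.1 ≤ -(4 + κ + κ3) := by
  have hT := h.T0
  have hκ := h.hκ
  have hκ3 := h.hκ3
  have hTT := h.hT
  obtain ⟨hX, hb, ha⟩ := hD.rates (h.spl hν)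
  have z0 : (0 : ℝ) ∈ Set.Icc 0 T := ⟨le_rfl, hT.le⟩
  have i1 : (1 : ℝ) ∈ Set.Icc 0 T := ⟨zero_le_one, by linarith⟩
  have iκ : κ ∈ Set.Icc 0 T := ⟨hκ.le, by linarith⟩
  have iκ3 : κ3 ∈ Set.Icc 0 T := ⟨by linarith, by linarith⟩
  have i1κ : 1 + κ ∈ Set.Icc 0 T := ⟨by linarith, by linarith⟩
  have i1κ3 : 1 + κ3 ∈ Set.Icc 0 T := ⟨by linarith, hTT⟩
  have g := h.g
  have h1 := inc4 h.out (fun k => k ≠ G 0) (p := nL 1 0 κ κ3)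
    (q := lv1 κ κ3) (p' := vT T 0 κ κ3 1 (1 + κ) (1 + κ3)) (q' := vT T 0 0 0 0 0 0)
    (aV_mem hκ.le hκ3.le) (lv1_mem hκ.le hκ3.le) (h.mem z0 iκ iκ3 i1 i1κ i1κ3)
    (h.mem z0 z0 z0 z0 z0 z0) (by
      have n0 := g.n 0 (by decide) (by decide)
      refine f11 ?_ ?_ ?_ ?_ ?_ ?_ ?_ ?_ ?_ ?_ ?_
      · exact Or.inr ⟨fun h => h rfl, by rw [nL_0, lv_0], by rw [vT_0, vT_0]⟩
      · exact Or.inl ⟨fun h => n0 (h.symm.trans g.g1), by rw [nL_1, vT_1], by rw [lv_1, vT_1]⟩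
      · exact Or.inr ⟨fun h => h g.lev.1, by rw [nL_2, lv_2], by rw [vT_2, vT_2]⟩
      · exact Or.inr ⟨fun h => h g.lev.2.1, by rw [nL_3, lv_3], by rw [vT_3, vT_3]⟩
      · exact Or.inr ⟨fun h => h g.lev.2.2, by rw [nL_4, lv_4], by rw [vT_4, vT_4]⟩
      · exact Or.inl ⟨fun h => n0 (h.symm.trans g.g5), by rw [nL_5, vT_5], by rw [lv_5, vT_5]⟩
      · exact Or.inl ⟨fun h => g.l6 h.symm, by rw [nL_6, vT_6], by rw [lv_6, vT_6]⟩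
      · exact Or.inl ⟨fun h => g.l7 h.symm, by rw [nL_7, vT_7], by rw [lv_7, vT_7]⟩
      · exact Or.inl ⟨fun h => g.l8 h.symm, by rw [nL_8, vT_8], by rw [lv_8, vT_8]⟩
      · exact Or.inl ⟨fun h => g.l9 h.symm, by rw [nL_9, vT_9], by rw [lv_9, vT_9]⟩
      · exact Or.inl ⟨fun h => g.l10 h.symm, by rw [nL_10, vT_10], by rw [lv_10, vT_10]⟩)
  rw [← h.A_eq] at h1
  have h2 := h.stepN z0 iκ iκ3 i1 i1κ i1κ3
  have h3 := h.anti _ (h.mem z0 z0 z0 i1 i1κ z0) _ (h.mem z0 iκ iκ3 i1 i1κ z0)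
    (vT_le le_rfl hκ.le (by linarith) le_rfl le_rfl le_rfl)
  have h4 := h.stepB z0 z0 i1 i1κ (Or.inl rfl)
  have h5 := hX 1 zero_le_one i1.2
  have h6 : 1 * (1 + κ3) ≤ aN T G φ * (1 + κ3) :=
    mul_le_mul_of_nonneg_right ha (by linarith)
  have h7 : 1 * (1 + κ) ≤ bX T G φ * (1 + κ) :=
    mul_le_mul_of_nonneg_right hb (by linarith)
  have h8 := h.lev
  linarith

end TD

end Crest.Agent.R136.Xd272
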