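import Crest.Agent.R136.Rg6_501

/-!
# R136: from [RIG-0] to a strip of exact exponent (helper272)
-/

set_option autoImplicit false
set_option linter.unusedVariables false
set_option linter.unusedSectionVars false

open Finset Filter Topology

namespace Crest.Agent.R136.Xd272

open Crest.Agent.R138.Ex926 (Base U)
open Crest.Agent.R136.Gf356

/-- a heavy set of heights on which `f` is affine in `z` -/
structure Strip (B : Base) (Z Zs : ℕ → Finset ℕ) (z f : ℕ → ℕ → ℝ) (μ : ℕ → ℝ) (y h c : ℝ) :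
    Prop where
  sub : ∀ n, Zs n ⊆ Z n
  dens : ∀ ε : ℝ, 0 < ε → ∀ᶠ n in (U : Filter ℕ),
    B.d n ^ (h + ε) * ((Z n).card : ℝ) ≤ ((Zs n).card : ℝ)
  aff : ∀ ε : ℝ, 0 < ε → ∀ᶠ n in (U : Filter ℕ), ∀ k ∈ Zs n, ∀ k' ∈ Zs n,
    |f n k' - f n k - μ n * (z n k' - z n k)| ≤ B.d n ^ (y - ε)
  mu : ∀ᶠ n in (U : Filter ℕ), |μ n| ≤ B.d n ^ (-(c * y))

/-- exact exponents along the ultrafilter -/
theorem exists_exp (B : Base) (w : ℕ → ℝ) {a b : ℝ} (hab : ∀ᶠ n in (U : Filter ℕ),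
    B.d n ^ b ≤ w n ∧ w n ≤ B.d n ^ a) :
    ∃ y : ℝ, a ≤ y ∧ y ≤ b ∧ ∀ ε : ℝ, 0 < ε → ∀ᶠ n in (U : Filter ℕ),
      B.d n ^ (y + ε) ≤ w n ∧ w n ≤ B.d n ^ (y - ε) := by
  set e : ℕ → ℝ := fun n => Real.log (w n) / Real.log (B.d n) with he
  have hlog : ∀ n, Real.log (B.d n) < 0 := fun n => Real.log_neg (B.pos n) (B.lt n)
  have hw : ∀ n, 0 < w n → w n = B.d n ^ e n := by
    intro n hn
    rw [he, Real.rpow_def_of_pos (B.pos n)]
    have : Real.log (B.d n) * (Real.log (w n) / Real.log (B.d n)) = Real.log (w n) := by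
      have := (hlog n).ne
      field_simp
    rw [this, Real.exp_log hn]
  have hmem : ∀ᶠ n in (U : Filter ℕ), e n ∈ Set.Icc a b := by
    filter_upwards [hab] with n hn
    have hw0 : 0 < w n := (rpos B n b).trans_le hn.1
    have h1 := hn.1
    have h2 := hn.2
    rw [hw n hw0] at h1 h2
    exact ⟨(Real.rpow_le_rpow_left_iff_of_base_lt_one (B.pos n) (B.lt n)).1 h2,
      (Real.rpow_le_rpow_left_iff_of_base_lt_one (B.pos n) (B.lt n)).1 h1⟩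
  have hmem' : Set.Icc a b ∈ Ultrafilter.map e U := hmem
  obtain ⟨y, hy, hle⟩ := isCompact_Icc.ultrafilter_le_nhds' (Ultrafilter.map e U) hmem'
  have htend : Tendsto e U (𝓝 y) := hle
  refine ⟨y, hy.1, hy.2, fun ε hε => ?_⟩
  have h1 : ∀ᶠ n in (U : Filter ℕ), |e n - y| < ε := by
    have := htend (Metric.ball_mem_nhds y hε)
    exact this
  filter_upwards [h1, hab] with n hn hn2
  have hw0 : 0 < w n := (rpos B n b).trans_le hn2.1
  rw [hw n hw0]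
  rw [abs_lt] at hn
  exact ⟨rpow_anti B n (by linarith), rpow_anti B n (by linarith)⟩

/-- **the strip** -/
theorem exists_strip {B : Base} {Z : ℕ → Finset ℕ} {z f : ℕ → ℕ → ℝ} {θ x η σ : ℝ}
    (hθ : 0 < θ) (hx : 0 < x) (hη : 0 < η) (hσ : 0 < σ) (hησ : 2 * η ≤ σ)
    (hbd : ∀ᶠ n in (U : Filter ℕ), (Z n).Nonempty ∧ ∀ k ∈ Z n, |z n k| ≤ 1 ∧ |f n k| ≤ 1)
    (hfr : ∀ y : ℝ, 0 ≤ y → y ≤ x → ∀ ε : ℝ, 0 < ε → ∀ᶠ n in (U : Filter ℕ), ∀ k ∈ Z n,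
      ∀ T ⊆ Z n, (∀ k' ∈ T, |z n k' - z n k| ≤ B.d n ^ y) →
      (T.card : ℝ) ≤ B.d n ^ (σ * y - ε) * ((Z n).card : ℝ))
    (hcon : ∀ᶠ n in (U : Filter ℕ), ∃ w μ : ℝ, B.d n ^ x ≤ w ∧ w ≤ B.d n ^ (θ * x) ∧
        ∃ k₁ ∈ Z n, ∃ Zs ⊆ Z n, (∀ k ∈ Zs, |f n k - f n k₁ - μ * (z n k - z n k₁)| ≤ w) ∧
          w ^ η * ((Z n).card : ℝ) ≤ (Zs.card : ℝ)) :
    ∃ (y : ℝ) (μ : ℕ → ℝ) (Zs : ℕ → Finset ℕ), θ * x ≤ y ∧ y ≤ x ∧
      Strip B Z Zs z f μ y (η * y) (3 * η / σ) := by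
  classical
  -- choice
  have hcon' : ∀ n, ∃ (w μ : ℝ) (k₁ : ℕ) (Zs : Finset ℕ), Zs ⊆ Z n ∧
      ((B.d n ^ x ≤ w ∧ w ≤ B.d n ^ (θ * x) ∧ k₁ ∈ Z n ∧
        (∀ k ∈ Zs, |f n k - f n k₁ - μ * (z n k - z n k₁)| ≤ w) ∧
          w ^ η * ((Z n).card : ℝ) ≤ (Zs.card : ℝ)) ∨
        ¬ (∃ w μ : ℝ, B.d n ^ x ≤ w ∧ w ≤ B.d n ^ (θ * x) ∧
        ∃ k₁ ∈ Z n, ∃ Zs ⊆ Z n, (∀ k ∈ Zs, |f n k - f n k₁ - μ * (z n k - z n k₁)| ≤ w) ∧
          w ^ η * ((Z n).card : ℝ) ≤ (Zs.card : ℝ))) := by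
    intro n
    by_cases h : ∃ w μ : ℝ, B.d n ^ x ≤ w ∧ w ≤ B.d n ^ (θ * x) ∧
        ∃ k₁ ∈ Z n, ∃ Zs ⊆ Z n, (∀ k ∈ Zs, |f n k - f n k₁ - μ * (z n k - z n k₁)| ≤ w) ∧
          w ^ η * ((Z n).card : ℝ) ≤ (Zs.card : ℝ)
    · obtain ⟨w, μ, h1, h2, k₁, h3, Zs, h4, h5, h6⟩ := h
      exact ⟨w, μ, k₁, Zs, h4, Or.inl ⟨h1, h2, h3, h5, h6⟩⟩
    · exact ⟨0, 0, 0, ∅, empty_subset _, Or.inr h⟩
  choose w μ k₁ Zs hsub hch using hcon'
  have hev : ∀ᶠ n in (U : Filter ℕ), B.d n ^ x ≤ w n ∧ w n ≤ B.d n ^ (θ * x) ∧ k₁ n ∈ Z n ∧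
        (∀ k ∈ Zs n, |f n k - f n (k₁ n) - μ n * (z n k - z n (k₁ n))| ≤ w n) ∧
          w n ^ η * ((Z n).card : ℝ) ≤ ((Zs n).card : ℝ) := by
    filter_upwards [hcon] with n hn
    rcases hch n with h | h
    · exact h
    · exact absurd hn h
  obtain ⟨y, hy1, hy2, hyε⟩ := exists_exp B w (a := θ * x) (b := x)
    (hev.mono fun n h => ⟨h.1, h.2.1⟩)
  have hy : 0 < y := (mul_pos hθ hx).trans_le hy1
  have hdens : ∀ ε : ℝ, 0 < ε → ∀ᶠ n in (U : Filter ℕ),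
      B.d n ^ (η * y + ε) * ((Z n).card : ℝ) ≤ ((Zs n).card : ℝ) := by
    intro ε hε
    filter_upwards [hev, hyε (ε / η) (by positivity)] with n h1 h2
    refine le_trans (mul_le_mul_of_nonneg_right ?_ (Nat.cast_nonneg _)) h1.2.2.2.2
    have h3 : B.d n ^ (η * y + ε) = (B.d n ^ (y + ε / η)) ^ η := by
      rw [← Real.rpow_mul (B.pos n).le]
      congr 1
      field_simp
    rw [h3]
    exact Real.rpow_le_rpow (rpos B n _).le h2.1 hη.le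
  refine ⟨y, μ, Zs, hy1, hy2, hsub, hdens, ?_, ?_⟩
  · intro ε hε
    filter_upwards [hev, hyε (ε / 2) (by positivity), ev_const_le B (t := ε / 2) (by positivity) 2]
      with n h1 h2 h3 k hk k' hk'
    have a1 := h1.2.2.2.1 k hk
    have a2 := h1.2.2.2.1 k' hk'
    have e1 : f n k' - f n k - μ n * (z n k' - z n k) =
        (f n k' - f n (k₁ n) - μ n * (z n k' - z n (k₁ n))) -
        (f n k - f n (k₁ n) - μ n * (z n k - z n (k₁ n))) := by ring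
    rw [e1]
    refine (abs_sub _ _).trans ?_
    have e2 : B.d n ^ (y - ε) = B.d n ^ (-(ε / 2)) * B.d n ^ (y - ε / 2) := by
      rw [← rpow_add']; congr 1; ring
    rw [e2]
    have h4 : 2 * B.d n ^ (y - ε / 2) ≤ B.d n ^ (-(ε / 2)) * B.d n ^ (y - ε / 2) :=
      mul_le_mul_of_nonneg_right h3 (rpos B n _).le
    linarith [h2.2]
  · have hc0 : 0 < η / σ := by positivity
    have hε0 : 0 < η * y / 4 := by positivity
    have hle : 2 * η / σ * y ≤ x := by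
      have : 2 * η / σ ≤ 1 := by rw [div_le_one hσ]; exact hησ
      nlinarith
    filter_upwards [hev, hdens (η * y / 4) hε0, hfr (2 * η / σ * y) (by positivity) hle
      (η * y / 4) hε0, hbd, ev_const_le B (t := η / σ * y) (by positivity) 3,
      Crest.Agent.R138.TwA501.ev_const_mul B 2 (show η * y + η * y / 4 <
        σ * (2 * η / σ * y) - η * y / 4 by
          have : σ * (2 * η / σ * y) = 2 * η * y := by field_simp
          rw [this]; linarith)] with n h1 h2 h3 h4 h5 h6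
    have hZc : (0 : ℝ) < (Z n).card := by exact_mod_cast h4.1.card_pos
    obtain ⟨k, hk, hzk⟩ : ∃ k ∈ Zs n, B.d n ^ (2 * η / σ * y) < |z n k - z n (k₁ n)| := by
      by_contra hno
      push Not at hno
      have a1 := h3 (k₁ n) h1.2.2.1 (Zs n) (hsub n) hno
      have a2 := h2.trans a1
      have a3 := le_of_mul_le_mul_right a2 hZc
      have := rpos B n (σ * (2 * η / σ * y) - η * y / 4)
      linarith
    have a1 := h1.2.2.2.1 k hk
    have a2 := (h4.2 k (hsub n hk)).2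
    have a3 := (h4.2 (k₁ n) h1.2.2.1).2
    have hw1 : w n ≤ 1 := h1.2.1.trans (Real.rpow_le_one (B.pos n).le (B.lt n).le (by positivity))
    have a4 : |μ n| * |z n k - z n (k₁ n)| ≤ 3 := by
      rw [← abs_mul]
      rw [abs_le] at a1 a2 a3 ⊢
      constructor <;> linarith [a1.1, a1.2, a2.1, a2.2, a3.1, a3.2]
    have hp := rpos B n (2 * η / σ * y)
    have a5 : |μ n| * B.d n ^ (2 * η / σ * y) ≤ 3 :=
      (mul_le_mul_of_nonneg_left hzk.le (abs_nonneg _)).trans a4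
    have e1 : B.d n ^ (-(3 * η / σ * y)) = B.d n ^ (-(η / σ * y)) * B.d n ^ (-(2 * η / σ * y)) := by
      rw [← rpow_add']; congr 1; ring
    have e2 : B.d n ^ (2 * η / σ * y) * B.d n ^ (-(2 * η / σ * y)) = 1 := by
      rw [← rpow_add']; simp
    calc |μ n| = |μ n| * B.d n ^ (2 * η / σ * y) * B.d n ^ (-(2 * η / σ * y)) := by
          rw [mul_assoc, e2, mul_one]
      _ ≤ 3 * B.d n ^ (-(2 * η / σ * y)) := mul_le_mul_of_nonneg_right a5 (rpos B n _).le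
      _ ≤ _ := by
          rw [e1]
          exact mul_le_mul_of_nonneg_right h5 (rpos B n _).le

end Crest.Agent.R136.Xd272
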