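import Crest.Agent.R136.Xd5_272
import Crest.Agent.R136.Xd6_272

/-!
# R136: the linear window of case (D) and its strip (helper272)
-/

set_option autoImplicit false
set_option linter.unusedVariables false
set_option linter.unusedSectionVars false

open Finset Filter Topology

namespace Crest.Agent.R136.Xd272

open Crest.Agent.R138.Ex926 (Base U)
open Crest.Agent.R138.TwA501 (ev_const_mul)
open Crest.Agent.R136.Gf356
open Crest.Agent.R136.Prn779 (OneBox)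
open Crest.Agent.R136.Rg6_501

/-- level entries `pb`, entries `C_a, C_b, P, X_a, X_b, N` -/
def bxD (pb : Fin 11 → ℝ) (ca cb p xa xb n : ℝ) : Fin 11 → ℝ :=
  ![pb 0, pb 1, pb 2, pb 3, pb 4, ca, cb, p, xa, xb, n]

/-- the profile splits on the boxes `bxD` -/
structure SplitD (Leg : Set (Fin 11 → ℝ)) (ν : (Fin 11 → ℝ) → ℝ) (pb : Fin 11 → ℝ) (R0 a m : ℝ)
    (α β : ℝ → ℝ → ℝ) : Prop where
  leg : ∀ ca cb p xa xb n : ℝ, ca ∈ Set.Icc 0 R0 → cb ∈ Set.Icc 0 R0 → p ∈ Set.Icc 0 R0 →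
    xa ∈ Set.Icc 0 R0 → xb ∈ Set.Icc 0 R0 → n ∈ Set.Icc 0 R0 → bxD pb ca cb p xa xb n ∈ Leg
  eq : ∀ ca cb p xa xb n : ℝ, ca ∈ Set.Icc 0 R0 → cb ∈ Set.Icc 0 R0 → p ∈ Set.Icc 0 R0 →
    xa ∈ Set.Icc 0 R0 → xb ∈ Set.Icc 0 R0 → n ∈ Set.Icc 0 R0 →
    ν (bxD pb ca cb p xa xb n) = ν (bxD pb 0 0 0 0 0 0) - (a * n + m * ca + α xa cb + β xb p)
  α0 : α 0 0 = 0
  β0 : β 0 0 = 0

/-- the evolution of the entries `C_a, C_b, P, X_a, X_b, N` with error `E` -/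
def EvoL (u δ b a E : ℝ) (v w : Fin 11 → ℝ) : Prop :=
  |w 5 - v 5| ≤ E ∧ |w 6 - (v 6 - δ * v 5)| ≤ E ∧ |w 7 - (v 7 - a * v 5 - b * v 6)| ≤ E ∧
  |w 8 - (v 8 + u * v 5)| ≤ E ∧ |w 9 - (v 9 + u * v 6 - δ * (v 8 + u * v 5))| ≤ E ∧
  |w 10 - (v 10 + u * v 7 - a * (v 8 + u * v 5) - b * (v 9 + u * v 6))| ≤ E

/-- the linear window of case (D) -/
structure LinWin (B : Base) (G : ℕ → RCfg (Fin 11)) (x K : ℝ) (pb : Fin 11 → ℝ)
    (e fa fb : ℕ → ℕ → ℝ) : Prop where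
  K1 : 1 ≤ K
  bd : ∀ᶠ n in (U : Filter ℕ), ∀ k ∈ (G n).Z,
    |(G n).z k| ≤ K ∧ |e n k| ≤ K ∧ |fa n k| ≤ K ∧ |fb n k| ≤ K
  one : OneBox G (bxD pb 0 0 0 0 0 0)
  add : ∀ ε : ℝ, 0 < ε → ∀ᶠ n in (U : Filter ℕ), ∀ i j l k, (i, k) ∈ (G n).I →
    (j, k) ∈ (G n).I → (l, k) ∈ (G n).I → ∀ s : Fin 11, 5 ≤ s →
    |(G n).rel k i l s - (G n).rel k i j s - (G n).rel k j l s| ≤ B.d n ^ (x - ε)
  mv : ∀ ε : ℝ, 0 < ε → ∀ᶠ n in (U : Filter ℕ), ∀ i l k k', (i, k) ∈ (G n).I →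
    (l, k) ∈ (G n).I → (i, k') ∈ (G n).I → (l, k') ∈ (G n).I →
    EvoL ((G n).z k' - (G n).z k) (e n k' - e n k) (fb n k' - fb n k)
      (fa n k' - fa n k + e n k * (fb n k' - fb n k)) (B.d n ^ (x - ε))
      ((G n).rel k i l) ((G n).rel k' i l)

theorem bm {x y X Y : ℝ} (hx : |x| ≤ X) (hy : |y| ≤ Y) : |x * y| ≤ X * Y := by
  rw [abs_mul]
  exact mul_le_mul hx hy (abs_nonneg _) ((abs_nonneg _).trans hx)

theorem abs_diff {x y K : ℝ} (hx : |x| ≤ K) (hy : |y| ≤ K) : |x - y| ≤ 2 * K :=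
  (abs_sub _ _).trans (by linarith)

/-- membership in a box `bxD` -/
theorem loose_bxD {G : RCfg (Fin 11)} {pb : Fin 11 → ℝ} {ca cb p xa xb n ε : ℝ} {k i l : ℕ} :
    G.loose (bxD pb ca cb p xa xb n) ε k i l ↔
      ((∀ j : Fin 11, j < 5 → |G.rel k i l j| ≤ G.ρ ^ (pb j - ε)) ∧
      |G.rel k i l 5| ≤ G.ρ ^ (ca - ε) ∧ |G.rel k i l 6| ≤ G.ρ ^ (cb - ε) ∧
      |G.rel k i l 7| ≤ G.ρ ^ (p - ε) ∧ |G.rel k i l 8| ≤ G.ρ ^ (xa - ε) ∧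
      |G.rel k i l 9| ≤ G.ρ ^ (xb - ε) ∧ |G.rel k i l 10| ≤ G.ρ ^ (n - ε)) := by
  constructor
  · intro h
    refine ⟨?_, h 5, h 6, h 7, h 8, h 9, h 10⟩
    intro j hj
    have := h j
    fin_cases j <;> first | exact this | exact absurd hj (by decide)
  · rintro ⟨h0, h5, h6, h7, h8, h9, h10⟩ j
    fin_cases j
    · exact h0 0 (by decide)
    · exact h0 1 (by decide)
    · exact h0 2 (by decide)
    · exact h0 3 (by decide)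
    · exact h0 4 (by decide)
    · exact h5
    · exact h6
    · exact h7
    · exact h8
    · exact h9
    · exact h10

/-- pairs in one box -/
theorem pair_box {κ : Type} {B : Base} {G : ℕ → RCfg κ} {Leg : Set (κ → ℝ)} {ν : (κ → ℝ) → ℝ}
    {D : ℝ} (H : RUnif B G Leg ν D) {p : κ → ℝ} (hp : p ∈ Leg) {ε : ℝ} (hε : 0 < ε) :
    ∀ᶠ n in (U : Filter ℕ), ∀ i0 k, (i0, k) ∈ (G n).I → ∀ i ∈ (G n).box p ε i0 k,
      ∀ i' ∈ (G n).box p ε i0 k, (G n).loose p (D ^ 2 * ε) k i i' := by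
  have hD := H.D1
  filter_upwards [H.symm p hp ε hε, H.tri p hp (D * ε) (by positivity)] with n h1 h2 i0 k hI i hi
    i' hi'
  obtain ⟨a1, a2⟩ := RCfg.mem_box.1 hi
  obtain ⟨b1, b2⟩ := RCfg.mem_box.1 hi'
  have c1 := H.memSlice.1 a1
  have c2 := H.memSlice.1 b1
  have h3 := h2 k i i0 i' c1 hI c2 (h1 k i0 i hI c1 a2)
    (H.loose_mono (fun _ => le_rfl) (by nlinarith) b2)
  have e1 : D * (D * ε) = D ^ 2 * ε := by ring
  rwa [e1] at h3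

/-- bounds of the motion -/
theorem LinWin.mot {B : Base} {G : ℕ → RCfg (Fin 11)} {x K : ℝ} {pb : Fin 11 → ℝ}
    {e fa fb : ℕ → ℕ → ℝ} (hW : LinWin B G x K pb e fa fb) :
    ∀ᶠ n in (U : Filter ℕ), ∀ k ∈ (G n).Z, ∀ k' ∈ (G n).Z,
      |(G n).z k' - (G n).z k| ≤ 2 * K ∧ |e n k' - e n k| ≤ 2 * K ∧ |fb n k' - fb n k| ≤ 2 * K ∧
      |fa n k' - fa n k + e n k * (fb n k' - fb n k)| ≤ 4 * K ^ 2 := by
  have hK := hW.K1
  filter_upwards [hW.bd] with n hb k hk k' hk'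
  obtain ⟨a1, a2, a3, a4⟩ := hb k hk
  obtain ⟨b1, b2, b3, b4⟩ := hb k' hk'
  refine ⟨abs_diff b1 a1, abs_diff b2 a2, abs_diff b4 a4, ?_⟩
  have h1 := bm a2 (abs_diff b4 a4)
  have h2 := abs_diff b3 a3
  refine (abs_add_le _ _).trans ?_
  nlinarith

/-- frozen boxes travel -/
theorem frozen_inT {B : Base} {G : ℕ → RCfg (Fin 11)} {x K : ℝ} {pb : Fin 11 → ℝ}
    {e fa fb : ℕ → ℕ → ℝ} {Leg : Set (Fin 11 → ℝ)} {ν : (Fin 11 → ℝ) → ℝ} {D : ℝ}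
    (H : RUnif B G Leg ν D) (hW : LinWin B G x K pb e fa fb) {y : ℝ} (hyx : y ≤ x) {ε : ℝ}
    (hε : 0 < ε) :
    ∀ᶠ n in (U : Filter ℕ), ∀ k k' i l, (i, k) ∈ (G n).I → (l, k) ∈ (G n).I →
      (i, k') ∈ (G n).I → (l, k') ∈ (G n).I → (G n).loose (bxD pb y y 0 y 0 0) ε k i l →
      (G n).loose (bxD pb y y 0 y 0 0) (2 * ε) k' i l := by
  have hK := hW.K1
  filter_upwards [hW.mot, hW.mv ε hε, hW.one (2 * ε) (by positivity),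
    ev_const_le B hε (2 + 2 * K)] with n hmot hmv hone hc k k' i l h1 h2 h3 h4 hl
  have hk : k ∈ (G n).Z := H.memZ h1
  have hk' : k' ∈ (G n).Z := H.memZ h3
  obtain ⟨m1, m2, m3, m4⟩ := hmot k hk k' hk'
  obtain ⟨e5, e6, e7, e8, e9, e10⟩ := hmv i l k k' h1 h2 h3 h4
  obtain ⟨l0, l5, l6, l7, l8, l9, l10⟩ := loose_bxD.1 hl
  obtain ⟨o0, o5, o6, o7, o8, o9, o10⟩ := loose_bxD.1 (hone i l k' h3 h4)
  rw [H.base n] at l5 l6 l8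
  have hxy : B.d n ^ (x - ε) ≤ B.d n ^ (y - ε) := rpow_anti B n (by linarith)
  have hp : 0 < B.d n ^ (y - ε) := rpos B n _
  have hfin : (2 + 2 * K) * B.d n ^ (y - ε) ≤ (G n).ρ ^ (y - 2 * ε) := by
    rw [H.base n]
    have e1 : B.d n ^ (y - 2 * ε) = B.d n ^ (-ε) * B.d n ^ (y - ε) := by
      rw [← rpow_add']; congr 1; ring
    rw [e1]
    exact mul_le_mul_of_nonneg_right hc hp.le
  have q1 := bm m2 l5
  have q2 := bm m1 l5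
  have hKp : 0 ≤ 2 * K * B.d n ^ (y - ε) := by positivity
  refine loose_bxD.2 ⟨o0, le_trans ?_ hfin, le_trans ?_ hfin, o7, le_trans ?_ hfin, o9, o10⟩
  · rw [abs_le] at e5 l5 ⊢
    constructor <;> linarith [e5.1, e5.2, l5.1, l5.2]
  · rw [abs_le] at e6 l6 q1 ⊢
    constructor <;> linarith [e6.1, e6.2, l6.1, l6.2, q1.1, q1.2]
  · rw [abs_le] at e8 l8 q2 ⊢
    constructor <;> linarith [e8.1, e8.2, l8.1, l8.2, q2.1, q2.2]

end Crest.Agent.R136.Xd272
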