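import Crest.Agent.R136.C2w_400
import Crest.Agent.R136.Xd7_272

/-!
# R136, case (D2): the linear window of helper272 in a window of helper413's `AeW`, level slots
`{z, E, F_b, F_a}` (helper113)

* `WinL`, `winL_of_wat` : the window; `legW_bxD`, `nu_bxD` : legality and values;
* `lin_of_win` : `LinWin` (evolution and equal-height law); `LinWin.mono_x`;
* `linWin_of_wat` : pruned set, model, `LinWin`, raw twist, from `WAt`, static data
  `stQ {0, 2, 3, 4} K T Ma`;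
* `splitD_of_out` : `SplitD` from the splitting into groups.
-/

set_option autoImplicit false
set_option linter.unusedSectionVars false
set_option linter.unusedVariables false

open Filter Topology

namespace Crest.Agent.R136.LW113

open Finset Crest.Agent.R136.NetQ186 Crest.Agent.R136.Net191 Crest.Agent.R136.Qg926
open Crest.Agent.R136.Gf356 Crest.Agent.R136.Ev356 Crest.Agent.R136.Aw413
open Crest.Agent.R136.Wq400 Crest.Agent.R136.C2355 Crest.Agent.R136.Fe1355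
open Crest.Agent.R136.Xd272 Crest.Agent.R136.Dg219
open Crest.Agent.R138.Ex926 (Base U)

/-- the entries of the level slots in `bxD` -/
def pbT (T : ℝ) : Fin 11 → ℝ := ![T, 0, T, T, T, 0, 0, 0, 0, 0, 0]

/-- the box `bxD` with the level slots at `T` -/
def bxT (T ca cb p xa xb n : ℝ) : Fin 11 → ℝ := ![T, 0, T, T, T, ca, cb, p, xa, xb, n]

theorem bxD_pbT (T ca cb p xa xb n : ℝ) : bxD (pbT T) ca cb p xa xb n = bxT T ca cb p xa xb n := by
  funext j
  fin_cases j <;> simp [bxD, pbT, bxT]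

theorem cut_bxT (T ca cb p xa xb n : ℝ) :
    cut {0, 2, 3, 4} (bxT T ca cb p xa xb n) (fun _ => T) = bxT T ca cb p xa xb n := by
  funext j
  fin_cases j <;> simp [cut, bxT]

theorem bxT_legal {T ca cb p xa xb n : ℝ} (hT : 0 ≤ T) (ca0 : 0 ≤ ca) (ca1 : ca ≤ T)
    (cb0 : 0 ≤ cb) (cb1 : cb ≤ T) (p0 : 0 ≤ p) (p1 : p ≤ T) (xa0 : 0 ≤ xa) (xa1 : xa ≤ T)
    (xb0 : 0 ≤ xb) (xb1 : xb ≤ T) (n0 : 0 ≤ n) (n1 : n ≤ T) :
    Legal monQ (bxT T ca cb p xa xb n) ∧ ∀ s, bxT T ca cb p xa xb n s ≤ T := by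
  refine ⟨legalQ_iff.2 ⟨?_, ?_, ?_, ?_, ?_, ?_, ?_, ?_, ?_, ?_, ?_, ?_⟩, ?_⟩
  · intro s; fin_cases s <;> simp [bxT] <;> assumption
  · simp [bxT]; linarith
  · simp [bxT]; linarith
  · simp [bxT]; linarith
  · simp [bxT]; linarith
  · simp [bxT]; linarith
  · simp [bxT]; linarith
  · simp [bxT]; linarith
  · simp [bxT]; linarith
  · simp [bxT]; linarith
  · simp [bxT]; linarith
  · simp [bxT]; linarith
  · intro s; fin_cases s <;> simp [bxT] <;> assumption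

variable {ι : ℕ → Type*} [∀ n, DecidableEq (ι n)] {W : Wnd 11 ι} {f : ∀ n, ι n → Fq4}
  {E : ∀ n, Finset (ι n)} {T K : ℝ}

/-- a window with level slots `{z, E, F_b, F_a}` in natural position -/
structure WinL (W : Wnd 11 ι) (K T : ℝ) : Prop where
  kz : W.kz = 0
  S : W.S = {0, 2, 3, 4}
  top : W.top = fun _ => T
  R' : W.R' = T
  kap : W.kap = kapQ K
  K0 : W.K0 ≤ K
  T0 : 0 < T
  mons : ∀ k, W.Mw.mon k ⊆ monQ.mon k
  tight : TightQ W

theorem legW_bxD (hw : WinL W K T) {ca cb p xa xb n : ℝ} (ca0 : 0 ≤ ca) (ca1 : ca ≤ T)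
    (cb0 : 0 ≤ cb) (cb1 : cb ≤ T) (p0 : 0 ≤ p) (p1 : p ≤ T) (xa0 : 0 ≤ xa) (xa1 : xa ≤ T)
    (xb0 : 0 ≤ xb) (xb1 : xb ≤ T) (n0 : 0 ≤ n) (n1 : n ≤ T) :
    bxD (pbT T) ca cb p xa xb n ∈ W.legW := by
  obtain ⟨h1, h2⟩ := bxT_legal hw.T0.le ca0 ca1 cb0 cb1 p0 p1 xa0 xa1 xb0 xb1 n0 n1
  rw [bxD_pbT]
  refine ⟨?_, fun s hs => ?_⟩
  · rw [hw.S, hw.top, cut_bxT, hw.R']
    exact ⟨legal_sub hw.mons h1, h2⟩
  · rw [hw.top]
    exact h2 s

theorem nu_bxD (hw : WinL W K T) (ca cb p xa xb n : ℝ) :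
    W.nu (bxD (pbT T) ca cb p xa xb n) = W.lam (bxT T ca cb p xa xb n) - W.lam fun _ => T := by
  unfold Wnd.nu
  rw [hw.S, hw.top, bxD_pbT, cut_bxT]

/-- **evolution** -/
theorem mvL (h : QWnd W f)
    (hc : ∀ᶠ n in (U : Filter ℕ), W.Good n ∧ E n ⊆ W.Cl n ∧ W.cfg E n = W.cfg0 n (E n))
    (hw : WinL W K T) {ε : ℝ} (hε : 0 < ε) :
    ∀ᶠ n in (U : Filter ℕ), ∀ i l k k', (i, k) ∈ (W.cfg E n).I →
      (l, k) ∈ (W.cfg E n).I → (i, k') ∈ (W.cfg E n).I → (l, k') ∈ (W.cfg E n).I →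
      EvoL ((W.cfg E n).z k' - (W.cfg E n).z k) (flg W n k' 2 - flg W n k 2)
        (flg W n k' 3 - flg W n k 3)
        (flg W n k' 4 - flg W n k 4 + flg W n k 2 * (flg W n k' 3 - flg W n k 3))
        (W.B'.d n ^ (T - ε)) ((W.cfg E n).rel k i l) ((W.cfg E n).rel k' i l) := by
  have hK : 0 < K := by linarith [h.ok.K0_one, hw.K0]
  have h0S : (0 : Fin 11) ∈ W.S := by rw [hw.S]; decide
  have h2S : (2 : Fin 11) ∈ W.S := by rw [hw.S]; decide
  have h3S : (3 : Fin 11) ∈ W.S := by rw [hw.S]; decide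
  have h4S : (4 : Fin 11) ∈ W.S := by rw [hw.S]; decide
  have ht : ∀ s, T ≤ W.top s := fun s => by rw [hw.top]
  have hM := h.MW_one
  set M := MW W with hMW
  set Cg : ℝ := W.kap 0 * W.kap 1 / W.kap 7 with hCg
  have hCg0 : 0 ≤ Cg := (div_pos (mul_pos (h.ok.kap 0) (h.ok.kap 1)) (h.ok.kap 7)).le
  set KK : ℝ := CE W + 2 * (Cg * M ^ 3) with hKK
  have hCE0 : 0 ≤ CE W := (h.CE_le 0).2.2
  filter_upwards [hc, h.rel_MW hc, h.mot_eq hc, h.z_eq hw.kz hc, h.evoR hc h0S ht,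
    cf01 h hw.tight T, ev_const_le W.B' hε KK] with n hn hrel hmot hz hev hcf01 hKKn
  obtain ⟨g, hE, hcfg⟩ := hn
  obtain ⟨c234, c256, c457, c367, c058, c069, c289, c0710, c4810, c3910⟩ :=
    cfQ h hw.tight hK hw.kap n
  intro i i' k₀ k hi0 hi0' hi hi'
  have hk0Z : k₀ ∈ (W.cfg E n).Z := by
    rw [hcfg] at hi0 ⊢
    exact mem_image.2 (by obtain ⟨u, hu, -, h6⟩ := mem_cfg0 hi0; exact ⟨u, hu, h6⟩)
  have hkZ : k ∈ (W.cfg E n).Z := by
    rw [hcfg] at hi ⊢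
    exact mem_image.2 (by obtain ⟨u, hu, -, h6⟩ := mem_cfg0 hi; exact ⟨u, hu, h6⟩)
  obtain ⟨r1, r2, r3, r4⟩ := hrel
  set d := W.B'.d n with hd
  have hd0 : 0 < d := W.B'.pos n
  have hpow : ∀ t : ℝ, 0 < d ^ t := fun t => Real.rpow_pos_of_pos hd0 t
  have e2ε : d ^ (-ε) * d ^ T = d ^ (T - ε) := by
    rw [← Real.rpow_add hd0]; congr 1; ring
  have fin : ∀ {x K' : ℝ}, |x| ≤ K' * d ^ T → K' ≤ KK → |x| ≤ d ^ (T - ε) := by
    intro x K' hx hK'
    refine hx.trans ?_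
    rw [← e2ε]
    exact mul_le_mul_of_nonneg_right (hK'.trans hKKn) (hpow _).le
  have hM0 : 0 ≤ M := by linarith
  have hCM : 0 ≤ Cg * M ^ 3 := by positivity
  have b1 : ∀ s, |(W.cfg E n).rel k₀ i i' s| ≤ M := r1 k₀ i i' hi0 hi0'
  have f2 : fsl W n i k₀ 2 = 0 := by unfold fsl; rw [if_pos h2S]
  have f3 : fsl W n i k₀ 3 = 0 := by unfold fsl; rw [if_pos h3S]
  have hmt : ∀ s : Fin 11, s = 0 ∨ s = 2 ∨ s = 3 → mot W n k₀ k s = flg W n k s - flg W n k₀ s := by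
    intro s hs
    unfold mot
    rw [if_pos (by rcases hs with rfl | rfl | rfl <;> assumption)]
    exact (hmot k₀ hk0Z k hkZ).1 s hs
  have m0 : own W n k₀ k (fsl W n i k₀ 2) (fsl W n i k₀ 3) 0 =
      (W.cfg E n).z k - (W.cfg E n).z k₀ := by
    unfold own
    rw [if_neg (by decide), hz k, hz k₀]
    exact hmt 0 (by simp)
  have m2 : own W n k₀ k (fsl W n i k₀ 2) (fsl W n i k₀ 3) 2 = flg W n k 2 - flg W n k₀ 2 := by
    unfold own
    rw [if_neg (by decide)]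
    exact hmt 2 (by simp)
  have m3 : own W n k₀ k (fsl W n i k₀ 2) (fsl W n i k₀ 3) 3 = flg W n k 3 - flg W n k₀ 3 := by
    unfold own
    rw [if_neg (by decide)]
    exact hmt 3 (by simp)
  have m4 : own W n k₀ k (fsl W n i k₀ 2) (fsl W n i k₀ 3) 4 =
      flg W n k 4 - flg W n k₀ 4 + flg W n k₀ 2 * (flg W n k 3 - flg W n k₀ 3) := by
    unfold own
    rw [if_pos rfl, if_pos h4S, f2, f3, (hmot k₀ hk0Z k hkZ).2, hmt 3 (by simp), hmt 2 (by simp),
      (hmot k₀ hk0Z k hkZ).1 3 (by simp), c234]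
    ring
  have m0b : |own W n k₀ k (fsl W n i k₀ 2) (fsl W n i k₀ 3) 0| ≤ M := by
    unfold own
    rw [if_neg (by decide)]
    exact r3 k₀ hk0Z k hkZ 0
  rw [← m0, ← m4, ← m2, ← m3]
  set a := own W n k₀ k (fsl W n i k₀ 2) (fsl W n i k₀ 3) with ha
  set b := (W.cfg E n).rel k₀ i i' with hb
  have hE' : ∀ s, s ∉ W.S → |(W.cfg E n).rel k i i' s - evoG W n a b s| ≤ CE W * d ^ T :=
    fun s hs => hev k₀ k i i' hi0 hi hi0' hi' s hs
  have hcE : CE W ≤ KK := by rw [hKK]; linarith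
  have hc01 : |a 0 * b 1 * cf W n 0 1 7| ≤ Cg * M ^ 2 * d ^ T := by
    rw [abs_mul, abs_mul]
    calc |a 0| * |b 1| * |cf W n 0 1 7| ≤ M * M * (Cg * d ^ T) :=
          mul_le_mul (mul_le_mul m0b (b1 1) (abs_nonneg _) hM0) hcf01 (abs_nonneg _)
            (by positivity)
      _ = Cg * M ^ 2 * d ^ T := by ring
  have hM23 : Cg * M ^ 2 * d ^ T ≤ Cg * M ^ 3 * d ^ T := by
    have : M ^ 2 ≤ M ^ 3 := pow_le_pow_right₀ hM (by norm_num)
    exact mul_le_mul_of_nonneg_right (mul_le_mul_of_nonneg_left this hCg0) (hpow _).le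
  refine ⟨?_, ?_, ?_, ?_, ?_, ?_⟩
  · have := hE' 5 (by rw [hw.S]; decide)
    have e : evoG W n a b 5 = b 5 := by simp [evoG, evoN]
    rw [e] at this
    exact fin this hcE
  · have := hE' 6 (by rw [hw.S]; decide)
    have e : evoG W n a b 6 = b 6 - a 2 * b 5 := by
      simp only [evoG, evoN]
      rw [if_neg (by decide)]
      simp only [Matrix.cons_val]
      rw [c256]; ring
    rw [e] at this
    exact fin this hcE
  · have := hE' 7 (by rw [hw.S]; decide)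
    have e : evoG W n a b 7 = b 7 - a 4 * b 5 - a 3 * b 6 + 2 * (a 0 * b 1 * cf W n 0 1 7) := by
      simp only [evoG, evoN]
      rw [if_neg (by decide)]
      simp only [Matrix.cons_val]
      rw [c457, c367]; ring
    rw [e] at this
    refine fin (K' := CE W + 2 * (Cg * M ^ 3)) ?_ (by rw [hKK])
    have e2 : (W.cfg E n).rel k i i' 7 - (b 7 - a 4 * b 5 - a 3 * b 6) =
      ((W.cfg E n).rel k i i' 7 -
        (b 7 - a 4 * b 5 - a 3 * b 6 + 2 * (a 0 * b 1 * cf W n 0 1 7))) +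
        2 * (a 0 * b 1 * cf W n 0 1 7) := by ring
    rw [e2]
    have e3 := abs_add_le ((W.cfg E n).rel k i i' 7 -
      (b 7 - a 4 * b 5 - a 3 * b 6 + 2 * (a 0 * b 1 * cf W n 0 1 7)))
      (2 * (a 0 * b 1 * cf W n 0 1 7))
    have e4 : |2 * (a 0 * b 1 * cf W n 0 1 7)| = 2 * |a 0 * b 1 * cf W n 0 1 7| := by
      rw [abs_mul, abs_two]
    rw [e4] at e3
    linarith
  · have := hE' 8 (by rw [hw.S]; decide)
    have e : evoG W n a b 8 = b 8 + a 0 * b 5 := by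
      simp only [evoG, evoN]
      rw [if_neg (by decide)]
      simp only [Matrix.cons_val]
      rw [c058]; ring
    rw [e] at this
    exact fin this hcE
  · have := hE' 9 (by rw [hw.S]; decide)
    have e : evoG W n a b 9 = b 9 + a 0 * b 6 - a 2 * (b 8 + a 0 * b 5) := by
      simp only [evoG, evoN]
      rw [if_neg (by decide)]
      simp only [Matrix.cons_val]
      rw [c069, c289, c058]; ring
    rw [e] at this
    exact fin this hcE
  · have := hE' 10 (by rw [hw.S]; decide)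
    have e : evoG W n a b 10 = b 10 + a 0 * b 7 - a 4 * (b 8 + a 0 * b 5) -
        a 3 * (b 9 + a 0 * b 6) + a 0 * (a 0 * b 1 * cf W n 0 1 7) := by
      simp only [evoG, evoN]
      rw [if_neg (by decide)]
      simp only [Matrix.cons_val]
      rw [c0710, c3910, c4810, c069, c058]; ring
    rw [e] at this
    refine fin (K' := CE W + Cg * M ^ 3) ?_ (by rw [hKK]; linarith)
    have e2 : (W.cfg E n).rel k i i' 10 - (b 10 + a 0 * b 7 - a 4 * (b 8 + a 0 * b 5) -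
        a 3 * (b 9 + a 0 * b 6)) =
      ((W.cfg E n).rel k i i' 10 - (b 10 + a 0 * b 7 - a 4 * (b 8 + a 0 * b 5) -
        a 3 * (b 9 + a 0 * b 6) + a 0 * (a 0 * b 1 * cf W n 0 1 7))) +
        a 0 * (a 0 * b 1 * cf W n 0 1 7) := by ring
    rw [e2]
    have e3 := abs_add_le ((W.cfg E n).rel k i i' 10 - (b 10 + a 0 * b 7 -
      a 4 * (b 8 + a 0 * b 5) - a 3 * (b 9 + a 0 * b 6) + a 0 * (a 0 * b 1 * cf W n 0 1 7)))
      (a 0 * (a 0 * b 1 * cf W n 0 1 7))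
    have e4 : |a 0 * (a 0 * b 1 * cf W n 0 1 7)| ≤ Cg * M ^ 3 * d ^ T := by
      rw [abs_mul]
      calc |a 0| * |a 0 * b 1 * cf W n 0 1 7| ≤ M * (Cg * M ^ 2 * d ^ T) :=
            mul_le_mul m0b hc01 (abs_nonneg _) hM0
        _ = Cg * M ^ 3 * d ^ T := by ring
    linarith

/-- **equal-height law**: the chart is additive -/
theorem addL (h : QWnd W f)
    (hc : ∀ᶠ n in (U : Filter ℕ), W.Good n ∧ E n ⊆ W.Cl n ∧ W.cfg E n = W.cfg0 n (E n))
    (hw : WinL W K T) {ε : ℝ} (hε : 0 < ε) :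
    ∀ᶠ n in (U : Filter ℕ), ∀ i j l k, (i, k) ∈ (W.cfg E n).I →
      (j, k) ∈ (W.cfg E n).I → (l, k) ∈ (W.cfg E n).I → ∀ s : Fin 11, 5 ≤ s →
      |(W.cfg E n).rel k i l s - (W.cfg E n).rel k i j s - (W.cfg E n).rel k j l s| ≤
        W.B'.d n ^ (T - ε) := by
  have h0S : (0 : Fin 11) ∈ W.S := by rw [hw.S]; decide
  have h2S : (2 : Fin 11) ∈ W.S := by rw [hw.S]; decide
  have h3S : (3 : Fin 11) ∈ W.S := by rw [hw.S]; decide
  have h4S : (4 : Fin 11) ∈ W.S := by rw [hw.S]; decide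
  have ht : ∀ s, T ≤ W.top s := fun s => by rw [hw.top]
  filter_upwards [hc, h.compR hc h0S ht, ev_const_le W.B' hε (CE W)] with n hn hcp hCE
  obtain ⟨g, hE, hcfg⟩ := hn
  intro i j l k h1 h2 h3 s hs
  have hd0 : 0 < W.B'.d n := W.B'.pos n
  have e2ε : W.B'.d n ^ (-ε) * W.B'.d n ^ T = W.B'.d n ^ (T - ε) := by
    rw [← Real.rpow_add hd0]; congr 1; ring
  have fin : ∀ {x : ℝ}, |x| ≤ CE W * W.B'.d n ^ T → |x| ≤ W.B'.d n ^ (T - ε) := by
    intro x hx
    refine hx.trans ?_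
    rw [← e2ε]
    exact mul_le_mul_of_nonneg_right hCE (Real.rpow_nonneg hd0.le _)
  have hzero : ∀ s ∈ W.S, ∀ k i i', (W.cfg E n).rel k i i' s = 0 := by
    intro s hs k i i'
    rw [hcfg, rel_cfg0, if_pos hs]
  set b := (W.cfg E n).rel k i j with hb
  set c := (W.cfg E n).rel k j l with hcc
  have b2 : b 2 = 0 := hzero 2 h2S k i j
  have b3 : b 3 = 0 := hzero 3 h3S k i j
  have b4 : b 4 = 0 := hzero 4 h4S k i j
  have hsS : s ∉ W.S := by
    rw [hw.S]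
    revert hs
    fin_cases s <;> decide
  have key := hcp k i j l h1 h2 h3 s hsS
  have e : compN W n b c s = b s + c s := by
    have hs' : s = 5 ∨ s = 6 ∨ s = 7 ∨ s = 8 ∨ s = 9 ∨ s = 10 := by
      revert hs
      fin_cases s <;> decide
    rcases hs' with rfl | rfl | rfl | rfl | rfl | rfl
    · simp only [compN, Matrix.cons_val]
    · simp only [compN, Matrix.cons_val]; rw [b2]; ring
    · simp only [compN, Matrix.cons_val]; rw [b2, b3, b4]; ring
    · simp only [compN, Matrix.cons_val]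
    · simp only [compN, Matrix.cons_val]; rw [b2]; ring
    · simp only [compN, Matrix.cons_val]; rw [b2, b3, b4]; ring
  rw [e] at key
  rw [sub_sub]
  exact fin key

/-- **the linear window** -/
theorem lin_of_win (h : QWnd W f)
    (hc : ∀ᶠ n in (U : Filter ℕ), W.Good n ∧ E n ⊆ W.Cl n ∧ W.cfg E n = W.cfg0 n (E n))
    (hw : WinL W K T) {Leg : Set (Fin 11 → ℝ)} {ν : (Fin 11 → ℝ) → ℝ} {D : ℝ}
    (H : RUnif W.B' (W.cfg E) Leg ν D) :
    LinWin W.B' (W.cfg E) T 1 (pbT T) (fun n k => flg W n k 2) (fun n k => flg W n k 4)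
      (fun n k => flg W n k 3) where
  K1 := le_rfl
  bd := (bdQ h hc hw.kz hw.K0 hw.kap).mono fun n hn k hk =>
    ⟨(hn k hk).1, (hn k hk).2 2, (hn k hk).2 4, (hn k hk).2 3⟩
  one := fun ε hε => by
    filter_upwards [hc, h.rel_MW hc, ev_const_le W.B' hε (MW W)] with n hn hr h2 i l k h3 h4
    obtain ⟨g, hE, hcfg⟩ := hn
    have hd0 : 0 < W.B'.d n := W.B'.pos n
    have hS : ∀ s ∈ W.S, |(W.cfg E n).rel k i l s| ≤ W.B'.d n ^ (pbT T s - ε) := by
      intro s hs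
      have : (W.cfg E n).rel k i l s = 0 := by rw [hcfg, rel_cfg0, if_pos hs]
      rw [this, abs_zero]
      exact (Real.rpow_pos_of_pos hd0 _).le
    have hN : ∀ s, |(W.cfg E n).rel k i l s| ≤ W.B'.d n ^ (0 - ε) := by
      intro s
      rw [zero_sub]
      exact (hr.1 k i l h3 h4 s).trans h2
    refine loose_bxD.2 ?_
    rw [H.base n]
    refine ⟨?_, hN 5, hN 6, hN 7, hN 8, hN 9, hN 10⟩
    intro j hj
    by_cases hjS : j ∈ W.S
    · exact hS j hjS
    · have hj1 : j = 1 := by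
        rw [hw.S] at hjS
        revert hj hjS
        fin_cases j <;> decide
      subst hj1
      have : pbT T 1 = 0 := by simp [pbT]
      rw [this]
      exact hN 1
  add := fun ε hε => addL h hc hw hε
  mv := fun ε hε => mvL h hc hw hε

/-- coarser precision -/
theorem LinWin.mono_x {B : Base} {G : ℕ → RCfg (Fin 11)} {x x' K : ℝ} {pb : Fin 11 → ℝ}
    {e fa fb : ℕ → ℕ → ℝ} (h : LinWin B G x K pb e fa fb) (hx : x' ≤ x) :
    LinWin B G x' K pb e fa fb where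
  K1 := h.K1
  bd := h.bd
  one := h.one
  add := fun ε hε => by
    filter_upwards [h.add ε hε] with n hn i j l k h1 h2 h3 s hs
    refine (hn i j l k h1 h2 h3 s hs).trans ?_
    exact Real.rpow_le_rpow_of_exponent_ge (B.pos n) (B.lt n).le (by linarith)
  mv := fun ε hε => by
    filter_upwards [h.mv ε hε] with n hn i l k k' h1 h2 h3 h4
    obtain ⟨g1, g2, g3, g4, g5, g6⟩ := hn i l k k' h1 h2 h3 h4
    have hle : B.d n ^ (x - ε) ≤ B.d n ^ (x' - ε) :=
      Real.rpow_le_rpow_of_exponent_ge (B.pos n) (B.lt n).le (by linarith)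
    exact ⟨g1.trans hle, g2.trans hle, g3.trans hle, g4.trans hle, g5.trans hle, g6.trans hle⟩

section wat

variable {B : Base} {I : ∀ n, Finset (ι n)} {co : ∀ n, ι n → ι n → Fin 11 → ℝ} {Ma : Mons 11}
  {C : ℝ} {lam : (Fin 11 → ℝ) → ℝ} {V Tw : Fin 11 → Prop}

theorem winL_of_wat (h : WAt B I co monQ Ma C lam V Tw (stQ {0, 2, 3, 4} K T Ma) W)
    (hM : MaQ Ma) (hsub : ∀ k, Ma.mon k ⊆ monQ.mon k) (hK : cK0 monQ C ≤ K) (hT : 0 < T) :
    WinL W K T where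
  kz := h.ekz
  S := h.eS
  top := h.etop
  R' := h.eR
  kap := h.ekap
  K0 := by
    unfold Wnd.K0
    rw [h.eM, h.eC]; exact hK
  T0 := hT
  mons := by rw [h.eMw]; exact hsub
  tight := tightQ_of_wat h hM

/-- the narrow direction `e_s`, `s = E, F_b`, is legal -/
theorem single_legal {T : ℝ} (hT : 0 ≤ T) {s : Fin 11} (hs : s = 2 ∨ s = 3) :
    Legal monQ (cut {0, 2, 3, 4} (fun _ => T) (Pi.single s T)) ∧
      ∀ j, cut {0, 2, 3, 4} (fun _ => T) (Pi.single s T) j ≤ T := by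
  rcases hs with rfl | rfl
  · refine ⟨legalQ_iff.2 ⟨?_, ?_, ?_, ?_, ?_, ?_, ?_, ?_, ?_, ?_, ?_, ?_⟩, ?_⟩
    · intro s; fin_cases s <;> simp [cut] <;> exact hT
    all_goals first
      | (intro s; fin_cases s <;> simp [cut] <;> exact hT)
      | (simp [cut] <;> linarith)
  · refine ⟨legalQ_iff.2 ⟨?_, ?_, ?_, ?_, ?_, ?_, ?_, ?_, ?_, ?_, ?_, ?_⟩, ?_⟩
    · intro s; fin_cases s <;> simp [cut] <;> exact hT
    all_goals first
      | (intro s; fin_cases s <;> simp [cut] <;> exact hT)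
      | (simp [cut] <;> linarith)

/-- **the linear window at a window of `AeW`** : pruned set, model, `LinWin`, raw twist of `E` and
`F_b` -/
theorem linWin_of_wat (h : WAt B I co monQ Ma C lam V Tw (stQ {0, 2, 3, 4} K T Ma) W)
    (hco : ∀ n, ∀ i ∈ I n, ∀ j ∈ I n, co n i j = coQ (f n i) (f n j))
    (hM : MaQ Ma) (hsub : ∀ k, Ma.mon k ⊆ monQ.mon k) (hK : cK0 monQ C ≤ K) (hT : 0 < T)
    (hV : ∀ k, V k → k = 0 ∨ k = 2 ∨ k = 3 ∨ k = 4) {σ : ℝ}
    (hden : (stQ {0, 2, 3, 4} K T Ma).Dens lam σ T) :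
    ∃ (E' : ∀ n, Finset (ι n)),
      RModel W.B' (W.cfg E') σ T W.legW W.nu W.Dc ∧
      LinWin W.B' (W.cfg E') T 1 (pbT T) (fun n k => flg W n k 2) (fun n k => flg W n k 4)
        (fun n k => flg W n k 3) ∧
      (Tw 2 → RawTw W.B' (W.cfg E') (fun n k k' => flg W n k' 2 - flg W n k 2)) ∧
      (Tw 3 → RawTw W.B' (W.cfg E') (fun n k k' => flg W n k' 3 - flg W n k 3)) := by
  obtain ⟨E', g, hP, -, H, htw⟩ := h.model (σ' := σ) (R := T) hden (fun _ _ _ => 0)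
    (g₀ := fun n => n) (tendsto_natCast_atTop_atTop.mono_left
      Crest.Agent.R138.Ex926.U_le_atTop) (fun k hk => by
      left
      show k ∈ ({0, 2, 3, 4} : Finset (Fin 11))
      rcases hV k hk with rfl | rfl | rfl | rfl <;> decide)
  have hw := winL_of_wat h hM hsub hK hT
  have hq : QWnd W f := qwnd_of_wat h hco (by
    show ∀ s ∈ ({0, 2, 3, 4} : Finset (Fin 11)), _
    decide)
  have hc := hcQ hq hP
  have tw : ∀ s : Fin 11, s = 2 ∨ s = 3 → Tw s →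
      RawTw W.B' (W.cfg E') (fun n k k' => flg W n k' s - flg W n k s) := by
    intro s hs hTs
    refine C2w400.rawTw_of_rawL hq hc (s := s) (by
      rw [hw.S]; rcases hs with rfl | rfl <;> decide) (by tauto) hT (by rw [hw.top]) ?_
    refine htw s (by
      show s ∈ ({0, 2, 3, 4} : Finset (Fin 11))
      rcases hs with rfl | rfl <;> decide) hTs hT ⟨T, hT, ?_⟩
    show cut {0, 2, 3, 4} (fun _ => T) (Pi.single s T) ∈ coneM Ma
    exact leg_cone (R := T) (Mw := Ma) (fun k => Finset.Subset.refl _)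
      ⟨legal_sub hsub (single_legal hT.le hs).1, (single_legal hT.le hs).2⟩
  exact ⟨E', H, lin_of_win hq hc hw H.toRUnif, fun h2 => tw 2 (Or.inl rfl) h2,
    fun h3 => tw 3 (Or.inr rfl) h3⟩

end wat

/-! ### the profile splits -/

/-- the boxes are directions of the cone -/
theorem bxT_cone {Ma : Mons 11} (hsub : ∀ k, Ma.mon k ⊆ monQ.mon k)
    {T ca cb p xa xb n : ℝ} (hT : 0 ≤ T) (ca0 : 0 ≤ ca) (ca1 : ca ≤ T)
    (cb0 : 0 ≤ cb) (cb1 : cb ≤ T) (p0 : 0 ≤ p) (p1 : p ≤ T) (xa0 : 0 ≤ xa) (xa1 : xa ≤ T)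
    (xb0 : 0 ≤ xb) (xb1 : xb ≤ T) (n0 : 0 ≤ n) (n1 : n ≤ T) :
    bxT T ca cb p xa xb n ∈ coneM Ma := by
  obtain ⟨h1, h2⟩ := bxT_legal hT ca0 ca1 cb0 cb1 p0 p1 xa0 xa1 xb0 xb1 n0 n1
  exact leg_cone (R := T) (Mw := Ma) (fun k => Finset.Subset.refl _) ⟨legal_sub hsub h1, h2⟩

/-- **the profile splits**, from the splitting into groups: `{N}`, `{C_a}` are groups,
`{C_b, X_a}` and `{P, X_b}` are unions of groups (up to the slot `R`) -/
theorem split_lam {grp : Fin 11 → ℕ} {L : Set (Fin 11 → ℝ)} {dh : Fin 11 → ℝ} {nn : ℕ → ℝ × ℝ}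
    {lam : (Fin 11 → ℝ) → ℝ} {A : ℝ × ℝ} {φ : ℕ → (Fin 11 → ℝ) → ℝ} {r : ℕ → ℝ}
    (h : OutS grp L dh nn lam A φ r) {T : ℝ}
    (hL : ∀ ca cb p xa xb n : ℝ, ca ∈ Set.Icc 0 T → cb ∈ Set.Icc 0 T → p ∈ Set.Icc 0 T →
      xa ∈ Set.Icc 0 T → xb ∈ Set.Icc 0 T → n ∈ Set.Icc 0 T → bxT T ca cb p xa xb n ∈ L)
    (hT : 0 ≤ T)
    (h10 : ∀ i, grp i = grp 10 → i = 10) (h5 : ∀ i, grp i = grp 5 → i = 5)
    (h68 : ∀ i, grp i = grp 6 ∨ grp i = grp 8 → i = 6 ∨ i = 8 ∨ i = 1)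
    (h79 : ∀ i, grp i = grp 7 ∨ grp i = grp 9 → i = 7 ∨ i = 9 ∨ i = 1)
    (d10 : dh 10 ≠ 0) (d5 : dh 5 ≠ 0)
    {ca cb p xa xb n : ℝ} (hca : ca ∈ Set.Icc 0 T) (hcb : cb ∈ Set.Icc 0 T)
    (hp : p ∈ Set.Icc 0 T) (hxa : xa ∈ Set.Icc 0 T) (hxb : xb ∈ Set.Icc 0 T)
    (hn : n ∈ Set.Icc 0 T) :
    lam (bxT T ca cb p xa xb n) = lam (bxT T 0 0 0 0 0 0) -
      (r (grp 10) / dh 10 * n + r (grp 5) / dh 5 * ca +
        (lam (bxT T 0 0 0 0 0 0) - lam (bxT T 0 cb 0 xa 0 0)) +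
        (lam (bxT T 0 0 0 0 0 0) - lam (bxT T 0 0 p 0 xb 0))) := by
  have z0 : (0 : ℝ) ∈ Set.Icc 0 T := ⟨le_rfl, hT⟩
  set c := bxT T ca cb p xa xb n with hc
  set c0 := bxT T 0 0 0 0 0 0 with hc0
  set cA := bxT T 0 cb 0 xa 0 0 with hcA
  set cB := bxT T 0 0 p 0 xb 0 with hcB
  set c5 := bxT T ca 0 0 0 0 0 with hc5
  set c10 := bxT T 0 0 0 0 0 n with hc10
  have Lc : c ∈ L := hL _ _ _ _ _ _ hca hcb hp hxa hxb hn
  have L0 : c0 ∈ L := hL _ _ _ _ _ _ z0 z0 z0 z0 z0 z0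
  have LA : cA ∈ L := hL _ _ _ _ _ _ z0 hcb z0 hxa z0 z0
  have LB : cB ∈ L := hL _ _ _ _ _ _ z0 z0 hp z0 hxb z0
  have L5 : c5 ∈ L := hL _ _ _ _ _ _ hca z0 z0 z0 z0 z0
  have L10 : c10 ∈ L := hL _ _ _ _ _ _ z0 z0 z0 z0 z0 hn
  -- values of the rates
  have r10 : φ (grp 10) c10 = -(r (grp 10) / dh 10 * n) := by
    have := h.rate (grp 10) c10 L10 (n / dh 10) (fun i hi => by
      rw [h10 i hi, div_mul_cancel₀ _ d10]; simp [hc10, bxT])
    rw [this]; ring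
  have r5 : φ (grp 5) c5 = -(r (grp 5) / dh 5 * ca) := by
    have := h.rate (grp 5) c5 L5 (ca / dh 5) (fun i hi => by
      rw [h5 i hi, div_mul_cancel₀ _ d5]; simp [hc5, bxT])
    rw [this]; ring
  have z10 : φ (grp 10) c0 = 0 := h.zero _ _ fun i hi => by rw [h10 i hi]; simp [hc0, bxT]
  have z5 : φ (grp 5) c0 = 0 := h.zero _ _ fun i hi => by rw [h5 i hi]; simp [hc0, bxT]
  -- groupwise
  have key : ∀ k ∈ gset grp, φ k c = φ k c0 + (φ k cA - φ k c0) + (φ k cB - φ k c0) +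
      (φ k c5 - φ k c0) + (φ k c10 - φ k c0) := by
    intro k hk
    by_cases k10 : k = grp 10
    · subst k10
      have e1 : φ (grp 10) c = φ (grp 10) c10 := h.loc _ _ _ fun i hi => by
        rw [h10 i hi]; simp [hc, hc10, bxT]
      have e2 : φ (grp 10) cA = φ (grp 10) c0 := h.loc _ _ _ fun i hi => by
        rw [h10 i hi]; simp [hcA, hc0, bxT]
      have e3 : φ (grp 10) cB = φ (grp 10) c0 := h.loc _ _ _ fun i hi => by
        rw [h10 i hi]; simp [hcB, hc0, bxT]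
      have e4 : φ (grp 10) c5 = φ (grp 10) c0 := h.loc _ _ _ fun i hi => by
        rw [h10 i hi]; simp [hc5, hc0, bxT]
      rw [e1, e2, e3, e4]; ring
    by_cases k5 : k = grp 5
    · subst k5
      have e1 : φ (grp 5) c = φ (grp 5) c5 := h.loc _ _ _ fun i hi => by
        rw [h5 i hi]; simp [hc, hc5, bxT]
      have e2 : φ (grp 5) cA = φ (grp 5) c0 := h.loc _ _ _ fun i hi => by
        rw [h5 i hi]; simp [hcA, hc0, bxT]
      have e3 : φ (grp 5) cB = φ (grp 5) c0 := h.loc _ _ _ fun i hi => by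
        rw [h5 i hi]; simp [hcB, hc0, bxT]
      have e4 : φ (grp 5) c10 = φ (grp 5) c0 := h.loc _ _ _ fun i hi => by
        rw [h5 i hi]; simp [hc10, hc0, bxT]
      rw [e1, e2, e3, e4]; ring
    by_cases k68 : k = grp 6 ∨ k = grp 8
    · have hm : ∀ i, grp i = k → i = 6 ∨ i = 8 ∨ i = 1 := fun i hi => h68 i (by
        rcases k68 with e | e
        · left; rw [hi, e]
        · right; rw [hi, e])
      have e1 : φ k c = φ k cA := h.loc _ _ _ fun i hi => by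
        rcases hm i hi with rfl | rfl | rfl <;> simp [hc, hcA, bxT]
      have e2 : φ k cB = φ k c0 := h.loc _ _ _ fun i hi => by
        rcases hm i hi with rfl | rfl | rfl <;> simp [hcB, hc0, bxT]
      have e3 : φ k c5 = φ k c0 := h.loc _ _ _ fun i hi => by
        rcases hm i hi with rfl | rfl | rfl <;> simp [hc5, hc0, bxT]
      have e4 : φ k c10 = φ k c0 := h.loc _ _ _ fun i hi => by
        rcases hm i hi with rfl | rfl | rfl <;> simp [hc10, hc0, bxT]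
      rw [e1, e2, e3, e4]; ring
    by_cases k79 : k = grp 7 ∨ k = grp 9
    · have hm : ∀ i, grp i = k → i = 7 ∨ i = 9 ∨ i = 1 := fun i hi => h79 i (by
        rcases k79 with e | e
        · left; rw [hi, e]
        · right; rw [hi, e])
      have e1 : φ k c = φ k cB := h.loc _ _ _ fun i hi => by
        rcases hm i hi with rfl | rfl | rfl <;> simp [hc, hcB, bxT]
      have e2 : φ k cA = φ k c0 := h.loc _ _ _ fun i hi => by
        rcases hm i hi with rfl | rfl | rfl <;> simp [hcA, hc0, bxT]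
      have e3 : φ k c5 = φ k c0 := h.loc _ _ _ fun i hi => by
        rcases hm i hi with rfl | rfl | rfl <;> simp [hc5, hc0, bxT]
      have e4 : φ k c10 = φ k c0 := h.loc _ _ _ fun i hi => by
        rcases hm i hi with rfl | rfl | rfl <;> simp [hc10, hc0, bxT]
      rw [e1, e2, e3, e4]; ring
    push Not at k68 k79
    have hm : ∀ i, grp i = k → i = 0 ∨ i = 1 ∨ i = 2 ∨ i = 3 ∨ i = 4 := by
      intro i hi
      have a1 : i ≠ 10 := fun e => k10 (by rw [← hi, e])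
      have a2 : i ≠ 5 := fun e => k5 (by rw [← hi, e])
      have a3 : i ≠ 6 := fun e => k68.1 (by rw [← hi, e])
      have a4 : i ≠ 8 := fun e => k68.2 (by rw [← hi, e])
      have a5 : i ≠ 7 := fun e => k79.1 (by rw [← hi, e])
      have a6 : i ≠ 9 := fun e => k79.2 (by rw [← hi, e])
      revert a1 a2 a3 a4 a5 a6
      clear hi
      revert i
      decide
    have e0 : ∀ c', (∀ i : Fin 11, i = 0 ∨ i = 1 ∨ i = 2 ∨ i = 3 ∨ i = 4 → c' i = c0 i) →
        φ k c' = φ k c0 := fun c' hc' => h.loc _ _ _ fun i hi => hc' i (hm i hi)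
    have e1 : φ k c = φ k c0 := e0 _ fun i hi => by
      rcases hi with rfl | rfl | rfl | rfl | rfl <;> simp [hc, hc0, bxT]
    have e2 : φ k cA = φ k c0 := e0 _ fun i hi => by
      rcases hi with rfl | rfl | rfl | rfl | rfl <;> simp [hcA, hc0, bxT]
    have e3 : φ k cB = φ k c0 := e0 _ fun i hi => by
      rcases hi with rfl | rfl | rfl | rfl | rfl <;> simp [hcB, hc0, bxT]
    have e4 : φ k c5 = φ k c0 := e0 _ fun i hi => by
      rcases hi with rfl | rfl | rfl | rfl | rfl <;> simp [hc5, hc0, bxT]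
    have e5 : φ k c10 = φ k c0 := e0 _ fun i hi => by
      rcases hi with rfl | rfl | rfl | rfl | rfl <;> simp [hc10, hc0, bxT]
    rw [e1, e2, e3, e4, e5]; ring
  have tot : lam c = lam c0 + (lam cA - lam c0) + (lam cB - lam c0) + (lam c5 - lam c0) +
      (lam c10 - lam c0) := by
    rw [h.sum _ Lc, h.sum _ L0, h.sum _ LA, h.sum _ LB, h.sum _ L5, h.sum _ L10,
      sum_congr rfl key]
    simp only [sum_add_distrib, sum_sub_distrib]
  -- the single groups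
  have s10 : lam c10 - lam c0 = -(r (grp 10) / dh 10 * n) := by
    rw [h.sum _ L10, h.sum _ L0, ← sum_sub_distrib, sum_eq_single (grp 10)]
    · rw [r10, z10]; ring
    · intro k _ hk
      have : φ k c10 = φ k c0 := h.loc _ _ _ fun i hi => by
        have hi10 : i ≠ 10 := fun e => hk (by rw [← hi, e])
        clear hi
        revert i
        intro i hi10
        fin_cases i <;> first | exact absurd rfl hi10 | simp [hc10, hc0, bxT]
      rw [this]; ring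
    · intro hk
      exfalso
      exact hk (by simp [gset])
  have s5 : lam c5 - lam c0 = -(r (grp 5) / dh 5 * ca) := by
    rw [h.sum _ L5, h.sum _ L0, ← sum_sub_distrib, sum_eq_single (grp 5)]
    · rw [r5, z5]; ring
    · intro k _ hk
      have : φ k c5 = φ k c0 := h.loc _ _ _ fun i hi => by
        have hi5 : i ≠ 5 := fun e => hk (by rw [← hi, e])
        clear hi
        revert i
        intro i hi5
        fin_cases i <;> first | exact absurd rfl hi5 | simp [hc5, hc0, bxT]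
      rw [this]; ring
    · intro hk
      exfalso
      exact hk (by simp [gset])
  rw [tot, s10, s5]; ring

/-- **`SplitD`** of the window profile -/
theorem splitD_of_out {Ma : Mons 11} (hsub : ∀ k, Ma.mon k ⊆ monQ.mon k)
    {grp : Fin 11 → ℕ} {dh : Fin 11 → ℝ} {nn : ℕ → ℝ × ℝ}
    {lam : (Fin 11 → ℝ) → ℝ} {A : ℝ × ℝ} {φ : ℕ → (Fin 11 → ℝ) → ℝ} {r : ℕ → ℝ}
    (h : OutS grp (coneM Ma) dh nn lam A φ r)
    (h10 : ∀ i, grp i = grp 10 → i = 10) (h5 : ∀ i, grp i = grp 5 → i = 5)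
    (h68 : ∀ i, grp i = grp 6 ∨ grp i = grp 8 → i = 6 ∨ i = 8 ∨ i = 1)
    (h79 : ∀ i, grp i = grp 7 ∨ grp i = grp 9 → i = 7 ∨ i = 9 ∨ i = 1)
    (d10 : dh 10 ≠ 0) (d5 : dh 5 ≠ 0)
    (hw : WinL W K T) (hlam : W.lam = lam) {R0 : ℝ} (hR0 : R0 ≤ T) :
    SplitD W.legW W.nu (pbT T) R0 (r (grp 10) / dh 10) (r (grp 5) / dh 5)
      (fun xa cb => lam (bxT T 0 0 0 0 0 0) - lam (bxT T 0 cb 0 xa 0 0))
      (fun xb p => lam (bxT T 0 0 0 0 0 0) - lam (bxT T 0 0 p 0 xb 0)) where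
  leg := fun ca cb p xa xb n h1 h2 h3 h4 h5 h6 =>
    legW_bxD hw h1.1 (h1.2.trans hR0) h2.1 (h2.2.trans hR0) h3.1 (h3.2.trans hR0) h4.1
      (h4.2.trans hR0) h5.1 (h5.2.trans hR0) h6.1 (h6.2.trans hR0)
  eq := fun ca cb p xa xb n g1 g2 g3 g4 g5 g6 => by
    have up : ∀ {x : ℝ}, x ∈ Set.Icc 0 R0 → x ∈ Set.Icc 0 T := fun hx => ⟨hx.1, hx.2.trans hR0⟩
    rw [nu_bxD hw, nu_bxD hw, hlam,
      split_lam h (T := T) (fun ca cb p xa xb n k1 k2 k3 k4 k5 k6 =>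
        bxT_cone hsub hw.T0.le k1.1 k1.2 k2.1 k2.2 k3.1 k3.2 k4.1 k4.2 k5.1 k5.2 k6.1 k6.2)
        hw.T0.le h10 h5 h68 h79 d10 d5 (up g1) (up g2) (up g3) (up g4) (up g5) (up g6)]
    ring
  α0 := sub_self _
  β0 := sub_self _

end Crest.Agent.R136.LW113
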