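import Crest.Agent.R136.D2d_272
import Crest.Agent.R136.LW1_113

/-!
# R136, row D2 of the thick table (helper272), part 5: from `AeW` to the F-half

* `dwin_of_wat` : the window `DWin` from a window of helper413's `AeW` (helper113's `LW1_113`);
* `nu_b0` : the profile of the window;
* `conc_of_aew` : the F-half of row D2 over `AeW`.
-/

set_option autoImplicit false
set_option linter.unusedVariables false
set_option linter.unusedSectionVars false

open Filter Topology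

namespace Crest.Agent.R136.Xd272

open Finset Crest.Agent.R136.NetQ186 Crest.Agent.R136.Net191 Crest.Agent.R136.Qg926
open Crest.Agent.R136.Gf356 Crest.Agent.R136.Ev356 Crest.Agent.R136.Aw413
open Crest.Agent.R136.Wq400 Crest.Agent.R136.Fe1355 Crest.Agent.R136.NatR550
open Crest.Agent.R136.Dg219 Crest.Agent.R136.LW113
open Crest.Agent.R138.Ex926 (Base U)

variable {ι : ℕ → Type*} [∀ n, DecidableEq (ι n)]

section comp

variable {T ca cb p xa xb n : ℝ}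

theorem b0_5 : b0 ca cb p xa xb n 5 = ca := rfl
theorem b0_6 : b0 ca cb p xa xb n 6 = cb := rfl
theorem b0_7 : b0 ca cb p xa xb n 7 = p := rfl
theorem b0_8 : b0 ca cb p xa xb n 8 = xa := rfl
theorem b0_9 : b0 ca cb p xa xb n 9 = xb := rfl
theorem b0_10 : b0 ca cb p xa xb n 10 = n := rfl
theorem b0_1 : b0 ca cb p xa xb n 1 = 0 := rfl

theorem cut_b0 : cut {0, 2, 3, 4} (b0 ca cb p xa xb n) (fun _ => T) = vT T ca cb p xa xb n := by
  funext s
  revert s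
  refine f11 ?_ ?_ ?_ ?_ ?_ ?_ ?_ ?_ ?_ ?_ ?_
  · rw [cut_of_mem (by decide), vT_0]
  · rw [cut_of_notMem (by decide), vT_1, b0_1]
  · rw [cut_of_mem (by decide), vT_2]
  · rw [cut_of_mem (by decide), vT_3]
  · rw [cut_of_mem (by decide), vT_4]
  · rw [cut_of_notMem (by decide), vT_5, b0_5]
  · rw [cut_of_notMem (by decide), vT_6, b0_6]
  · rw [cut_of_notMem (by decide), vT_7, b0_7]
  · rw [cut_of_notMem (by decide), vT_8, b0_8]
  · rw [cut_of_notMem (by decide), vT_9, b0_9]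
  · rw [cut_of_notMem (by decide), vT_10, b0_10]

end comp

variable {W : Wnd 11 ι} {f : ∀ n, ι n → Fq4} {K T : ℝ}

theorem leg_b0 (hw : WinL W K T) {ca cb p xa xb n : ℝ} (h5 : ca ∈ Set.Icc 0 T)
    (h6 : cb ∈ Set.Icc 0 T) (h7 : p ∈ Set.Icc 0 T) (h8 : xa ∈ Set.Icc 0 T)
    (h9 : xb ∈ Set.Icc 0 T) (h10 : n ∈ Set.Icc 0 T) : b0 ca cb p xa xb n ∈ W.legW := by
  obtain ⟨h1, h2⟩ := bxT_legal hw.T0.le h5.1 h5.2 h6.1 h6.2 h7.1 h7.2 h8.1 h8.2 h9.1 h9.2 h10.1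
    h10.2
  refine ⟨?_, ?_⟩
  · rw [hw.S, hw.top, cut_b0, hw.R']
    exact ⟨legal_sub hw.mons h1, h2⟩
  · rw [hw.S, hw.top]
    refine f11 ?_ ?_ ?_ ?_ ?_ ?_ ?_ ?_ ?_ ?_ ?_ <;> intro hs
    · exact absurd (by decide) hs
    · rw [b0_1]; exact hw.T0.le
    · exact absurd (by decide) hs
    · exact absurd (by decide) hs
    · exact absurd (by decide) hs
    · rw [b0_5]; exact h5.2
    · rw [b0_6]; exact h6.2
    · rw [b0_7]; exact h7.2
    · rw [b0_8]; exact h8.2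
    · rw [b0_9]; exact h9.2
    · rw [b0_10]; exact h10.2

/-- **the profile of the window** -/
theorem nu_b0 (hw : WinL W K T) (ca cb p xa xb n : ℝ) :
    W.nu (b0 ca cb p xa xb n) = W.lam (vT T ca cb p xa xb n) - W.lam fun _ => T := by
  unfold Wnd.nu
  rw [hw.S, hw.top, cut_b0]

section wat

variable {B : Base} {I : ∀ n, Finset (ι n)} {co : ∀ n, ι n → ι n → Fin 11 → ℝ} {Ma : Mons 11}
  {C : ℝ} {lam : (Fin 11 → ℝ) → ℝ} {V Tw : Fin 11 → Prop}

/-- **the window of row D2** -/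
theorem dwin_of_wat (h : WAt B I co monQ Ma C lam V Tw (stQ {0, 2, 3, 4} K T Ma) W)
    (hco : ∀ n, ∀ i ∈ I n, ∀ j ∈ I n, co n i j = coQ (f n i) (f n j))
    (hM : MaQ Ma) (hsub : ∀ k, Ma.mon k ⊆ monQ.mon k) (hK : cK0 monQ C ≤ K) (hT : 0 < T)
    (hV : ∀ k, V k → k = 0 ∨ k = 2 ∨ k = 3 ∨ k = 4) (h2 : Tw 2) (h3 : Tw 3)
    (hden : (stQ {0, 2, 3, 4} K T Ma).Dens lam 1 T) :
    ∃ (E' : ∀ n, Finset (ι n)), DWin W.B' (W.cfg E') W.legW W.nu T W.Dc
      (fun n k => flg W n k 2) (fun n k => flg W n k 4) (fun n k => flg W n k 3) := by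
  obtain ⟨E', g, hP, -, H, htw⟩ := h.model (σ' := 1) (R := T) hden (fun _ _ _ => 0)
    (g₀ := fun n => n) (tendsto_natCast_atTop_atTop.mono_left
      Crest.Agent.R138.Ex926.U_le_atTop) (fun k hk => by
      left
      show k ∈ ({0, 2, 3, 4} : Finset (Fin 11))
      rcases hV k hk with rfl | rfl | rfl | rfl <;> decide)
  have hw := winL_of_wat h hM hsub hK hT
  have hq : QWnd W f := qwnd_of_wat h hco (by
    show ∀ s ∈ ({0, 2, 3, 4} : Finset (Fin 11)), _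
    decide)
  have hc := hcQ hq hP
  have tw : ∀ s : Fin 11, s = 2 ∨ s = 3 → Tw s →
      RawTw W.B' (W.cfg E') (fun n k k' => flg W n k' s - flg W n k s) := by
    intro s hs hTs
    refine C2w400.rawTw_of_rawL hq hc (s := s) (by
      rw [hw.S]; rcases hs with rfl | rfl <;> decide) (by tauto) hT (by rw [hw.top]) ?_
    refine htw s (by
      show s ∈ ({0, 2, 3, 4} : Finset (Fin 11))
      rcases hs with rfl | rfl <;> decide) hTs hT ⟨T, hT, ?_⟩
    show cut {0, 2, 3, 4} (fun _ => T) (Pi.single s T) ∈ coneM Ma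
    exact leg_cone (R := T) (Mw := Ma) (fun k => Finset.Subset.refl _)
      ⟨legal_sub hsub (single_legal hT.le hs).1, (single_legal hT.le hs).2⟩
  have L := lin_of_win hq hc hw H.toRUnif
  have hK1 : 1 ≤ K := hq.ok.K0_one.trans hw.K0
  have rb : ∀ᶠ n in (U : Filter ℕ), ∀ k i l, (i, k) ∈ (W.cfg E' n).I →
      (l, k) ∈ (W.cfg E' n).I → ∀ s, |(W.cfg E' n).rel k i l s| ≤ 1 := by
    filter_upwards [hc] with n hn
    obtain ⟨g, hE, hcfg⟩ := hn
    rw [hcfg]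
    intro k i l h1 h2 s
    rw [rel_cfg0]
    split_ifs
    · rw [abs_zero]; exact zero_le_one
    · refine (hq.crd_le g (rep_of_mem hE h1).1 (rep_of_mem hE h2).1 s).trans ?_
      rw [div_le_one (hq.ok.kap s), hw.kap]
      unfold kapQ
      have : K ^ 1 ≤ K ^ wtQ s := by
        refine pow_le_pow_right₀ hK1 ?_
        fin_cases s <;> simp [wtQ]
      rw [pow_one] at this
      exact hw.K0.trans this
  refine ⟨E', H, hT, ⟨L.K1, L.bd, ?_, L.add, L.mv⟩, ?_, rb, tw 2 (Or.inl rfl) h2,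
    tw 3 (Or.inr rfl) h3⟩
  · intro ε hε
    filter_upwards [rb, ev_const_le W.B' hε 1] with n hn h1 i l k h3 h4
    refine loose_bxD.2 ?_
    rw [H.toRUnif.base n]
    have key : ∀ s, |(W.cfg E' n).rel k i l s| ≤ W.B'.d n ^ (0 - ε) := by
      intro s
      rw [zero_sub]
      exact (hn k i l h3 h4 s).trans h1
    exact ⟨fun j _ => key j, key 5, key 6, key 7, key 8, key 9, key 10⟩
  · intro ca cb p xa xb n h5 h6 h7 h8 h9 h10
    exact leg_b0 hw h5 h6 h7 h8 h9 h10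

end wat

/-- **the F-half of row D2 over `AeW`** -/
theorem conc_of_aew {B Bo : Base} {I J : ∀ n, Finset (ι n)} {co : ∀ n, ι n → ι n → Fin 11 → ℝ}
    {Ma : Mons 11} {C : ℝ} {lam : (Fin 11 → ℝ) → ℝ} {A : ℝ × ℝ}
    {φ : ℕ → (Fin 11 → ℝ) → ℝ} {r : ℕ → ℝ} {κo : Fin 11 → ℝ} {V Tw : Fin 11 → Prop} {κ κ3 : ℝ}
    (h : AeW B Bo I J co monQ Ma C lam (nL 1 0 κ κ3) (nL 0 1 1 1) A φ r 0 1 κo V Tw)
    (hM : MaQ Ma) (hcone : coneM Ma = coneN) (hC : 0 ≤ C)
    (hco : ∀ n, ∀ i ∈ I n, ∀ j ∈ I n, co n i j = coQ (f n i) (f n j))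
    (hne : ∀ᶠ n in (U : Filter ℕ), (J n).Nonempty)
    (hom : ∀ k, (∀ i, gC (nL 1 0 κ κ3) (nL 0 1 1 1) i = k →
      0 < dhC (nL 1 0 κ κ3) (nL 0 1 1 1) i) →
      ∀ c ∈ coneN, ∀ s : ℝ, 0 ≤ s → φ k (s • c) = s * φ k c)
    (hκ : 0 < κ) (hκ3 : κ < κ3) (hV : ∀ k, V k → k = 0 ∨ k = 2 ∨ k = 3 ∨ k = 4)
    (h2 : Tw 2) (h3 : Tw 3)
    (hsw : ∃ q : ℝ, 0 < q ∧ q * (1 + κ3) ≤
      lam (vT (1 + κ3) 0 0 0 0 0 0) - lam (vT (1 + κ3) (1 + κ3) 0 0 0 0 0)) :
    A.1 ≤ -(4 + κ + κ3) := by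
  have hT : 0 < 1 + κ3 := by linarith
  have g := gf hκ hκ3
  have hK0 : 1 ≤ cK0 monQ C := cK0_one hC
  set st : WSt 11 := stQ {0, 2, 3, 4} (cK0 monQ C) (1 + κ3) Ma with hst
  have hok : st.Ok monQ (coneM Ma) := stQ_ok sok_eab (by linarith) hT.le h.sub
  obtain ⟨W, hW, -, -⟩ := h.wnd st rfl hok (fun _ _ => 1)
    (fun _ => Crest.Agent.R138.Ex926.Base.Sub.const one_pos) J (fun _ => 1)
    (Eventually.of_forall fun n => Finset.Subset.refl _) hne
    (Crest.Agent.R138.Ex926.Base.Sub.const one_pos)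
    (Eventually.of_forall fun n => by rw [one_mul])
  have hS : ∀ i j, gC (nL 1 0 κ κ3) (nL 0 1 1 1) i = gC (nL 1 0 κ κ3) (nL 0 1 1 1) j →
      i ∈ ({0, 2, 3, 4} : Finset (Fin 11)) → j ∈ ({0, 2, 3, 4} : Finset (Fin 11)) := by
    generalize gC (nL 1 0 κ κ3) (nL 0 1 1 1) = G at g ⊢
    have key : ∀ j, G 0 = G j → j ∈ ({0, 2, 3, 4} : Finset (Fin 11)) := by
      refine f11 ?_ ?_ ?_ ?_ ?_ ?_ ?_ ?_ ?_ ?_ ?_ <;> intro hj
      · decide
      · exact absurd (hj.trans g.g1) (g.n 0 (by decide) (by decide))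
      · decide
      · decide
      · decide
      · exact absurd (hj.trans g.g5) (g.n 0 (by decide) (by decide))
      · exact absurd hj g.l6
      · exact absurd hj g.l7
      · exact absurd hj g.l8
      · exact absurd hj g.l9
      · exact absurd hj g.l10
    intro i j hij hi
    refine key j (Eq.trans ?_ hij)
    simp only [Finset.mem_insert, Finset.mem_singleton] at hi
    rcases hi with rfl | rfl | rfl | rfl
    · rfl
    · exact g.lev.1.symm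
    · exact g.lev.2.1.symm
    · exact g.lev.2.2.symm
  have hden : st.Dens lam 1 (1 + κ3) := h.dens rfl hok hS zero_le_one le_rfl le_rfl
    fun y hy _ => by
      rw [hcone]
      refine ⟨?_, ?_, ?_, ?_, ?_, ?_, ?_, ?_, ?_, ?_⟩ <;> simp [Pi.single, Function.update] <;>
        linarith
  obtain ⟨E', hD⟩ := dwin_of_wat hW hco hM h.sub le_rfl hT hV h2 h3 hden
  have hw := winL_of_wat hW hM h.sub le_rfl hT
  have lev : lam (lv1 κ κ3) ≤ -1 := by
    have m1 : lv1 κ κ3 ∈ coneM Ma := by rw [hcone]; exact lv1_mem hκ.le hκ3.le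
    have h0 : (0 : Fin 11 → ℝ) ≤ lv1 κ κ3 := by
      show ∀ i, (0 : Fin 11 → ℝ) i ≤ lv1 κ κ3 i
      refine f11 ?_ ?_ ?_ ?_ ?_ ?_ ?_ ?_ ?_ ?_ ?_ <;> rw [Pi.zero_apply]
      · rw [lv_0]; exact zero_le_one
      · rw [lv_1]
      · rw [lv_2]; exact hκ.le
      · rw [lv_3]; linarith
      · rw [lv_4]; linarith
      · rw [lv_5]
      · rw [lv_6]
      · rw [lv_7]
      · rw [lv_8]
      · rw [lv_9]
      · rw [lv_10]
    have h1 := h.own 0 zero_mem _ m1 h0 fun k _ => by rw [Pi.zero_apply, Pi.zero_apply, mul_zero]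
    rw [lv_0, Pi.zero_apply, h.zero] at h1
    linarith
  have htd := TD.mk' (T := 1 + κ3) (lam := lam) (A := A) (φ := φ) (r := r) hκ hκ3 le_rfl
    (hcone ▸ h.out) hom (hcone ▸ h.sharp) (hcone ▸ h.anti) lev hsw
  refine htd.conc hD (c₀ := W.lam fun _ => 1 + κ3) fun ca cb p xa xb n h5 h6 h7 h8 h9 h10 => ?_
  rw [nu_b0 hw, hW.elam]

end Crest.Agent.R136.Xd272
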