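import Crest.Agent.R136.D2e_272
import Crest.Agent.R136.Tb6_628
import Crest.Agent.R136.TopB_550

/-!
# R136, row D2 of the thick table (helper272), part 6: `caseD2`

* `maQ_nat` : all walls of the natural plane are active;
* `caseD2` : `21`, `32` and `31` visible is impossible.
-/

set_option autoImplicit false
set_option linter.unusedVariables false
set_option linter.unusedSectionVars false

open Filter Topology

namespace Crest.Agent.R136.Xd272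

open Finset Crest.Agent.R136.NetQ186 Crest.Agent.R136.Net191 Crest.Agent.R136.Qg926
open Crest.Agent.R136.Gf356 Crest.Agent.R136.Ev356 Crest.Agent.R136.Aw413
open Crest.Agent.R136.Wq400 Crest.Agent.R136.NatR550 Crest.Agent.R136.Wq638
open Crest.Agent.R136.Dg219 Crest.Agent.R136.NatT550 Crest.Agent.R136.TopB550
open Crest.Agent.R136.Tb628

theorem mv_23 : mv 2 3 = ![0, 0, 1, 1, 0, 0, 0, 0, 0, 0, 0] := by decide
theorem mv_25 : mv 2 5 = ![0, 0, 1, 0, 0, 1, 0, 0, 0, 0, 0] := by decide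
theorem mv_45 : mv 4 5 = ![0, 0, 0, 0, 1, 1, 0, 0, 0, 0, 0] := by decide
theorem mv_36 : mv 3 6 = ![0, 0, 0, 1, 0, 0, 1, 0, 0, 0, 0] := by decide
theorem mv_05 : mv 0 5 = ![1, 0, 0, 0, 0, 1, 0, 0, 0, 0, 0] := by decide
theorem mv_06 : mv 0 6 = ![1, 0, 0, 0, 0, 0, 1, 0, 0, 0, 0] := by decide
theorem mv_28 : mv 2 8 = ![0, 0, 1, 0, 0, 0, 0, 0, 1, 0, 0] := by decide
theorem mv_07 : mv 0 7 = ![1, 0, 0, 0, 0, 0, 0, 1, 0, 0, 0] := by decide
theorem mv_48 : mv 4 8 = ![0, 0, 0, 0, 1, 0, 0, 0, 1, 0, 0] := by decide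
theorem mv_01 : mv 0 1 = ![1, 1, 0, 0, 0, 0, 0, 0, 0, 0, 0] := by decide
theorem mv_39 : mv 3 9 = ![0, 0, 0, 1, 0, 0, 0, 0, 0, 1, 0] := by decide

/-- all walls of the natural plane are active -/
theorem maQ_nat {θ : Fin 3 → ℝ} (w0 R1 κ κ3 : ℝ) (h7 : sB θ κ κ3 7 ≠ 0) :
    MaQ (actM monQ (s0 w0 R1) (sA κ κ3) (sB θ κ κ3)) := by
  have nt : ∀ k i j : Fin 11, (k, i, j) ∈ ({(4, 2, 3), (6, 2, 5), (7, 4, 5), (7, 3, 6), (8, 0, 5),
      (9, 0, 6), (9, 2, 8), (10, 0, 7), (10, 4, 8), (10, 3, 9)} :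
        Finset (Fin 11 × Fin 11 × Fin 11)) → mv i j ∈ monQ.mon k →
      mv i j ∈ (actM monQ (s0 w0 R1) (sA κ κ3) (sB θ κ κ3)).mon k := by
    intro k i j hk hm
    have := nat_tg w0 R1 ![0, 0, 0] ![κ3, 0, κ]
      ![(θ 0 + κ3) / θ 1, 1, (θ 2 + κ) / θ 1] hk
    simp only [Matrix.cons_val, Fin.isValue] at this
    exact mem_act.2 ⟨hm, this⟩
  refine ⟨?_, ?_, ?_, ?_, ?_, ?_, ?_, ?_, ?_, ?_, ?_⟩
  · rw [← mv_23]; exact nt 4 2 3 (by decide) (by decide)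
  · rw [← mv_25]; exact nt 6 2 5 (by decide) (by decide)
  · rw [← mv_45]; exact nt 7 4 5 (by decide) (by decide)
  · rw [← mv_36]; exact nt 7 3 6 (by decide) (by decide)
  · rw [← mv_05]; exact nt 8 0 5 (by decide) (by decide)
  · rw [← mv_06]; exact nt 9 0 6 (by decide) (by decide)
  · rw [← mv_28]; exact nt 9 2 8 (by decide) (by decide)
  · rw [← mv_07]; exact nt 10 0 7 (by decide) (by decide)
  · rw [← mv_48]; exact nt 10 4 8 (by decide) (by decide)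
  · rw [← mv_39]; exact nt 10 3 9 (by decide) (by decide)
  · intro hm
    rw [← mv_01] at hm
    have h2 := (mem_act.1 hm).2.2.2
    have e0 : sB θ κ κ3 0 = 0 := rfl
    have e1 : sB θ κ κ3 1 = 0 := rfl
    rw [e0, e1, add_zero] at h2
    exact h7 h2

/-- the slopes in `t` of the plane along the record path -/
theorem sB_own {θ : Fin 3 → ℝ} (h1 : 0 < θ 1) :
    sB θ (θ 1 - θ 2) (θ 1 - θ 0) = nL 0 1 1 1 := by
  unfold sB
  rw [show θ 2 + (θ 1 - θ 2) = θ 1 by ring, show θ 0 + (θ 1 - θ 0) = θ 1 by ring,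
    div_self h1.ne']

/-- **row D2 of the thick table** -/
theorem caseD2 {η : ℝ} (hη : η ≤ 1 / 8) : Dead η pD2 := by
  intro p D I1 π eE fA fB V T w0 R T0 PD ν own c₀ h hp
  obtain ⟨v2, v3, v4⟩ := hp
  have ok := h.tp.ok
  have hη0 := ok.η_pos
  have h1 := ok.θ1
  have sl := h.tp.slots
  have k2 : 0 < p.θ 1 - p.θ 2 := by simpa [btQ] using (sl.vis 2 v2).2
  have k3 : 0 < p.θ 2 - p.θ 0 := by simpa [btQ] using (sl.vis 3 v3).2
  have t2 : T 2 := by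
    by_contra hc
    exact absurd (sl.cap 2 v2 hc).1 (by decide)
  have t3 : T 3 := by
    by_contra hc
    exact absurd (sl.cap 3 v3 hc).1 (by decide)
  have hsl : p.q 2 * (p.θ 1 - p.θ 2) + p.q 0 * (p.θ 1 - p.θ 0) < p.g :=
    hsl_sub ok hη (le_abs_self _) (le_abs_self _)
  refine row_nat0 h hη0 (κ := p.θ 1 - p.θ 2) (κ3 := p.θ 1 - p.θ 0) k2.le (by linarith)
    (Or.inr (by intro e; rw [e] at k2; simp at k2))
    (Or.inr (Or.inl (by intro e; rw [e] at k3; simp at k3))) hsl (fun _ => le_rfl)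
    (fun _ => by linarith) (fun _ => le_rfl) ?_
  intro g1 g2 hcone ξ x hh lam A φ r P hom
  have hB := sB_own (θ := p.θ) h1
  have hM := maQ_nat (θ := p.θ) w0 (R - 1) (p.θ 1 - p.θ 2) (p.θ 1 - p.θ 0)
    (by rw [hB]; exact one_ne_zero)
  have hS1 := fun (c : Fin 11 → ℝ) hc y hy hcy hb => P.S1 (by simp [sA, nL]) (by simp [sB, nL])
    (g1 (by intro e; rw [e] at k2; simp at k2)) (c := c) hc (y := y) hy hcy hb
  have aew := P.aew
  unfold Tb628.Hom at hom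
  rw [hcone] at hS1 hom
  have hCa : ∀ y : ℝ, vT (1 + (p.θ 1 - p.θ 0)) 0 0 0 0 0 0 + eCa y =
      vT (1 + (p.θ 1 - p.θ 0)) y 0 0 0 0 0 := by
    intro y
    funext s
    fin_cases s <;> simp [vT, eCa]
  have hT : 0 < 1 + (p.θ 1 - p.θ 0) := by linarith
  have z0 : (0 : ℝ) ∈ Set.Icc 0 (1 + (p.θ 1 - p.θ 0)) := ⟨le_rfl, hT.le⟩
  have zT : 1 + (p.θ 1 - p.θ 0) ∈ Set.Icc 0 (1 + (p.θ 1 - p.θ 0)) := ⟨hT.le, le_rfl⟩
  have hsw := hS1 (vT (1 + (p.θ 1 - p.θ 0)) 0 0 0 0 0 0) (vT_mem hT.le z0 z0 z0 z0 z0 z0)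
    (1 + (p.θ 1 - p.θ 0)) hT.le (by rw [hCa]; exact vT_mem hT.le zT z0 z0 z0 z0 z0)
    (by
      refine f11 ?_ ?_ ?_ ?_ ?_ ?_ ?_ ?_ ?_ ?_ ?_ <;> intro hk1 hk2
      · exact absurd hk2 (by rw [sA, nL_0]; exact one_ne_zero)
      · exact absurd rfl hk1
      · exact absurd hk2 (by rw [sA, nL_2]; exact k2.ne')
      · exact absurd hk2 (by rw [sA, nL_3]; intro e; linarith)
      · exact absurd hk2 (by rw [sA, nL_4]; intro e; linarith)
      · rw [vT_5, mul_zero]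
      · exact absurd hk2 (by rw [sA, nL_6]; exact k2.ne')
      · exact absurd hk2 (by rw [sA, nL_7]; intro e; linarith)
      · exact absurd hk2 (by rw [sA, nL_8]; exact one_ne_zero)
      · exact absurd hk2 (by rw [sA, nL_9]; intro e; linarith)
      · exact absurd hk2 (by rw [sA, nL_10]; intro e; linarith))
  rw [hCa] at hsw
  have b2 : sB p.θ (p.θ 1 - p.θ 2) (p.θ 1 - p.θ 0) 2 = 0 := (sB_two0 h1.ne').2 rfl
  have b3 : sB p.θ (p.θ 1 - p.θ 2) (p.θ 1 - p.θ 0) 3 = 0 := (sB_three0 h1.ne').2 (by ring)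
  rw [hB] at aew hM hcone hom b2 b3
  refine conc_of_aew (f := fun n x => GeoQ186.scl (uH D.B D.lev w0 n) (uA D.B D.lev D.w w0 n)
      (uB D.B D.lev D.w w0 n) (uY D.B D.lev D.w w0 n) (incQ π D.L eE fA fB n x))
    (co := couQ D.B D.lev D.w w0 (incQ π D.L eE fA fB))
    (V := fun k => V k ∧ nL 0 1 1 1 k = 0) (Tw := fun k => T k ∧ nL 0 1 1 1 k = 0)
    aew hM hcone zero_le_two (fun n i _ j _ => rfl) h.ext.ne hom k2 (by linarith)
    (fun k hk => ?_) ⟨t2, b2⟩ ⟨t3, b3⟩ ⟨p.q 1, ok.g0.2, hsw⟩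
  rcases (sl.vis k hk.1).1 with rfl | rfl | rfl <;> simp

end Crest.Agent.R136.Xd272
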