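import Crest.Agent.R136.Xb2_403
import Crest.Agent.R136.C1a_865

/-!
# R136, row D1 of the thick table (helper413), part 0: the window

`S = {z, E, F_a}`, the walls with `F_b` are slack.

* `MaD Ma` : the walls; `legD` : legality;
* `own4`, `flg4`, `rawTw4` : own motion and raw twist of `F_a` (an additive flag because the wall
  `F_a ≤ E + F_b` is far);
* `m1_of_qat` : 865's `M1` (no slot of the `b`-direction), `ne_of_qat` is 403's;
* `DW`, `dw_of_aew` : everything in one call from `AeW`.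
-/

set_option autoImplicit false
set_option linter.unusedVariables false
set_option linter.unusedSectionVars false

open Filter Topology

namespace Crest.Agent.R136.Dd413

open Finset Crest.Agent.R136.NetQ186 Crest.Agent.R136.Net191 Crest.Agent.R136.Qg926
open Crest.Agent.R136.Gf356 Crest.Agent.R136.Ev356 Crest.Agent.R136.Aw413
open Crest.Agent.R136.Wq400 Crest.Agent.R136.Fe1355
open Crest.Agent.R138.Ex926 (Base U)

/-- the walls of the chart with a slack slot `F_b` -/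
structure MaD (Ma : Mons 11) : Prop where
  sub : ∀ k, Ma.mon k ⊆ monQ.mon k
  m256 : mv 2 5 ∈ Ma.mon 6
  m457 : mv 4 5 ∈ Ma.mon 7
  m058 : mv 0 5 ∈ Ma.mon 8
  m069 : mv 0 6 ∈ Ma.mon 9
  m289 : mv 2 8 ∈ Ma.mon 9
  m0710 : mv 0 7 ∈ Ma.mon 10
  m4810 : mv 4 8 ∈ Ma.mon 10
  /-- no wall with `R` or `F_b` -/
  no : ∀ k, ∀ e ∈ Ma.mon k, e 1 = 0 ∧ e 3 = 0

namespace MaD

variable {Ma : Mons 11} (hM : MaD Ma)

include hM

theorem n234 : mv 2 3 ∉ Ma.mon 4 := fun h => absurd (hM.no 4 _ h).2 (by decide)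
theorem n367 : mv 3 6 ∉ Ma.mon 7 := fun h => absurd (hM.no 7 _ h).2 (by decide)
theorem n3910 : mv 3 9 ∉ Ma.mon 10 := fun h => absurd (hM.no 10 _ h).2 (by decide)
theorem n017 : mv 0 1 ∉ Ma.mon 7 := fun h => absurd (hM.no 7 _ h).1 (by decide)

end MaD

/-- the monomials of the chart without `R` and `F_b` -/
theorem monQ_cases : ∀ k : Fin 11, ∀ e ∈ monQ.mon k, e 1 = 0 ∧ e 3 = 0 →
    (k = 6 ∧ e = mv 2 5) ∨ (k = 7 ∧ e = mv 4 5) ∨ (k = 8 ∧ e = mv 0 5) ∨
    (k = 9 ∧ e = mv 0 6) ∨ (k = 9 ∧ e = mv 2 8) ∨ (k = 9 ∧ e = ![1, 0, 1, 0, 0, 1, 0, 0, 0, 0, 0]) ∨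
    (k = 10 ∧ e = mv 0 7) ∨ (k = 10 ∧ e = mv 4 8) ∨
    (k = 10 ∧ e = ![1, 0, 0, 0, 1, 1, 0, 0, 0, 0, 0]) := by decide

/-- legality in the chart with slack `F_b` -/
theorem legD {Ma : Mons 11} (hM : MaD Ma) {c : Fin 11 → ℝ} (w625 : c 6 ≤ c 2 + c 5)
    (w745 : c 7 ≤ c 4 + c 5) (w805 : c 8 ≤ c 0 + c 5) (w906 : c 9 ≤ c 0 + c 6)
    (w928 : c 9 ≤ c 2 + c 8) (w107 : c 10 ≤ c 0 + c 7) (w148 : c 10 ≤ c 4 + c 8) :
    c ∈ coneM Ma := by
  intro k e he
  rcases monQ_cases k e (hM.sub k he) (hM.no k e he) with ⟨rfl, rfl⟩ | ⟨rfl, rfl⟩ | ⟨rfl, rfl⟩ |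
    ⟨rfl, rfl⟩ | ⟨rfl, rfl⟩ | ⟨rfl, rfl⟩ | ⟨rfl, rfl⟩ | ⟨rfl, rfl⟩ | ⟨rfl, rfl⟩
  · rw [sum_mv]; exact w625
  · rw [sum_mv]; exact w745
  · rw [sum_mv]; exact w805
  · rw [sum_mv]; exact w906
  · rw [sum_mv]; exact w928
  · simp [Fin.sum_univ_succ]; linarith
  · rw [sum_mv]; exact w107
  · rw [sum_mv]; exact w148
  · simp [Fin.sum_univ_succ]; linarith

variable {ι : ℕ → Type*} [∀ n, DecidableEq (ι n)] {W : Wnd 11 ι} {f : ∀ n, ι n → Fq4}
  {E : ∀ n, Finset (ι n)} {T : ℝ} {Ma : Mons 11}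

/-! ### the flag `F_a` -/

/-- the coefficient `E F_b → F_a` is small -/
theorem cf234 (h : QAt W f Ma) (hM : MaD Ma) {t : ℝ} (ht : 0 ≤ t) :
    ∀ᶠ n in (U : Filter ℕ), |cf W n 2 3 4| ≤ W.B'.d n ^ t := by
  filter_upwards [h.cf_ap (i := 2) (j := 3) (s := 4) (by decide) (by decide) (fun _ => by decide)
    t ht] with n hn
  have := hn.d
  rwa [show chi Ma 2 3 4 = 0 from if_neg hM.n234, sub_zero, one_mul] at this

/-- product of two coordinates -/
theorem prod_le {n : ℕ} {c x y δ : ℝ} (hc : |c| ≤ δ) (hx : |x| ≤ 1 / 4) (hy : |y| ≤ 1 / 4) :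
    |c * (x * y)| ≤ 1 / 16 * δ := by
  have hδ : 0 ≤ δ := (abs_nonneg _).trans hc
  rw [abs_mul, abs_mul]
  have h1 := mul_le_mul hx hy (abs_nonneg _) (by norm_num)
  have h2 := mul_le_mul hc h1 (by positivity) hδ
  linarith

/-- **own motion of `F_a`** -/
theorem own4 (h : QAt W f Ma) {n : ℕ} (g : W.Good n) {x x' z z' : ι n} (hx : x ∈ W.Cl n)
    (hx' : x' ∈ W.Cl n) (hz : z ∈ W.Cl n) (hz' : z' ∈ W.Cl n) (hl : W.zc n x = W.zc n z)
    (hl' : W.zc n x' = W.zc n z') {t : ℝ} (h4 : (4 : Fin 11) ∈ W.S) (ht : t ≤ W.top 4)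
    (hcf : |cf W n 2 3 4| ≤ W.B'.d n ^ t) :
    |W.crd n x x' 4 - W.crd n z z' 4| ≤ W.B'.d n ^ t := by
  have e1 := h.q.crd_four g hx hz hx'
  have e2 := h.q.crd_four g hz hz' hx'
  have h1 := h.q.crd_lev g hx hz hl h4 ht
  have h2 := h.q.crd_lev g hz' hx' hl'.symm h4 ht
  have hk : W.K0 / W.kap 4 ≤ 1 / 4 := by
    rw [div_le_div_iff₀ (h.q.ok.kap 4) (by norm_num)]
    linarith [h.kap4 4]
  have hρ : 0 ≤ W.B'.d n ^ t := Real.rpow_nonneg (W.B'.pos n).le _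
  have h1' := h1.trans (mul_le_mul_of_nonneg_right hk hρ)
  have h2' := h2.trans (mul_le_mul_of_nonneg_right hk hρ)
  have p1 := prod_le (n := n) hcf (h.crd4 g hx hz 2) (h.crd4 g hz hx' 3)
  have p2 := prod_le (n := n) hcf (h.crd4 g hz hz' 2) (h.crd4 g hz' hx' 3)
  have e : W.crd n x x' 4 - W.crd n z z' 4 = W.crd n x z 4 + W.crd n z' x' 4 -
      cf W n 2 3 4 * (W.crd n x z 2 * W.crd n z x' 3) -
      cf W n 2 3 4 * (W.crd n z z' 2 * W.crd n z' x' 3) := by linarith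
  rw [e]
  have a1 := abs_sub (W.crd n x z 4 + W.crd n z' x' 4 -
      cf W n 2 3 4 * (W.crd n x z 2 * W.crd n z x' 3))
    (cf W n 2 3 4 * (W.crd n z z' 2 * W.crd n z' x' 3))
  have a2 := abs_sub (W.crd n x z 4 + W.crd n z' x' 4)
    (cf W n 2 3 4 * (W.crd n x z 2 * W.crd n z x' 3))
  have a3 := abs_add_le (W.crd n x z 4) (W.crd n z' x' 4)
  linarith

/-- the flag `F_a` of a height is additive -/
theorem flg4 (h : QAt W f Ma) {n : ℕ} (g : W.Good n) {E0 : Finset (ι n)} (hE : E0 ⊆ W.Cl n)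
    {k k' : ℕ} (hk : k ∈ (W.cfg0 n E0).Z) (hk' : k' ∈ (W.cfg0 n E0).Z) {t : ℝ}
    (hcf : |cf W n 2 3 4| ≤ W.B'.d n ^ t) :
    |W.crd n (W.zrep n k) (W.zrep n k') 4 - (flg W n k' 4 - flg W n k 4)| ≤ W.B'.d n ^ t := by
  obtain ⟨z1, -⟩ := zrep_of_mem hE hk
  obtain ⟨z1', -⟩ := zrep_of_mem hE hk'
  have e1 := h.q.crd_four g g.s0 z1 z1'
  have p1 := prod_le (n := n) hcf (h.crd4 g g.s0 z1 2) (h.crd4 g z1 z1' 3)
  have hρ : 0 ≤ W.B'.d n ^ t := Real.rpow_nonneg (W.B'.pos n).le _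
  have e : W.crd n (W.zrep n k) (W.zrep n k') 4 - (flg W n k' 4 - flg W n k 4) =
      cf W n 2 3 4 * (W.crd n (W.s₀ n) (W.zrep n k) 2 * W.crd n (W.zrep n k) (W.zrep n k') 3) := by
    unfold flg
    linarith
  rw [e]
  linarith

/-- **raw twist of `F_a` between heights** -/
theorem rawTw4 (h : QAt W f Ma) (hM : MaD Ma)
    (hc : ∀ᶠ n in (U : Filter ℕ), W.Good n ∧ E n ⊆ W.Cl n ∧ W.cfg E n = W.cfg0 n (E n))
    (h4 : (4 : Fin 11) ∈ W.S) (hT : 0 < T) (ht : T ≤ W.top 4) (hr : RawL W E 4) :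
    RawTw W.B' (W.cfg E) (fun n k k' => flg W n k' 4 - flg W n k 4) := by
  intro ε hε
  set δ : ℝ := min (ε / 2) (T / 2) with hδ
  have hδ0 : 0 < δ := lt_min (by positivity) (by positivity)
  have hδε : δ < ε := lt_of_le_of_lt (min_le_left _ _) (by linarith)
  have hδT : δ < T := lt_of_le_of_lt (min_le_right _ _) (by linarith)
  filter_upwards [hc, hr δ hδ0 (1 / 2) (by norm_num), cf234 h hM hT.le,
    ev_const_le W.B' (show 0 < ε - δ by linarith) 2,
    ev_const_le W.B' (show 0 < T - δ by linarith) 4] with n hn hrn hcf h2 h3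
  obtain ⟨g, hE, hcfg⟩ := hn
  intro i hi S hS hSm
  have hd0 : 0 < W.B'.d n := W.B'.pos n
  have hpow : ∀ t : ℝ, 0 < W.B'.d n ^ t := fun t => Real.rpow_pos_of_pos hd0 t
  have a1 : W.B'.d n ^ ε ≤ W.B'.d n ^ δ / 2 := by
    have : W.B'.d n ^ ε * W.B'.d n ^ (-(ε - δ)) = W.B'.d n ^ δ := by
      rw [← Real.rpow_add hd0]; congr 1; ring
    have h4 := mul_le_mul_of_nonneg_left h2 (hpow ε).le
    rw [this] at h4
    linarith
  have a2 : 2 * W.B'.d n ^ T ≤ W.B'.d n ^ δ / 2 := by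
    have : W.B'.d n ^ T * W.B'.d n ^ (-(T - δ)) = W.B'.d n ^ δ := by
      rw [← Real.rpow_add hd0]; congr 1; ring
    have h4 := mul_le_mul_of_nonneg_left h3 (hpow T).le
    rw [this] at h4
    linarith
  classical
  have hsub : S ⊆ ((W.cfg E n).hts i).biUnion fun k =>
      (((W.cfg E n).hts i).filter fun k' =>
        |W.crd n (W.rep n i k) (W.rep n i k') 4| ≤ W.B'.d n ^ δ).image fun k' => (k, k') := by
    intro q hq
    obtain ⟨q1, q2⟩ := mem_product.1 (hS hq)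
    refine mem_biUnion.2 ⟨q.1, q1, mem_image.2 ⟨q.2, mem_filter.2 ⟨q2, ?_⟩, rfl⟩⟩
    have g1 := (RCfg.mem_hts.1 q1)
    have g2 := (RCfg.mem_hts.1 q2)
    have g1' := g1.2
    have g2' := g2.2
    rw [hcfg] at g1' g2'
    have g1z := g1.1
    have g2z := g2.1
    rw [hcfg] at g1z g2z
    have m1 := flg4 h g hE g1z g2z hcf
    obtain ⟨x1, x2, x3⟩ := rep_of_mem hE g1'
    obtain ⟨y1, y2, y3⟩ := rep_of_mem hE g2'
    obtain ⟨z1, z2⟩ := zrep_of_mem hE g1z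
    obtain ⟨z1', z2'⟩ := zrep_of_mem hE g2z
    have m2 := own4 h g x1 y1 z1 z1' (x3.trans z2.symm) (y3.trans z2'.symm) h4 ht hcf
    have m3 := hSm q hq
    have m5 := abs_sub_abs_le_abs_sub (W.crd n (W.rep n i q.1) (W.rep n i q.2) 4)
      (flg W n q.2 4 - flg W n q.1 4)
    have m6 := abs_sub_le (W.crd n (W.rep n i q.1) (W.rep n i q.2) 4)
      (W.crd n (W.zrep n q.1) (W.zrep n q.2) 4) (flg W n q.2 4 - flg W n q.1 4)
    linarith
  have hcard : (S.card : ℝ) ≤ ∑ k ∈ (W.cfg E n).hts i,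
      1 / 2 * (((W.cfg E n).hts i).card : ℝ) := by
    have h5 : (S.card : ℝ) ≤ ∑ k ∈ (W.cfg E n).hts i,
        ((((W.cfg E n).hts i).filter fun k' =>
        |W.crd n (W.rep n i k) (W.rep n i k') 4| ≤ W.B'.d n ^ δ).card : ℝ) := by
      have h6 := (card_le_card hsub).trans card_biUnion_le
      have h7 : ∑ k ∈ (W.cfg E n).hts i, ((((W.cfg E n).hts i).filter fun k' =>
          |W.crd n (W.rep n i k) (W.rep n i k') 4| ≤ W.B'.d n ^ δ).image
            fun k' => (k, k')).card ≤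
          ∑ k ∈ (W.cfg E n).hts i, (((W.cfg E n).hts i).filter fun k' =>
          |W.crd n (W.rep n i k) (W.rep n i k') 4| ≤ W.B'.d n ^ δ).card :=
        sum_le_sum fun k _ => card_image_le
      exact_mod_cast h6.trans h7
    exact h5.trans (sum_le_sum fun k hk => hrn i hi k hk)
  rw [sum_const, nsmul_eq_mul] at hcard
  nlinarith

/-! ### 865's model -/

/-- **`M1` in a window of 356's class**, no slot of the `b`-direction -/
theorem m1_of_qat (h : QAt W f Ma) (hM : MaD Ma) (hkz : W.kz = 0) (h4 : (4 : Fin 11) ∈ W.S)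
    (hc : ∀ᶠ n in (U : Filter ℕ), W.Good n ∧ E n ⊆ W.Cl n ∧ W.cfg E n = W.cfg0 n (E n))
    (T0 : 0 < T) (ht : ∀ s, T ≤ W.top s)
    (leg : ∀ ca p xa n : ℝ, 0 ≤ ca → ca ≤ T → 0 ≤ p → p ≤ T → 0 ≤ xa → xa ≤ T → 0 ≤ n →
      n ≤ T → C1865.bw 0 ca 0 p xa 0 n ∈ W.legW)
    (H : RModel W.B' (W.cfg E) 1 T W.legW W.nu W.Dc) (hr : RawL W E 4) :
    C1865.M1 W.B' (W.cfg E) W.legW W.nu T W.Dc (fun n k => flg W n k 4) False where
  H := H
  T0 := T0
  leg := fun e ca cb p xa xb n _ _ ca0 ca1 _ _ p0 p1 xa0 xa1 _ _ n0 n1 _ _ hR => by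
    rcases hR with hR | ⟨rfl, rfl, rfl⟩
    · exact hR.elim
    · exact leg ca p xa n ca0 ca1 p0 p1 xa0 xa1 n0 n1
  bd := by
    have hK0 := h.q.ok.K0_one
    filter_upwards [Xb403.bd_of h.q (fun s => by have := h.kap4 s; linarith) hc,
      h.q.z_eq hkz hc] with n hn hz k hk
    rw [hz k]
    exact ⟨hn.2 k hk 0, hn.2 k hk 4⟩
  rb := fun ε hε => by
    have hK0 := h.q.ok.K0_one
    filter_upwards [Xb403.bd_of h.q (fun s => by have := h.kap4 s; linarith) hc,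
      ev_const_le W.B' hε 1] with n hn h1 k i l h2 h3 s
    exact (hn.1 k i l h2 h3 s).trans h1
  ev := fun ε hε => by
    have hK0 := h.q.ok.K0_one
    filter_upwards [h.evoX hc T0.le ht (half_pos hε), h.q.z_eq hkz hc, h.q.mot_eq hc, hc,
      cf234 h hM T0.le, Xb403.bd_of h.q (fun s => by have := h.kap4 s; linarith) hc,
      ev_const_le W.B' (half_pos hε) 8] with n hev hz hmot hn hcf hbd h8
    obtain ⟨g, hE, hcfg⟩ := hn
    intro k k' i l h1 h2 h3 h4'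
    refine ⟨?_, fun hF => hF.elim⟩
    have hkZ : k ∈ (W.cfg E n).Z := H.memZ h1
    have hkZ' : k' ∈ (W.cfg E n).Z := H.memZ h3
    have key := hev k k' i l h1 h3 h2 h4'
    set a := ownC (chi Ma) W n k k' (fsl W n i k 2) (fsl W n i k 3) with ha
    set r := (W.cfg E n).rel k i l with hr'
    set r' := (W.cfg E n).rel k' i l with hr''
    have c234 : chi Ma 2 3 4 = 0 := if_neg hM.n234
    have c367 : chi Ma 3 6 7 = 0 := if_neg hM.n367
    have c3910 : chi Ma 3 9 10 = 0 := if_neg hM.n3910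
    have c017 : chi Ma 0 1 7 = 0 := if_neg hM.n017
    have c457 : chi Ma 4 5 7 = 1 := if_pos hM.m457
    have c058 : chi Ma 0 5 8 = 1 := if_pos hM.m058
    have c0710 : chi Ma 0 7 10 = 1 := if_pos hM.m0710
    have c4810 : chi Ma 4 8 10 = 1 := if_pos hM.m4810
    have m0 : a 0 = (W.cfg E n).z k' - (W.cfg E n).z k := by
      rw [ha, hz k, hz k']
      unfold ownC mot
      rw [if_neg (by decide), if_pos (show (0 : Fin 11) ∈ W.S from h.S0)]
      exact (hmot k hkZ k' hkZ').1 0 (by simp)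
    have m4 : a 4 = W.crd n (W.zrep n k) (W.zrep n k') 4 := by
      rw [ha]
      unfold ownC
      rw [if_pos rfl, if_pos h4, c234]
      ring
    have hρ : 0 < W.B'.d n ^ T := Real.rpow_pos_of_pos (W.B'.pos n) _
    have d4 : |a 4 - (flg W n k' 4 - flg W n k 4)| ≤ W.B'.d n ^ T := by
      rw [m4]
      have hkZ0 := hkZ
      have hkZ0' := hkZ'
      rw [hcfg] at hkZ0 hkZ0'
      exact flg4 h g hE hkZ0 hkZ0' hcf
    have hR : ∀ s, |r s| ≤ 1 := fun s => hbd.1 k i l h1 h2 s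
    have hu : |a 0| ≤ 2 := by
      rw [m0, hz k, hz k']
      refine (abs_sub _ _).trans ?_
      have := hbd.2 k hkZ 0
      have := hbd.2 k' hkZ' 0
      linarith
    have hfin : W.B'.d n ^ (T - ε / 2) + 3 * W.B'.d n ^ T ≤ W.B'.d n ^ (T - ε) := by
      have e1 : W.B'.d n ^ (T - ε) = W.B'.d n ^ (-(ε / 2)) * W.B'.d n ^ (T - ε / 2) := by
        rw [← Real.rpow_add (W.B'.pos n)]; congr 1; ring
      have e2 : W.B'.d n ^ T ≤ W.B'.d n ^ (T - ε / 2) :=
        Real.rpow_le_rpow_of_exponent_ge (W.B'.pos n) (W.B'.lt n).le (by linarith)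
      have e3 : 0 < W.B'.d n ^ (T - ε / 2) := Real.rpow_pos_of_pos (W.B'.pos n) _
      rw [e1]
      nlinarith
    have hle : W.B'.d n ^ (T - ε / 2) ≤ W.B'.d n ^ (T - ε) := by linarith
    rw [← m0]
    set φ := flg W n k' 4 - flg W n k 4 with hφ
    have mul3 : ∀ {x : ℝ}, |x| ≤ 3 → |(a 4 - φ) * x| ≤ 3 * W.B'.d n ^ T := by
      intro x hx
      rw [abs_mul]
      have := mul_le_mul d4 hx (abs_nonneg _) hρ.le
      linarith
    refine ⟨?_, ?_, ?_, ?_⟩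
    · have := key 5 (h.q.notMem (by simp))
      have e : evoC (chi Ma) a r 5 = r 5 := by simp only [evoC, Matrix.cons_val]
      rw [e] at this
      exact this.trans hle
    · have := key 7 (h.q.notMem (by simp))
      have e : evoC (chi Ma) a r 7 = r 7 - a 4 * r 5 := by
        simp only [evoC, Matrix.cons_val]
        rw [c017, c457, c367]; ring
      rw [e] at this
      have e2 : r' 7 - (r 7 - φ * r 5) = (r' 7 - (r 7 - a 4 * r 5)) - (a 4 - φ) * r 5 := by ring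
      rw [e2]
      have h5 := abs_sub (r' 7 - (r 7 - a 4 * r 5)) ((a 4 - φ) * r 5)
      have h6 := mul3 (x := r 5) ((hR 5).trans (by norm_num))
      linarith
    · have := key 8 (h.q.notMem (by simp))
      have e : evoC (chi Ma) a r 8 = r 8 + a 0 * r 5 := by
        simp only [evoC, Matrix.cons_val]
        rw [c058]; ring
      rw [e] at this
      exact this.trans hle
    · have := key 10 (h.q.notMem (by simp))
      have e : evoC (chi Ma) a r 10 = r 10 + a 0 * r 7 - a 4 * (r 8 + a 0 * r 5) := by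
        simp only [evoC, Matrix.cons_val]
        rw [c0710, c017, c4810, c058, c3910]; ring
      rw [e] at this
      have e2 : r' 10 - (r 10 + a 0 * r 7 - φ * (r 8 + a 0 * r 5)) =
          (r' 10 - (r 10 + a 0 * r 7 - a 4 * (r 8 + a 0 * r 5))) -
            (a 4 - φ) * (r 8 + a 0 * r 5) := by ring
      rw [e2]
      have h5 := abs_sub (r' 10 - (r 10 + a 0 * r 7 - a 4 * (r 8 + a 0 * r 5)))
        ((a 4 - φ) * (r 8 + a 0 * r 5))
      have h7 : |r 8 + a 0 * r 5| ≤ 3 := by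
        refine (abs_add_le _ _).trans ?_
        rw [abs_mul]
        have := mul_le_mul hu (hR 5) (abs_nonneg _) (by norm_num)
        linarith [hR 8]
      have h6 := mul3 h7
      linarith
  tw := rawTw4 h hM hc h4 T0 (ht 4) hr

/-! ### everything in one call -/

/-- **the window of the row D1** -/
structure DW (lam : (Fin 11 → ℝ) → ℝ) (T : ℝ) (W : Wnd 11 ι) (E : ∀ n, Finset (ι n)) : Prop where
  lamE : W.lam = lam
  S : W.S = {0, 2, 4}
  top : W.top = fun _ => T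
  ne : Xb403.NE W.B' (W.cfg E) W.legW W.nu T W.Dc (fun n k => flg W n k 2)
  tw2 : RawTw W.B' (W.cfg E) (fun n k k' => flg W n k' 2 - flg W n k 2)
  m1 : C1865.M1 W.B' (W.cfg E) W.legW W.nu T W.Dc (fun n k => flg W n k 4) False

/-- every box between `0` and `T` is legal -/
theorem legW_D (hM : MaD Ma) (hS : W.S = {0, 2, 4}) (htop : W.top = fun _ => T)
    (hMw : W.Mw = Ma) (hR : W.R' = T) {p : Fin 11 → ℝ} (h0 : ∀ s, 0 ≤ p s) (h1 : ∀ s, p s ≤ T) :
    p ∈ W.legW := by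
  have hT : 0 ≤ T := (h0 0).trans (h1 0)
  have key : ∀ s, 0 ≤ cut {0, 2, 4} p (fun _ => T) s ∧ cut {0, 2, 4} p (fun _ => T) s ≤ T := by
    intro s
    unfold cut
    split_ifs
    · exact ⟨hT, le_rfl⟩
    · exact ⟨h0 s, h1 s⟩
  have e0 : cut {0, 2, 4} p (fun _ => T) 0 = T := cut_of_mem (by decide)
  have e2 : cut {0, 2, 4} p (fun _ => T) 2 = T := cut_of_mem (by decide)
  have e4 : cut {0, 2, 4} p (fun _ => T) 4 = T := cut_of_mem (by decide)
  refine ⟨?_, fun s _ => by rw [htop]; exact h1 s⟩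
  rw [hS, htop, hMw, hR]
  refine ⟨⟨fun s => (key s).1, fun k e he => ?_⟩, fun s => (key s).2⟩
  refine legD hM ?_ ?_ ?_ ?_ ?_ ?_ ?_ k e he
  · rw [e2]; linarith [(key 6).2, (key 5).1]
  · rw [e4]; linarith [(key 7).2, (key 5).1]
  · rw [e0]; linarith [(key 8).2, (key 5).1]
  · rw [e0]; linarith [(key 9).2, (key 6).1]
  · rw [e2]; linarith [(key 9).2, (key 8).1]
  · rw [e0]; linarith [(key 10).2, (key 7).1]
  · rw [e4]; linarith [(key 10).2, (key 8).1]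

theorem sok_D : SOk {0, 2, 4} := by constructor <;> decide

/-- **the window of `AeW`** -/
theorem dw_of_aew {B Bo : Base} {I J : ∀ n, Finset (ι n)} {co : ∀ n, ι n → ι n → Fin 11 → ℝ}
    {C : ℝ} {lam : (Fin 11 → ℝ) → ℝ} {a b : Fin 11 → ℝ} {A : ℝ × ℝ}
    {φ : ℕ → (Fin 11 → ℝ) → ℝ} {r : ℕ → ℝ} {κ : Fin 11 → ℝ} {V Tw : Fin 11 → Prop}
    (h : AeW B Bo I J co monQ Ma C lam a b A φ r 0 1 κ V Tw) (hM : MaD Ma) (hC : 0 ≤ C)
    (hco : ∀ n, ∀ i ∈ I n, ∀ j ∈ I n, co n i j = coQ (f n i) (f n j))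
    (hne : ∀ᶠ n in (U : Filter ℕ), (J n).Nonempty)
    (hS : ∀ i j : Fin 11, Dg219.gC a b i = Dg219.gC a b j → i ∈ ({0, 2, 4} : Finset (Fin 11)) →
      j ∈ ({0, 2, 4} : Finset (Fin 11)))
    (hV : ∀ k, V k → k = 2 ∨ k = 4) (hT2 : Tw 2) (hT4 : Tw 4) (hT : 0 < T) :
    ∃ (W : Wnd 11 ι) (E : ∀ n, Finset (ι n)), DW lam T W E := by
  have hK0 : 1 ≤ cK0 monQ C := cK0_one hC
  set st : WSt 11 := stQ {0, 2, 4} (4 * cK0 monQ C) T Ma with hst
  have hok : st.Ok monQ (coneM Ma) := stQ_ok sok_D (by linarith) hT.le hM.sub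
  obtain ⟨W, hW, -, -⟩ := h.wnd st rfl hok (fun _ _ => 1)
    (fun _ => Crest.Agent.R138.Ex926.Base.Sub.const one_pos) J (fun _ => 1)
    (Eventually.of_forall fun n => Finset.Subset.refl _) hne
    (Crest.Agent.R138.Ex926.Base.Sub.const one_pos)
    (Eventually.of_forall fun n => by rw [one_mul])
  have hden : st.Dens lam 1 T := h.dens rfl hok hS zero_le_one le_rfl le_rfl
    fun y hy _ => legD hM (by simp) (by simp) (by simpa using hy) (by simpa using hy) (by simp)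
      (by simpa using hy) (by simp)
  obtain ⟨E, g, hP, -, H, htw⟩ := hW.model hden (fun _ _ _ => 0)
    (g₀ := fun n => n)
    (tendsto_natCast_atTop_atTop.mono_left Crest.Agent.R138.Ex926.U_le_atTop) (fun k hk => by
      left
      show k ∈ ({0, 2, 4} : Finset (Fin 11))
      rcases hV k hk with rfl | rfl <;> decide)
  have hq : QWnd W f := qwnd_of_wat hW hco (by
    show ∀ s ∈ ({0, 2, 4} : Finset (Fin 11)), _
    decide)
  have hc := hcQ hq hP
  have hqa : QAt W f Ma := QAt.of_wat hW hq (by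
    show (0 : Fin 11) ∈ ({0, 2, 4} : Finset (Fin 11)); decide) (fun s => rfl) hM.n017
  have eS : W.S = {0, 2, 4} := hW.eS
  have etop : W.top = fun _ => T := hW.etop
  have leg : ∀ p : Fin 11 → ℝ, (∀ s, 0 ≤ p s) → (∀ s, p s ≤ T) → p ∈ W.legW :=
    fun p h0 h1 => legW_D hM eS etop hW.eMw hW.eR h0 h1
  have raw : ∀ s : Fin 11, s = 2 ∨ s = 4 → Tw s → RawL W E s := by
    intro s hs hTs
    refine htw s ?_ hTs hT ⟨T, hT, ?_⟩
    · show s ∈ ({0, 2, 4} : Finset (Fin 11))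
      rcases hs with rfl | rfl <;> decide
    · show cut {0, 2, 4} (fun _ => T) (Pi.single s T) ∈ coneM Ma
      rcases hs with rfl | rfl
      · refine legD hM ?_ ?_ ?_ ?_ ?_ ?_ ?_ <;> simp [cut] <;> linarith
      · refine legD hM ?_ ?_ ?_ ?_ ?_ ?_ ?_ <;> simp [cut] <;> linarith
  have m2 : (2 : Fin 11) ∈ W.S := by rw [eS]; decide
  have m4 : (4 : Fin 11) ∈ W.S := by rw [eS]; decide
  refine ⟨W, E, hW.elam, eS, etop, ?_, ?_, ?_⟩
  · refine Xb403.ne_of_qat hqa ⟨hM.m256, hM.m058, hM.m069, hM.m289, hM.n017⟩ hW.ekz m2 hc hT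
      (fun s => by rw [etop]) ?_ H
    intro ca cb xa xb h1 h2 h3 h4 h5 h6 h7 h8
    refine leg _ (fun s => ?_) fun s => ?_
    · fin_cases s <;> simp [Xb403.bw] <;> assumption
    · fin_cases s <;> simp [Xb403.bw] <;> first | assumption | exact hT.le
  · exact C2w400.rawTw_of_rawL hq hc m2 (by simp) hT (by rw [etop]) (raw 2 (by simp) hT2)
  · refine m1_of_qat hqa hM hW.ekz m4 hc hT (fun s => by rw [etop]) ?_ H (raw 4 (by simp) hT4)
    intro ca p xa n h1 h2 h3 h4 h5 h6 h7 h8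
    refine leg _ (fun s => ?_) fun s => ?_
    · fin_cases s <;> simp [C1865.bw] <;> assumption
    · fin_cases s <;> simp [C1865.bw] <;> first | assumption | exact hT.le

/-- values of the profile of the window -/
theorem DW.nu_eq {lam : (Fin 11 → ℝ) → ℝ} {W : Wnd 11 ι} {E : ∀ n, Finset (ι n)}
    (h : DW lam T W E) (p : Fin 11 → ℝ) :
    W.nu p = lam (cut {0, 2, 4} p fun _ => T) - lam fun _ => T := by
  unfold Wnd.nu
  rw [h.S, h.top, h.lamE]

end Crest.Agent.R136.Dd413
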