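import Crest.Agent.R136.Dd0_413

/-!
# R136, row D1 of the thick table (helper413), part 1: the F-half

Over `AeW` with walls `MaD` (slack `F_b`), for every plane `(a, b)` with the slopes `SlD`: natural
slopes of the row, `b = u a + w (0 on z, E, F_a, 1 on the slots 5..10)`, `F_b` not parallel to `z`.

* `SlD`, `GrD`, `grD` : slopes, groups
* `Fh` : hypotheses of the F-half; `Fh.xa`, `Fh.xb`, `Fh.n` : `X_a, X_b, N` are full
* `Fh.slope` : `A.1 ≤ -(4 + κ + κ3)`
-/

set_option autoImplicit false
set_option linter.unusedVariables false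
set_option linter.unusedSectionVars false

open Filter Topology

namespace Crest.Agent.R136.Dd413

open Finset Crest.Agent.R136.NetQ186 Crest.Agent.R136.Net191 Crest.Agent.R136.Qg926
open Crest.Agent.R136.Gf356 Crest.Agent.R136.Ev356 Crest.Agent.R136.Aw413
open Crest.Agent.R136.Wq400 Crest.Agent.R136.Fe1355
open Crest.Agent.R136.Dg219 (OutS gC dhC nC gC_eq gC_zero nC_zero nC_of gset)
open Crest.Agent.R138.Ex926 (Base U)

/-! ### slopes and groups -/

/-- **slopes of the row D1** -/
structure SlD (a b : Fin 11 → ℝ) (κ κ3 a3 u w : ℝ) : Prop where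
  a_eq : a = ![1, 0, κ, a3, κ3, 0, κ, κ3, 1, 1 + κ, 1 + κ3]
  b0 : b 0 = u
  b2 : b 2 = u * κ
  b4 : b 4 = u * κ3
  b6 : b 6 = u * κ + w
  b7 : b 7 = u * κ3 + w
  b8 : b 8 = u + w
  b9 : b 9 = u * (1 + κ) + w
  b10 : b 10 = u * (1 + κ3) + w
  b3 : b 3 ≠ u * a3
  w0 : w ≠ 0
  k0 : 0 < κ
  k3 : 0 < κ3
  ne : κ ≠ κ3
  a30 : 0 < a3

/-- **groups of the row D1** -/
structure GrD (κ κ3 : ℝ) (g : Fin 11 → ℕ) : Prop where
  g0 : ∀ j, g j = g 0 → j = 0 ∨ j = 2 ∨ j = 4
  g02 : g 2 = g 0
  g04 : g 4 = g 0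
  g5 : ∀ j, g j = g 5 → j = 1 ∨ j = 5
  g8 : ∀ j, g j = g 8 → j = 8 ∨ j = 3 ∨ (j = 6 ∧ κ = 1) ∨ (j = 7 ∧ κ3 = 1)
  g9 : ∀ j, g j = g 9 → j = 9 ∨ j = 3 ∨ (j = 7 ∧ κ3 = 1 + κ)
  g10 : ∀ j, g j = g 10 → j = 10 ∨ j = 3 ∨ (j = 6 ∧ κ = 1 + κ3)

theorem par {a b : Fin 11 → ℝ} {i j : Fin 11} (hi : a i ≠ 0) (hj : a j ≠ 0)
    (h : gC a b i = gC a b j) : b i * a j = b j * a i :=
  (div_eq_div_iff hi hj).1 ((gC_eq hi hj).1 h)

theorem par' {a b : Fin 11 → ℝ} {i j : Fin 11} (hi : a i ≠ 0) (hj : a j ≠ 0)
    (h : b i * a j = b j * a i) : gC a b i = gC a b j :=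
  (gC_eq hi hj).2 ((div_eq_div_iff hi hj).2 h)

theorem grD {a b : Fin 11 → ℝ} {κ κ3 a3 u w : ℝ} (h : SlD a b κ κ3 a3 u w) :
    GrD κ κ3 (gC a b) := by
  obtain ⟨ha, b0, b2, b4, b6, b7, b8, b9, b10, b3, w0, k0, k3, ne, a30⟩ := h
  have a0 : a 0 = 1 := by rw [ha]; rfl
  have a1 : a 1 = 0 := by rw [ha]; rfl
  have a2 : a 2 = κ := by rw [ha]; rfl
  have a3' : a 3 = a3 := by rw [ha]; rfl
  have a4 : a 4 = κ3 := by rw [ha]; rfl
  have a5 : a 5 = 0 := by rw [ha]; rfl
  have a6 : a 6 = κ := by rw [ha]; rfl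
  have a7 : a 7 = κ3 := by rw [ha]; rfl
  have a8 : a 8 = 1 := by rw [ha]; rfl
  have a9 : a 9 = 1 + κ := by rw [ha]; rfl
  have a10 : a 10 = 1 + κ3 := by rw [ha]; rfl
  have n0 : a 0 ≠ 0 := by rw [a0]; exact one_ne_zero
  have n2 : a 2 ≠ 0 := by rw [a2]; exact k0.ne'
  have n3 : a 3 ≠ 0 := by rw [a3']; exact a30.ne'
  have n4 : a 4 ≠ 0 := by rw [a4]; exact k3.ne'
  have n6 : a 6 ≠ 0 := by rw [a6]; exact k0.ne'
  have n7 : a 7 ≠ 0 := by rw [a7]; exact k3.ne'
  have n8 : a 8 ≠ 0 := by rw [a8]; exact one_ne_zero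
  have n9 : a 9 ≠ 0 := by rw [a9]; positivity
  have n10 : a 10 ≠ 0 := by rw [a10]; positivity
  have z1 : gC a b 1 = 0 := gC_zero.2 a1
  have z5 : gC a b 5 = 0 := gC_zero.2 a5
  have nz : ∀ i, a i ≠ 0 → gC a b i ≠ 0 := fun i hi h0 => hi (gC_zero.1 h0)
  have kill : ∀ x : ℝ, 0 < x → w * x ≠ 0 := fun x hx => mul_ne_zero w0 hx.ne'
  have cases11 : ∀ j : Fin 11, j = 0 ∨ j = 1 ∨ j = 2 ∨ j = 3 ∨ j = 4 ∨ j = 5 ∨ j = 6 ∨ j = 7 ∨
      j = 8 ∨ j = 9 ∨ j = 10 := by decide
  refine ⟨fun j hj => ?_, ?_, ?_, fun j hj => ?_, fun j hj => ?_, fun j hj => ?_, fun j hj => ?_⟩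
  · rcases cases11 j with rfl | rfl | rfl | rfl | rfl | rfl | rfl | rfl | rfl | rfl | rfl
    · simp
    · rw [z1] at hj; exact absurd hj.symm (nz 0 n0)
    · simp
    · exfalso
      have := par n3 n0 hj
      rw [a0, b0, a3'] at this
      exact b3 (by linarith)
    · simp
    · rw [z5] at hj; exact absurd hj.symm (nz 0 n0)
    · exfalso
      have := par n6 n0 hj
      rw [a0, b0, a6, b6] at this
      exact w0 (by linarith)
    · exfalso
      have := par n7 n0 hj
      rw [a0, b0, a7, b7] at this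
      exact w0 (by linarith)
    · exfalso
      have := par n8 n0 hj
      rw [a0, b0, a8, b8] at this
      exact w0 (by linarith)
    · exfalso
      have := par n9 n0 hj
      rw [a0, b0, a9, b9] at this
      exact w0 (by linarith)
    · exfalso
      have := par n10 n0 hj
      rw [a0, b0, a10, b10] at this
      exact w0 (by linarith)
  · exact par' n2 n0 (by rw [a0, b0, a2, b2]; ring)
  · exact par' n4 n0 (by rw [a0, b0, a4, b4]; ring)
  · rw [z5] at hj
    have h0 := gC_zero.1 hj
    rcases cases11 j with rfl | rfl | rfl | rfl | rfl | rfl | rfl | rfl | rfl | rfl | rfl <;>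
      first
      | exact Or.inl rfl
      | exact Or.inr rfl
      | exact absurd h0 n0
      | exact absurd h0 n2
      | exact absurd h0 n3
      | exact absurd h0 n4
      | exact absurd h0 n6
      | exact absurd h0 n7
      | exact absurd h0 n8
      | exact absurd h0 n9
      | exact absurd h0 n10
  · rcases cases11 j with rfl | rfl | rfl | rfl | rfl | rfl | rfl | rfl | rfl | rfl | rfl
    · exfalso
      have := par n0 n8 hj
      rw [a0, b0, a8, b8] at this
      exact w0 (by linarith)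
    · rw [z1] at hj; exact absurd hj.symm (nz 8 n8)
    · exfalso
      have := par n2 n8 hj
      rw [a2, b2, a8, b8] at this
      exact kill κ k0 (by linarith)
    · simp
    · exfalso
      have := par n4 n8 hj
      rw [a4, b4, a8, b8] at this
      exact kill κ3 k3 (by linarith)
    · rw [z5] at hj; exact absurd hj.symm (nz 8 n8)
    · right; right; left
      refine ⟨rfl, ?_⟩
      have := par n6 n8 hj
      rw [a6, b6, a8, b8] at this
      have h1 : w * (κ - 1) = 0 := by linarith
      rcases mul_eq_zero.1 h1 with h2 | h2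
      · exact absurd h2 w0
      · linarith
    · right; right; right
      refine ⟨rfl, ?_⟩
      have := par n7 n8 hj
      rw [a7, b7, a8, b8] at this
      have h1 : w * (κ3 - 1) = 0 := by linarith
      rcases mul_eq_zero.1 h1 with h2 | h2
      · exact absurd h2 w0
      · linarith
    · simp
    · exfalso
      have := par n9 n8 hj
      rw [a9, b9, a8, b8] at this
      exact kill κ k0 (by linarith)
    · exfalso
      have := par n10 n8 hj
      rw [a10, b10, a8, b8] at this
      exact kill κ3 k3 (by linarith)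
  · rcases cases11 j with rfl | rfl | rfl | rfl | rfl | rfl | rfl | rfl | rfl | rfl | rfl
    · exfalso
      have := par n0 n9 hj
      rw [a0, b0, a9, b9] at this
      exact w0 (by linarith)
    · rw [z1] at hj; exact absurd hj.symm (nz 9 n9)
    · exfalso
      have := par n2 n9 hj
      rw [a2, b2, a9, b9] at this
      exact kill κ k0 (by linarith)
    · simp
    · exfalso
      have := par n4 n9 hj
      rw [a4, b4, a9, b9] at this
      exact kill κ3 k3 (by linarith)
    · rw [z5] at hj; exact absurd hj.symm (nz 9 n9)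
    · exfalso
      have := par n6 n9 hj
      rw [a6, b6, a9, b9] at this
      exact w0 (by linarith)
    · right; right
      refine ⟨rfl, ?_⟩
      have := par n7 n9 hj
      rw [a7, b7, a9, b9] at this
      have h1 : w * (κ3 - (1 + κ)) = 0 := by linarith
      rcases mul_eq_zero.1 h1 with h2 | h2
      · exact absurd h2 w0
      · linarith
    · exfalso
      have := par n8 n9 hj
      rw [a8, b8, a9, b9] at this
      exact kill κ k0 (by linarith)
    · simp
    · exfalso
      have := par n10 n9 hj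
      rw [a10, b10, a9, b9] at this
      have h1 : w * (κ - κ3) = 0 := by linarith
      rcases mul_eq_zero.1 h1 with h2 | h2
      · exact w0 h2
      · exact ne (by linarith)
  · rcases cases11 j with rfl | rfl | rfl | rfl | rfl | rfl | rfl | rfl | rfl | rfl | rfl
    · exfalso
      have := par n0 n10 hj
      rw [a0, b0, a10, b10] at this
      exact w0 (by linarith)
    · rw [z1] at hj; exact absurd hj.symm (nz 10 n10)
    · exfalso
      have := par n2 n10 hj
      rw [a2, b2, a10, b10] at this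
      exact kill κ k0 (by linarith)
    · simp
    · exfalso
      have := par n4 n10 hj
      rw [a4, b4, a10, b10] at this
      exact kill κ3 k3 (by linarith)
    · rw [z5] at hj; exact absurd hj.symm (nz 10 n10)
    · right; right
      refine ⟨rfl, ?_⟩
      have := par n6 n10 hj
      rw [a6, b6, a10, b10] at this
      have h1 : w * (κ - (1 + κ3)) = 0 := by linarith
      rcases mul_eq_zero.1 h1 with h2 | h2
      · exact absurd h2 w0
      · linarith
    · exfalso
      have := par n7 n10 hj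
      rw [a7, b7, a10, b10] at this
      exact w0 (by linarith)
    · exfalso
      have := par n8 n10 hj
      rw [a8, b8, a10, b10] at this
      exact kill κ3 k3 (by linarith)
    · exfalso
      have := par n9 n10 hj
      rw [a10, b10, a9, b9] at this
      have h1 : w * (κ - κ3) = 0 := by linarith
      rcases mul_eq_zero.1 h1 with h2 | h2
      · exact w0 h2
      · exact ne (by linarith)
    · simp

end Crest.Agent.R136.Dd413
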