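import Crest.Agent.R136.Dd1_413

/-!
# R136, row D1 of the thick table (helper413), part 1b: the F-half

* `Fh` : hypotheses of the F-half; `Fh.xa`, `Fh.xb`, `Fh.nf` : `X_a, X_b, N` are full
* `Fh.slope` : `A.1 ≤ -(4 + κ + κ3)`
-/

set_option autoImplicit false
set_option linter.unusedVariables false
set_option linter.unusedSectionVars false

open Filter Topology

namespace Crest.Agent.R136.Dd413

open Finset Crest.Agent.R136.NetQ186 Crest.Agent.R136.Net191 Crest.Agent.R136.Qg926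
open Crest.Agent.R136.Gf356 Crest.Agent.R136.Ev356 Crest.Agent.R136.Aw413
open Crest.Agent.R136.Wq400 Crest.Agent.R136.Fe1355
open Crest.Agent.R136.Dg219 (OutS gC dhC nC gC_eq gC_zero nC_zero nC_of gset)
open Crest.Agent.R138.Ex926 (Base U)

/-! ### boxes -/

theorem cases11 (j : Fin 11) : j = 0 ∨ j = 1 ∨ j = 2 ∨ j = 3 ∨ j = 4 ∨ j = 5 ∨ j = 6 ∨ j = 7 ∨
    j = 8 ∨ j = 9 ∨ j = 10 := by
  revert j; decide



/-- box with `z, E, F_a : T` -/
def Vb (T ca cb p xa xb n : ℝ) : Fin 11 → ℝ := ![T, 0, T, 0, T, ca, cb, p, xa, xb, n]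

section

variable (T ca cb p xa xb n x : ℝ) (j : Fin 11)

@[simp] theorem Vb_0 : Vb T ca cb p xa xb n 0 = T := rfl
@[simp] theorem Vb_1 : Vb T ca cb p xa xb n 1 = 0 := rfl
@[simp] theorem Vb_2 : Vb T ca cb p xa xb n 2 = T := rfl
@[simp] theorem Vb_3 : Vb T ca cb p xa xb n 3 = 0 := rfl
@[simp] theorem Vb_4 : Vb T ca cb p xa xb n 4 = T := rfl
@[simp] theorem Vb_5 : Vb T ca cb p xa xb n 5 = ca := rfl
@[simp] theorem Vb_6 : Vb T ca cb p xa xb n 6 = cb := rfl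
@[simp] theorem Vb_7 : Vb T ca cb p xa xb n 7 = p := rfl
@[simp] theorem Vb_8 : Vb T ca cb p xa xb n 8 = xa := rfl
@[simp] theorem Vb_9 : Vb T ca cb p xa xb n 9 = xb := rfl
@[simp] theorem Vb_10 : Vb T ca cb p xa xb n 10 = n := rfl

theorem Vb_ne5 (hj : j ≠ 5) : Vb T ca cb p xa xb n j = Vb T x cb p xa xb n j := by
  rcases cases11 j with rfl | rfl | rfl | rfl | rfl | rfl | rfl | rfl | rfl | rfl | rfl <;>
    first
    | exact absurd rfl hj
    | simp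

theorem Vb_ne6 (hj : j ≠ 6) : Vb T ca cb p xa xb n j = Vb T ca x p xa xb n j := by
  rcases cases11 j with rfl | rfl | rfl | rfl | rfl | rfl | rfl | rfl | rfl | rfl | rfl <;>
    first
    | exact absurd rfl hj
    | simp

theorem Vb_ne7 (hj : j ≠ 7) : Vb T ca cb p xa xb n j = Vb T ca cb x xa xb n j := by
  rcases cases11 j with rfl | rfl | rfl | rfl | rfl | rfl | rfl | rfl | rfl | rfl | rfl <;>
    first
    | exact absurd rfl hj
    | simp

theorem Vb_ne8 (hj : j ≠ 8) : Vb T ca cb p xa xb n j = Vb T ca cb p x xb n j := by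
  rcases cases11 j with rfl | rfl | rfl | rfl | rfl | rfl | rfl | rfl | rfl | rfl | rfl <;>
    first
    | exact absurd rfl hj
    | simp

theorem Vb_ne9 (hj : j ≠ 9) : Vb T ca cb p xa xb n j = Vb T ca cb p xa x n j := by
  rcases cases11 j with rfl | rfl | rfl | rfl | rfl | rfl | rfl | rfl | rfl | rfl | rfl <;>
    first
    | exact absurd rfl hj
    | simp

theorem Vb_ne10 (hj : j ≠ 10) : Vb T ca cb p xa xb n j = Vb T ca cb p xa xb x j := by
  rcases cases11 j with rfl | rfl | rfl | rfl | rfl | rfl | rfl | rfl | rfl | rfl | rfl <;>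
    first
    | exact absurd rfl hj
    | simp

theorem Vb_sum8 (y t : ℝ) : ∑ s, (Vb T ca cb p y xb n s - Vb T ca cb p t xb n s) = y - t := by
  simp [Fin.sum_univ_succ, Vb]

theorem Vb_le8 {y t : ℝ} (h : t ≤ y) : Vb T ca cb p t xb n ≤ Vb T ca cb p y xb n := by
  intro j
  by_cases hj : j = 8
  · subst hj; simpa using h
  · exact (Vb_ne8 T ca cb p t xb n y j hj).le

end

theorem cut_ne (T ca cb xa xb : ℝ) :
    cut {0, 2, 4} (Xb403.bw ca cb xa xb) (fun _ => T) = Vb T ca cb 0 xa xb 0 := by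
  funext j
  fin_cases j <;> simp [cut, Xb403.bw, Vb]

theorem cut_m1 (T ca p xa n : ℝ) :
    cut {0, 2, 4} (C1865.bw 0 ca 0 p xa 0 n) (fun _ => T) = Vb T ca 0 p xa 0 n := by
  funext j
  fin_cases j <;> simp [cut, C1865.bw, Vb]

theorem Vb_mem {Ma : Mons 11} (hM : MaD Ma) {T ca cb p xa xb n : ℝ} (ca0 : 0 ≤ ca) (cb0 : 0 ≤ cb)
    (cb1 : cb ≤ T) (p0 : 0 ≤ p) (p1 : p ≤ T) (xa0 : 0 ≤ xa) (xa1 : xa ≤ T)
    (xb1 : xb ≤ T) (n1 : n ≤ T) : Vb T ca cb p xa xb n ∈ coneM Ma := by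
  refine legD hM ?_ ?_ ?_ ?_ ?_ ?_ ?_ <;> simp [Vb] <;> linarith

theorem s5_mem {Ma : Mons 11} (hM : MaD Ma) {t : ℝ} (ht : 0 ≤ t) :
    (Pi.single 5 t : Fin 11 → ℝ) ∈ coneM Ma := by
  refine legD hM ?_ ?_ ?_ ?_ ?_ ?_ ?_ <;> simp [ht]

theorem s0_mem {Ma : Mons 11} (hM : MaD Ma) {t : ℝ} (ht : 0 ≤ t) :
    (Pi.single 0 t : Fin 11 → ℝ) ∈ coneM Ma := by
  refine legD hM ?_ ?_ ?_ ?_ ?_ ?_ ?_ <;> simp [ht]

/-! ### the F-half -/

/-- **hypotheses of the F-half** -/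
structure Fh (Ma : Mons 11) (lam : (Fin 11 → ℝ) → ℝ) (a b : Fin 11 → ℝ) (A : ℝ × ℝ)
    (φ : ℕ → (Fin 11 → ℝ) → ℝ) (r : ℕ → ℝ) (κ κ3 a3 u w m : ℝ) : Prop where
  sl : SlD a b κ κ3 a3 u w
  hM : MaD Ma
  out : OutS (gC a b) (coneM Ma) (dhC a b) (nC a b) lam A φ r
  zero : lam 0 = 0
  sharp : ∀ c ∈ coneM Ma, ∀ c' ∈ coneM Ma, c ≤ c' → lam c - lam c' ≤ ∑ s, (c' s - c s)
  own : ∀ y : ℝ, 0 ≤ y → y ≤ -lam (Pi.single 0 y)
  hom : ∀ k, (∀ i, gC a b i = k → 0 < dhC a b i) → ∀ c ∈ coneM Ma, ∀ s : ℝ, 0 ≤ s →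
    φ k (s • c) = s * φ k c
  m0 : 0 < m
  S1 : ∀ t : ℝ, 0 ≤ t → m * t ≤ -lam (Pi.single 5 t)

section

variable {Ma : Mons 11} {lam : (Fin 11 → ℝ) → ℝ} {a b : Fin 11 → ℝ} {A : ℝ × ℝ}
  {φ : ℕ → (Fin 11 → ℝ) → ℝ} {r : ℕ → ℝ} {κ κ3 a3 u w m T y : ℝ} {c c' : Fin 11 → ℝ}

/-- change of one slot -/
theorem out_dif {L : Set (Fin 11 → ℝ)} (H : OutS (gC a b) L (dhC a b) (nC a b) lam A φ r)
    (hc : c ∈ L) (hc' : c' ∈ L) (i : Fin 11) (h : ∀ j, j ≠ i → c j = c' j) :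
    lam c - lam c' = φ (gC a b i) c - φ (gC a b i) c' := by
  classical
  have hk : gC a b i ∈ gset (gC a b) := by
    unfold gset
    exact mem_image_of_mem _ (mem_univ i)
  rw [H.sum c hc, H.sum c' hc', ← sum_sub_distrib, sum_eq_single (gC a b i)]
  · intro j _ hj
    rw [H.loc j c c' fun l hl => h l (by rintro rfl; exact hj hl.symm), sub_self]
  · intro hn; exact absurd hk hn

namespace Fh

variable (h : Fh Ma lam a b A φ r κ κ3 a3 u w m)

include h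

theorem loc5 (h1 : c 1 = c' 1) (h5 : c 5 = c' 5) : φ (gC a b 5) c = φ (gC a b 5) c' :=
  h.out.loc _ _ _ fun j hj => by
    rcases (grD h.sl).g5 j hj with rfl | rfl <;> assumption

theorem loc8 (h8 : c 8 = c' 8) (h3 : c 3 = c' 3) (h6 : κ = 1 → c 6 = c' 6)
    (h7 : κ3 = 1 → c 7 = c' 7) : φ (gC a b 8) c = φ (gC a b 8) c' :=
  h.out.loc _ _ _ fun j hj => by
    rcases (grD h.sl).g8 j hj with rfl | rfl | ⟨rfl, h1⟩ | ⟨rfl, h1⟩
    · exact h8
    · exact h3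
    · exact h6 h1
    · exact h7 h1

theorem loc9 (h9 : c 9 = c' 9) (h3 : c 3 = c' 3) (h7 : κ3 = 1 + κ → c 7 = c' 7) :
    φ (gC a b 9) c = φ (gC a b 9) c' :=
  h.out.loc _ _ _ fun j hj => by
    rcases (grD h.sl).g9 j hj with rfl | rfl | ⟨rfl, h1⟩
    · exact h9
    · exact h3
    · exact h7 h1

theorem loc10 (h10 : c 10 = c' 10) (h3 : c 3 = c' 3) (h6 : κ = 1 + κ3 → c 6 = c' 6) :
    φ (gC a b 10) c = φ (gC a b 10) c' :=
  h.out.loc _ _ _ fun j hj => by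
    rcases (grD h.sl).g10 j hj with rfl | rfl | ⟨rfl, h1⟩
    · exact h10
    · exact h3
    · exact h6 h1

theorem z8 (h8 : c 8 = 0) (h3 : c 3 = 0) (h6 : κ = 1 → c 6 = 0) (h7 : κ3 = 1 → c 7 = 0) :
    φ (gC a b 8) c = 0 := by
  rw [h.loc8 (c' := 0) h8 h3 h6 h7]
  exact h.out.zero _ _ fun _ _ => rfl

theorem z9 (h9 : c 9 = 0) (h3 : c 3 = 0) (h7 : κ3 = 1 + κ → c 7 = 0) :
    φ (gC a b 9) c = 0 := by
  rw [h.loc9 (c' := 0) h9 h3 h7]
  exact h.out.zero _ _ fun _ _ => rfl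

theorem z10 (h10 : c 10 = 0) (h3 : c 3 = 0) (h6 : κ = 1 + κ3 → c 6 = 0) :
    φ (gC a b 10) c = 0 := by
  rw [h.loc10 (c' := 0) h10 h3 h6]
  exact h.out.zero _ _ fun _ _ => rfl

theorem sl_a (i : Fin 11) : a i = ![1, 0, κ, a3, κ3, 0, κ, κ3, 1, 1 + κ, 1 + κ3] i := by
  rw [h.sl.a_eq]

theorem apos {i : Fin 11} (hi : i ≠ 1) (hi' : i ≠ 5) : 0 < a i := by
  have k0 := h.sl.k0
  have k3 := h.sl.k3
  have a30 := h.sl.a30
  rw [h.sl_a]
  fin_cases i <;> first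
    | exact absurd rfl hi
    | exact absurd rfl hi'
    | (simp only [Matrix.cons_val, Fin.zero_eta, Fin.mk_one, Fin.reduceFinMk, Fin.isValue]
       positivity)

/-- all groups of slots with positive slope are homogeneous -/
theorem homg {i : Fin 11} (hi : i ≠ 1) (hi' : i ≠ 5) (hc : c ∈ coneM Ma) {s : ℝ} (hs : 0 ≤ s) :
    φ (gC a b i) (s • c) = s * φ (gC a b i) c := by
  refine h.hom _ (fun j hj => ?_) c hc s hs
  have hai := (h.apos hi hi').ne'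
  have haj : a j ≠ 0 := fun h0 => hai (gC_zero.1 (hj.symm.trans (gC_zero.2 h0)))
  have hj1 : j ≠ 1 := by
    rintro rfl; exact haj (by rw [h.sl_a]; rfl)
  have hj5 : j ≠ 5 := by
    rintro rfl; exact haj (by rw [h.sl_a]; rfl)
  unfold dhC
  rw [if_neg haj]
  exact h.apos hj1 hj5

/-- loss of `C_a` in every context -/
theorem ca {t : ℝ} (ht : 0 ≤ t) (h1 : c 1 = 0) (h5 : c 5 = t) : φ (gC a b 5) c ≤ -(m * t) := by
  have e1 := out_dif h.out (c := 0) (c' := Pi.single 5 t) zero_mem (s5_mem h.hM ht) 5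
    (fun j hj => by rw [Pi.single_eq_of_ne hj]; rfl)
  rw [h.zero, h.out.zero _ 0 fun _ _ => rfl] at e1
  rw [h.loc5 (c' := Pi.single 5 t) (by rw [h1]; simp) (by rw [h5]; simp)]
  linarith [h.S1 t ht]

theorem ca0 (h1 : c 1 = 0) (h5 : c 5 = 0) : φ (gC a b 5) c = 0 := by
  rw [h.loc5 (c' := 0) h1 h5]
  exact h.out.zero _ _ fun _ _ => rfl

variable {ι : ℕ → Type*} [∀ n, DecidableEq (ι n)] {W : Wnd 11 ι} {E : ∀ n, Finset (ι n)}

/-- **`X_a` is full** -/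
theorem xa (hW : DW lam T W E) (hT : 0 < T) (hy : 0 < y) (hyT : y ≤ T) :
    φ (gC a b 8) (Vb T 0 0 0 y 0 0) ≤ -y := by
  have M : ∀ {ca xa : ℝ}, 0 ≤ ca → 0 ≤ xa → xa ≤ T → Vb T ca 0 0 xa 0 0 ∈ coneM Ma :=
    fun h1 h2 h3 => Vb_mem h.hM h1 le_rfl hT.le le_rfl hT.le h2 h3 hT.le hT.le
  have key := hW.ne.xa (y := y) (c := m) hy hyT h.m0 (fun t h1 h2 => by
    rw [hW.nu_eq, hW.nu_eq, cut_ne, cut_ne]
    have e1 := out_dif h.out (M (ca := 0) le_rfl h1 (h2.trans hyT)) (M h1 h1 (h2.trans hyT)) 5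
      (Vb_ne5 _ _ _ _ _ _ _ _)
    have e2 := h.ca0 (c := Vb T 0 0 0 t 0 0) (by simp) (by simp)
    have e3 := h.ca (c := Vb T t 0 0 t 0 0) h1 (by simp) (by simp)
    linarith) (fun t h1 h2 => by
    rw [hW.nu_eq, hW.nu_eq, cut_ne, cut_ne]
    have e1 := h.sharp _ (M (ca := 0) le_rfl h1 (h2.trans hyT)) _ (M (ca := 0) le_rfl hy.le hyT)
      (Vb_le8 _ _ _ _ _ _ h2)
    have e2 := Vb_sum8 T 0 0 0 0 0 y t
    linarith)
  rw [hW.nu_eq, hW.nu_eq, cut_ne, cut_ne] at key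
  have e1 := out_dif h.out (M (ca := 0) le_rfl le_rfl hT.le) (M (ca := 0) le_rfl hy.le hyT) 8
    (Vb_ne8 _ _ _ _ _ _ _ _)
  have e2 := h.z8 (c := Vb T 0 0 0 0 0 0) (by simp) (by simp) (fun _ => by simp) (fun _ => by simp)
  linarith

theorem xa' (hW : DW lam T W E) (hT : 0 < T) (hy : 0 ≤ y) (hyT : y ≤ T) (h8 : c 8 = y)
    (h3 : c 3 = 0) (h6 : κ = 1 → c 6 = 0) (h7 : κ3 = 1 → c 7 = 0) : φ (gC a b 8) c ≤ -y := by
  rcases hy.eq_or_lt with rfl | hy
  · rw [h.z8 h8 h3 h6 h7]; simp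
  · rw [h.loc8 (c' := Vb T 0 0 0 y 0 0) h8 h3 h6 h7]
    exact h.xa hW hT hy hyT

/-- **`X_b` is full** -/
theorem xb (hW : DW lam T W E) (hT : 0 < T) (hy : 0 ≤ y) (hyT : y ≤ T) :
    φ (gC a b 9) (Vb T 0 0 0 0 y 0) ≤ -y := by
  by_cases hκ : κ = 1
  · -- recomputed flag
    have M : ∀ {ca cb xa xb : ℝ}, 0 ≤ ca → 0 ≤ cb → cb ≤ T → 0 ≤ xa → xa ≤ T → 0 ≤ xb → xb ≤ T →
        Vb T ca cb 0 xa xb 0 ∈ coneM Ma :=
      fun h1 h2 h3 h4 h5 h6 h7 => Vb_mem h.hM h1 h2 h3 le_rfl hT.le h4 h5 h7 hT.le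
    set e9 : Fin 11 → ℝ := Vb 1 0 0 0 0 1 0 with he9
    have m9 : e9 ∈ coneM Ma := Vb_mem h.hM le_rfl le_rfl zero_le_one le_rfl zero_le_one le_rfl
      zero_le_one le_rfl zero_le_one
    have lin : ∀ {c : Fin 11 → ℝ} {x : ℝ}, 0 ≤ x → c 9 = x → c 3 = 0 → c 7 = 0 →
        φ (gC a b 9) c = x * φ (gC a b 9) e9 := by
      intro c x hx h9 h3 h7
      rw [← h.homg (by decide) (by decide) m9 hx]
      refine h.loc9 ?_ ?_ fun _ => ?_
      · rw [h9]; simp [he9, Vb]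
      · rw [h3]; simp [he9, Vb]
      · rw [h7]; simp [he9, Vb]
    have key := hW.ne.kappa_one (a := -φ (gC a b 9) e9) (m := m)
      (β := fun cb xa => lam (Vb T 0 0 0 0 0 0) - lam (Vb T 0 cb 0 xa 0 0))
      (γ := fun ca => -φ (gC a b 5) (Vb T ca 0 0 0 0 0)) h.m0 hW.tw2 ?_ ?_ ?_
    · rw [lin hy (by simp) (by simp) (by simp)]
      nlinarith
    · intro ca cb xa xb h1 h2 h3 h4 h5 h6 h7 h8
      rw [hW.nu_eq, hW.nu_eq, cut_ne, cut_ne]
      have e1 := out_dif h.out (M h1 h3 h4 h5 h6 le_rfl hT.le) (M h1 h3 h4 h5 h6 h7 h8) 9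
        (Vb_ne9 _ _ _ _ _ _ _ _)
      have e2 := h.z9 (c := Vb T ca cb 0 xa 0 0) (by simp) (by simp) (fun _ => by simp)
      have e3 := lin (c := Vb T ca cb 0 xa xb 0) h7 (by simp) (by simp) (by simp)
      have e4 := out_dif h.out (M (ca := 0) le_rfl h3 h4 h5 h6 le_rfl hT.le)
        (M h1 h3 h4 h5 h6 le_rfl hT.le) 5
        (Vb_ne5 _ _ _ _ _ _ _ _)
      have e5 := h.ca0 (c := Vb T 0 cb 0 xa 0 0) (by simp) (by simp)
      have e6 := h.loc5 (c := Vb T ca cb 0 xa 0 0) (c' := Vb T ca 0 0 0 0 0) (by simp) (by simp)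
      linarith
    · intro t h1 h2
      have e1 := out_dif h.out (M (ca := 0) le_rfl le_rfl hT.le le_rfl hT.le le_rfl hT.le)
        (M (ca := 0) le_rfl le_rfl hT.le h1 h2 le_rfl hT.le) 8
        (Vb_ne8 _ _ _ _ _ _ _ _)
      have e2 := h.z8 (c := Vb T 0 0 0 0 0 0) (by simp) (by simp) (fun _ => by simp) (fun _ => by simp)
      have e3 := h.xa' hW hT h1 h2 (c := Vb T 0 0 0 t 0 0) (by simp) (by simp) (fun _ => by simp) (fun _ => by simp)
      linarith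
    · intro t h1 h2
      have := h.ca (c := Vb T t 0 0 0 0 0) h1 (by simp) (by simp)
      linarith
  · have M : ∀ {xa xb : ℝ}, 0 ≤ xa → xa ≤ T → 0 ≤ xb → xb ≤ T → Vb T y y 0 xa xb 0 ∈ coneM Ma :=
      fun h1 h2 h3 h4 => Vb_mem h.hM hy hy hyT le_rfl hT.le h1 h2 h4 hT.le
    have key := hW.ne.xb_shift hW.tw2 hy hyT
    rw [hW.nu_eq, hW.nu_eq, hW.nu_eq, cut_ne, cut_ne, cut_ne] at key
    have e1 := out_dif h.out (M le_rfl hT.le hy hyT) (M hy hyT hy hyT) 8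
      (Vb_ne8 _ _ _ _ _ _ _ _)
    have e2 := h.z8 (c := Vb T y y 0 0 y 0) (by simp) (by simp) (fun h1 => absurd h1 hκ) (fun _ => by simp)
    have e3 := h.xa' hW hT hy hyT (c := Vb T y y 0 y y 0) (by simp) (by simp) (fun h1 => absurd h1 hκ)
      (fun _ => by simp)
    have e4 := out_dif h.out (M le_rfl hT.le le_rfl hT.le) (M le_rfl hT.le hy hyT) 9
      (Vb_ne9 _ _ _ _ _ _ _ _)
    have e5 := h.z9 (c := Vb T y y 0 0 0 0) (by simp) (by simp) (fun _ => by simp)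
    have e6 := h.loc9 (c := Vb T y y 0 0 y 0) (c' := Vb T 0 0 0 0 y 0) (by simp) (by simp) (fun _ => by simp)
    linarith

/-- **`N` is full** -/
theorem nf (hW : DW lam T W E) (hT : 0 < T) (hy : 0 ≤ y) (hyT : y ≤ T) :
    φ (gC a b 10) (Vb T 0 0 0 0 0 y) ≤ -y := by
  by_cases hκ : κ3 = 1
  · have M : ∀ {ca p xa n : ℝ}, 0 ≤ ca → 0 ≤ p → p ≤ T → 0 ≤ xa → xa ≤ T → 0 ≤ n → n ≤ T →
        Vb T ca 0 p xa 0 n ∈ coneM Ma :=
      fun h1 h2 h3 h4 h5 h6 h7 => Vb_mem h.hM h1 le_rfl hT.le h2 h3 h4 h5 hT.le h7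
    set e10 : Fin 11 → ℝ := Vb 1 0 0 0 0 0 1 with he10
    have m10 : e10 ∈ coneM Ma := Vb_mem h.hM le_rfl le_rfl zero_le_one le_rfl zero_le_one le_rfl
      zero_le_one zero_le_one le_rfl
    have lin : ∀ {c : Fin 11 → ℝ} {x : ℝ}, 0 ≤ x → c 10 = x → c 3 = 0 → c 6 = 0 →
        φ (gC a b 10) c = x * φ (gC a b 10) e10 := by
      intro c x hx h10 h3 h6
      rw [← h.homg (by decide) (by decide) m10 hx]
      refine h.loc10 ?_ ?_ fun _ => ?_
      · rw [h10]; simp [he10, Vb]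
      · rw [h3]; simp [he10, Vb]
      · rw [h6]; simp [he10, Vb]
    have key := hW.m1.kone (a := -φ (gC a b 10) e10) (m := m)
      (β := fun p xa => lam (Vb T 0 0 0 0 0 0) - lam (Vb T 0 0 p xa 0 0))
      (γ := fun ca => -φ (gC a b 5) (Vb T ca 0 0 0 0 0)) h.m0 ?_ ?_ ?_
    · rw [lin hy (by simp) (by simp) (by simp)]
      nlinarith
    · intro n p x c' h1 h2 h3 h4 h5 h6 h7 h8
      rw [hW.nu_eq, hW.nu_eq, cut_m1, cut_m1]
      have e1 := out_dif h.out (M h7 h3 h4 h5 h6 le_rfl hT.le) (M h7 h3 h4 h5 h6 h1 h2) 10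
        (Vb_ne10 _ _ _ _ _ _ _ _)
      have e2 := h.z10 (c := Vb T c' 0 p x 0 0) (by simp) (by simp) (fun _ => by simp)
      have e3 := lin (c := Vb T c' 0 p x 0 n) h1 (by simp) (by simp) (by simp)
      have e4 := out_dif h.out (M (ca := 0) le_rfl h3 h4 h5 h6 le_rfl hT.le)
        (M h7 h3 h4 h5 h6 le_rfl hT.le) 5
        (Vb_ne5 _ _ _ _ _ _ _ _)
      have e5 := h.ca0 (c := Vb T 0 0 p x 0 0) (by simp) (by simp)
      have e6 := h.loc5 (c := Vb T c' 0 p x 0 0) (c' := Vb T c' 0 0 0 0 0) (by simp) (by simp)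
      linarith
    · intro t h1 h2
      have e1 := out_dif h.out (M (ca := 0) le_rfl le_rfl hT.le le_rfl hT.le le_rfl hT.le)
        (M (ca := 0) le_rfl le_rfl hT.le h1 h2 le_rfl hT.le) 8
        (Vb_ne8 _ _ _ _ _ _ _ _)
      have e2 := h.z8 (c := Vb T 0 0 0 0 0 0) (by simp) (by simp) (fun _ => by simp) (fun _ => by simp)
      have e3 := h.xa' hW hT h1 h2 (c := Vb T 0 0 0 t 0 0) (by simp) (by simp) (fun _ => by simp) (fun _ => by simp)
      linarith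
    · intro t h1 h2
      have := h.ca (c := Vb T t 0 0 0 0 0) h1 (by simp) (by simp)
      linarith
  · have M : ∀ {xa n : ℝ}, 0 ≤ xa → xa ≤ T → 0 ≤ n → n ≤ T → Vb T y 0 y xa 0 n ∈ coneM Ma :=
      fun h1 h2 h3 h4 => Vb_mem h.hM hy le_rfl hT.le hy hyT h1 h2 hT.le h4
    have key := hW.m1.shiftN (y := y) (yb := 0) hy hyT (Or.inl rfl)
    rw [hW.nu_eq, hW.nu_eq, hW.nu_eq, cut_m1, cut_m1, cut_m1] at key
    have e1 := out_dif h.out (M le_rfl hT.le hy hyT) (M hy hyT hy hyT) 8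
      (Vb_ne8 _ _ _ _ _ _ _ _)
    have e2 := h.z8 (c := Vb T y 0 y 0 0 y) (by simp) (by simp) (fun _ => by simp) (fun h1 => absurd h1 hκ)
    have e3 := h.xa' hW hT hy hyT (c := Vb T y 0 y y 0 y) (by simp) (by simp) (fun _ => by simp)
      (fun h1 => absurd h1 hκ)
    have e4 := out_dif h.out (M le_rfl hT.le le_rfl hT.le) (M le_rfl hT.le hy hyT) 10
      (Vb_ne10 _ _ _ _ _ _ _ _)
    have e5 := h.z10 (c := Vb T y 0 y 0 0 0) (by simp) (by simp) (fun _ => by simp)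
    have e6 := h.loc10 (c := Vb T y 0 y 0 0 y) (c' := Vb T 0 0 0 0 0 y) (by simp) (by simp) (fun _ => by simp)
    linarith

/-! ### total -/

/-- the natural ray is in the cone -/
theorem a_mem : a ∈ coneM Ma := by
  refine legD h.hM ?_ ?_ ?_ ?_ ?_ ?_ ?_ <;> simp only [h.sl_a, Matrix.cons_val] <;> linarith

/-- rate of a group from one of its boxes -/
theorem rate_ge {i : Fin 11} (hi : i ≠ 1) (hi' : i ≠ 5) (hc : c ∈ coneM Ma)
    (hle : ∀ j, gC a b j = gC a b i → c j ≤ a j) {x : ℝ} (hx : φ (gC a b i) c ≤ -x) :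
    x ≤ r (gC a b i) := by
  have h1 := (h.out.mono (gC a b i) c hc a h.a_mem hle).1
  have h2 := h.out.rate (gC a b i) a h.a_mem 1 fun j hj => by
    have hai := (h.apos hi hi').ne'
    have haj : a j ≠ 0 := fun h0 => hai (gC_zero.1 (hj.symm.trans (gC_zero.2 h0)))
    unfold dhC
    rw [if_neg haj, one_mul]
  rw [h2] at h1
  linarith

theorem r_nonneg {i : Fin 11} (hi : a i ≠ 0) : 0 ≤ r (gC a b i) := by
  refine h.out.r_nonneg _ fun j hj => ?_
  have haj : a j ≠ 0 := fun h0 => hi (gC_zero.1 (hj.symm.trans (gC_zero.2 h0)))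
  have hj1 : j ≠ 1 := by
    rintro rfl; exact haj (by rw [h.sl_a]; rfl)
  have hj5 : j ≠ 5 := by
    rintro rfl; exact haj (by rw [h.sl_a]; rfl)
  unfold dhC
  rw [if_neg haj]
  exact h.apos hj1 hj5

/-- **the F-half of the row D1** -/
theorem slope (hW : DW lam T W E) (hT : 1 + κ + κ3 ≤ T) : A.1 ≤ -(4 + κ + κ3) := by
  classical
  have k0 := h.sl.k0
  have k3 := h.sl.k3
  have a30 := h.sl.a30
  have hT0 : 0 < T := by linarith
  have G := grD h.sl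
  -- rates
  have r0 : 1 ≤ r (gC a b 0) := by
    refine h.rate_ge (by decide) (by decide) (s0_mem h.hM zero_le_one) (fun j hj => ?_) ?_
    · rcases G.g0 j hj with rfl | rfl | rfl <;> simp only [h.sl_a, Matrix.cons_val] <;> simp
      · exact k0.le
      · exact k3.le
    · have e1 := out_dif h.out (c := 0) (c' := Pi.single 0 1) zero_mem
        (s0_mem h.hM zero_le_one) 0 (fun j hj => by rw [Pi.single_eq_of_ne hj]; rfl)
      rw [h.zero, h.out.zero _ 0 fun _ _ => rfl] at e1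
      have := h.own 1 zero_le_one
      linarith
  have r8 : 1 ≤ r (gC a b 8) := by
    refine h.rate_ge (by decide) (by decide) (c := Vb T 0 0 0 1 0 0)
      (Vb_mem h.hM le_rfl le_rfl hT0.le le_rfl hT0.le zero_le_one (by linarith) hT0.le hT0.le)
      (fun j hj => ?_) (h.xa hW hT0 one_pos (by linarith))
    rcases G.g8 j hj with rfl | rfl | ⟨rfl, -⟩ | ⟨rfl, -⟩ <;>
      simp only [h.sl_a, Vb, Matrix.cons_val] <;> linarith
  have r9 : 1 + κ ≤ r (gC a b 9) := by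
    refine h.rate_ge (by decide) (by decide) (c := Vb T 0 0 0 0 (1 + κ) 0)
      (Vb_mem h.hM le_rfl le_rfl hT0.le le_rfl hT0.le le_rfl hT0.le (by linarith) hT0.le)
      (fun j hj => ?_) (h.xb hW hT0 (by linarith) (by linarith))
    rcases G.g9 j hj with rfl | rfl | ⟨rfl, -⟩ <;>
      simp only [h.sl_a, Vb, Matrix.cons_val] <;> linarith
  have r10 : 1 + κ3 ≤ r (gC a b 10) := by
    refine h.rate_ge (by decide) (by decide) (c := Vb T 0 0 0 0 0 (1 + κ3))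
      (Vb_mem h.hM le_rfl le_rfl hT0.le le_rfl hT0.le le_rfl hT0.le hT0.le (by linarith))
      (fun j hj => ?_) (h.nf hW hT0 (by linarith) (by linarith))
    rcases G.g10 j hj with rfl | rfl | ⟨rfl, -⟩ <;>
      simp only [h.sl_a, Vb, Matrix.cons_val] <;> linarith
  -- the four groups are different
  have d80 : gC a b 8 ≠ gC a b 0 := fun e => by have := G.g0 8 e; simp at this
  have d90 : gC a b 9 ≠ gC a b 0 := fun e => by have := G.g0 9 e; simp at this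
  have d100 : gC a b 10 ≠ gC a b 0 := fun e => by have := G.g0 10 e; simp at this
  have d98 : gC a b 9 ≠ gC a b 8 := fun e => by have := G.g8 9 e; simp at this
  have d108 : gC a b 10 ≠ gC a b 8 := fun e => by have := G.g8 10 e; simp at this
  have d109 : gC a b 10 ≠ gC a b 9 := fun e => by have := G.g9 10 e; simp at this
  have tot := h.out.total (1, 0)
  have hlf : Dg219.lf A (1, 0) = A.1 := by simp [Dg219.lf]
  rw [hlf] at tot
  have hn : ∀ k, r k * Dg219.lf (nC a b k) (1, 0) = r k * (nC a b k).1 := fun k => by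
    simp [Dg219.lf]
  have hmem : ∀ i : Fin 11, gC a b i ∈ gset (gC a b) := fun i => by
    unfold gset
    exact mem_image_of_mem _ (mem_univ i)
  have hn1 : ∀ i : Fin 11, a i ≠ 0 → (nC a b (gC a b i)).1 = 1 := fun i hi => by
    rw [nC_of hi]
  have hsub : ({gC a b 0, gC a b 8, gC a b 9, gC a b 10} : Finset ℕ) ⊆ gset (gC a b) := by
    intro k hk
    simp only [mem_insert, mem_singleton] at hk
    rcases hk with rfl | rfl | rfl | rfl <;> exact hmem _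
  have hsum : ∑ k ∈ ({gC a b 0, gC a b 8, gC a b 9, gC a b 10} : Finset ℕ),
      r k * Dg219.lf (nC a b k) (1, 0) ≤ ∑ k ∈ gset (gC a b), r k * Dg219.lf (nC a b k) (1, 0) := by
    refine sum_le_sum_of_subset_of_nonneg hsub fun k hk _ => ?_
    obtain ⟨i, -, rfl⟩ := mem_image.1 (by unfold gset at hk; exact hk)
    rw [hn]
    by_cases hi : a i = 0
    · rw [gC_zero.2 hi, nC_zero]; simp
    · rw [hn1 i hi, mul_one]; exact h.r_nonneg hi
  rw [sum_insert (by simp only [mem_insert, mem_singleton, not_or]; exact ⟨d80.symm, d90.symm, d100.symm⟩),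
    sum_insert (by simp only [mem_insert, mem_singleton, not_or]; exact ⟨d98.symm, d108.symm⟩),
    sum_insert (by simp only [mem_singleton]; exact d109.symm), sum_singleton, hn, hn, hn, hn,
    hn1 0 (h.apos (by decide) (by decide)).ne', hn1 8 (h.apos (by decide) (by decide)).ne',
    hn1 9 (h.apos (by decide) (by decide)).ne', hn1 10 (h.apos (by decide) (by decide)).ne'] at hsum
  linarith

end Fh

end

end Crest.Agent.R136.Dd413
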