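import Crest.Agent.R136.Dd1b_413
import Crest.Agent.R136.Tb5_628

/-!
# R136, row D1 of the thick table (helper413), part 2: the case `θ 0 < θ 2`

628's `row_F0` : the natural surface with slack `F_b`, `kf = (κ3 - κ) / 2`.

* `noF3` : the monomials with `R` or `F_b` are not active; `maD_act`;
* `slD_F` : slopes;
* `fh_of_aew` : `AeW` ⊢ `Fh`;
* `slope_aew` : the F-half over `AeW` (the case itself: `Dl4_667.caseD1_lt`, `Dl5_667.caseD1`)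
-/

set_option autoImplicit false
set_option linter.unusedVariables false
set_option linter.unusedSectionVars false

open Filter Topology

namespace Crest.Agent.R136.Dd413

open Finset Crest.Agent.R136.NetQ186 Crest.Agent.R136.Net191 Crest.Agent.R136.Qg926
open Crest.Agent.R136.Gf356 Crest.Agent.R136.Ev356 Crest.Agent.R136.Aw413
open Crest.Agent.R136.Wq400 Crest.Agent.R136.Fe1355
open Crest.Agent.R136.Dg219 (OutS gC dhC nC gC_eq gC_zero nC_zero nC_of gset)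
open Crest.Agent.R136.Tb628 (coneF s0 sA sB fA fB mem_act eCa eECb RecS RowPt Hom oS)
open Crest.Agent.R136.NatR550 (nL)
open Crest.Agent.R136.NatT550 (nat4 Thick Gap23)
open Crest.Agent.R136.Wq638 (couQ incQ uH uA uB uY)
open Crest.Agent.R136.GeoQ186 (scl)
open Crest.Agent.R138.Ex926 (Base U)

/-- the monomials of the chart with `R` or `F_b` -/
theorem monQ_cases3 : ∀ k : Fin 11, ∀ e ∈ monQ.mon k, ¬ (e 1 = 0 ∧ e 3 = 0) →
    (k = 4 ∧ e = ![0, 0, 1, 1, 0, 0, 0, 0, 0, 0, 0]) ∨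
    (k = 7 ∧ e = ![1, 1, 0, 0, 0, 0, 0, 0, 0, 0, 0]) ∨
    (k = 7 ∧ e = ![0, 0, 1, 1, 0, 1, 0, 0, 0, 0, 0]) ∨
    (k = 7 ∧ e = ![0, 0, 0, 1, 0, 0, 1, 0, 0, 0, 0]) ∨
    (k = 10 ∧ e = ![2, 1, 0, 0, 0, 0, 0, 0, 0, 0, 0]) ∨
    (k = 10 ∧ e = ![0, 0, 1, 1, 0, 0, 0, 0, 1, 0, 0]) ∨
    (k = 10 ∧ e = ![1, 0, 1, 1, 0, 1, 0, 0, 0, 0, 0]) ∨
    (k = 10 ∧ e = ![0, 0, 0, 1, 0, 0, 0, 0, 0, 1, 0]) ∨
    (k = 10 ∧ e = ![1, 0, 0, 1, 0, 0, 1, 0, 0, 0, 0]) := by decide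

/-- **no active monomial with `R` or `F_b`** on a plane with the slopes of the row -/
theorem noF3 {M : Mons 11} (hsub : ∀ k, M.mon k ⊆ monQ.mon k) {a b : Fin 11 → ℝ}
    {κ κ3 a3 u w : ℝ} (sl : SlD a b κ κ3 a3 u w) (hf : κ + a3 ≠ κ3) (b1 : b 1 = 0)
    (hR : u ≠ b 7) (hR' : 2 * u ≠ b 10)
    (hact : ∀ k, ∀ e ∈ M.mon k, ∑ s, ((e s : ℕ) : ℝ) * a s = a k ∧
      ∑ s, ((e s : ℕ) : ℝ) * b s = b k) :
    ∀ k, ∀ e ∈ M.mon k, e 1 = 0 ∧ e 3 = 0 := by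
  intro k e he
  by_contra hc
  obtain ⟨e1, e2⟩ := hact k e he
  have b0 := sl.b0
  rw [sl.a_eq] at e1
  rcases monQ_cases3 k e (hsub k he) hc with ⟨rfl, rfl⟩ | ⟨rfl, rfl⟩ | ⟨rfl, rfl⟩ |
    ⟨rfl, rfl⟩ | ⟨rfl, rfl⟩ | ⟨rfl, rfl⟩ | ⟨rfl, rfl⟩ | ⟨rfl, rfl⟩ | ⟨rfl, rfl⟩
  · simp [Fin.sum_univ_succ] at e1
    exact hf (by linarith)
  · simp [Fin.sum_univ_succ] at e2
    exact hR (by linarith)
  · simp [Fin.sum_univ_succ] at e1
    exact hf (by linarith)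
  · simp [Fin.sum_univ_succ] at e1
    exact hf (by linarith)
  · simp [Fin.sum_univ_succ] at e2
    exact hR' (by linarith)
  · simp [Fin.sum_univ_succ] at e1
    exact hf (by linarith)
  · simp [Fin.sum_univ_succ] at e1
    exact hf (by linarith)
  · simp [Fin.sum_univ_succ] at e1
    exact hf (by linarith)
  · simp [Fin.sum_univ_succ] at e1
    exact hf (by linarith)

theorem mv_monD : mv 2 5 ∈ monQ.mon 6 ∧ mv 4 5 ∈ monQ.mon 7 ∧ mv 0 5 ∈ monQ.mon 8 ∧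
    mv 0 6 ∈ monQ.mon 9 ∧ mv 2 8 ∈ monQ.mon 9 ∧ mv 0 7 ∈ monQ.mon 10 ∧
    mv 4 8 ∈ monQ.mon 10 := by
  decide

/-- slopes of the surface with slack `F_b` -/
theorem slD_F {θ : Fin 3 → ℝ} {κ κ3 kf : ℝ} (h1 : 0 < θ 1) (hk : κ = θ 1 - θ 2)
    (hk3 : κ3 = θ 1 - θ 0) (k0 : 0 < κ) (k3 : 0 < κ3) (ne : κ ≠ κ3) (hf : 0 < kf)
    (hf' : kf ≠ θ 2 - θ 0) : SlD (fA κ κ3 kf) (fB θ κ κ3 kf) κ κ3 kf 0 1 := by
  have e2 : (θ 2 + κ) / θ 1 = 1 := by rw [hk, div_eq_one_iff_eq h1.ne']; ring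
  have e0 : (θ 0 + κ3) / θ 1 = 1 := by rw [hk3, div_eq_one_iff_eq h1.ne']; ring
  have hB : sB θ κ κ3 = nL 0 1 1 1 := by unfold sB; rw [e2, e0]
  exact
    { a_eq := by
        funext j
        fin_cases j <;> simp [fA, sA, nL]
      b0 := by simp [fB, hB, nL]
      b2 := by simp [fB, hB, nL]
      b4 := by simp [fB, hB, nL]
      b6 := by simp [fB, hB, nL]
      b7 := by simp [fB, hB, nL]
      b8 := by simp [fB, hB, nL]
      b9 := by simp [fB, hB, nL]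
      b10 := by simp [fB, hB, nL]
      b3 := by
        rw [Tb628.fB_three, zero_mul]
        exact div_ne_zero (sub_ne_zero.2 hf') h1.ne'
      w0 := one_ne_zero
      k0 := k0
      k3 := k3
      ne := ne
      a30 := hf }

/-- **active walls of the surface with slack `F_b`** -/
theorem maD_act {θ : Fin 3 → ℝ} {w0 R κ κ3 kf : ℝ} (h1 : 0 < θ 1) (hk : κ = θ 1 - θ 2)
    (hk3 : κ3 = θ 1 - θ 0) (k0 : 0 < κ) (k3 : 0 < κ3) (ne : κ ≠ κ3) (hf0 : 0 < kf)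
    (hf' : kf ≠ θ 2 - θ 0) (hf : κ + kf ≠ κ3) :
    MaD (actM monQ (s0 w0 (R - 1)) (fA κ κ3 kf) (fB θ κ κ3 kf)) := by
  have e2 : (θ 2 + κ) / θ 1 = 1 := by rw [hk, div_eq_one_iff_eq h1.ne']; ring
  have e0 : (θ 0 + κ3) / θ 1 = 1 := by rw [hk3, div_eq_one_iff_eq h1.ne']; ring
  have hB : sB θ κ κ3 = nL 0 1 1 1 := by unfold sB; rw [e2, e0]
  have sl := slD_F h1 hk hk3 k0 k3 ne hf0 hf'
  obtain ⟨m1, m2, m3, m4, m5, m6, m7⟩ := mv_monD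
  refine ⟨fun k e he => (mem_actM.1 he).1, mem_act.2 ⟨m1, ?_, ?_, ?_⟩,
    mem_act.2 ⟨m2, ?_, ?_, ?_⟩, mem_act.2 ⟨m3, ?_, ?_, ?_⟩, mem_act.2 ⟨m4, ?_, ?_, ?_⟩,
    mem_act.2 ⟨m5, ?_, ?_, ?_⟩, mem_act.2 ⟨m6, ?_, ?_, ?_⟩, mem_act.2 ⟨m7, ?_, ?_, ?_⟩, ?_⟩
  · simp [s0, nat4]; ring
  · simp [fA, sA, nL]
  · simp [fB, hB, nL]
  · simp [s0, nat4]; ring
  · simp [fA, sA, nL]
  · simp [fB, hB, nL]
  · simp [s0, nat4]; ring
  · simp [fA, sA, nL]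
  · simp [fB, hB, nL]
  · simp [s0, nat4]; ring
  · simp [fA, sA, nL]
  · simp [fB, hB, nL]
  · simp [s0, nat4]; ring
  · simp [fA, sA, nL]; ring
  · simp [fB, hB, nL]
  · simp [s0, nat4]; ring
  · simp [fA, sA, nL]
  · simp [fB, hB, nL]
  · simp [s0, nat4]; ring
  · simp [fA, sA, nL]; ring
  · simp [fB, hB, nL]
  · refine noF3 (fun k e he => (mem_actM.1 he).1) sl hf (by simp [fB, hB, nL])
      (by simp [fB, hB, nL]) (by simp [fB, hB, nL]) fun k e he => ?_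
    obtain ⟨-, -, h2, h3⟩ := mem_actM.1 he
    exact ⟨h2.symm, h3.symm⟩

section

variable {ι : ℕ → Type*} [∀ n, DecidableEq (ι n)] {B Bo : Base} {I J : ∀ n, Finset (ι n)}
  {co : ∀ n, ι n → ι n → Fin 11 → ℝ} {f : ∀ n, ι n → Fq4} {lam : (Fin 11 → ℝ) → ℝ}
  {a b : Fin 11 → ℝ} {A : ℝ × ℝ} {φ : ℕ → (Fin 11 → ℝ) → ℝ} {r : ℕ → ℝ} {κv : Fin 11 → ℝ}
  {V Tw : Fin 11 → Prop} {κ κ3 a3 u w m C : ℝ} {Ma : Mons 11}

/-- hypotheses of the F-half from `AeW` -/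
theorem fh_of_aew (h : AeW B Bo I J co monQ Ma C lam a b A φ r 0 1 κv V Tw) (hM : MaD Ma)
    (sl : SlD a b κ κ3 a3 u w)
    (hom : ∀ k, (∀ i, gC a b i = k → 0 < dhC a b i) → ∀ c ∈ coneM Ma, ∀ s : ℝ, 0 ≤ s →
      φ k (s • c) = s * φ k c) (m0 : 0 < m)
    (S1 : ∀ t : ℝ, 0 ≤ t → m * t ≤ -lam (Pi.single 5 t)) :
    Fh Ma lam a b A φ r κ κ3 a3 u w m where
  sl := sl
  hM := hM
  out := h.out
  zero := h.zero
  sharp := h.sharp
  own := fun y hy => by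
    have := h.own 0 zero_mem _ (s0_mem hM hy) (by
      intro i
      by_cases hi : i = 0
      · subst hi; simpa using hy
      · rw [Pi.single_eq_of_ne hi]; rfl) (by
      intro k _; simp)
    rw [h.zero] at this
    simp only [Pi.single_eq_same, Pi.zero_apply, sub_zero, one_mul, zero_sub] at this
    exact this
  hom := hom
  m0 := m0
  S1 := S1

/-- **the F-half over `AeW`** -/
theorem slope_aew (h : AeW B Bo I J co monQ Ma C lam a b A φ r 0 1 κv V Tw) (hM : MaD Ma)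
    (hC : 0 ≤ C) (hco : ∀ n, ∀ i ∈ I n, ∀ j ∈ I n, co n i j = coQ (f n i) (f n j))
    (hne : ∀ᶠ n in (U : Filter ℕ), (J n).Nonempty)
    (sl : SlD a b κ κ3 a3 u w)
    (hV : ∀ k, V k → k = 2 ∨ k = 4) (hT2 : Tw 2) (hT4 : Tw 4)
    (hom : ∀ k, (∀ i, gC a b i = k → 0 < dhC a b i) → ∀ c ∈ coneM Ma, ∀ s : ℝ, 0 ≤ s →
      φ k (s • c) = s * φ k c) (m0 : 0 < m)
    (S1 : ∀ t : ℝ, 0 ≤ t → m * t ≤ -lam (Pi.single 5 t)) : A.1 ≤ -(4 + κ + κ3) := by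
  have k0 := sl.k0
  have k3 := sl.k3
  obtain ⟨W, E, hW⟩ := dw_of_aew (T := 1 + κ + κ3) h hM hC hco hne (by
    intro i j hij hi
    have G := grD sl
    have h0 : gC a b i = gC a b 0 := by
      simp only [mem_insert, mem_singleton] at hi
      rcases hi with rfl | rfl | rfl
      · rfl
      · exact G.g02
      · exact G.g04
    rcases G.g0 j (hij.symm.trans h0) with rfl | rfl | rfl <;> simp) hV hT2 hT4 (by linarith)
  exact (fh_of_aew h hM sl hom m0 S1).slope hW le_rfl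

end

end Crest.Agent.R136.Dd413
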