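import Crest.Agent.R136.Dl1_667
import Crest.Agent.R136.Dd0_413
import Crest.Agent.R136.Tb6_628

/-!
# R136, row D1 of the thick table, case `θ 2 < θ 0` (helper667): the ladder

`κ = θ 1 - θ 2`, `κ3 = θ 1 - θ 0`, `0 < κ3 < κ`; `V 2`, `¬ V 3`, `V 4`.

* `aD`, `bD` : the last plane (slope `1 + κ3`, `F_b` dropped, alone in its group)
* `aD_val`, `bD_of_ne`, `gD_024`, `gD_3` : values and groups
* `maD` : the walls `mA monQ (AF {3})` are `MaD`
* `dwD` : 413's window `DW` at every point of the last rung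
* `ladder_D` : the pin on the rung `s = 1 + κ` and the F-half on the last rung give `False`
-/

set_option autoImplicit false
set_option linter.unusedVariables false

open Finset Filter Topology

namespace Crest.Agent.R136.Dl667

open Crest.Agent.R138.Ex926 (Base U IsTan)
open Crest.Agent.R136.Net191
open Crest.Agent.R136.NetQ186
open Crest.Agent.R136.Wq638
open Crest.Agent.R136.Lq196
open Crest.Agent.R136.NatT550
open Crest.Agent.R136.NatR550 (nL)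
open Crest.Agent.R136.Top484
open Crest.Agent.R136.LdF511
open Crest.Agent.R136.LdF3511
open Crest.Agent.R136.Tb628 (oS oS_eq pathQ_oS ownPath nprof ownF hsl_sub)
open Crest.Agent.R136.K2S774 (cn Prf JT Stage RecD RungD BaseOk ind1 A2 stage_init)
open Crest.Agent.R136.K2A146 (FLemA)
open Crest.Agent.R136.AwJ774
open Crest.Agent.R136.Aw413
open Crest.Agent.R136.Ev356 (mv)
open Crest.Agent.R136.Gf356
open Crest.Agent.R136.Qg926 (Wnd)
open Crest.Agent.R136.Dd413 (MaD DW dw_of_aew)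
open Crest.Agent.R136.Dg219 (Walls mw gC dhC nC OutS gC_eq gC_zero)
open Crest.Agent.R136.Rc146 (OutA)
open Crest.Agent.R136.Dg262 (X)

/-! ### the last plane -/

/-- ray of the last rung -/
def aD (θ : Fin 3 → ℝ) : Fin 11 → ℝ := TF {3} (θ 1 - θ 2) (1 + (θ 1 - θ 0)) fun _ => 1

/-- slope of `F_b`, larger than all the others -/
noncomputable def kD (θ : Fin 3 → ℝ) : ℝ := 2 + ∑ i, |rhoF θ i / aD θ i|

/-- second direction of the last plane -/
noncomputable def bD (θ : Fin 3 → ℝ) (i : Fin 11) : ℝ := if i = 3 then kD θ else rhoF θ i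

theorem aD_val (θ : Fin 3 → ℝ) : aD θ = ![1, 0, θ 1 - θ 2, 1, θ 1 - θ 0, 0, θ 1 - θ 2, θ 1 - θ 0,
    1, 1 + (θ 1 - θ 2), 1 + (θ 1 - θ 0)] := by
  funext k
  unfold aD
  by_cases hk : k = 3
  · subst hk
    rw [TF_on (by decide)]; simp
  · rw [← TF_off (by simpa using hk), TpF_val]
    fin_cases k <;> first | exact absurd rfl hk | simp

theorem bD_of_ne (θ : Fin 3 → ℝ) {i : Fin 11} (hi : i ≠ 3) : bD θ i = rhoF θ i := if_neg hi

theorem bD_three (θ : Fin 3 → ℝ) : bD θ 3 = kD θ := if_pos rfl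

theorem rhoF_val (θ : Fin 3 → ℝ) : rhoF θ = ![1, 0, θ 1 - θ 2, θ 2 - θ 0, θ 1 - θ 0, -θ 1, -θ 2,
    -θ 0, 1 - θ 1, 1 - θ 2, 1 - θ 0] := by
  funext k
  fin_cases k <;> simp [rhoF, nL] <;> ring

theorem kD_gt (θ : Fin 3 → ℝ) (i : Fin 11) : rhoF θ i / aD θ i < kD θ := by
  have h1 : |rhoF θ i / aD θ i| ≤ ∑ j, |rhoF θ j / aD θ j| :=
    Finset.single_le_sum (f := fun j => |rhoF θ j / aD θ j|) (fun j _ => abs_nonneg _)
      (Finset.mem_univ i)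
  unfold kD
  linarith [le_abs_self (rhoF θ i / aD θ i)]

theorem kD_gt1 (θ : Fin 3 → ℝ) : 1 < kD θ := by
  have h1 : 0 ≤ ∑ j, |rhoF θ j / aD θ j| := Finset.sum_nonneg fun j _ => abs_nonneg _
  unfold kD
  linarith

/-- `F_b` is alone in its group -/
theorem gD_3 (θ : Fin 3 → ℝ) {j : Fin 11} (hj : gC (aD θ) (bD θ) 3 = gC (aD θ) (bD θ) j) :
    j = 3 := by
  by_contra hne
  have a3 : aD θ 3 = 1 := by rw [aD_val]; simp
  have h3 : aD θ 3 ≠ 0 := by rw [a3]; exact one_ne_zero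
  have hj0 : aD θ j ≠ 0 := fun h0 => by
    rw [gC_zero.2 h0] at hj
    exact h3 (gC_zero.1 hj)
  have := (gC_eq h3 hj0).1 hj
  rw [bD_three, a3, div_one, bD_of_ne θ hne] at this
  have := kD_gt θ j
  linarith

/-- the groups of `z, E, F_a` -/
theorem gD_024 {θ : Fin 3 → ℝ} (h1 : 0 < θ 1) (hκ : 0 < θ 1 - θ 2) (hκ3 : 0 < θ 1 - θ 0) :
    ∀ i j : Fin 11, gC (aD θ) (bD θ) i = gC (aD θ) (bD θ) j →
      i ∈ ({0, 2, 4} : Finset (Fin 11)) → j ∈ ({0, 2, 4} : Finset (Fin 11)) := by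
  intro i j hij hi
  have hi' : aD θ i ≠ 0 ∧ bD θ i / aD θ i = 1 := by
    simp only [Finset.mem_insert, Finset.mem_singleton] at hi
    rcases hi with rfl | rfl | rfl <;>
      rw [bD_of_ne θ (by decide), aD_val, rhoF_val] <;>
      simp only [Matrix.cons_val, Fin.isValue]
    · exact ⟨one_ne_zero, div_one 1⟩
    · exact ⟨hκ.ne', div_self hκ.ne'⟩
    · exact ⟨hκ3.ne', div_self hκ3.ne'⟩
  obtain ⟨hi0, hi1⟩ := hi'
  have hj0 : aD θ j ≠ 0 := fun h0 => by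
    rw [gC_zero.2 h0] at hij
    exact hi0 (gC_zero.1 hij)
  have hj1 := (gC_eq hi0 hj0).1 hij
  rw [hi1, eq_comm, div_eq_one_iff_eq hj0] at hj1
  by_cases h3 : j = 3
  · subst h3
    rw [bD_three, aD_val] at hj1
    simp only [Matrix.cons_val] at hj1
    exact absurd hj1 (kD_gt1 θ).ne'
  · rw [bD_of_ne θ h3, aD_val, rhoF_val] at hj1
    rw [aD_val] at hj0
    fin_cases j <;>
      simp only [Matrix.cons_val, Fin.zero_eta, Fin.mk_one, Fin.reduceFinMk, Fin.isValue] at hj1 hj0 <;>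
      first
      | decide
      | exact absurd rfl hj0
      | exact absurd rfl h3
      | (exfalso; linarith)

/-! ### the walls -/

/-- **the walls of the last rung** -/
theorem maD : MaD (mA monQ (AF {3})) where
  sub := mA_sub
  m256 := mem_mA.2 ⟨by decide, by decide, by decide, by decide⟩
  m457 := mem_mA.2 ⟨by decide, by decide, by decide, by decide⟩
  m058 := mem_mA.2 ⟨by decide, by decide, by decide, by decide⟩
  m069 := mem_mA.2 ⟨by decide, by decide, by decide, by decide⟩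
  m289 := mem_mA.2 ⟨by decide, by decide, by decide, by decide⟩
  m0710 := mem_mA.2 ⟨by decide, by decide, by decide, by decide⟩
  m4810 := mem_mA.2 ⟨by decide, by decide, by decide, by decide⟩
  no := fun k e he => by
    obtain ⟨h1, h2⟩ := mem_mA.1 he
    exact ⟨h2.1, h2.2.2 3 (by simp)⟩

section

variable {η : ℝ} {p : Par4} {D : Dat4} {I1 : ℕ → Finset (ℕ × ℝ)} {π : Equiv.Perm (Fin 3)}
  {eE fA fB : ℕ → ℕ × ℝ → ℝ} {V T : Fin 11 → Prop} {w0 R T0 : ℝ} {PD : Set (Fin 11 → ℝ)}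
  {ν own : (Fin 11 → ℝ) → ℝ} {c₀ : ℝ}

/-- slopes of row D1 -/
theorem slopesD (sl : SlotOk p.θ V T) (hV2 : V 2) (hV4 : V 4) :
    0 < p.θ 1 - p.θ 2 ∧ 0 < p.θ 1 - p.θ 0 := by
  have h2 := (sl.vis 2 hV2).2
  have h4 := (sl.vis 4 hV4).2
  unfold btQ at h2 h4
  rw [if_pos rfl] at h2
  rw [if_neg (by decide), if_neg (by decide)] at h4
  exact ⟨h2, h4⟩

/-- nothing is capped -/
theorem tiedD (sl : SlotOk p.θ V T) (hV3 : ¬ V 3) {k : Fin 11} (hk : V k) : T k := by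
  by_contra hT
  exact hV3 (sl.cap k hk hT).2.2

/-- **413's window at every point of the last rung** -/
theorem dwD (h : Thick η p D I1 π eE fA fB V T w0 R T0 PD ν own c₀) (hV2 : V 2) (hV3 : ¬ V 3)
    (hV4 : V 4) {lam lo : (Fin 11 → ℝ) → ℝ} {A : ℝ × ℝ} {φ : ℕ → (Fin 11 → ℝ) → ℝ} {r : ℕ → ℝ}
    (P : PtV D.B D.I I1 (couQ D.B D.lev D.w w0 (incQ π D.L eE fA fB)) p V T {3} (aD p.θ)
      (bD p.θ) lam lo A φ r) {t : ℝ} (ht : 0 < t) :
    ∃ (W : Wnd 11 fun _ => ℕ × ℝ) (E : ℕ → Finset (ℕ × ℝ)), DW lam t W E := by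
  obtain ⟨hκ, hκ3⟩ := slopesD h.tp.slots hV2 hV4
  have e2 : aD p.θ 2 = oS p.θ 2 * aD p.θ 0 := by
    rw [aD_val, oS_eq]; simp
  have e4 : aD p.θ 4 = oS p.θ 4 * aD p.θ 0 := by
    rw [aD_val, oS_eq]; simp
  refine dw_of_aew P.aew maD (by norm_num) (fun n i _ j _ => rfl) h.ext.ne
    (gD_024 h.tp.ok.θ1 hκ hκ3) (fun k hk => ?_) ⟨tiedD h.tp.slots hV3 hV2, hV2, e2⟩
    ⟨tiedD h.tp.slots hV3 hV4, hV4, e4⟩ ht
  rcases vis_ne h.tp.slots hk.1 with rfl | rfl | rfl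
  · exact Or.inl rfl
  · exact absurd hk.1 hV3
  · exact Or.inr rfl

/-! ### the ladder -/

/-- **the ladder of row D1, case `θ 2 < θ 0`** -/
theorem ladder_D (hη : η ≤ 1 / 8) (h : Thick η p D I1 π eE fA fB V T w0 R T0 PD ν own c₀)
    (hV2 : V 2) (hV3 : ¬ V 3) (hV4 : V 4) (h20 : p.θ 2 < p.θ 0)
    (F1 : ∀ (lam lo : (Fin 11 → ℝ) → ℝ) (A : ℝ × ℝ) (φ : ℕ → (Fin 11 → ℝ) → ℝ) (r : ℕ → ℝ),
      PtV D.B D.I I1 (couQ D.B D.lev D.w w0 (incQ π D.L eE fA fB)) p V T ∅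
        (TF ∅ (p.θ 1 - p.θ 2) (1 + (p.θ 1 - p.θ 2)) 0) (rhoF p.θ) lam lo A φ r →
      lam (ind1 {3}) < 0 → A.1 ≤ -(4 + 2 * (p.θ 1 - p.θ 2)))
    (F2 : ∀ (lam lo : (Fin 11 → ℝ) → ℝ) (A : ℝ × ℝ) (φ : ℕ → (Fin 11 → ℝ) → ℝ) (r : ℕ → ℝ),
      PtV D.B D.I I1 (couQ D.B D.lev D.w w0 (incQ π D.L eE fA fB)) p V T {3} (aD p.θ) (bD p.θ)
        lam lo A φ r → HomV {3} (aD p.θ) (bD p.θ) φ →
      A.1 ≤ -(4 + (p.θ 1 - p.θ 2) + (p.θ 1 - p.θ 0))) : False := by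
  obtain ⟨hκ, hκ3⟩ := slopesD h.tp.slots hV2 hV4
  have s1 := hsl_sub (κ := p.θ 1 - p.θ 2) (κ3 := p.θ 1 - p.θ 2) h.tp.ok hη (i := 1) (j := 2)
    (k := 1) (l := 2) (le_abs_self _) (le_abs_self _)
  have s2 := hsl_sub (κ := p.θ 1 - p.θ 2) (κ3 := p.θ 1 - p.θ 0) h.tp.ok hη (i := 1) (j := 2)
    (k := 1) (l := 0) (le_abs_self _) (le_abs_self _)
  refine ladder_V h hκ h20.ne' hV3 (fun _ => by linarith) (s := 1 + (p.θ 1 - p.θ 0))
    (x := fun _ => 1) (b := bD p.θ) (by linarith) (fun _ => le_rfl) one_pos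
    (fun i hi => bD_of_ne _ (by simpa using hi))
    (g1 := p.g - p.q 0 * (p.θ 1 - p.θ 2) - p.q 2 * (p.θ 1 - p.θ 2))
    (g2 := p.g - p.q 0 * (p.θ 1 - p.θ 0) - p.q 2 * (p.θ 1 - p.θ 2)) (by linarith) (by linarith)
    (fun lam lo A φ r P hv => ?_) fun lam lo A φ r P hH => ?_
  · have h1 := F1 lam lo A φ r P hv
    have h2 := DlF_ray p (p.θ 1 - p.θ 2) (1 + (p.θ 1 - p.θ 2))
    unfold TpF
    rw [h2]
    linarith
  · have h1 := F2 lam lo A φ r P hH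
    have h2 := DlF_ray p (p.θ 1 - p.θ 2) (1 + (p.θ 1 - p.θ 0))
    unfold TpF
    rw [h2]
    linarith

end

end Crest.Agent.R136.Dl667
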