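import Crest.Agent.R136.LdF5_511
import Crest.Agent.R136.Dd0_413

/-!
# R136, row D1: the F-half over `AeW` on any plane with slack `F_b` (helper667)

`PlE a b κ` (511) and `PlN a b κ3` : the plane; `z ∥ E ∥ F_a`, `F_b` in another group.

* `full_of_M1` : fullness of `N` from 865's model (level slots `z, E, F_a`)
* `row_D` : `AeW` + homogeneous groups + sweep of `C_a` ⊢ `A.1 ≤ -(4 + κ + κ3)` if `κ ≠ κ3`
-/

set_option autoImplicit false
set_option linter.unusedVariables false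
set_option linter.unusedSectionVars false

open Finset Filter Topology

namespace Crest.Agent.R136.Dl3667

open Crest.Agent.R138.Ex926 (Base U)
open Crest.Agent.R136.Net191
open Crest.Agent.R136.NetQ186
open Crest.Agent.R136.Gf356
open Crest.Agent.R136.Ev356 (mv)
open Crest.Agent.R136.Qg926
open Crest.Agent.R136.Aw413
open Crest.Agent.R136.Fe1355 (RawTw)
open Crest.Agent.R136.LdF4511
open Crest.Agent.R136.LdF5511
open Crest.Agent.R136.Dd413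
open Dg219 (mw Walls Tn OutS gC dhC nC gset lf mem_gset gC_zero gC_eq nC_zero nC_of)

/-! ### the plane -/

/-- `z ∥ F_a` -/
structure PlN (a b : Fin 11 → ℝ) (κ3 : ℝ) : Prop where
  κ0 : 0 < κ3
  a1 : a 1 = 0
  a4 : a 4 = κ3
  a7 : a 7 = κ3
  a10 : a 10 = 1 + κ3
  b4 : b 4 = κ3 * b 0
  b7 : b 7 = b 4 + b 5
  b10 : b 10 = b 0 + b 7

variable {a b : Fin 11 → ℝ} {κ κ3 : ℝ}

namespace PlN

variable (P : PlE a b κ) (N : PlN a b κ3)

include P N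

theorem n4 : a 4 ≠ 0 := by rw [N.a4]; exact N.κ0.ne'
theorem n7 : a 7 ≠ 0 := by rw [N.a7]; exact N.κ0.ne'
theorem n10 : a 10 ≠ 0 := by rw [N.a10]; linarith [N.κ0]
theorem g10 : gC a b 10 ≠ 0 := fun e => (n10 P N) (gC_zero.1 e)
theorem g7 : gC a b 7 ≠ 0 := fun e => (n7 P N) (gC_zero.1 e)

/-- `z ∥ F_a` -/
theorem g04 : gC a b 0 = gC a b 4 := by
  rw [gC_eq P.n0 (n4 P N), P.a0, N.a4, N.b4]
  have := N.κ0.ne'
  field_simp

theorem g07 : gC a b 0 ≠ gC a b 7 := by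
  rw [Ne, gC_eq P.n0 (n7 P N), P.a0, N.a7, N.b7, N.b4]
  have hκ := N.κ0
  intro e
  apply P.b5
  field_simp at e
  linarith

theorem g010 : gC a b 0 ≠ gC a b 10 := by
  rw [Ne, gC_eq P.n0 (n10 P N), P.a0, N.a10, N.b10, N.b7, N.b4]
  have hκ := N.κ0
  have h1 : 1 + κ3 ≠ 0 := by linarith
  intro e
  apply P.b5
  field_simp at e
  linarith

theorem g710 : gC a b 7 ≠ gC a b 10 := by
  rw [Ne, gC_eq (n7 P N) (n10 P N), N.a7, N.a10, N.b10, N.b7, N.b4]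
  have hκ := N.κ0
  have h1 : 1 + κ3 ≠ 0 := by linarith
  intro e
  apply P.b5
  field_simp at e
  linarith

theorem g810 : gC a b 8 ≠ gC a b 10 := by
  rw [Ne, gC_eq P.n8 (n10 P N), P.a8, N.a10, N.b10, N.b7, N.b4, P.b8]
  have hκ := N.κ0
  have h1 : 1 + κ3 ≠ 0 := by linarith
  intro e
  have h2 : κ3 * b 5 = 0 := by
    field_simp at e
    linarith
  rcases mul_eq_zero.1 h2 with h3 | h3
  · exact hκ.ne' h3
  · exact P.b5 h3

theorem g910 (hne : κ ≠ κ3) : gC a b 9 ≠ gC a b 10 := by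
  rw [Ne, gC_eq P.n9 (n10 P N), P.a9, N.a10, N.b10, N.b7, N.b4, P.b9, P.b6, P.b2]
  have hκ := P.κ0
  have hκ3 := N.κ0
  have h1 : 1 + κ3 ≠ 0 := by linarith
  have h2 : 1 + κ ≠ 0 := by linarith
  intro e
  have h3 : (κ3 - κ) * b 5 = 0 := by
    field_simp at e
    linarith
  rcases mul_eq_zero.1 h3 with h4 | h4
  · exact hne (by linarith)
  · exact P.b5 h4

/-- the group of `z` -/
theorem grp0 (h3 : gC a b 3 ≠ gC a b 0) : ∀ i j : Fin 11, gC a b i = gC a b j →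
    i ∈ ({0, 2, 4} : Finset (Fin 11)) → j ∈ ({0, 2, 4} : Finset (Fin 11)) := by
  intro i j hij hi
  have hi0 : gC a b i = gC a b 0 := by
    simp only [Finset.mem_insert, Finset.mem_singleton] at hi
    rcases hi with rfl | rfl | rfl
    · rfl
    · exact P.g02.symm
    · exact (g04 P N).symm
  rw [hi0] at hij
  by_contra hj
  have hj1 : j ≠ 1 := fun e => P.g0 (by rw [hij, e]; exact gC_zero.2 N.a1)
  have hj3 : j ≠ 3 := fun e => h3 (by rw [hij, e])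
  have hj5 : j ≠ 5 := fun e => P.g0 (by rw [hij, e]; exact P.g5)
  have hj6 : j ≠ 6 := fun e => P.g06 (by rw [hij, e])
  have hj7 : j ≠ 7 := fun e => (g07 P N) (by rw [hij, e])
  have hj8 : j ≠ 8 := fun e => P.g08 (by rw [hij, e])
  have hj9 : j ≠ 9 := fun e => P.g09 (by rw [hij, e])
  have hj10 : j ≠ 10 := fun e => (g010 P N) (by rw [hij, e])
  fin_cases j <;> simp at hj hj1 hj3 hj5 hj6 hj7 hj8 hj9 hj10

end PlN

/-! ### boxes -/

/-- level slots `z, E, F_a : T` and `C_a, P, X_a, N` -/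
def bn (T ca p xa n : ℝ) : Fin 11 → ℝ := ![T, 0, T, 0, T, ca, 0, p, xa, 0, n]

theorem bn_smul (s T ca p xa n : ℝ) :
    s • bn T ca p xa n = bn (s * T) (s * ca) (s * p) (s * xa) (s * n) := by
  funext j
  fin_cases j <;> simp [bn]

theorem bn_mem {Ma : Mons 11} (hM : MaD Ma) {T ca p xa n : ℝ} (hT : 0 ≤ T) (h1 : 0 ≤ ca)
    (h2 : 0 ≤ p) (h2' : p ≤ T) (h3 : 0 ≤ xa) (h3' : xa ≤ T) (h4 : 0 ≤ n) (h4' : n ≤ T) :
    bn T ca p xa n ∈ coneM Ma := by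
  refine legD hM ?_ ?_ ?_ ?_ ?_ ?_ ?_ <;> simp only [bn, Matrix.cons_val, Fin.isValue] <;> linarith

section full

variable {Ma : Mons 11} {lam : (Fin 11 → ℝ) → ℝ} {A : ℝ × ℝ} {φ : ℕ → (Fin 11 → ℝ) → ℝ}
  {r : ℕ → ℝ}

/-- value of a box at the level `T` -/
theorem lam_bn (hM : MaD Ma) (h : OutS (gC a b) (coneM Ma) (dhC a b) (nC a b) lam A φ r)
    (P : PlE a b κ) (N : PlN a b κ3) {T ca p xa n : ℝ}
    (hT : 0 ≤ T) (h1 : 0 ≤ ca) (h2 : 0 ≤ p) (h2' : p ≤ T) (h3 : 0 ≤ xa) (h3' : xa ≤ T)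
    (h4 : 0 ≤ n) (h4' : n ≤ T) :
    lam (bn T ca p xa n) = lam (bn T 0 0 0 0) - (lam (bn T 0 0 0 0) - lam (bn T 0 0 0 n)) -
      (lam (bn T 0 0 0 0) - lam (bn T 0 p xa 0)) -
      (lam (bn T 0 0 0 0) - lam (bn T ca 0 0 0)) := by
  have m0 : bn T 0 0 0 0 ∈ coneM Ma := bn_mem hM hT le_rfl le_rfl hT le_rfl hT le_rfl hT
  have m1 : bn T 0 p xa 0 ∈ coneM Ma := bn_mem hM hT le_rfl h2 h2' h3 h3' le_rfl hT
  have m2 : bn T 0 0 0 n ∈ coneM Ma := bn_mem hM hT le_rfl le_rfl hT le_rfl hT h4 h4'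
  have m3 : bn T ca 0 0 0 ∈ coneM Ma := bn_mem hM hT h1 le_rfl hT le_rfl hT le_rfl hT
  have m4 : bn T 0 p xa n ∈ coneM Ma := bn_mem hM hT le_rfl h2 h2' h3 h3' h4 h4'
  have m5 : bn T ca p xa n ∈ coneM Ma := bn_mem hM hT h1 h2 h2' h3 h3' h4 h4'
  -- `N` against `(P, X_a)`
  have s1 := split2 h m0 m2 m1 m4 (by
    intro k
    by_cases hk : k = gC a b 10
    · right
      intro i hi
      have h8 : i ≠ 8 := fun e => (PlN.g810 P N) (by rw [← e, hi, hk])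
      have h7 : i ≠ 7 := fun e => (PlN.g710 P N) (by rw [← e, hi, hk])
      fin_cases i <;> simp [bn] at h8 h7 ⊢
    · left
      intro i hi
      have h10 : i ≠ 10 := fun e => hk (by rw [← hi, e])
      fin_cases i <;> simp [bn] at h10 ⊢)
  -- `C_a` against the rest
  have s2 := split2 h m0 m4 m3 m5 (by
    intro k
    by_cases hk : k = 0
    · left
      intro i hi
      have h7 : i ≠ 7 := fun e => (PlN.g7 P N) (by rw [← e, hi, hk])
      have h8 : i ≠ 8 := fun e => P.g8 (by rw [← e, hi, hk])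
      have h10 : i ≠ 10 := fun e => (PlN.g10 P N) (by rw [← e, hi, hk])
      fin_cases i <;> simp [bn] at h7 h8 h10 ⊢
    · right
      intro i hi
      have h5 : i ≠ 5 := fun e => hk (by rw [← hi, e, P.g5])
      fin_cases i <;> simp [bn] at h5 ⊢)
  linarith

/-- one slot at the level `T` -/
theorem lam_bn8 (hM : MaD Ma) (h : OutS (gC a b) (coneM Ma) (dhC a b) (nC a b) lam A φ r)
    (P : PlE a b κ) (N : PlN a b κ3) {T xa : ℝ} (hT : 0 ≤ T) (h3 : 0 ≤ xa) (h3' : xa ≤ T) :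
    lam (bn T 0 0 0 0) - lam (bn T 0 0 xa 0) = -φ (gC a b 8) (Pi.single 8 xa) := by
  have m0 : bn T 0 0 0 0 ∈ coneM Ma := bn_mem hM hT le_rfl le_rfl hT le_rfl hT le_rfl hT
  have m1 : bn T 0 0 xa 0 ∈ coneM Ma := bn_mem hM hT le_rfl le_rfl hT h3 h3' le_rfl hT
  rw [one_grp h m0 m1 (gC a b 8) (fun i hi => by
    have h8 : i ≠ 8 := fun e => hi (by rw [e])
    fin_cases i <;> simp [bn] at h8 ⊢)]
  have key : ∀ i, gC a b i = gC a b 8 → i ≠ 0 ∧ i ≠ 2 ∧ i ≠ 4 := fun i hi =>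
    ⟨fun e => P.g08 (by rw [← e, hi]), fun e => P.g08 (by rw [P.g02, ← e, hi]),
      fun e => P.g08 (by rw [PlN.g04 P N, ← e, hi])⟩
  rw [h.zero _ (bn T 0 0 0 0) (fun i hi => by
      obtain ⟨h0, h2, h4⟩ := key i hi
      fin_cases i <;> simp [bn] at h0 h2 h4 ⊢),
    h.loc _ (bn T 0 0 xa 0) (Pi.single 8 xa) (fun i hi => by
      obtain ⟨h0, h2, h4⟩ := key i hi
      fin_cases i <;> simp [bn] at h0 h2 h4 ⊢)]
  ring

theorem lam_bn10 (hM : MaD Ma) (h : OutS (gC a b) (coneM Ma) (dhC a b) (nC a b) lam A φ r)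
    (P : PlE a b κ) (N : PlN a b κ3) {T n : ℝ} (hT : 0 ≤ T) (h3 : 0 ≤ n) (h3' : n ≤ T) :
    lam (bn T 0 0 0 0) - lam (bn T 0 0 0 n) = -φ (gC a b 10) (Pi.single 10 n) := by
  have m0 : bn T 0 0 0 0 ∈ coneM Ma := bn_mem hM hT le_rfl le_rfl hT le_rfl hT le_rfl hT
  have m1 : bn T 0 0 0 n ∈ coneM Ma := bn_mem hM hT le_rfl le_rfl hT le_rfl hT h3 h3'
  rw [one_grp h m0 m1 (gC a b 10) (fun i hi => by
    have h8 : i ≠ 10 := fun e => hi (by rw [e])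
    fin_cases i <;> simp [bn] at h8 ⊢)]
  have key : ∀ i, gC a b i = gC a b 10 → i ≠ 0 ∧ i ≠ 2 ∧ i ≠ 4 := fun i hi =>
    ⟨fun e => (PlN.g010 P N) (by rw [← e, hi]),
      fun e => (PlN.g010 P N) (by rw [P.g02, ← e, hi]),
      fun e => (PlN.g010 P N) (by rw [PlN.g04 P N, ← e, hi])⟩
  rw [h.zero _ (bn T 0 0 0 0) (fun i hi => by
      obtain ⟨h0, h2, h4⟩ := key i hi
      fin_cases i <;> simp [bn] at h0 h2 h4 ⊢),
    h.loc _ (bn T 0 0 0 n) (Pi.single 10 n) (fun i hi => by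
      obtain ⟨h0, h2, h4⟩ := key i hi
      fin_cases i <;> simp [bn] at h0 h2 h4 ⊢)]
  ring

/-- homogeneity of a single slot -/
theorem homs (h : OutS (gC a b) (coneM Ma) (dhC a b) (nC a b) lam A φ r)
    (hom : ∀ k, k ≠ 0 → ∀ c ∈ coneM Ma, ∀ s : ℝ, 0 ≤ s → φ k (s • c) = s * φ k c) {j : Fin 11}
    (hj : gC a b j ≠ 0) {c1 : Fin 11 → ℝ} (hc1 : c1 ∈ coneM Ma)
    (hc : ∀ i, gC a b i = gC a b j → c1 i = if i = j then 1 else 0) {y : ℝ} (hy : 0 ≤ y) :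
    φ (gC a b j) (Pi.single j y) = y * φ (gC a b j) (Pi.single j 1) := by
  have e1 : φ (gC a b j) (Pi.single j 1) = φ (gC a b j) c1 := h.loc _ _ _ fun i hi => by
    rw [hc i hi, Pi.single_apply]
  have e2 : φ (gC a b j) (Pi.single j y) = φ (gC a b j) (y • c1) := h.loc _ _ _ fun i hi => by
    rw [Pi.smul_apply, hc i hi, Pi.single_apply]
    split_ifs <;> simp
  rw [e1, e2, hom _ hj c1 hc1 y hy]

/-- **fullness of `N`** from 865's model at the level `1` -/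
theorem full_of_M1 (hM : MaD Ma) (h : OutS (gC a b) (coneM Ma) (dhC a b) (nC a b) lam A φ r)
    (P : PlE a b κ) (N : PlN a b κ3)
    (hom : ∀ k, k ≠ 0 → ∀ c ∈ coneM Ma, ∀ s : ℝ, 0 ≤ s → φ k (s • c) = s * φ k c)
    {m : ℝ} (hm : 0 < m)
    (sw : ∀ t : ℝ, 0 ≤ t → t ≤ 1 → m * t ≤ lam (bn 1 0 0 0 0) - lam (bn 1 t 0 0 0))
    (h8 : φ (gC a b 8) (Pi.single 8 1) ≤ -1)
    {B : Base} {G : ℕ → RCfg (Fin 11)} {Leg : Set (Fin 11 → ℝ)} {ν : (Fin 11 → ℝ) → ℝ} {D : ℝ}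
    {F : ℕ → ℕ → ℝ} {Rb : Prop} (H : C1865.M1 B G Leg ν 1 D F Rb)
    {c₁ : ℝ} (hν : ∀ ca p xa n : ℝ, ν (C1865.bw 0 ca 0 p xa 0 n) = lam (bn 1 ca p xa n) - c₁) :
    φ (gC a b 10) (Pi.single 10 1) ≤ -1 := by
  have c1 : bn 1 0 0 1 0 ∈ coneM Ma := bn_mem hM zero_le_one le_rfl le_rfl zero_le_one zero_le_one
    le_rfl le_rfl zero_le_one
  have c2 : bn 1 0 0 0 1 ∈ coneM Ma := bn_mem hM zero_le_one le_rfl le_rfl zero_le_one le_rfl
    zero_le_one zero_le_one le_rfl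
  have hom8 : ∀ y : ℝ, 0 ≤ y → φ (gC a b 8) (Pi.single 8 y) = y * φ (gC a b 8) (Pi.single 8 1) :=
    fun y hy => homs h hom P.g8 c1 (fun i hi => by
      have h0 : i ≠ 0 := fun e => P.g08 (by rw [← e, hi])
      have h2 : i ≠ 2 := fun e => P.g08 (by rw [P.g02, ← e, hi])
      have h4 : i ≠ 4 := fun e => P.g08 (by rw [PlN.g04 P N, ← e, hi])
      fin_cases i <;> simp [bn] at h0 h2 h4 ⊢) hy
  have hom10 : ∀ y : ℝ, 0 ≤ y →
      φ (gC a b 10) (Pi.single 10 y) = y * φ (gC a b 10) (Pi.single 10 1) :=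
    fun y hy => homs h hom (PlN.g10 P N) c2 (fun i hi => by
      have h0 : i ≠ 0 := fun e => (PlN.g010 P N) (by rw [← e, hi])
      have h2 : i ≠ 2 := fun e => (PlN.g010 P N) (by rw [P.g02, ← e, hi])
      have h4 : i ≠ 4 := fun e => (PlN.g010 P N) (by rw [PlN.g04 P N, ← e, hi])
      fin_cases i <;> simp [bn] at h0 h2 h4 ⊢) hy
  have key := H.kone (a := -φ (gC a b 10) (Pi.single 10 1)) (m := m)
    (β := fun p xa => lam (bn 1 0 0 0 0) - lam (bn 1 0 p xa 0))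
    (γ := fun ca => lam (bn 1 0 0 0 0) - lam (bn 1 ca 0 0 0)) hm (by
      intro n p x c h1 h1' h2 h2' h3 h3' h4 h4'
      rw [hν, hν, lam_bn hM h P N zero_le_one h4 h2 h2' h3 h3' h1 h1',
        lam_bn10 hM h P N zero_le_one h1 h1', hom10 n h1]
      ring) (by
      intro t ht ht1
      show t ≤ lam (bn 1 0 0 0 0) - lam (bn 1 0 0 t 0)
      rw [lam_bn8 hM h P N zero_le_one ht ht1, hom8 t ht]
      nlinarith) (by
      intro t ht ht1
      exact sw t ht ht1)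
  linarith

/-- **rate of the group of `N`** -/
theorem rate10 (hM : MaD Ma) (h : OutS (gC a b) (coneM Ma) (dhC a b) (nC a b) lam A φ r)
    (P : PlE a b κ) (N : PlN a b κ3) (haL : a ∈ coneM Ma)
    (hom : ∀ k, k ≠ 0 → ∀ c ∈ coneM Ma, ∀ s : ℝ, 0 ≤ s → φ k (s • c) = s * φ k c)
    (h10 : φ (gC a b 10) (Pi.single 10 1) ≤ -1) : 1 + κ3 ≤ r (gC a b 10) := by
  have hκ := N.κ0
  have a1 : (1:ℝ) • a ∈ coneM Ma := by rw [one_smul]; exact haL
  have m1 : bn (1 + κ3) 0 0 0 (1 + κ3) ∈ coneM Ma := bn_mem hM (by linarith) le_rfl le_rfl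
    (by linarith) le_rfl (by linarith) (by linarith) le_rfl
  have m2 : bn 1 0 0 0 1 ∈ coneM Ma := bn_mem hM zero_le_one le_rfl le_rfl zero_le_one le_rfl
    zero_le_one zero_le_one le_rfl
  have key : ∀ i, gC a b i = gC a b 10 → i ≠ 0 ∧ i ≠ 2 ∧ i ≠ 4 := fun i hi =>
    ⟨fun e => (PlN.g010 P N) (by rw [← e, hi]),
      fun e => (PlN.g010 P N) (by rw [P.g02, ← e, hi]),
      fun e => (PlN.g010 P N) (by rw [PlN.g04 P N, ← e, hi])⟩
  have e1 : φ (gC a b 10) (bn (1 + κ3) 0 0 0 (1 + κ3)) =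
      (1 + κ3) * φ (gC a b 10) (Pi.single 10 1) := by
    have e2 : (1 + κ3) • bn 1 0 0 0 1 = bn (1 + κ3) 0 0 0 (1 + κ3) := by
      rw [bn_smul]; simp
    rw [← e2, hom _ (PlN.g10 P N) _ m2 _ (by linarith)]
    congr 1
    exact h.loc _ _ _ fun i hi => by
      obtain ⟨h0, h2, h4⟩ := key i hi
      fin_cases i <;> simp [bn] at h0 h2 h4 ⊢
  have h2 := rt_ge h P.nn (PlN.g10 P N) haL m1 (u := 1) a1 (fun i hi => by
    obtain ⟨h0, h2, h4⟩ := key i hi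
    rw [one_mul]
    by_cases hi9 : i = 10
    · subst hi9; rw [N.a10]; simp [bn]
    · refine le_trans (le_of_eq ?_) (P.nn i)
      fin_cases i <;> simp [bn] at h0 h2 h4 hi9 ⊢)
  have h3 : (1 + κ3) * φ (gC a b 10) (Pi.single 10 1) ≤ (1 + κ3) * -1 :=
    mul_le_mul_of_nonneg_left h10 (by linarith)
  linarith

end full

/-! ### the row -/

section row

variable {ι : ℕ → Type*} [∀ n, DecidableEq (ι n)] {B Bo : Base} {I J : ∀ n, Finset (ι n)}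
  {co : ∀ n, ι n → ι n → Fin 11 → ℝ} {Ma : Mons 11} {C : ℝ} {lam : (Fin 11 → ℝ) → ℝ}
  {A : ℝ × ℝ} {φ : ℕ → (Fin 11 → ℝ) → ℝ} {r : ℕ → ℝ}
  {κo : Fin 11 → ℝ} {V Tw : Fin 11 → Prop} {f : ∀ n, ι n → Fq4}

/-- **the F-half of row D1** on any plane with slack `F_b` -/
theorem row_D (h : AeW B Bo I J co monQ Ma C lam a b A φ r 0 1 κo V Tw)
    (hco : ∀ n, ∀ i ∈ I n, ∀ j ∈ I n, co n i j = coQ (f n i) (f n j))
    (hne : ∀ᶠ n in (U : Filter ℕ), (J n).Nonempty) (hM : MaD Ma) (P : PlE a b κ)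
    (N : PlN a b κ3) (hκ : κ ≠ κ3) (h3 : gC a b 3 ≠ gC a b 0)
    (haL : a ∈ coneM Ma) (hV : ∀ k, V k → k = 2 ∨ k = 4) (hT2 : Tw 2) (hT4 : Tw 4) (hC : 0 ≤ C)
    (hom : ∀ k, k ≠ 0 → ∀ c ∈ coneM Ma, ∀ s : ℝ, 0 ≤ s → φ k (s • c) = s * φ k c)
    {m : ℝ} (hm : 0 < m)
    (sw : ∀ c ∈ coneM Ma, c 5 = 0 → c 1 = 0 → ∀ t : ℝ, 0 ≤ t →
      m * t ≤ lam c - lam (c + t • Pi.single 5 1)) :
    A.1 ≤ -(4 + κ + κ3) := by
  obtain ⟨r0, r8, r9, f8, f9⟩ := base_row h hco hne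
    ⟨hM.m256, hM.m058, hM.m069, hM.m289, hM.n017⟩ P haL
    (fun k hk => (hV k hk).elim Or.inl fun h => Or.inr (Or.inr h)) hT2 hC hom hm
    (fun t xa ht ht1 hx hx1 => by
      have hmem : bl 1 0 0 xa 0 ∈ coneM Ma := fun k e he =>
        (bl_legal zero_le_one le_rfl le_rfl zero_le_one hx hx1 le_rfl zero_le_one).wall k e
          (h.sub k he)
      have h1 := sw (bl 1 0 0 xa 0) hmem (by simp [bl]) (by simp [bl]) t ht
      have e1 : bl 1 0 0 xa 0 + t • (Pi.single 5 1 : Fin 11 → ℝ) = bl 1 t 0 xa 0 := by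
        funext j; fin_cases j <;> simp [bl, Pi.single_apply]
      rwa [e1] at h1)
  obtain ⟨W, E, hW⟩ := dw_of_aew h hM hC hco hne (PlN.grp0 P N h3) hV hT2 hT4 one_pos
  have f10 := full_of_M1 hM h.out P N hom hm (fun t ht ht1 => by
    have h1 := sw (bn 1 0 0 0 0) (bn_mem hM zero_le_one le_rfl le_rfl zero_le_one le_rfl
      zero_le_one le_rfl zero_le_one) (by simp [bn]) (by simp [bn]) t ht
    have e1 : bn 1 0 0 0 0 + t • (Pi.single 5 1 : Fin 11 → ℝ) = bn 1 t 0 0 0 := by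
      funext j; fin_cases j <;> simp [bn, Pi.single_apply]
    rwa [e1] at h1) f8 hW.m1 (c₁ := lam fun _ => 1) (fun ca p xa n => by
    rw [hW.nu_eq]
    congr 2
    funext j
    fin_cases j <;> simp [cut, C1865.bw, bn])
  have r10 := rate10 hM h.out P N haL hom f10
  have ht := tot4 h.out P.nn P.n0 P.n8 P.n9 (PlN.n10 P N) P.g08 P.g09 P.g89 (PlN.g010 P N)
    (PlN.g810 P N) (PlN.g910 P N hκ)
  linarith

end row

end Crest.Agent.R136.Dl3667
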