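import Crest.Agent.R136.Dl2_667
import Crest.Agent.R136.Dl3_667
import Crest.Agent.R136.C1d_865
import Crest.Agent.R136.TopB_550

/-!
# R136, row D1 of the thick table: wiring (helper667)

* `F2D` : the last rung of `ladder_D`
* `ladder_V'`, `ladder_D'` : the first rung as an F-lemma `FlV`
* `maD_act`, `caseD1_lt` : the case `θ 0 < θ 2` (628's `row_F0`)
* `caseD1_of` : row D1 from the pin `F_b` on the first rung
-/

set_option autoImplicit false
set_option linter.unusedVariables false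
set_option linter.unusedSectionVars false

open Finset Filter Topology

namespace Crest.Agent.R136.Dl667

open Crest.Agent.R138.Ex926 (Base U IsTan)
open Crest.Agent.R136.Net191
open Crest.Agent.R136.NetQ186
open Crest.Agent.R136.Wq638
open Crest.Agent.R136.Lq196
open Crest.Agent.R136.NatT550
open Crest.Agent.R136.NatR550 (nL)
open Crest.Agent.R136.Top484
open Crest.Agent.R136.LdF511
open Crest.Agent.R136.LdF3511
open Crest.Agent.R136.Tb628 (oS oS_eq pathQ_oS ownPath nprof ownF hsl_sub s0 sA sB fA fB mem_act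
  eCa eECb RecS RowPt Hom coneF)
open Crest.Agent.R136.K2S774 (cn Prf JT Stage RecD RungD BaseOk ind1 A2 stage_init)
open Crest.Agent.R136.K2A146 (FLemA)
open Crest.Agent.R136.AwJ774
open Crest.Agent.R136.Aw413
open Crest.Agent.R136.Ev356 (mv)
open Crest.Agent.R136.Gf356
open Crest.Agent.R136.Qg926 (Wnd)
open Crest.Agent.R136.Dd413 (MaD DW dw_of_aew)
open Crest.Agent.R136.Dg219 (Walls mw gC dhC nC OutS gC_eq gC_zero)
open Crest.Agent.R136.Rc146 (OutA)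
open Crest.Agent.R136.Dg262 (X)
open Crest.Agent.R136.LdF5511 (PlE)
open Crest.Agent.R136.Dl3667 (PlN row_D)

/-! ### the last rung of the ladder -/

theorem plE_D {θ : Fin 3 → ℝ} (h1 : 0 < θ 1) (hκ : 0 < θ 1 - θ 2) (hκ3 : 0 < θ 1 - θ 0) :
    PlE (aD θ) (bD θ) (θ 1 - θ 2) where
  κ0 := hκ
  nn := by
    intro i
    rw [aD_val]
    fin_cases i <;>
      simp only [Matrix.cons_val, Fin.zero_eta, Fin.mk_one, Fin.reduceFinMk, Fin.isValue] <;>
      linarith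
  a0 := by rw [aD_val]; simp
  a2 := by rw [aD_val]; simp
  a5 := by rw [aD_val]; simp
  a6 := by rw [aD_val]; simp
  a8 := by rw [aD_val]; simp
  a9 := by rw [aD_val]; simp
  b5 := by rw [bD_of_ne θ (by decide), rhoF_val]; simpa using h1.ne'
  b2 := by rw [bD_of_ne θ (by decide), bD_of_ne θ (by decide), rhoF_val]; simp
  b6 := by
    rw [bD_of_ne θ (by decide), bD_of_ne θ (by decide), bD_of_ne θ (by decide), rhoF_val]
    simp only [Matrix.cons_val, Fin.isValue]; ring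
  b8 := by
    rw [bD_of_ne θ (by decide), bD_of_ne θ (by decide), bD_of_ne θ (by decide), rhoF_val]
    simp only [Matrix.cons_val, Fin.isValue]; ring
  b9 := by
    rw [bD_of_ne θ (by decide), bD_of_ne θ (by decide), bD_of_ne θ (by decide), rhoF_val]
    simp only [Matrix.cons_val, Fin.isValue]; ring

theorem plN_D {θ : Fin 3 → ℝ} (hκ3 : 0 < θ 1 - θ 0) : PlN (aD θ) (bD θ) (θ 1 - θ 0) where
  κ0 := hκ3
  a1 := by rw [aD_val]; simp
  a4 := by rw [aD_val]; simp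
  a7 := by rw [aD_val]; simp
  a10 := by rw [aD_val]; simp
  b4 := by rw [bD_of_ne θ (by decide), bD_of_ne θ (by decide), rhoF_val]; simp
  b7 := by
    rw [bD_of_ne θ (by decide), bD_of_ne θ (by decide), bD_of_ne θ (by decide), rhoF_val]
    simp only [Matrix.cons_val, Fin.isValue]; ring
  b10 := by
    rw [bD_of_ne θ (by decide), bD_of_ne θ (by decide), bD_of_ne θ (by decide), rhoF_val]
    simp only [Matrix.cons_val, Fin.isValue]; ring

section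

variable {η : ℝ} {p : Par4} {D : Dat4} {I1 : ℕ → Finset (ℕ × ℝ)} {π : Equiv.Perm (Fin 3)}
  {eE fA' fB' : ℕ → ℕ × ℝ → ℝ} {V T : Fin 11 → Prop} {w0 R T0 : ℝ} {PD : Set (Fin 11 → ℝ)}
  {ν own : (Fin 11 → ℝ) → ℝ} {c₀ : ℝ}

/-- **the last rung of row D1** -/
theorem F2D (h : Thick η p D I1 π eE fA' fB' V T w0 R T0 PD ν own c₀) (hV2 : V 2) (hV3 : ¬ V 3)
    (hV4 : V 4) (h02 : p.θ 0 ≠ p.θ 2) {lam lo : (Fin 11 → ℝ) → ℝ} {A : ℝ × ℝ}
    {φ : ℕ → (Fin 11 → ℝ) → ℝ} {r : ℕ → ℝ}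
    (P : PtV D.B D.I I1 (couQ D.B D.lev D.w w0 (incQ π D.L eE fA' fB')) p V T {3} (aD p.θ)
      (bD p.θ) lam lo A φ r) (hH : HomV {3} (aD p.θ) (bD p.θ) φ) :
    A.1 ≤ -(4 + (p.θ 1 - p.θ 2) + (p.θ 1 - p.θ 0)) := by
  obtain ⟨hκ, hκ3⟩ := slopesD h.tp.slots hV2 hV4
  have h1 := h.tp.ok.θ1
  have PE := plE_D h1 hκ hκ3
  have PN := plN_D (θ := p.θ) hκ3
  have e2 : aD p.θ 2 = oS p.θ 2 * aD p.θ 0 := by
    rw [aD_val, oS_eq]; simp
  have e4 : aD p.θ 4 = oS p.θ 4 * aD p.θ 0 := by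
    rw [aD_val, oS_eq]; simp
  refine row_D P.aew (fun n i _ j _ => rfl) h.ext.ne maD PE PN (fun e => h02 (by linarith))
    (fun e => ?_) ?_ (fun k hk => ?_) ⟨tiedD h.tp.slots hV3 hV2, hV2, e2⟩
    ⟨tiedD h.tp.slots hV3 hV4, hV4, e4⟩ (by norm_num) (fun k hk c hc s hs => ?_) h.tp.ok.g0.2
    fun c hc h5 h1' t ht => ?_
  · exact absurd (gD_3 p.θ e) (by decide)
  · rw [coneM_mA]
    exact fun w hw => (natTF (p.θ 1 - p.θ 2) (1 + (p.θ 1 - p.θ 0)) (fun _ => 1) hw).le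
  · rcases vis_ne h.tp.slots hk.1 with rfl | rfl | rfl
    · exact Or.inl rfl
    · exact absurd hk.1 hV3
    · exact Or.inr rfl
  · refine hH k (fun i hi => ?_) c (by rw [← coneM_mA]; exact hc) s hs
    have ha : aD p.θ i ≠ 0 := fun h0 => hk (by rw [← hi]; exact gC_zero.2 h0)
    unfold dhC
    rw [if_neg ha]
    exact lt_of_le_of_ne (PE.nn i) ha.symm
  · refine (P.ca h1 PE.a5 (by rw [← coneM_mA]; exact hc) ht fun i hi hi5 h0 => ?_).2
    rw [h5, neg_zero, zero_div, zero_mul]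
    have hi1 : i = 1 := by
      rw [aD_val] at h0
      by_contra hne
      fin_cases i <;>
        simp only [Matrix.cons_val, Fin.zero_eta, Fin.mk_one, Fin.reduceFinMk, Fin.isValue,
          ne_eq, not_true_eq_false] at h0 hi5 hne <;>
        linarith
    subst hi1
    exact h1'.le

/-! ### the ladder with the first rung as an F-lemma -/

/-- **the ladder with two rungs**, first rung as an F-lemma -/
theorem ladder_V' (h : Thick η p D I1 π eE fA' fB' V T w0 R T0 PD ν own c₀)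
    (hκ : 0 < p.θ 1 - p.θ 2) (h02 : p.θ 0 ≠ p.θ 2) (hV3 : ¬ V 3)
    {s g1 g2 : ℝ} {x b : Fin 11 → ℝ} (hs : 1 < s)
    (hs4 : V 4 → 1 + (p.θ 1 - p.θ 0) ≤ s) (hx : 0 < x 3)
    (hb : ∀ i, i ∉ ({3} : Finset (Fin 11)) → b i = rhoF p.θ i) (hg1 : 0 < g1) (hg2 : 0 < g2)
    (F1 : ∀ lam lo : (Fin 11 → ℝ) → ℝ, StV p V ν own w0 R (1 / 2) ∅ lam lo →
      FlV p V ν own w0 R (1 / 2) ∅ (1 + (p.θ 1 - p.θ 2)) 0 (rhoF p.θ) lam lo
        (fun l => l (ind1 {3}) < 0) g1)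
    (F2 : ∀ (lam lo : (Fin 11 → ℝ) → ℝ) (A : ℝ × ℝ) (φ : ℕ → (Fin 11 → ℝ) → ℝ) (r : ℕ → ℝ),
      PtV D.B D.I I1 (couQ D.B D.lev D.w w0 (incQ π D.L eE fA' fB')) p V T {3}
        (TF {3} (p.θ 1 - p.θ 2) s x) b lam lo A φ r → HomV {3} (TF {3} (p.θ 1 - p.θ 2) s x) b φ →
      g2 ≤ -A.1 + DlF p (TpF (p.θ 1 - p.θ 2) s)) : False := by
  have h0 : (0:ℝ) < 1 / 2 := by norm_num
  have h1 : (1:ℝ) / 2 < 1 := by norm_num
  obtain ⟨lam, lo, H⟩ := stage_V h h0 h1 hκ h02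
  obtain ⟨lam2, lo2, H2⟩ := K2A146.rungA H (recD_V h.tp.slots ∅)
    (rungV_i hV3 hκ (b := rhoF p.θ) fun _ _ => rfl) hg1 (F1 lam lo H)
  have H2' : StV p V ν own w0 R (1 / 2) {3} lam2 lo2 := by
    have e1 := A2_AF ∅ {3}
    rw [Finset.empty_union] at e1
    rw [e1, ← Finset.coe_union, Finset.empty_union] at H2
    exact H2
  exact K2A146.deadA H2' (recD_V h.tp.slots {3}) (rungV_s hκ hs hx hb) hg2
    (flA_of_ptH h h0 h1 (TF_s hκ hs hx).1 hb (fun k hk => by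
        rcases vis_ne h.tp.slots hk with rfl | rfl | rfl
        · rw [← TF_off (by decide), ← TF_off (by decide), TpF_val]
          simp only [oS_eq, Matrix.cons_val, Fin.isValue]; linarith
        · exact absurd hk hV3
        · rw [← TF_off (by decide), ← TF_off (by decide), TpF_val]
          simp only [oS_eq, Matrix.cons_val, Fin.isValue]; linarith [hs4 hk]) F2
      (qdOk h.tp.slots {3}) H2' _)

/-- **the ladder of row D1**, case `θ 2 < θ 0`, first rung as an F-lemma -/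
theorem ladder_D' (hη : η ≤ 1 / 8) (h : Thick η p D I1 π eE fA' fB' V T w0 R T0 PD ν own c₀)
    (hV2 : V 2) (hV3 : ¬ V 3) (hV4 : V 4) (h02 : p.θ 0 ≠ p.θ 2) {g1 : ℝ} (hg1 : 0 < g1)
    (F1 : ∀ lam lo : (Fin 11 → ℝ) → ℝ, StV p V ν own w0 R (1 / 2) ∅ lam lo →
      FlV p V ν own w0 R (1 / 2) ∅ (1 + (p.θ 1 - p.θ 2)) 0 (rhoF p.θ) lam lo
        (fun l => l (ind1 {3}) < 0) g1) : False := by
  obtain ⟨hκ, hκ3⟩ := slopesD h.tp.slots hV2 hV4
  have s2 := hsl_sub (κ := p.θ 1 - p.θ 2) (κ3 := p.θ 1 - p.θ 0) h.tp.ok hη (i := 1) (j := 2)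
    (k := 1) (l := 0) (le_abs_self _) (le_abs_self _)
  refine ladder_V' h hκ h02 hV3 (s := 1 + (p.θ 1 - p.θ 0))
    (x := fun _ => 1) (b := bD p.θ) (by linarith) (fun _ => le_rfl) one_pos
    (fun i hi => bD_of_ne _ (by simpa using hi)) hg1
    (g2 := p.g - p.q 0 * (p.θ 1 - p.θ 0) - p.q 2 * (p.θ 1 - p.θ 2)) (by linarith) F1
    fun lam lo A φ r P hH => ?_
  have h1 := F2D h hV2 hV3 hV4 h02 P hH
  have h2 := DlF_ray p (p.θ 1 - p.θ 2) (1 + (p.θ 1 - p.θ 0))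
  unfold TpF
  rw [h2]
  linarith

end

/-! ### the case `θ 0 < θ 2` -/

/-- **active monomials of the plane with slack `F_b`** -/
theorem maD_act {θ : Fin 3 → ℝ} {w0 R κ κ3 kf : ℝ} (hκ : 0 < κ) (hf : 0 < kf)
    (hf' : kf < κ3 - κ) (hτ : (θ 0 + κ3) / θ 1 ≠ 0) :
    MaD (actM monQ (s0 w0 (R - 1)) (fA κ κ3 kf) (fB θ κ κ3 kf)) where
  sub := fun k e he => (mem_actM.1 he).1
  m256 := mem_act.2 ⟨C1865.mv_mon.1, by simp [s0, nat4]; ring, by simp [fA, sA, nL],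
    by simp [fB, sB, nL]⟩
  m457 := mem_act.2 ⟨C1865.mv_mon.2.1, by simp [s0, nat4]; ring, by simp [fA, sA, nL],
    by simp [fB, sB, nL]⟩
  m058 := mem_act.2 ⟨C1865.mv_mon.2.2.1, by simp [s0, nat4]; ring, by simp [fA, sA, nL],
    by simp [fB, sB, nL]⟩
  m069 := mem_act.2 ⟨C1865.mv_mon.2.2.2.1, by simp [s0, nat4]; ring, by simp [fA, sA, nL],
    by simp [fB, sB, nL]⟩
  m289 := mem_act.2 ⟨C1865.mv_mon.2.2.2.2.1, by simp [s0, nat4]; ring,
    by simp [fA, sA, nL]; ring, by simp [fB, sB, nL]⟩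
  m0710 := mem_act.2 ⟨C1865.mv_mon.2.2.2.2.2.1, by simp [s0, nat4]; ring,
    by simp [fA, sA, nL], by simp [fB, sB, nL]⟩
  m4810 := mem_act.2 ⟨C1865.mv_mon.2.2.2.2.2.2, by simp [s0, nat4]; ring,
    by simp [fA, sA, nL]; ring, by simp [fB, sB, nL]⟩
  no := by
    intro k e he
    refine monQ_all (fun k e => e ∈ (actM monQ (s0 w0 (R - 1)) (fA κ κ3 kf)
      (fB θ κ κ3 kf)).mon k → e 1 = 0 ∧ e 3 = 0) |>.2 ?_ k e (mem_actM.1 he).1 he
    refine ⟨?_, ?_, ?_, ?_, ?_, ?_, ?_, ?_, ?_, ?_, ?_, ?_, ?_, ?_, ?_, ?_, ?_, ?_⟩ <;> first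
      | exact fun _ => by decide
      | (intro hm
         obtain ⟨-, -, e1, e2⟩ := mem_actM.1 hm
         exfalso
         rw [sm] at e1 e2
         simp [fA, fB, sA, sB, nL] at e1 e2
         first
         | linarith
         | (rcases e2 with e2 | e2 <;> simp [e2] at hτ))

/-- **row D1, case `θ 0 < θ 2`** -/
theorem caseD1_lt {η : ℝ} (hη : η ≤ 1 / 8) {p : Par4} {D : Dat4} {I1 : ℕ → Finset (ℕ × ℝ)}
    {π : Equiv.Perm (Fin 3)} {eE gA gB : ℕ → ℕ × ℝ → ℝ} {V T : Fin 11 → Prop} {w0 R T0 : ℝ}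
    {PD : Set (Fin 11 → ℝ)} {ν own : (Fin 11 → ℝ) → ℝ} {c₀ : ℝ}
    (h : Thick η p D I1 π eE gA gB V T w0 R T0 PD ν own c₀) (hV2 : V 2) (hV3 : ¬ V 3)
    (hV4 : V 4) (h02 : p.θ 0 < p.θ 2) : False := by
  obtain ⟨hκ, hκ3⟩ := slopesD h.tp.slots hV2 hV4
  have ok := h.tp.ok
  have hθ1 := ok.θ1
  have sl := h.tp.slots
  set κ := p.θ 1 - p.θ 2 with hκd
  set κ3 := p.θ 1 - p.θ 0 with hκ3d
  have hlt : κ < κ3 := by linarith
  set kf := (κ3 - κ) / 2 with hkf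
  have hf0 : 0 < kf := by linarith
  have hf1 : kf < κ3 - κ := by linarith
  refine Tb628.row_F0 (κ := κ) (κ3 := κ3) (kf := kf) h ok.η_pos hκ.le hlt.le hf0.le
    hf1 (Or.inr (by linarith : p.θ 2 < p.θ 1).ne') (Or.inl h02.ne')
    (hsl_sub ok hη (i := 1) (j := 2) (k := 1) (l := 0) (le_abs_self _) (le_abs_self _))
    (fun _ => le_rfl) (fun h => absurd h hV3) (fun _ => le_rfl) ?_
  intro g1 g2 hcone ξ x h' lam A φ r P Hm
  have hτ : (p.θ 0 + κ3) / p.θ 1 = 1 := by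
    rw [div_eq_one_iff_eq hθ1.ne']; linarith
  have hτ2 : (p.θ 2 + κ) / p.θ 1 = 1 := by
    rw [div_eq_one_iff_eq hθ1.ne']; linarith
  have hM := maD_act (θ := p.θ) (w0 := w0) (R := R) hκ hf0 hf1 (by rw [hτ]; norm_num)
  have a3 : fA κ κ3 kf 3 = kf := by simp [fA]
  have PE : PlE (fA κ κ3 kf) (fB p.θ κ κ3 kf) κ :=
    { κ0 := hκ
      nn := by
        intro i
        by_cases hi : i = 3
        · subst hi; rw [a3]; exact hf0.le
        · rw [fA, Function.update_of_ne hi]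
          fin_cases i <;>
            simp only [sA, nL, Matrix.cons_val, Fin.zero_eta, Fin.mk_one, Fin.reduceFinMk,
              Fin.isValue] <;> linarith
      a0 := by simp [fA, sA, nL]
      a2 := by simp [fA, sA, nL]
      a5 := by simp [fA, sA, nL]
      a6 := by simp [fA, sA, nL]
      a8 := by simp [fA, sA, nL]
      a9 := by simp [fA, sA, nL]
      b5 := by simp [fB, sB, nL]
      b2 := by simp [fB, sB, nL, hτ2]
      b6 := by simp [fB, sB, nL]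
      b8 := by simp [fB, sB, nL]
      b9 := by simp [fB, sB, nL] }
  have PN : PlN (fA κ κ3 kf) (fB p.θ κ κ3 kf) κ3 :=
    { κ0 := hκ3
      a1 := by simp [fA, sA, nL]
      a4 := by simp [fA, sA, nL]
      a7 := by simp [fA, sA, nL]
      a10 := by simp [fA, sA, nL]
      b4 := by simp [fB, sB, nL, hτ]
      b7 := by simp [fB, sB, nL]
      b10 := by simp [fB, sB, nL] }
  have b2 : fB p.θ κ κ3 kf 2 = 0 := by rw [PE.b2]; simp [fB, sB, nL]
  have b4 : fB p.θ κ κ3 kf 4 = 0 := by rw [PN.b4]; simp [fB, sB, nL]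
  refine row_D P.aew (fun n i _ j _ => rfl) h.ext.ne hM PE PN (by linarith) (fun e => ?_) ?_
    (fun k hk => ?_) ⟨tiedD sl hV3 hV2, b2⟩ ⟨tiedD sl hV3 hV4, b4⟩ (by norm_num)
    (fun k hk c hc s hs => ?_) ok.g0.2 fun c hc h5 h1' t ht => ?_
  · rw [gC_eq (by rw [a3]; exact hf0.ne') PE.n0, a3, PE.a0, Tb628.fB_three] at e
    have b0 : fB p.θ κ κ3 kf 0 = 0 := by simp [fB, sB, nL]
    rw [b0, zero_div, div_eq_zero_iff, or_iff_left hf0.ne', div_eq_zero_iff,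
      or_iff_left hθ1.ne'] at e
    linarith
  · rw [hcone]
    refine ⟨?_, ?_, ?_, ?_, ?_, ?_, ?_⟩ <;>
      simp only [PE.a0, PE.a2, PE.a5, PE.a6, PE.a8, PE.a9, PN.a4, PN.a7, PN.a10] <;> linarith
  · rcases (sl.vis k hk.1).1 with rfl | rfl | rfl
    · exact Or.inl rfl
    · exact absurd hk.1 hV3
    · exact Or.inr rfl
  · refine Hm k (fun i hi => ?_) c hc s hs
    have ha : fA κ κ3 kf i ≠ 0 := fun h0 => hk (by rw [← hi]; exact gC_zero.2 h0)
    unfold dhC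
    rw [if_neg ha]
    exact lt_of_le_of_ne (PE.nn i) ha.symm
  · have e1 : t • (Pi.single 5 1 : Fin 11 → ℝ) = eCa t := by
      funext j; fin_cases j <;> simp [eCa]
    have hct : c + eCa t ∈ coneM (actM monQ (s0 w0 (R - 1)) (fA κ κ3 kf) (fB p.θ κ κ3 kf)) := by
      rw [hcone] at hc ⊢
      obtain ⟨c1, c2, c3, c4, c5, c6, c7⟩ := hc
      refine ⟨?_, ?_, ?_, ?_, ?_, ?_, ?_⟩ <;>
        simp only [eCa, Pi.add_apply, Matrix.cons_val, Fin.isValue] <;> linarith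
    rw [e1]
    refine P.S1 PE.a5 (by simp [fB, sB, nL]) (g1 (by linarith : p.θ 2 < p.θ 1).ne') hc ht hct
      fun k hk1 hk0 => ?_
    have hk5 : k = 5 := by
      by_contra hne
      have g3 : k ≠ 3 := fun e => by rw [e, a3] at hk0; exact hf0.ne' hk0
      have g0 : k ≠ 0 := fun e => PE.n0 (by rw [← e]; exact hk0)
      have g2' : k ≠ 2 := fun e => PE.n2 (by rw [← e]; exact hk0)
      have g4 : k ≠ 4 := fun e => (PlN.n4 PE PN) (by rw [← e]; exact hk0)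
      have g6 : k ≠ 6 := fun e => PE.n6 (by rw [← e]; exact hk0)
      have g7 : k ≠ 7 := fun e => (PlN.n7 PE PN) (by rw [← e]; exact hk0)
      have g8 : k ≠ 8 := fun e => PE.n8 (by rw [← e]; exact hk0)
      have g9 : k ≠ 9 := fun e => PE.n9 (by rw [← e]; exact hk0)
      have g10 : k ≠ 10 := fun e => (PlN.n10 PE PN) (by rw [← e]; exact hk0)
      fin_cases k <;> simp at hk1 hne g3 g0 g2' g4 g6 g7 g8 g9 g10
    subst hk5
    have b5 : fB p.θ κ κ3 kf 5 = 1 := by simp [fB, sB, nL]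
    rw [b5, one_mul]

/-- **row D1 from the pin `F_b`** of the first rung (only needed for `θ 2 < θ 0`) -/
theorem caseD1_of {η : ℝ} (hη : η ≤ 1 / 8)
    (F1 : ∀ (p : Par4) (D : Dat4) (I1 : ℕ → Finset (ℕ × ℝ)) (π : Equiv.Perm (Fin 3))
      (eE fA fB : ℕ → ℕ × ℝ → ℝ) (V T : Fin 11 → Prop) (w0 R T0 : ℝ) (PD : Set (Fin 11 → ℝ))
      (ν own : (Fin 11 → ℝ) → ℝ) (c₀ : ℝ),
      Thick η p D I1 π eE fA fB V T w0 R T0 PD ν own c₀ → V 2 → ¬ V 3 → V 4 → p.θ 2 < p.θ 0 →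
      ∃ g1 : ℝ, 0 < g1 ∧ ∀ lam lo : (Fin 11 → ℝ) → ℝ, StV p V ν own w0 R (1 / 2) ∅ lam lo →
        FlV p V ν own w0 R (1 / 2) ∅ (1 + (p.θ 1 - p.θ 2)) 0 (rhoF p.θ) lam lo
          (fun l => l (ind1 {3}) < 0) g1) : TopB550.Dead η TopB550.pD1 := by
  intro p D I1 π eE gA gB V T w0 R T0 PD ν own c₀ h hp
  obtain ⟨h2, h3, h4, h02⟩ := hp
  rcases lt_or_gt_of_ne h02 with hlt | hgt
  · exact caseD1_lt hη h h2 h3 h4 hlt
  · obtain ⟨g1, hg1, F⟩ := F1 p D I1 π eE gA gB V T w0 R T0 PD ν own c₀ h h2 h3 h4 hgt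
    exact ladder_D' hη h h2 h3 h4 h02 hg1 F

end Crest.Agent.R136.Dl667
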