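import Crest.Agent.R136.LdF9_511
import Crest.Agent.R136.LadA_115

/-!
# R136: first rung of the thick ladder, `s = 1 + κ` (helper683)

Boxes `bN x u v w` : `z, X_a : x`, `F_b : v`, `X_b : u`, `N : w`.  115's leaf `(F_b, X_b)` :

* `leaf_pt` : `F_b` visible, `X_b : x` full given `N : x` ⊢ `X_b, N` lose `2 x - 1` given `z, X_a`;
* `xn_of_ne` : `X_b` is full given `N` if they are not parallel;
* `slope_of` : all boxes `z, X_a, X_b, N : x` lose `4 x - 1` ⊢ `A.1 ≤ -(4 + 2 κ)`;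
* `F1_num` : the D-max functional of the ray leaves `g / 2`;
* **`F1_tan`, `F1_fl`** : rung `s = 1 + κ` at any tangent of a stage, `θ 0 ≠ θ 2`;
* **`stage2_V`**, **`stage2_F`** : the stage after the rung.
-/

set_option autoImplicit false
set_option linter.unusedVariables false

open Finset Filter Topology

namespace Crest.Agent.R136.LdF5683

open Crest.Agent.R138.Ex926 (Base U IsTan)
open Crest.Agent.R136.Net191
open Crest.Agent.R136.NetQ186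
open Crest.Agent.R136.Gf356
open Crest.Agent.R136.Ev356 (mv)
open Crest.Agent.R136.Wq638
open Crest.Agent.R136.GeoQ186 (scl)
open Crest.Agent.R136.NatT550
open Crest.Agent.R136.NatR550 (nL)
open Crest.Agent.R136.Top484
open Crest.Agent.R136.LdF511
open Crest.Agent.R136.LdF3511
open Crest.Agent.R136.LdF4511
open Crest.Agent.R136.LdF5511
open Crest.Agent.R136.LdF7511
open Crest.Agent.R136.Dl667
open Crest.Agent.R136.LadA115 (cz cz0 czs leafN39)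
open Crest.Agent.R136.Lf400 (bx)
open Crest.Agent.R136.Tb628 (oS oS_eq)
open Crest.Agent.R136.K2S774 (cn Prf JT Stage RecD RungD BaseOk ind1 A2)
open Crest.Agent.R136.K2A146 (FLemA)
open Crest.Agent.R136.AwJ774 (mA mem_mA coneM_mA)
open Crest.Agent.R136.Aw413 (coneM AeW)
open Crest.Agent.R136.Dg219 (Walls mw gC dhC nC OutS gC_zero gC_eq gset mem_gset)
open Crest.Agent.R136.Rc146 (OutA)
open Crest.Agent.R136.Dg262 (X)

/-! ### boxes -/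

/-- `z, X_a : x`, `F_b : v`, `X_b : u`, `N : w` -/
def bN (x u v w : ℝ) : Fin 11 → ℝ := ![x, 0, 0, v, 0, 0, 0, 0, x, u, w]

theorem bN_legal {x u v w : ℝ} (hu : 0 ≤ u) (hux : u ≤ x) (hv : 0 ≤ v) (hw : 0 ≤ w) (hwx : w ≤ x)
    (h : w ≤ v + u) : Legal monQ (bN x u v w) := by
  refine legalQ_iff.2 ⟨fun k => ?_, ?_, ?_, ?_, ?_, ?_, ?_, ?_, ?_, ?_, ?_, ?_⟩
  · fin_cases k <;>
      simp only [bN, Matrix.cons_val, Fin.zero_eta, Fin.mk_one, Fin.reduceFinMk, Fin.isValue] <;>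
      linarith
  all_goals
    simp only [bN, Matrix.cons_val, Fin.isValue]
    linarith

/-- the boxes of 115's leaf -/
theorem cz_bx (x u v w : ℝ) : cz x (bx (Pi.single 8 x) 9 3 10 u v w) = bN x u v w := by
  funext j
  fin_cases j <;> simp [cz, bx, bN]

theorem bN_le {x u v w u' v' w' : ℝ} (hu : u ≤ u') (hv : v ≤ v') (hw : w ≤ w') :
    bN x u v w ≤ bN x u' v' w' := by
  intro j
  fin_cases j <;> simp [bN, hu, hv, hw]

theorem single_legal3 {v : ℝ} (hv : 0 ≤ v) : Legal monQ (Pi.single 3 v : Fin 11 → ℝ) := by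
  refine legalQ_iff.2 ⟨fun k => ?_, ?_, ?_, ?_, ?_, ?_, ?_, ?_, ?_, ?_, ?_, ?_⟩
  · by_cases hk : k = 3
    · subst hk; simpa using hv
    · rw [Pi.single_eq_of_ne hk]
  all_goals simp [Pi.single_apply, hv]

theorem single_legal0 {v : ℝ} (hv : 0 ≤ v) : Legal monQ (Pi.single 0 v : Fin 11 → ℝ) := by
  refine legalQ_iff.2 ⟨fun k => ?_, ?_, ?_, ?_, ?_, ?_, ?_, ?_, ?_, ?_, ?_, ?_⟩
  · by_cases hk : k = 0
    · subst hk; simpa using hv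
    · rw [Pi.single_eq_of_ne hk]
  all_goals simp [Pi.single_apply, hv]

/-! ### the numbers -/

section num

variable {a b : Fin 11 → ℝ} {κ : ℝ} {L : Set (Fin 11 → ℝ)} {lam : (Fin 11 → ℝ) → ℝ} {A : ℝ × ℝ}
  {φ : ℕ → (Fin 11 → ℝ) → ℝ} {r : ℕ → ℝ}

/-- `F_b` splits off: it is in the group of the slots with slope `0` -/
theorem fb_split (hL : ∀ p, Legal monQ p → p ∈ L)
    (h : OutS (gC a b) L (dhC a b) (nC a b) lam A φ r) (a3 : a 3 = 0) {x u v v' w : ℝ}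
    (hu : 0 ≤ u) (hux : u ≤ x) (hw : 0 ≤ w) (hwx : w ≤ x) (hv : 0 ≤ v) (hv' : 0 ≤ v')
    (h1 : w ≤ v + u) (h2 : w ≤ v' + u) (ha : ∀ i, a i = 0 → i = 1 ∨ i = 3 ∨ i = 5) :
    lam (bN x u v w) - lam (bN x u v' w) = φ 0 (Pi.single 3 v) - φ 0 (Pi.single 3 v') := by
  rw [one_grp h (hL _ (bN_legal hu hux hv hw hwx h1)) (hL _ (bN_legal hu hux hv' hw hwx h2)) 0
    (fun i hi => by
      have h3 : i ≠ 3 := fun e => hi (by rw [e]; exact gC_zero.2 a3)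
      fin_cases i <;> simp [bN] at h3 ⊢)]
  have key : ∀ v : ℝ, φ 0 (bN x u v w) = φ 0 (Pi.single 3 v) := fun v => h.loc _ _ _ fun i hi => by
    rcases ha i (gC_zero.1 hi) with rfl | rfl | rfl <;> simp [bN]
  rw [key, key]

/-- the cost of `F_b` alone -/
theorem fb_ind (hL : ∀ p, Legal monQ p → p ∈ L)
    (h : OutS (gC a b) L (dhC a b) (nC a b) lam A φ r) (a3 : a 3 = 0) :
    lam (ind1 {3}) = φ 0 (Pi.single 3 1) := by
  have m0 : (0 : Fin 11 → ℝ) ∈ L := hL _ (by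
    have := single_legal3 (v := 0) le_rfl
    simpa using this)
  have e : (ind1 {3} : Fin 11 → ℝ) = Pi.single 3 1 := by
    funext i
    simp only [ind1, Pi.single_apply, Finset.mem_singleton]
  have h1 := one_grp h m0 (hL _ (single_legal3 zero_le_one)) 0 (fun i hi => by
    have h3 : i ≠ 3 := fun e => hi (by rw [e]; exact gC_zero.2 a3)
    rw [Pi.single_eq_of_ne h3]; rfl)
  have h2 : lam 0 = 0 := by
    rw [h.sum 0 m0]
    exact Finset.sum_eq_zero fun k _ => h.zero k 0 fun i _ => rfl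
  rw [h2, h.zero 0 0 fun i _ => rfl] at h1
  rw [e]
  linarith

/-- `X_b` is full given `N` if they are not parallel -/
theorem xn_of_ne (hL : ∀ p, Legal monQ p → p ∈ L)
    (h : OutS (gC a b) L (dhC a b) (nC a b) lam A φ r) (P : PlE a b κ) (a3 : a 3 = 0)
    (h910 : gC a b 10 ≠ gC a b 9)
    (f9 : ∀ y : ℝ, 0 ≤ y → φ (gC a b 9) (Pi.single 9 y) ≤ -y) {x : ℝ} (hx : 0 ≤ x) :
    x ≤ lam (bN x 0 x x) - lam (bN x x x x) := by
  rw [one_grp h (hL _ (bN_legal le_rfl hx hx hx le_rfl (by linarith)))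
    (hL _ (bN_legal hx le_rfl hx hx le_rfl (by linarith))) (gC a b 9) (fun i hi => by
      have h9 : i ≠ 9 := fun e => hi (by rw [e])
      fin_cases i <;> simp [bN] at h9 ⊢)]
  have key : ∀ i, gC a b i = gC a b 9 → i ≠ 0 ∧ i ≠ 3 ∧ i ≠ 8 ∧ i ≠ 10 := fun i hi =>
    ⟨fun e => P.g09 (by rw [← e, hi]), fun e => P.g9 (by rw [← hi, e]; exact gC_zero.2 a3),
      fun e => P.g89 (by rw [← e, hi]), fun e => h910 (by rw [← e, hi])⟩
  have e1 : φ (gC a b 9) (bN x 0 x x) = 0 := h.zero _ _ fun i hi => by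
    obtain ⟨h0, h3, h8, h10⟩ := key i hi
    fin_cases i <;> simp [bN] at h0 h3 h8 h10 ⊢
  have e2 : φ (gC a b 9) (bN x x x x) = φ (gC a b 9) (Pi.single 9 x) := h.loc _ _ _ fun i hi => by
    obtain ⟨h0, h3, h8, h10⟩ := key i hi
    fin_cases i <;> simp [bN] at h0 h3 h8 h10 ⊢
  have := f9 x hx
  rw [e1, e2]
  linarith

/-- `z` and `X_a` lose `2 x` -/
theorem base2 (hL : ∀ p, Legal monQ p → p ∈ L)
    (h : OutS (gC a b) L (dhC a b) (nC a b) lam A φ r) (P : PlE a b κ)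
    (hz : ∀ y : ℝ, 0 ≤ y → lam (Pi.single 0 y) ≤ -y)
    (f8 : ∀ y : ℝ, 0 ≤ y → φ (gC a b 8) (Pi.single 8 y) ≤ -y) {x : ℝ} (hx : 0 ≤ x) :
    lam (bN x 0 0 0) ≤ -(2 * x) := by
  have h1 := one_grp h (hL _ (single_legal0 hx))
    (hL _ (bN_legal (x := x) le_rfl hx le_rfl le_rfl hx (by linarith))) (gC a b 8) (fun i hi => by
      have h8 : i ≠ 8 := fun e => hi (by rw [e])
      fin_cases i <;> simp [bN] at h8 ⊢)
  have key : ∀ i, gC a b i = gC a b 8 → i ≠ 0 := fun i hi e => P.g08 (by rw [← e, hi])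
  have e1 : φ (gC a b 8) (Pi.single 0 x) = 0 := h.zero _ _ fun i hi => by
    rw [Pi.single_eq_of_ne (key i hi)]
  have e2 : φ (gC a b 8) (bN x 0 0 0) = φ (gC a b 8) (Pi.single 8 x) := h.loc _ _ _ fun i hi => by
    have h0 := key i hi
    fin_cases i <;> simp [bN] at h0 ⊢
  have g1 := hz x hx
  have g2 := f8 x hx
  rw [e1, e2] at h1
  linarith

/-- value on the ray -/
theorem lam_ray (h : OutS (gC a b) L (dhC a b) (nC a b) lam A φ r) {u : ℝ} (hu : u • a ∈ L) :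
    lam (u • a) = u * A.1 := by
  have h1 := tot_eq h
  rw [h.sum _ hu]
  have h2 : ∀ k ∈ (gset (gC a b)).erase 0, φ k (u • a) = -(r k * u) := fun k hk => by
    refine h.rate k _ hu u fun i hi => ?_
    have : a i ≠ 0 := fun e => (Finset.mem_erase.1 hk).1 (by rw [← hi, gC_zero.2 e])
    unfold dhC
    rw [if_neg this]; rfl
  have h3 : ∑ k ∈ gset (gC a b), φ k (u • a) = ∑ k ∈ (gset (gC a b)).erase 0, φ k (u • a) := by
    by_cases h0 : 0 ∈ gset (gC a b)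
    · rw [← Finset.add_sum_erase _ _ h0, h.zero 0 _ fun i hi => by
        rw [Pi.smul_apply, gC_zero.1 hi, smul_zero], zero_add]
    · rw [Finset.erase_eq_of_notMem h0]
  rw [h3, Finset.sum_congr rfl h2, Finset.sum_neg_distrib, ← Finset.sum_mul, ← h1]
  ring

/-- **the slope from the boxes** -/
theorem slope_of (hL : ∀ p, Legal monQ p → p ∈ L)
    (h : OutS (gC a b) L (dhC a b) (nC a b) lam A φ r)
    (ha : a = ![1, 0, κ, 0, κ, 0, κ, κ, 1, 1 + κ, 1 + κ]) (hκ : 0 < κ)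
    (haL : ∀ u : ℝ, 0 ≤ u → u • a ∈ L)
    (anti : ∀ c ∈ L, ∀ c' ∈ L, c ≤ c' → lam c' ≤ lam c)
    (sharp : ∀ c ∈ L, ∀ c' ∈ L, c ≤ c' → lam c - lam c' ≤ ∑ s, (c' s - c s)) {C : ℝ}
    (hbox : ∀ x : ℝ, 1 ≤ x → lam (bN x x 0 x) ≤ -(4 * x) + C) : A.1 ≤ -(4 + 2 * κ) := by
  have key : ∀ u : ℝ, 1 ≤ u → u * (A.1 + (4 + 2 * κ)) ≤ C := by
    intro u hu
    have hu0 : 0 ≤ u := by linarith
    have hκu : 0 ≤ κ * u := mul_nonneg hκ.le hu0
    set x : ℝ := (1 + κ) * u with hx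
    have ex : x = u + κ * u := by rw [hx]; ring
    have hx1 : 1 ≤ x := by rw [ex]; linarith
    have hx0 : 0 ≤ x := by linarith
    set q : Fin 11 → ℝ := ![x, 0, κ * u, 0, κ * u, 0, κ * u, κ * u, x, x, x] with hq
    have mq : q ∈ L := hL _ (by
      refine legalQ_iff.2 ⟨fun k => ?_, ?_, ?_, ?_, ?_, ?_, ?_, ?_, ?_, ?_, ?_, ?_⟩
      · fin_cases k <;>
          simp only [hq, Matrix.cons_val, Fin.zero_eta, Fin.mk_one, Fin.reduceFinMk,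
            Fin.isValue] <;> linarith
      all_goals
        simp only [hq, Matrix.cons_val, Fin.isValue]
        linarith)
    have e : u • a = ![u, 0, κ * u, 0, κ * u, 0, κ * u, κ * u, u, x, x] := by
      rw [ha]
      funext i
      fin_cases i <;> simp <;> ring
    have ma := haL u hu0
    have g1 := anti (bN x x 0 x) (hL _ (bN_legal hx0 le_rfl le_rfl hx0 le_rfl (by linarith))) q mq
      (by intro i; fin_cases i <;> simp [bN, hq, hκu])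
    have g2 := sharp (u • a) ma q mq (by
      rw [e]
      intro i
      have : u ≤ x := by linarith
      fin_cases i <;> simp [hq, this])
    have g3 : ∑ s, (q s - (u • a) s) = 2 * (κ * u) := by
      rw [e]
      simp [Fin.sum_univ_succ, hq, ex]
      ring
    rw [lam_ray h ma, g3] at g2
    have g4 := hbox x hx1
    have g5 : u * (A.1 + (4 + 2 * κ)) = u * A.1 + 4 * u + 2 * (κ * u) := by ring
    rw [g5]
    linarith
  by_contra hcon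
  push Not at hcon
  have hd : 0 < A.1 + (4 + 2 * κ) := by linarith
  have h1 := key (|C| / (A.1 + (4 + 2 * κ)) + 1) (by
    have : 0 ≤ |C| / (A.1 + (4 + 2 * κ)) := by positivity
    linarith)
  have h2 : (|C| / (A.1 + (4 + 2 * κ)) + 1) * (A.1 + (4 + 2 * κ)) =
      |C| + (A.1 + (4 + 2 * κ)) := by
    field_simp
  rw [h2] at h1
  linarith [le_abs_self C]

/-- **the gap of the rung** `s = 1 + κ` -/
theorem F1_num {η : ℝ} {p : Par4} (ok : ParOk η p) (hη : η ≤ 1 / 8) (hκ : 0 < p.θ 1 - p.θ 2)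
    (hA : A.1 ≤ -(4 + 2 * (p.θ 1 - p.θ 2))) :
    p.g / 2 ≤ -A.1 + DlF p (TpF (p.θ 1 - p.θ 2) (1 + (p.θ 1 - p.θ 2))) := by
  have e : DlF p (TpF (p.θ 1 - p.θ 2) (1 + (p.θ 1 - p.θ 2))) = _ :=
    DlF_ray p (p.θ 1 - p.θ 2) (1 + (p.θ 1 - p.θ 2))
  rw [e]
  have hq := ok.q2.1
  have hg := ok.g0.1
  have b3 : η * p.g ≤ 1 / 8 * p.g := mul_le_mul_of_nonneg_right hη hg.le
  have b4 : p.q 2 * (p.θ 1 - p.θ 2) ≤ 1 / 4 * p.g := by
    first
    | (have a1 := ok.θb 1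
       have a2 := ok.θb 2
       have b1 : p.q 2 * p.θ 1 ≤ p.q 2 * |p.θ 1| :=
         mul_le_mul_of_nonneg_left (le_abs_self _) hq.le
       have b2 : p.q 2 * -p.θ 2 ≤ p.q 2 * |p.θ 2| :=
         mul_le_mul_of_nonneg_left (neg_le_abs _) hq.le
       have e1 : p.q 2 * (p.θ 1 - p.θ 2) = p.q 2 * p.θ 1 + p.q 2 * -p.θ 2 := by ring
       rw [e1]; linarith)
    | (have a1 := ok.θb
       have a2 : 0 ≤ p.q 0 * (max (-(p.θ 0)) 0 + |p.θ 1| + |p.θ 2|) :=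
         mul_nonneg ok.q0.1 (by positivity)
       have a3 : p.q 2 * (p.θ 1 - p.θ 2) ≤ p.q 2 * max (p.θ 1 - p.θ 2) 0 :=
         mul_le_mul_of_nonneg_left (le_max_left _ _) hq.le
       linarith)
  have b5 : p.q 0 ≤ 1 / 8 * p.q 2 := ok.q0.2.trans (mul_le_mul_of_nonneg_right hη hq.le)
  have b6 : p.q 0 * (p.θ 1 - p.θ 2) ≤ 1 / 8 * p.q 2 * (p.θ 1 - p.θ 2) :=
    mul_le_mul_of_nonneg_right b5 hκ.le
  have e2 : p.q 0 * (1 + (p.θ 1 - p.θ 2) - 1) = p.q 0 * (p.θ 1 - p.θ 2) := by ring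
  rw [e2]
  nlinarith

end num

/-! ### the plane of the rung -/

section plane

variable {θ : Fin 3 → ℝ}

theorem TF_one (κ : ℝ) (x : Fin 11 → ℝ) :
    TF ∅ κ (1 + κ) x = ![1, 0, κ, 0, κ, 0, κ, κ, 1, 1 + κ, 1 + κ] := by
  funext i
  rw [← TF_off (by simp), TpF_val]
  fin_cases i <;> simp

theorem TF_one_zero {κ : ℝ} (hκ : 0 < κ) (x : Fin 11 → ℝ) (i : Fin 11)
    (hi : TF ∅ κ (1 + κ) x i = 0) : i = 1 ∨ i = 3 ∨ i = 5 := by
  rw [TF_one] at hi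
  fin_cases i <;> simp at hi ⊢ <;> linarith

/-- `N` is parallel to `X_b` only if `θ 0 = θ 2` -/
theorem g_N_ne (hκ : 0 < θ 1 - θ 2) (h02 : θ 0 ≠ θ 2) (x : Fin 11 → ℝ) :
    gC (TF ∅ (θ 1 - θ 2) (1 + (θ 1 - θ 2)) x) (rhoF θ) 10 ≠
      gC (TF ∅ (θ 1 - θ 2) (1 + (θ 1 - θ 2)) x) (rhoF θ) 9 := by
  have e10 : TF ∅ (θ 1 - θ 2) (1 + (θ 1 - θ 2)) x 10 = 1 + (θ 1 - θ 2) := by
    rw [TF_one]; rfl
  have e9 : TF ∅ (θ 1 - θ 2) (1 + (θ 1 - θ 2)) x 9 = 1 + (θ 1 - θ 2) := by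
    rw [TF_one]; rfl
  have h1 : (1 : ℝ) + (θ 1 - θ 2) ≠ 0 := by linarith
  rw [Ne, gC_eq (by rw [e10]; exact h1) (by rw [e9]; exact h1), e10, e9,
    div_left_inj' h1]
  intro e
  apply h02
  have r10 : rhoF θ 10 = 1 - θ 0 := by simp only [rhoF, nL, Matrix.cons_val]; ring
  have r9 : rhoF θ 9 = 1 - θ 2 := by simp only [rhoF, nL, Matrix.cons_val]; ring
  rw [r10, r9] at e
  linarith

end plane

/-! ### one point of the rung -/

section pt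

variable {η : ℝ} {p : Par4} {D : Dat4} {I1 : ℕ → Finset (ℕ × ℝ)} {π : Equiv.Perm (Fin 3)}
  {eE fA fB : ℕ → ℕ × ℝ → ℝ} {V T : Fin 11 → Prop} {w0 R T0 : ℝ} {PD : Set (Fin 11 → ℝ)}
  {ν own : (Fin 11 → ℝ) → ℝ} {c₀ : ℝ} {lam lo : (Fin 11 → ℝ) → ℝ} {A : ℝ × ℝ}
  {φ : ℕ → (Fin 11 → ℝ) → ℝ} {r : ℕ → ℝ}

theorem mem_of_legal {J : Finset (Fin 11)} (c : Fin 11 → ℝ) (hc : Legal monQ c) :
    c ∈ cn (mw monQ) (AF J) := fun w _ => hc.wall w.1 w.2.1 w.2.2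

theorem mv39 : mv 3 9 ∈ (mA monQ (AF ∅)).mon 10 :=
  mem_mA.2 ⟨by decide, by decide, by decide, by decide⟩

theorem mv01 : mv 0 1 ∉ (mA monQ (AF ∅)).mon 7 := fun h => by
  obtain ⟨_, h1, -⟩ := mem_mA.1 h
  exact absurd h1 (show ¬ (mv 0 1 1 = 0) by decide)

/-- own loss of `z` -/
theorem z_pt {J : Finset (Fin 11)} {a b : Fin 11 → ℝ}
    {B Bo : Base} {I J' : ℕ → Finset (ℕ × ℝ)} {co : ∀ n : ℕ, ℕ × ℝ → ℕ × ℝ → Fin 11 → ℝ} {C : ℝ}
    {κo : Fin 11 → ℝ} {V' Tw : Fin 11 → Prop}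
    (h : AeW B Bo I J' co monQ (mA monQ (AF J)) C lam a b A φ r 0 1 κo V' Tw) (y : ℝ) (hy : 0 ≤ y) :
    lam (Pi.single 0 y) ≤ -y := by
  have m0 : (0 : Fin 11 → ℝ) ∈ coneM (mA monQ (AF J)) := Aw413.zero_mem
  have m1 : (Pi.single 0 y : Fin 11 → ℝ) ∈ coneM (mA monQ (AF J)) := by
    rw [coneM_mA]; exact mem_of_legal _ (single_legal0 hy)
  have h1 := h.own 0 m0 _ m1 (by
    intro k
    by_cases hk : k = 0
    · subst hk; simpa using hy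
    · rw [Pi.single_eq_of_ne hk]; exact le_rfl) (fun k _ => by simp)
  rw [h.zero] at h1
  simp at h1
  linarith

/-- **the leaf at one point of the rung**: `F_b` visible, `X_b : x` full given `N : x` -/
theorem leaf_pt (h : Thick η p D I1 π eE fA fB V T w0 R T0 PD ν own c₀)
    (hκ : 0 < p.θ 1 - p.θ 2) (hV3 : ¬ V 3) (hV4 : V 4 → p.θ 0 ≠ p.θ 2)
    (hP : PtV D.B D.I I1 (couQ D.B D.lev D.w w0 (incQ π D.L eE fA fB)) p V T ∅
      (TF ∅ (p.θ 1 - p.θ 2) (1 + (p.θ 1 - p.θ 2)) 0) (rhoF p.θ) lam lo A φ r)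
    (hvis : lam (ind1 {3}) < 0) {x : ℝ} (hx : 1 ≤ x)
    (hX : x ≤ lam (bN x 0 x x) - lam (bN x x x x)) :
    lam (bN x x 0 x) ≤ lam (bN x 0 0 0) - (2 * x - 1) := by
  have hx0 : 0 ≤ x := by linarith
  have hL : ∀ c, Legal monQ c → c ∈ coneM (mA monQ (AF ∅)) := fun c hc => by
    rw [coneM_mA]; exact mem_of_legal c hc
  have hz := TF_one_zero hκ 0
  have a3 : TF ∅ (p.θ 1 - p.θ 2) (1 + (p.θ 1 - p.θ 2)) 0 3 = 0 := by rw [TF_one]; rfl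
  have hO := hP.aew.out
  have key := leafN39 (f := fun n i => scl (uH D.B D.lev w0 n) (uA D.B D.lev D.w w0 n)
    (uB D.B D.lev D.w w0 n) (uY D.B D.lev D.w w0 n) (incQ π D.L eE fA fB n i)) hP.aew
    (by norm_num) (fun n i _ j _ => rfl) h.ext.ne (fun k hk => ?_) mv01 mv39
    (b := Pi.single 8 x) (x := x) (j := 1) (fun s => ?_) (by simp) (by simp) (by simp)
    (by simp) (by simp) zero_le_one hx ?_ ?_ ?_
  · rw [cz_bx, cz_bx] at key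
    exact key
  · obtain ⟨k1, k2⟩ := hk
    rcases vis_ne h.tp.slots k1 with rfl | rfl | rfl
    · rfl
    · exact absurd k1 hV3
    · exfalso
      rw [TF_one, oS_eq] at k2
      simp only [Matrix.cons_val, Fin.isValue, mul_one] at k2
      exact hV4 k1 (by linarith)
  · by_cases hs : s = 8
    · subst hs; simp [hx0]
    · rw [Pi.single_eq_of_ne hs]; exact ⟨le_rfl, hx0⟩
  · rw [cz_bx, cz_bx]; linarith
  · rw [cz_bx, cz_bx]
    have h1 := hP.aew.sharp (bN x (x - 1) x x) (hL _ (bN_legal (by linarith) (by linarith) hx0 hx0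
      le_rfl (by linarith))) (bN x x x x) (hL _ (bN_legal hx0 le_rfl hx0 hx0 le_rfl (by linarith)))
      (bN_le (by linarith) le_rfl le_rfl)
    have h2 : ∑ s, (bN x x x x s - bN x (x - 1) x x s) = 1 := by
      simp [Fin.sum_univ_succ, bN]
    linarith
  · rw [cz_bx, cz_bx]
    have h1 := fb_split hL hO a3 hx0 (le_refl x) hx0 (le_refl x) zero_le_one (le_refl 0)
      (by linarith) (by linarith) hz
    have h2 := fb_ind hL hO a3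
    have h3 : φ 0 (Pi.single 3 0) = 0 := hO.zero _ _ fun i _ => by simp
    linarith

/-- **`A.1 ≤ -(4 + 2 κ)`** at one point of the rung, from the full slots `X_a`, and `X_b` given
`N` -/
theorem slope_pt (h : Thick η p D I1 π eE fA fB V T w0 R T0 PD ν own c₀)
    (hκ : 0 < p.θ 1 - p.θ 2) (hV3 : ¬ V 3) (hV4 : V 4 → p.θ 0 ≠ p.θ 2)
    (hP : PtV D.B D.I I1 (couQ D.B D.lev D.w w0 (incQ π D.L eE fA fB)) p V T ∅
      (TF ∅ (p.θ 1 - p.θ 2) (1 + (p.θ 1 - p.θ 2)) 0) (rhoF p.θ) lam lo A φ r)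
    (hvis : lam (ind1 {3}) < 0)
    (f8 : ∀ y : ℝ, 0 ≤ y → φ (gC (TF ∅ (p.θ 1 - p.θ 2) (1 + (p.θ 1 - p.θ 2)) 0) (rhoF p.θ) 8)
      (Pi.single 8 y) ≤ -y)
    (hX : ∀ x : ℝ, 1 ≤ x → x ≤ lam (bN x 0 x x) - lam (bN x x x x)) :
    A.1 ≤ -(4 + 2 * (p.θ 1 - p.θ 2)) := by
  have hL : ∀ c, Legal monQ c → c ∈ coneM (mA monQ (AF ∅)) := fun c hc => by
    rw [coneM_mA]; exact mem_of_legal c hc
  have hθ := h.tp.ok.θ1
  have P := plE_TF hκ hθ (J := ∅) (by simp) (s := 1 + (p.θ 1 - p.θ 2)) (x := 0)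
    (b := rhoF p.θ) (TF_i hκ 0).1 (fun _ _ => rfl)
  refine slope_of hL hP.aew.out (TF_one _ _) hκ (fun u hu => ?_) hP.aew.anti hP.aew.sharp
    (C := 1) fun x hx => ?_
  · rw [coneM_mA]
    exact K2S774.cn_smul (fun w hw => (natTF _ _ _ hw).le) hu
  · have h1 := leaf_pt h hκ hV3 hV4 hP hvis hx (hX x hx)
    have h2 := base2 hL hP.aew.out P (fun y hy => z_pt hP.aew y hy) f8 (x := x) (by linarith)
    linarith

end pt

/-! ### tangents of a stage -/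

section tan

variable {η : ℝ} {p : Par4} {D : Dat4} {I1 : ℕ → Finset (ℕ × ℝ)} {π : Equiv.Perm (Fin 3)}
  {eE fA fB : ℕ → ℕ × ℝ → ℝ} {V T : Fin 11 → Prop} {w0 R T0 : ℝ} {PD : Set (Fin 11 → ℝ)}
  {ν own : (Fin 11 → ℝ) → ℝ} {c₀ : ℝ} {lam lo : (Fin 11 → ℝ) → ℝ}

/-- the own path stays below the ray of slope `1 + κ` -/
theorem tie_one (h : Thick η p D I1 π eE fA fB V T w0 R T0 PD ν own c₀) (hV3 : ¬ V 3)
    (hV4 : V 4 → p.θ 2 ≤ p.θ 0) (x : Fin 11 → ℝ) (k : Fin 11) (hk : V k) :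
    oS p.θ k * TF ∅ (p.θ 1 - p.θ 2) (1 + (p.θ 1 - p.θ 2)) x 0 ≤
      TF ∅ (p.θ 1 - p.θ 2) (1 + (p.θ 1 - p.θ 2)) x k := by
  rw [TF_one, oS_eq]
  rcases vis_ne h.tp.slots hk with rfl | rfl | rfl
  · simp
  · exact absurd hk hV3
  · simp only [Matrix.cons_val, Fin.isValue, mul_one]
    linarith [hV4 hk]

/-- **the rung `s = 1 + κ` at any tangent of a stage**: `F_b` visible ⊢ `A.1 ≤ -(4 + 2 κ)` -/
theorem F1_tan (h : Thick η p D I1 π eE fA fB V T w0 R T0 PD ν own c₀) {v : ℝ} (h0 : 0 < v)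
    (h1 : v < 1) (hκ : 0 < p.θ 1 - p.θ 2) (h02 : p.θ 0 ≠ p.θ 2) (hV2 : V 2) (hV3 : ¬ V 3)
    (hV4 : V 4 → p.θ 2 ≤ p.θ 0) {Qd : Set (Fin 11 → ℝ)} (hQ : QdOk p.θ V ∅ Qd)
    (hst : StVQ Qd p V ν own w0 R v ∅ lam lo) {z : ℝ × ℝ} (hz : z.1 < 0) {k : ℕ → ℝ}
    {lam' lo' : (Fin 11 → ℝ) → ℝ} (kpos : ∀ l, 0 < k l) (k0 : Tendsto k atTop (𝓝 0))
    (H1 : IsTan (cn (mw monQ) (AF ∅)) (cn (mw monQ) (AF ∅)) lam
      (fun _ => X 0 (TF ∅ (p.θ 1 - p.θ 2) (1 + (p.θ 1 - p.θ 2)) 0) (rhoF p.θ) z) k lam')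
    (H2 : IsTan (cn (mw monQ) (AF ∅)) (cn (mw monQ) (AF ∅)) lo
      (fun _ => X 0 (TF ∅ (p.θ 1 - p.θ 2) (1 + (p.θ 1 - p.θ 2)) 0) (rhoF p.θ) z) k lo')
    {x' : ℕ → Fin 11 → ℝ} {h' : ℕ → ℝ}
    (hJT : JT (mw monQ) (AF ∅) (Leg monQ R) ν own (recF p.θ w0 (R - 1) v) x' h' lam' lo')
    (hB : BaseOk {k | V k} 0 (oS p.θ) (TF ∅ (p.θ 1 - p.θ 2) (1 + (p.θ 1 - p.θ 2)) 0)
      (recF p.θ w0 (R - 1) v) x' h')
    {A : ℝ × ℝ} {φ : ℕ → (Fin 11 → ℝ) → ℝ} {rt : ℕ → ℝ}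
    (hO : OutA (gC (TF ∅ (p.θ 1 - p.θ 2) (1 + (p.θ 1 - p.θ 2)) 0) (rhoF p.θ))
      (cn (mw monQ) (AF ∅)) (TF ∅ (p.θ 1 - p.θ 2) (1 + (p.θ 1 - p.θ 2)) 0) (rhoF p.θ)
      (dhC (TF ∅ (p.θ 1 - p.θ 2) (1 + (p.θ 1 - p.θ 2)) 0) (rhoF p.θ))
      (nC (TF ∅ (p.θ 1 - p.θ 2) (1 + (p.θ 1 - p.θ 2)) 0) (rhoF p.θ)) lam' A φ rt)
    (hvis : lam' (ind1 {3}) < 0) : A.1 ≤ -(4 + 2 * (p.θ 1 - p.θ 2)) := by
  have a0 := (TF_i hκ 0).1
  have hTie := tie_one h hV3 hV4 0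
  have hP := ptV_of h h0 h1 a0 (fun _ _ => rfl) hTie hQ hst hz kpos k0 H1 H2 hJT hB hO
  obtain ⟨-, f8, f9⟩ := LdF9511.full_tan h h0 h1 hκ hV2 (by simp) a0 (fun _ _ => rfl) hTie hQ hst
    hz kpos k0 H1 H2 hJT hB hO
  have P := plE_TF hκ h.tp.ok.θ1 (J := ∅) (by simp) (s := 1 + (p.θ 1 - p.θ 2)) (x := 0)
    (b := rhoF p.θ) a0 (fun _ _ => rfl)
  have hL : ∀ c, Legal monQ c → c ∈ coneM (mA monQ (AF ∅)) := fun c hc => by
    rw [coneM_mA]; exact mem_of_legal c hc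
  refine slope_pt h hκ hV3 (fun _ => h02) hP hvis (fun y hy => (f8 y hy).le) fun x hx => ?_
  exact xn_of_ne hL hP.aew.out P (by rw [TF_one]; rfl) (g_N_ne hκ h02 0)
    (fun y hy => (f9 y hy).le) (by linarith)

/-- **F-lemma of the rung `s = 1 + κ`** (any D-max cone) -/
theorem F1_fl (h : Thick η p D I1 π eE fA fB V T w0 R T0 PD ν own c₀) (hη : η ≤ 1 / 8) {v : ℝ}
    (h0 : 0 < v) (h1 : v < 1) (hκ : 0 < p.θ 1 - p.θ 2) (h02 : p.θ 0 ≠ p.θ 2) (hV2 : V 2)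
    (hV3 : ¬ V 3) (hV4 : V 4 → p.θ 2 ≤ p.θ 0) {Qd : Set (Fin 11 → ℝ)} (hQ : QdOk p.θ V ∅ Qd)
    (hst : StVQ Qd p V ν own w0 R v ∅ lam lo) :
    FlV p V ν own w0 R v ∅ (1 + (p.θ 1 - p.θ 2)) 0 (rhoF p.θ) lam lo
      (fun lam' => lam' (ind1 {3}) < 0) (p.g / 2) :=
  fun z hz D' hD' k lam' lo' kpos k0 H1 H2 x' h' hJ hB φ rt hO hVis =>
    F1_num h.tp.ok hη hκ (F1_tan h h0 h1 hκ h02 hV2 hV3 hV4 hQ hst hz kpos k0 H1 H2 hJ hB hO hVis)

/-- **the stage after the rung** `F_b` -/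
theorem stage2_V (h : Thick η p D I1 π eE fA fB V T w0 R T0 PD ν own c₀) (hη : η ≤ 1 / 8) {v : ℝ}
    (h0 : 0 < v) (h1 : v < 1) (hκ : 0 < p.θ 1 - p.θ 2) (h02 : p.θ 0 ≠ p.θ 2) (hV2 : V 2)
    (hV3 : ¬ V 3) (hV4 : V 4 → p.θ 2 ≤ p.θ 0) :
    ∃ lam2 lo2 : (Fin 11 → ℝ) → ℝ, StV p V ν own w0 R v {3} lam2 lo2 := by
  obtain ⟨lam, lo, H⟩ := stage_V h h0 h1 hκ h02
  have hg : 0 < p.g / 2 := by have := h.tp.ok.g0.1; linarith
  obtain ⟨lam2, lo2, H2⟩ := K2A146.rungA H (recD_V h.tp.slots ∅)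
    (rungV_i hV3 hκ (b := rhoF p.θ) fun _ _ => rfl) hg
    (F1_fl h hη h0 h1 hκ h02 hV2 hV3 hV4 (qdOk h.tp.slots ∅) H)
  have e1 := A2_AF ∅ {3}
  rw [Finset.empty_union] at e1
  rw [e1, ← Finset.coe_union, Finset.empty_union] at H2
  exact ⟨lam2, lo2, H2⟩

/-- **the stage after the rung** `F_b`, only the slot `21` visible (`StF`) -/
theorem stage2_F (h : Thick η p D I1 π eE fA fB V T w0 R T0 PD ν own c₀) (hη : η ≤ 1 / 8) {v : ℝ}
    (h0 : 0 < v) (h1 : v < 1) (hκ : 0 < p.θ 1 - p.θ 2) (h02 : p.θ 0 ≠ p.θ 2) (hV2 : V 2)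
    (hV3 : ¬ V 3) (hV4 : ¬ V 4) :
    ∃ lam2 lo2 : (Fin 11 → ℝ) → ℝ, StF p ν own w0 R v {3} lam2 lo2 := by
  obtain ⟨lam2, lo2, H⟩ := stage2_V h hη h0 h1 hκ h02 hV2 hV3 (fun h => absurd h hV4)
  refine ⟨lam2, lo2, stage_congr (fun i => ⟨fun hi => ?_, fun hi => vis2 h hV3 hV4 hi⟩)
    (fun i hi => ?_) H⟩
  · have hi' : i = 2 := hi
    subst hi'
    exact hV2
  · have hi' : i = 2 := hi
    subst hi'
    rw [oS_eq]; rfl

end tan

end Crest.Agent.R136.LdF5683
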