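import Crest.Agent.R136.Dl4_667
import Crest.Agent.R136.LdF5_683

/-!
# R136, row D1 of the thick table, complete (helper667)

* `caseD1` : no thick point of the pattern `pD1` (21 and 31 visible, 32 not, `θ 0 ≠ θ 2`)
-/

set_option autoImplicit false

namespace Crest.Agent.R136.Dl667

open Crest.Agent.R136.LdF511
open Crest.Agent.R136.NatT550

/-- **T.D1** -/
theorem caseD1 {η : ℝ} (hη : η ≤ 1 / 8) : TopB550.Dead η TopB550.pD1 :=
  caseD1_of hη fun p _ _ _ _ _ _ _ _ _ _ _ _ _ _ _ h h2 h3 h4 hgt =>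
    ⟨p.g / 2, by have := h.tp.ok.g0.1; linarith, fun lam lo hst =>
      LdF5683.F1_fl h hη (by norm_num) (by norm_num) (slopesD h.tp.slots h2 h4).1 hgt.ne' h2 h3
        (fun _ => hgt.le) (qdOk h.tp.slots ∅) hst⟩

end Crest.Agent.R136.Dl667
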