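import Crest.Agent.R136.LdX4_403

/-!
# R136, case F, rung (ii): `X_b` given `N`, over helper667's `PtV` (helper403)

* `plX_TF` : the plane of the rung
* **`xbN_ne`** : helper511's `XbN` for `κ ≠ 1`
* **`xbN_of`** : helper511's `XbN`, all `κ`, from `KappaF`.
-/

set_option autoImplicit false
set_option linter.unusedVariables false
set_option linter.unusedSectionVars false

open Finset Filter Topology

namespace Crest.Agent.R136.LdX403

open Crest.Agent.R138.Ex926 (Base U IsTan)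
open Crest.Agent.R136.Net191
open Crest.Agent.R136.NetQ186
open Crest.Agent.R136.Wq638
open Crest.Agent.R136.GeoQ186 (scl)
open Crest.Agent.R136.NatT550
open Crest.Agent.R136.NatR550 (nL)
open Crest.Agent.R136.Top484
open Crest.Agent.R136.LdF511
open Crest.Agent.R136.LdF3511
open Crest.Agent.R136.LdF4511
open Crest.Agent.R136.LdF5511
open Crest.Agent.R136.LdF7511
open Crest.Agent.R136.LdFb511
open Crest.Agent.R136.Dl667
open Crest.Agent.R136.Tb628 (oS oS_eq)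
open Crest.Agent.R136.K2S774 (cn Prf JT Stage RecD RungD BaseOk ind1 A2)
open Crest.Agent.R136.AwJ774
open Crest.Agent.R136.Aw413 (coneM AeW)
open Crest.Agent.R136.Dg219 (Walls mw gC dhC nC OutS gC_zero)
open Crest.Agent.R136.Rc146 (OutA)

variable {η : ℝ} {p : Par4} {D : Dat4} {I1 : ℕ → Finset (ℕ × ℝ)} {π : Equiv.Perm (Fin 3)}
  {eE fA fB : ℕ → ℕ × ℝ → ℝ} {V T : Fin 11 → Prop} {w0 R T0 : ℝ} {PD : Set (Fin 11 → ℝ)}
  {ν own : (Fin 11 → ℝ) → ℝ} {c₀ : ℝ} {x b : Fin 11 → ℝ}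

/-- the plane of the rung -/
theorem plX_TF {θ : Fin 3 → ℝ} (hκ : 0 < θ 1 - θ 2) (h1 : 0 < θ 1) (hx : 0 < x 3)
    (hb : ∀ i, i ∉ ({3} : Finset (Fin 11)) → b i = rhoF θ i)
    (hg : gC (TF {3} (θ 1 - θ 2) 1 x) b 10 = gC (TF {3} (θ 1 - θ 2) 1 x) b 9) :
    PlX (TF {3} (θ 1 - θ 2) 1 x) b (θ 1 - θ 2) where
  toPlE := plE_TF hκ h1 (by decide) (TF_ii hκ hx).1 hb
  a1 := by rw [← TF_off (by decide), TpF_val]; simp
  a4 := by rw [← TF_off (by decide), TpF_val]; simp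
  a7 := by rw [← TF_off (by decide), TpF_val]; simp
  g10 := hg

/-- no wall of the rung contains `F_b` -/
theorem no3_AF : ∀ k, ∀ e ∈ (mA monQ (AF {3})).mon k, e 3 = 0 := fun k e he => by
  obtain ⟨_, -, -, h3⟩ := mem_mA.1 he
  exact h3 3 (by simp)

/-- the ray is in the cone -/
theorem TF_mem (κ : ℝ) (x : Fin 11 → ℝ) : TF {3} κ 1 x ∈ coneM (mA monQ (AF {3})) := by
  rw [coneM_mA]
  exact fun w hw => (natTF _ _ _ hw).le

/-- **`X_b` is full given `N`**, `κ ≠ 1` -/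
theorem xbN_ne (h : Thick η p D I1 π eE fA fB V T w0 R T0 PD ν own c₀)
    (hκ : 0 < p.θ 1 - p.θ 2) (hκ1 : p.θ 1 - p.θ 2 ≠ 1) (hV2 : V 2) (hV3 : ¬ V 3) (hV4 : ¬ V 4)
    (hx : 0 < x 3) (hb : ∀ i, i ∉ ({3} : Finset (Fin 11)) → b i = rhoF p.θ i) :
    XbN D I1 (couQ D.B D.lev D.w w0 (incQ π D.L eE fA fB)) p V T x b := by
  intro hg lam lo A φ r hP hH hN y hy
  have a0 := (TF_ii hκ hx).1
  have hJ3 : ({3} : Finset (Fin 11)) ⊆ {3, 4, 7} := by decide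
  obtain ⟨-, -, -, h8, -⟩ := base_pt h hκ hV2 hJ3 a0 hb hP hH
  have P := plX_TF hκ h.tp.ok.θ1 hx hb hg
  have e0 : TF {3} (p.θ 1 - p.θ 2) 1 x 0 = 1 := P.a0
  have e2 : TF {3} (p.θ 1 - p.θ 2) 1 x 2 = p.θ 1 - p.θ 2 := P.a2
  refine xb_ne (F := fun n i => scl (uH D.B D.lev w0 n) (uA D.B D.lev D.w w0 n)
    (uB D.B D.lev D.w w0 n) (uY D.B D.lev D.w w0 n) (incQ π D.L eE fA fB n i)) hP.aew
    (by norm_num) (fun n i _ j _ => rfl) h.ext.ne (maE_AF hJ3) no3_AF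
    (fun k hk => vis2 h hV3 hV4 hk.1) ?_ P (g68_ne P.toPlE hκ1) ?_ ?_ h8 hN hy
  · refine ⟨tied2 h.tp.slots hV2, hV2, ?_⟩
    rw [e0, e2, oS_eq]
    simp
  · intro c hc c' hc' hcc hc1
    rw [coneM_mA] at hc hc'
    exact hP.ind c hc c' hc' (fun i hi => hcc i (by simpa using hi)) hc1
  · intro c hc s hs
    rw [coneM_mA] at hc
    exact hH _ (fun i hi => dh_pos a0 P.g9 hi) c hc s hs

/-- **`X_b` is full given `N`** -/
theorem xbN_of (KF : KappaF) (h : Thick η p D I1 π eE fA fB V T w0 R T0 PD ν own c₀)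
    (hκ : 0 < p.θ 1 - p.θ 2) (hV2 : V 2) (hV3 : ¬ V 3) (hV4 : ¬ V 4)
    (hx : 0 < x 3) (hb : ∀ i, i ∉ ({3} : Finset (Fin 11)) → b i = rhoF p.θ i) :
    XbN D I1 (couQ D.B D.lev D.w w0 (incQ π D.L eE fA fB)) p V T x b := by
  by_cases hκ1 : p.θ 1 - p.θ 2 ≠ 1
  · exact xbN_ne h hκ hκ1 hV2 hV3 hV4 hx hb
  push Not at hκ1
  intro hg lam lo A φ r hP hH hN y hy
  have a0 := (TF_ii hκ hx).1
  have hJ3 : ({3} : Finset (Fin 11)) ⊆ {3, 4, 7} := by decide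
  obtain ⟨-, -, -, h8, -⟩ := base_pt h hκ hV2 hJ3 a0 hb hP hH
  have P := plX_TF hκ h.tp.ok.θ1 hx hb hg
  have e0 : TF {3} (p.θ 1 - p.θ 2) 1 x 0 = 1 := P.a0
  have e2 : TF {3} (p.θ 1 - p.θ 2) 1 x 2 = p.θ 1 - p.θ 2 := P.a2
  have e10 : TF {3} (p.θ 1 - p.θ 2) 1 x 10 = 1 := by
    rw [← TF_off (by decide), TpF_val]; simp
  have P1 : PlX (TF {3} (p.θ 1 - p.θ 2) 1 x) b 1 := by
    have := P
    rwa [hκ1] at this ⊢
  have hL : ∀ p', Legal monQ p' → p' ∈ cn (mw monQ) (AF {3}) := fun p' hp' w _ =>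
    hp'.wall w.1 w.2.1 w.2.2
  refine xb_eq (F := fun n i => scl (uH D.B D.lev w0 n) (uA D.B D.lev D.w w0 n)
    (uB D.B D.lev D.w w0 n) (uY D.B D.lev D.w w0 n) (incQ π D.L eE fA fB n i)) KF hP.aew
    (by rw [coneM_mA]; exact hP.out)
    (by norm_num) (fun n i _ j _ => rfl) h.ext.ne (maE_AF hJ3) no3_AF
    (fun k hk => vis2 h hV3 hV4 hk.1) ?_ P1 e10 (TF_mem _ _)
    (fun i hi => dh_pos a0 P.g9 hi) ?_ ?_ h8 hN (m := p.q 1) h.tp.ok.g0.2 ?_ hy
  · refine ⟨tied2 h.tp.slots hV2, hV2, ?_⟩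
    rw [e0, e2, oS_eq]
    simp
  · intro c hc c' hc' hcc hc1
    rw [coneM_mA] at hc hc'
    exact hP.ind c hc c' hc' (fun i hi => hcc i (by simpa using hi)) hc1
  · intro c hc s hs
    rw [coneM_mA] at hc
    exact hH _ (fun i hi => dh_pos a0 P.g8 hi) c hc s hs
  · -- the sweep of `C_a`
    intro t ht ht1
    have m1 : lz 1 0 0 0 0 0 0 0 ∈ cn (mw monQ) (AF {3}) := by
      rw [← coneM_mA]
      exact mem_lz hP.aew.sub no3_AF zero_le_one le_rfl le_rfl le_rfl zero_le_one le_rfl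
        zero_le_one le_rfl zero_le_one le_rfl zero_le_one le_rfl zero_le_one (by norm_num)
        (by norm_num)
    have m2 : lz 1 0 t 0 0 0 0 0 ∈ cn (mw monQ) (AF {3}) := by
      rw [← coneM_mA]
      exact mem_lz hP.aew.sub no3_AF zero_le_one le_rfl ht le_rfl zero_le_one le_rfl
        zero_le_one le_rfl zero_le_one le_rfl zero_le_one le_rfl zero_le_one (by linarith)
        (by norm_num)
    have e : lz 1 0 0 0 0 0 0 0 + t • (Pi.single 5 1 : Fin 11 → ℝ) = lz 1 0 t 0 0 0 0 0 := by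
      funext j
      fin_cases j <;> simp [lz]
    have hu : ∀ i, i ≠ 5 → (Pi.single 5 1 : Fin 11 → ℝ) i = 0 := fun i hi =>
      Pi.single_eq_of_ne hi _
    have := hP.sw (Pi.single 5 1) (qd_ca p.θ) (by simp) (fun i => by
      by_cases hi : i = 5
      · subst hi; simp
      · rw [hu i hi]) _ m1 0 t ht (by rw [e]; exact m2) (fun i hi hT => by
      have n0 : i ≠ 0 := fun h' => by rw [h', e0] at hT; exact one_ne_zero hT
      have n2 : i ≠ 2 := fun h' => by rw [h', e2] at hT; exact hκ.ne' hT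
      rw [zero_mul]
      fin_cases i <;> simp [lz] at n0 n2 ⊢) (fun i hi hi' => by
        have h5' : i = 5 := by
          by_contra h'
          exact hi' (hu i h')
        subst h5'
        exact ⟨P.a5, by simp [lz]⟩)
    rw [DlF_ca, neg_neg, e] at this
    exact this

end Crest.Agent.R136.LdX403
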