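import Crest.Agent.R136.NsF7_544

/-!
# R136, row F, double resonance, part 8 (helper544): `kappa_one_F` for a linear loss (`dl = 0`)
-/

set_option autoImplicit false
set_option linter.unusedVariables false

open Filter Topology

namespace Crest.Agent.R136.NsF544

open Crest.Agent.R138.Ex926 (Base U)
open Crest.Agent.R136.Gf356
open Crest.Agent.R136.Fe1355 (RawTw)

/-- **linear loss**: `σ ≤ a` -/
theorem kappa_one_lin {κ : Type} [DecidableEq κ] {B : Base} {G : ℕ → RCfg κ}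
    {Leg : Set (κ → ℝ)} {ν : (κ → ℝ) → ℝ} {σ R D : ℝ} {Fz : Finset κ} {sN sP sX sC : κ}
    {f : ℕ → ℕ → ℝ} {R0 C1 a m : ℝ} {g : ℝ → ℝ → ℝ} {β γ : ℝ → ℝ → ℝ} {γ0 : ℝ → ℝ}
    (H : RModel B G σ R Leg ν D)
    (K : K1F B G Leg ν Fz sN sP sX sC f R0 C1 a 0 m g β γ γ0)
    (htw : RawTw B G fun n k k' => f n k' - f n k) (hR0 : R0 ≤ R) : σ ≤ a := by
  by_contra hcon
  push Not at hcon
  obtain ⟨dl0, hdl0, h⟩ := kappa_one_F K.a0 hcon H.σ_le K.m_pos
  exact h 0 hdl0.le H K htw hR0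

end Crest.Agent.R136.NsF544
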