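import Crest.Agent.R136.F2w_569
import Crest.Agent.R136.LdX5_403
import Crest.Agent.R136.NsF8_544

/-!
# R136, row `pF2` of the thick table (helper569)

* **`caseF2`** : no thick point with 21 visible, 31 and 32 not, `θ 0 = θ 2`
-/

set_option autoImplicit false

namespace Crest.Agent.R136.F2w569

open Crest.Agent.R136.NatT550
open Crest.Agent.R136.TopB550
open Crest.Agent.R136.Re436 (pF2)

/-- 544's no-slope theorem at `κ = 1`, in 403's form -/
theorem kappaF : LdX403.KappaF := fun _ _ _ _ _ _ _ _ _ _ _ H K htw =>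
  NsF544.kappa_one_lin H K htw le_rfl

/-- **the row `pF2` of the thick table** -/
theorem caseF2 {η : ℝ} (hη : η ≤ 1 / 8) : Dead η pF2 :=
  caseF2_of_xbN hη fun _ _ _ _ _ _ _ _ _ _ _ _ _ _ _ _ h hp =>
    LdX403.xbN_of kappaF h (LadF115.kap_pos h hp.1) hp.1 hp.2.1 hp.2.2.1 one_pos fun _ _ => rfl

end Crest.Agent.R136.F2w569
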