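import Crest.Agent.R136.LdFa_511

/-!
# R136, case F: the F-lemma of the rung `F_a, P` from its two leaves (helper511)

* `NClaim` : `N` is asymptotically full given `z, X_a` (leaf `F_a` / Kaufman `P`)
* `XbN` : `X_b` is full given `N` if they are parallel
* **`F2_of`** : both ⊢ the F-lemma of the rung
* **`caseF_of`** : `F1`, `NClaim`, `XbN` are contradictory
-/

set_option autoImplicit false
set_option linter.unusedVariables false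
set_option linter.unusedSectionVars false

open Finset Filter Topology

namespace Crest.Agent.R136.LdFb511

open Crest.Agent.R138.Ex926 (Base U IsTan)
open Crest.Agent.R136.Net191
open Crest.Agent.R136.NetQ186
open Crest.Agent.R136.Wq638
open Crest.Agent.R136.NatT550
open Crest.Agent.R136.NatR550 (nL)
open Crest.Agent.R136.Top484
open Crest.Agent.R136.LdF511
open Crest.Agent.R136.LdF3511
open Crest.Agent.R136.LdF4511
open Crest.Agent.R136.LdF5511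
open Crest.Agent.R136.LdF7511
open Crest.Agent.R136.LdF9511
open Crest.Agent.R136.LdFa511
open Crest.Agent.R136.Dl667
open Crest.Agent.R136.Tb628 (oS oS_eq)
open Crest.Agent.R136.K2S774 (cn Prf JT Stage RecD RungD BaseOk ind1 A2)
open Crest.Agent.R136.AwJ774
open Crest.Agent.R136.Aw413
open Crest.Agent.R136.Dg219 (Walls mw gC dhC nC OutS gC_zero gset mem_gset)
open Crest.Agent.R136.Rc146 (OutA)
open Crest.Agent.R136.Dg262 (X)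

variable {η : ℝ} {p : Par4} {D : Dat4} {I1 : ℕ → Finset (ℕ × ℝ)} {π : Equiv.Perm (Fin 3)}
  {eE fA fB : ℕ → ℕ × ℝ → ℝ} {V T : Fin 11 → Prop} {w0 R T0 : ℝ} {PD : Set (Fin 11 → ℝ)}
  {ν own : (Fin 11 → ℝ) → ℝ} {c₀ : ℝ} {x b : Fin 11 → ℝ}

/-- **`N` is asymptotically full** given `z, X_a`, at the tangents where `(F_a, P)` is visible -/
def NClaim (D : Dat4) (I1 : ℕ → Finset (ℕ × ℝ)) (co : ∀ n : ℕ, ℕ × ℝ → ℕ × ℝ → Fin 11 → ℝ)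
    (p : Par4) (V T : Fin 11 → Prop) (x b : Fin 11 → ℝ) : Prop :=
  ∀ (lam lo : (Fin 11 → ℝ) → ℝ) (A : ℝ × ℝ) (φ : ℕ → (Fin 11 → ℝ) → ℝ) (r : ℕ → ℝ),
    PtV D.B D.I I1 co p V T {3} (TF {3} (p.θ 1 - p.θ 2) 1 x) b lam lo A φ r →
    (∀ y : ℝ, 0 ≤ y → φ (gC (TF {3} (p.θ 1 - p.θ 2) 1 x) b 8) (Pi.single 8 y) = -y) →
    (∀ y : ℝ, 0 ≤ y → φ (gC (TF {3} (p.θ 1 - p.θ 2) 1 x) b 9) (Pi.single 9 y) = -y) →
    lam (ind1 {4, 7}) < 0 → ∃ C : ℝ, ∀ y : ℝ, 1 ≤ y → lam (bzn y) ≤ -(3 * y) + C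

/-- **`X_b` is full given `N`** if they are parallel (homogeneous groups, `N` full) -/
def XbN (D : Dat4) (I1 : ℕ → Finset (ℕ × ℝ)) (co : ∀ n : ℕ, ℕ × ℝ → ℕ × ℝ → Fin 11 → ℝ)
    (p : Par4) (V T : Fin 11 → Prop) (x b : Fin 11 → ℝ) : Prop :=
  gC (TF {3} (p.θ 1 - p.θ 2) 1 x) b 10 = gC (TF {3} (p.θ 1 - p.θ 2) 1 x) b 9 →
  ∀ (lam lo : (Fin 11 → ℝ) → ℝ) (A : ℝ × ℝ) (φ : ℕ → (Fin 11 → ℝ) → ℝ) (r : ℕ → ℝ),
    PtV D.B D.I I1 co p V T {3} (TF {3} (p.θ 1 - p.θ 2) 1 x) b lam lo A φ r →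
    HomV {3} (TF {3} (p.θ 1 - p.θ 2) 1 x) b φ →
    (∀ y : ℝ, 0 ≤ y → φ (gC (TF {3} (p.θ 1 - p.θ 2) 1 x) b 10) (Pi.single 10 y) ≤ -y) →
    ∀ y : ℝ, 0 ≤ y → φ (gC (TF {3} (p.θ 1 - p.θ 2) 1 x) b 9)
      (Pi.single 9 y + Pi.single 10 y) ≤ -(2 * y)

/-- **the F-lemma of the rung `F_a, P`** -/
theorem F2_of (h : Thick η p D I1 π eE fA fB V T w0 R T0 PD ν own c₀) (hη : η ≤ 1 / 8) {v : ℝ}
    (h0 : 0 < v) (h1 : v < 1) (hκ : 0 < p.θ 1 - p.θ 2) (hV2 : V 2) (hV3 : ¬ V 3) (hV4 : ¬ V 4)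
    (hx : 0 < x 3) (hb : ∀ i, i ∉ ({3} : Finset (Fin 11)) → b i = rhoF p.θ i)
    {Qd : Set (Fin 11 → ℝ)} (hQ : QdOk p.θ V {3} Qd)
    {lam lo : (Fin 11 → ℝ) → ℝ} (hst : StVQ Qd p V ν own w0 R v {3} lam lo)
    (hN : NClaim D I1 (couQ D.B D.lev D.w w0 (incQ π D.L eE fA fB)) p V T x b)
    (hX : XbN D I1 (couQ D.B D.lev D.w w0 (incQ π D.L eE fA fB)) p V T x b) :
    FlV p V ν own w0 R v {3} 1 x b lam lo (fun l => l (ind1 {4, 7}) < 0) (p.g / 2) := by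
  intro z hz D' hD' k lam' lo' kpos k0 H1 H2 x' h' hJ hB φ rt hO hVis
  have a0 := (TF_ii hκ hx).1
  have hJ3 : ({3} : Finset (Fin 11)) ⊆ {3, 4, 7} := by decide
  have hTie := tie_TF h hV3 hV4 hJ3 1 x
  have P := plE_TF hκ h.tp.ok.θ1 hJ3 a0 hb
  obtain ⟨-, f8, f9⟩ := full_tan h h0 h1 hκ hV2 hJ3 a0 hb hTie hQ hst hz kpos k0 H1 H2 hJ hB hO
  obtain ⟨C, hC⟩ := hN lam' lo' _ φ rt
    (ptV_of h h0 h1 a0 hb hTie hQ hst hz kpos k0 H1 H2 hJ hB hO) f8 f9 hVis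
  obtain ⟨lam2, lo2, x2, h2, φ2, hJ2, hB2, hP, hH, hl, hφ⟩ :=
    ptV_inf h h0 h1 a0 hb hTie hQ hst hz kpos k0 H1 H2 hJ hB hO
  have l0 : lam' 0 = 0 := hJ.tan.zero hJ.pos K2S774.cn_zero
  have l02 : lam2 0 = 0 := hP.aew.zero
  have hN3 : lam2 (bzn 1) ≤ -3 := by
    have := hl (bzn 1) (bzn_mem zero_le_one) 0 K2S774.cn_zero (-C) (-3) 1 fun y hy => by
      rw [smul_zero, l0, smul_bzn, mul_one]
      have := hC y hy
      linarith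
    linarith
  refine F2_num h hη hκ hV2 a0 hb hP hH hN3 fun hg => hX hg lam2 lo2 _ φ2 rt hP hH ?_
  -- `N` is full at `lam2`
  have g10 : gC (TF {3} (p.θ 1 - p.θ 2) 1 x) b 10 ≠ 0 := by rw [hg]; exact P.g9
  have mza := bza_mem zero_le_one
  have mzn := bzn_mem zero_le_one
  have e1 := one_grp hP.out.toOutS mza mzn (gC (TF {3} (p.θ 1 - p.θ 2) 1 x) b 10) (fun i hi => by
    have h10 : i ≠ 10 := fun e => hi (by rw [e])
    fin_cases i <;> simp [bza, bzn] at h10 ⊢)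
  have off : ∀ i, gC (TF {3} (p.θ 1 - p.θ 2) 1 x) b i = gC (TF {3} (p.θ 1 - p.θ 2) 1 x) b 10 →
      i ≠ 0 ∧ i ≠ 8 := fun i hi =>
    ⟨fun e => P.g09 (by rw [← hg, ← hi, e]), fun e => P.g89 (by rw [← hg, ← hi, e])⟩
  have e2 : φ2 (gC (TF {3} (p.θ 1 - p.θ 2) 1 x) b 10) (bza 1) = 0 :=
    hP.out.zero _ _ fun i hi => by
      obtain ⟨k0, k8⟩ := off i hi
      fin_cases i <;> simp [bza] at k0 k8 ⊢
  have e3 : -2 ≤ lam2 (bza 1) := by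
    have hz0 : (0 : Fin 11 → ℝ) ∈ cn (mw monQ) (AF {3}) := K2S774.cn_zero
    have g1 := hP.prf.sharp 0 hz0 _ mza (by intro i; fin_cases i <;> simp [bza])
    rw [l02] at g1
    have g2 : ∑ s, (bza 1 s - (0 : Fin 11 → ℝ) s) = 2 := by
      simp [Fin.sum_univ_succ, bza]; norm_num
    rw [g2] at g1
    linarith
  have e4 : φ2 (gC (TF {3} (p.θ 1 - p.θ 2) 1 x) b 10) (bzn 1) =
      φ2 (gC (TF {3} (p.θ 1 - p.θ 2) 1 x) b 10) (Pi.single 10 1) := hP.out.loc _ _ _ fun i hi => by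
    obtain ⟨k0, k8⟩ := off i hi
    fin_cases i <;> simp [bzn] at k0 k8 ⊢
  intro y hy
  have hL : ∀ p', Legal monQ p' → p' ∈ cn (mw monQ) (AF {3}) := fun p' hp' w _ =>
    hp'.wall w.1 w.2.1 w.2.2
  rw [hom_single hL hP.out.toOutS (fun k hk c hc s hs => hH k (fun i hi => dh_pos a0 hk hi) c hc s hs)
    (j := 10) g10 mzn (fun i hi => by
      obtain ⟨k0, k8⟩ := off i hi
      fin_cases i <;> simp [bzn] at k0 k8 ⊢) hy, ← e4]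
  have e5 : φ2 (gC (TF {3} (p.θ 1 - p.θ 2) 1 x) b 10) (bzn 1) ≤ -1 := by linarith
  have := mul_le_mul_of_nonneg_left e5 hy
  linarith

/-- **case F from its three leaves**: the rung `F_b` (`F1`), `NClaim`, `XbN` -/
theorem caseF_of (h : Thick η p D I1 π eE fA fB V T w0 R T0 PD ν own c₀) (hη : η ≤ 1 / 8) {v : ℝ}
    (h0 : 0 < v) (h1 : v < 1) (hκ : 0 < p.θ 1 - p.θ 2) (h02 : p.θ 0 ≠ p.θ 2) (hV2 : V 2)
    (hV3 : ¬ V 3) (hV4 : ¬ V 4) {g1 : ℝ} (hg1 : 0 < g1)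
    (F1 : ∀ lam lo : (Fin 11 → ℝ) → ℝ, StV p V ν own w0 R v ∅ lam lo →
      FlV p V ν own w0 R v ∅ (1 + (p.θ 1 - p.θ 2)) 0 (rhoF p.θ) lam lo
        (fun l => l (ind1 {3}) < 0) g1)
    (hx : 0 < x 3) (hb : ∀ i, i ∉ ({3} : Finset (Fin 11)) → b i = rhoF p.θ i)
    (hN : NClaim D I1 (couQ D.B D.lev D.w w0 (incQ π D.L eE fA fB)) p V T x b)
    (hX : XbN D I1 (couQ D.B D.lev D.w w0 (incQ π D.L eE fA fB)) p V T x b) : False := by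
  have hg := h.tp.ok.g0.1
  exact ladder_FL h hη h0 h1 hκ h02 hV2 hV3 hV4 hx hb hg1 (by linarith : 0 < p.g / 2) F1
    fun lam lo H => F2_of h hη h0 h1 hκ hV2 hV3 hV4 hx hb (qdOk h.tp.slots {3}) H hN hX

end Crest.Agent.R136.LdFb511
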