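import Crest.Agent.R136.LdFb_146
import Crest.Agent.R136.Ev14_356
import Crest.Agent.R136.LdFb_511

/-!
# R136, case F, rung `s = 1` (helper146): Kaufman (`kaufN` of helper356) wired into `F2_fl`

* `kaufB` : Kaufman in the boxes `bq`
* **`F2_fx`** : the F-lemma of the rung `s = 1`, the only hypothesis is `X_b` full given `N`
* **`nClaimB`**, **`nClaim`** : `N` is full given `z, X_a` at every visible tangent (`PtV`), up to a
  constant; `nClaim` is the literal `NClaim` of helper511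
-/

set_option autoImplicit false
set_option linter.unusedVariables false

open Finset Filter Topology

namespace Crest.Agent.R136.LdF6146

open Crest.Agent.R138.Ex926 (Base U IsTan)
open Crest.Agent.R136.Net191
open Crest.Agent.R136.NetQ186
open Crest.Agent.R136.Gf356
open Crest.Agent.R136.Wq638
open Crest.Agent.R136.Ev356 (mv)
open Crest.Agent.R136.GeoQ186 (scl)
open Crest.Agent.R136.NatT550
open Crest.Agent.R136.NatR550 (nL)
open Crest.Agent.R136.Top484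
open Crest.Agent.R136.LdF511
open Crest.Agent.R136.LdF3511
open Crest.Agent.R136.LdF4511
open Crest.Agent.R136.LdF5511
open Crest.Agent.R136.LdF7511
open Crest.Agent.R136.LdF9511
open Crest.Agent.R136.LdFa511 (bzn bza)
open Crest.Agent.R136.Dl667
open Crest.Agent.R136.LadA115 (cz)
open Crest.Agent.R136.Fx940 (bx2)
open Crest.Agent.R136.Tb628 (oS oS_eq)
open Crest.Agent.R136.K2S774 (cn Prf JT Stage RecD RungD BaseOk ind1 A2)
open Crest.Agent.R136.K2A146 (FLemA)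
open Crest.Agent.R136.AwJ774 (mA mem_mA coneM_mA aew_of_jt)
open Crest.Agent.R136.Aw413 (coneM AeW)
open Crest.Agent.R136.Dg219 (Walls mw gC dhC nC OutS gC_zero gC_eq gset mem_gset)
open Crest.Agent.R136.Rc146 (OutA)
open Crest.Agent.R136.Dg262 (X)

variable {η : ℝ} {p : Par4} {D : Dat4} {I1 : ℕ → Finset (ℕ × ℝ)} {π : Equiv.Perm (Fin 3)}
  {eE fA fB : ℕ → ℕ × ℝ → ℝ} {V T : Fin 11 → Prop} {w0 R T0 : ℝ} {PD : Set (Fin 11 → ℝ)}
  {ν own : (Fin 11 → ℝ) → ℝ} {c₀ : ℝ}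

theorem cz_p4 (x : ℝ) : cz x (Pi.single 4 x) = bq x x 0 0 0 0 := by
  funext i
  rw [bq_app]
  unfold cz
  fin_cases i <;> simp

theorem cz_bx2 (x t s : ℝ) : cz x (bx2 (Pi.single 4 x) 10 7 t s) = bq x x s 0 0 t := by
  funext i
  rw [bq_app]
  unfold cz bx2
  fin_cases i <;> simp

/-- **Kaufman** for `N` and `P`, in the boxes `bq` -/
theorem kaufB (h : Thick η p D I1 π eE fA fB V T w0 R T0 PD ν own c₀) (hV3 : ¬ V 3)
    (hV4 : ¬ V 4) {a b : Fin 11 → ℝ} {lam : (Fin 11 → ℝ) → ℝ} {A : ℝ × ℝ}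
    {φ : ℕ → (Fin 11 → ℝ) → ℝ} {r : ℕ → ℝ} {Vw Tw : Fin 11 → Prop} (hVw : ∀ k, Vw k → V k)
    (hA : AeW D.B D.B D.I I1 (couQ D.B D.lev D.w w0 (incQ π D.L eE fA fB)) monQ
      (mA monQ (AF {3})) 2 lam a b A φ r 0 1 (oS p.θ) Vw Tw) {x : ℝ} (hx : 0 < x) {N : ℕ}
    (hN : 0 < N) : ∃ j ≤ N,
      lam (bq x x 0 0 0 0) - lam (bq x x (x * j / N) 0 0 (x * j / N)) + (x - x * (j + 1) / N) ≤
        lam (bq x x 0 0 0 0) - lam (bq x x 0 0 0 x) := by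
  obtain ⟨j, hj, hk⟩ := Ev356.kaufN (f := fun n i => scl (uH D.B D.lev w0 n)
    (uA D.B D.lev D.w w0 n) (uB D.B D.lev D.w w0 n) (uY D.B D.lev D.w w0 n)
    (incQ π D.L eE fA fB n i)) hA (by norm_num) (fun n i _ j _ => rfl) h.ext.ne
    (fun k hk => vis2 h hV3 hV4 (hVw k hk)) n017 m0710 no3 hx hN
  rw [cz_p4, cz_bx2, cz_bx2] at hk
  exact ⟨j, hj, hk⟩

/-- **the F-lemma of the rung `s = 1`** (`F_a` or `P` visible), any D-max cone: the only hypothesis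
is `X_b` full given `N` if they are parallel -/
theorem F2_fx (h : Thick η p D I1 π eE fA fB V T w0 R T0 PD ν own c₀) {v : ℝ} (h0 : 0 < v)
    (h1 : v < 1) (hκ : 0 < p.θ 1 - p.θ 2) (h01 : p.θ 0 ≠ p.θ 1) (hV2 : V 2) (hV3 : ¬ V 3)
    (hV4 : ¬ V 4) {x b : Fin 11 → ℝ} (hx : 0 < x 3)
    (hb : ∀ i, i ∉ ({3} : Finset (Fin 11)) → b i = rhoF p.θ i)
    {Qd : Set (Fin 11 → ℝ)} (hQ : QdOk p.θ V {3} Qd) {g2 : ℝ}
    (hg2 : g2 ≤ 4 + (p.θ 1 - p.θ 2) + DlF p (TpF (p.θ 1 - p.θ 2) 1))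
    (hXb : gC (TF {3} (p.θ 1 - p.θ 2) 1 x) b 10 = gC (TF {3} (p.θ 1 - p.θ 2) 1 x) b 9 →
      ∀ (lam lo : (Fin 11 → ℝ) → ℝ) (A : ℝ × ℝ) (φ : ℕ → (Fin 11 → ℝ) → ℝ) (r : ℕ → ℝ),
      PtV D.B D.I I1 (couQ D.B D.lev D.w w0 (incQ π D.L eE fA fB)) p V T {3}
        (TF {3} (p.θ 1 - p.θ 2) 1 x) b lam lo A φ r →
      HomV {3} (TF {3} (p.θ 1 - p.θ 2) 1 x) b φ →
      (∀ y : ℝ, 0 ≤ y → φ (gC (TF {3} (p.θ 1 - p.θ 2) 1 x) b 10) (Pi.single 10 y) ≤ -y) →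
      ∀ y : ℝ, 0 ≤ y → φ (gC (TF {3} (p.θ 1 - p.θ 2) 1 x) b 9)
        (Pi.single 9 y + Pi.single 10 y) ≤ -(2 * y))
    {lam lo : (Fin 11 → ℝ) → ℝ} (hst : StVQ Qd p V ν own w0 R v {3} lam lo) :
    FlV p V ν own w0 R v {3} 1 x b lam lo (fun l => l (ind1 {4, 7}) < 0) g2 :=
  F2_fl h h0 h1 hκ h01 hV2 hV3 hV4 hx hb hQ hg2
    (fun _ _ _ _ hA _ hx _ hN => kaufB h hV3 hV4 (fun _ hk => hk.1) hA hx hN) hXb hst

/-- **`N` is full given `z, X_a`** at every visible tangent, up to a constant -/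
theorem nClaimB (h : Thick η p D I1 π eE fA fB V T w0 R T0 PD ν own c₀)
    (hκ : 0 < p.θ 1 - p.θ 2) (h01 : p.θ 0 ≠ p.θ 1) (hV3 : ¬ V 3)
    (hV4 : ¬ V 4) {x b : Fin 11 → ℝ} (hx : 0 < x 3)
    (hb : ∀ i, i ∉ ({3} : Finset (Fin 11)) → b i = rhoF p.θ i)
    {lam lo : (Fin 11 → ℝ) → ℝ} {A : ℝ × ℝ} {φ : ℕ → (Fin 11 → ℝ) → ℝ} {r : ℕ → ℝ}
    (hP : PtV D.B D.I I1 (couQ D.B D.lev D.w w0 (incQ π D.L eE fA fB)) p V T {3}
      (TF {3} (p.θ 1 - p.θ 2) 1 x) b lam lo A φ r)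
    (f8 : ∀ y : ℝ, 0 ≤ y → φ (gC (TF {3} (p.θ 1 - p.θ 2) 1 x) b 8) (Pi.single 8 y) ≤ -y)
    (hVis : lam (ind1 {4, 7}) < 0) :
    ∃ j : ℝ, 1 ≤ j ∧ ∀ y : ℝ, j ≤ y →
      lam (bq y y 0 0 0 y) ≤ lam (bq y y 0 0 0 0) - (y - j) := by
  have PF := plF_TF hκ h.tp.ok.θ1 h01 hx hb
  exact claimN PF hP.out.toOutS hP.prf hP.aew.zero f8
    (fun y j' hj0 hjy hy g1 g2 g3 => by
      have := LadA115.leafN48 (f := fun n i => scl (uH D.B D.lev w0 n) (uA D.B D.lev D.w w0 n)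
        (uB D.B D.lev D.w w0 n) (uY D.B D.lev D.w w0 n) (incQ π D.L eE fA fB n i)) hP.aew
        (by norm_num) (fun n i _ j _ => rfl) h.ext.ne (fun k hk => vis2 h hV3 hV4 hk.1)
        n017 m4810 no3 (b := 0) (x := y) (j := j')
        (fun s => ⟨le_rfl, hy.le⟩) rfl rfl le_rfl le_rfl hj0 hjy
        (by rw [cz_bx, cz_bx]; exact g1) (by rw [cz_bx, cz_bx]; exact g2)
        (by rw [cz_bx, cz_bx]; exact g3)
      rwa [cz_bx, cz_bx] at this)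
    (fun _ hx _ hN => kaufB h hV3 hV4 (fun _ hk => hk.1) hP.aew hx hN) hVis

theorem bzn_eq (y : ℝ) : bzn y = bq y 0 0 y 0 y := rfl

/-- **`NClaim`** of the rung `s = 1` (`θ 0 ≠ θ 1`) -/
theorem nClaim (h : Thick η p D I1 π eE fA fB V T w0 R T0 PD ν own c₀)
    (hκ : 0 < p.θ 1 - p.θ 2) (h01 : p.θ 0 ≠ p.θ 1) (hV3 : ¬ V 3)
    (hV4 : ¬ V 4) {x b : Fin 11 → ℝ} (hx : 0 < x 3)
    (hb : ∀ i, i ∉ ({3} : Finset (Fin 11)) → b i = rhoF p.θ i) :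
    LdFb511.NClaim D I1 (couQ D.B D.lev D.w w0 (incQ π D.L eE fA fB)) p V T x b := by
  intro lam lo A φ r hP f8 _ hVis
  have PF := plF_TF hκ h.tp.ok.θ1 h01 hx hb
  obtain ⟨j, hj1, hj⟩ := nClaimB h hκ h01 hV3 hV4 hx hb hP (fun y hy => (f8 y hy).le) hVis
  have H := hP.out.toOutS
  have b00 : bq 0 0 0 0 0 0 = 0 := by
    funext i; rw [bq_app]; simp
  have mz0 : (0 : Fin 11 → ℝ) ∈ cn (mw monQ) (AF {3}) := K2S774.cn_zero
  refine ⟨3 * j, fun y hy => ?_⟩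
  have y0 : 0 ≤ y := by linarith
  rw [bzn_eq]
  have mm : ∀ f xa n : ℝ, 0 ≤ f → 0 ≤ xa → xa ≤ y → 0 ≤ n → n ≤ y → n ≤ f + xa →
      bq y f 0 xa 0 n ∈ cn (mw monQ) (AF {3}) := fun f xa n hf h1 h2 h3 h4 h5 =>
    bq_mem y0 hf le_rfl h1 le_rfl h3 hf h2 y0 h1 (by linarith) h5
  have m1 := mm 0 y y le_rfl y0 le_rfl y0 le_rfl (by linarith)
  by_cases hjy : j ≤ y
  · have k1 := hj y hjy
    have m2 := mm 0 y 0 le_rfl y0 le_rfl le_rfl y0 (by linarith)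
    have m3 := mm 0 0 0 le_rfl le_rfl y0 le_rfl y0 (by linarith)
    have e1 := lossN PF H m1 m2
    have e2 := lossN PF H (mm y 0 y y0 le_rfl y0 y0 le_rfl (by linarith))
      (mm y 0 0 y0 le_rfl y0 le_rfl y0 (by linarith))
    have e3 := lossX PF H m2 m3
    have e4 := f8 y y0
    have e5 := f8 0 le_rfl
    have e6 := hP.aew.own 0 (by rw [coneM_mA]; exact mz0) (bq y 0 0 0 0 0)
      (by rw [coneM_mA]; exact m3) (by
        rw [← b00]; exact bq_le y0 le_rfl le_rfl le_rfl le_rfl le_rfl) (fun k _ => by simp)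
    rw [hP.aew.zero] at e6
    have e : bq y 0 0 0 0 0 0 = y := rfl
    rw [e, Pi.zero_apply] at e6
    linarith
  · have e6 := hP.aew.own 0 (by rw [coneM_mA]; exact mz0) (bq y 0 0 y 0 y)
      (by rw [coneM_mA]; exact m1) (by
        rw [← b00]; exact bq_le y0 le_rfl le_rfl y0 le_rfl y0) (fun k _ => by simp)
    rw [hP.aew.zero] at e6
    have e : bq y 0 0 y 0 y 0 = y := rfl
    rw [e, Pi.zero_apply] at e6
    push Not at hjy
    linarith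

end Crest.Agent.R136.LdF6146
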