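import Crest.Agent.R136.LdF5_683
import Crest.Agent.R136.LdFc_146
import Crest.Agent.R136.LdFb_511
import Crest.Agent.R136.LdX5_403
import Crest.Agent.R136.NsF8_544
import Crest.Agent.R136.TopB_550

/-!
# R136, case F of the thick table (helper115)

The ladder of 511 (`ladder_FL`), the rung `F_b` (683 `F1_fl`), the rung `F_a, P` (146 `F2_fl`).
-/

set_option autoImplicit false
set_option linter.unusedVariables false
set_option linter.unusedSectionVars false

open Finset Filter Topology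

namespace Crest.Agent.R136.LadF115

open Crest.Agent.R138.Ex926 (Base U IsTan)
open Crest.Agent.R136.Net191
open Crest.Agent.R136.NetQ186
open Crest.Agent.R136.Wq638
open Crest.Agent.R136.NatT550
open Crest.Agent.R136.Top484
open Crest.Agent.R136.LdF511
open Crest.Agent.R136.LdF3511
open Crest.Agent.R136.LdF7511
open Crest.Agent.R136.LdFa511
open Crest.Agent.R136.LdFb511
open Crest.Agent.R136.Dl667
open Crest.Agent.R136.TopB550

variable {η : ℝ} {p : Par4} {D : Dat4} {I1 : ℕ → Finset (ℕ × ℝ)} {π : Equiv.Perm (Fin 3)}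
  {eE fA fB : ℕ → ℕ × ℝ → ℝ} {V T : Fin 11 → Prop} {w0 R T0 : ℝ} {PD : Set (Fin 11 → ℝ)}
  {ν own : (Fin 11 → ℝ) → ℝ} {c₀ : ℝ} {x b : Fin 11 → ℝ}

theorem kap_pos (h : Thick η p D I1 π eE fA fB V T w0 R T0 PD ν own c₀) (h2 : V 2) :
    0 < p.θ 1 - p.θ 2 := by
  have := (h.tp.slots.vis 2 h2).2
  simpa [btQ] using this

/-- **case F of the table** from `XbN` -/
theorem caseF_of_xbN (hη : η ≤ 1 / 8) (hX : ∀ (p : Par4) (D : Dat4) (I1 : ℕ → Finset (ℕ × ℝ))
    (π : Equiv.Perm (Fin 3)) (eE fA fB : ℕ → ℕ × ℝ → ℝ) (V T : Fin 11 → Prop) (w0 R T0 : ℝ)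
    (PD : Set (Fin 11 → ℝ)) (ν own : (Fin 11 → ℝ) → ℝ) (c₀ : ℝ),
    Thick η p D I1 π eE fA fB V T w0 R T0 PD ν own c₀ → pF p V →
    XbN D I1 (couQ D.B D.lev D.w w0 (incQ π D.L eE fA fB)) p V T (fun _ => 1) (rhoF p.θ)) :
    Dead η pF := by
  intro p D I1 π eE fA fB V T w0 R T0 PD ν own c₀ h hp
  have hx := hX p D I1 π eE fA fB V T w0 R T0 PD ν own c₀ h hp
  obtain ⟨h2, h3, h4, h01, h02⟩ := hp
  have hκ := kap_pos h h2
  have hg := h.tp.ok.g0.1
  exact caseF_of h hη (v := 1 / 2) (by norm_num) (by norm_num) hκ h02 h2 h3 h4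
    (g1 := p.g / 2) (by linarith)
    (fun lam lo H => LdF5683.F1_fl h hη (by norm_num) (by norm_num) hκ h02 h2 h3
      (fun h4' => absurd h4' h4) (qdOk h.tp.slots ∅) H)
    (x := fun _ => 1) (b := rhoF p.θ) one_pos (fun _ _ => rfl)
    (LdF6146.nClaim h hκ h01 h3 h4 one_pos fun _ _ => rfl) hx

/-- **case F of the table** from the double resonance `KappaF` -/
theorem caseF_of_kappa (hη : η ≤ 1 / 8) (KF : LdX403.KappaF) : Dead η pF :=
  caseF_of_xbN hη fun p D I1 π eE fA fB V T w0 R T0 PD ν own c₀ h hp =>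
    LdX403.xbN_of KF h (kap_pos h hp.1) hp.1 hp.2.1 hp.2.2.1 one_pos fun _ _ => rfl

/-- the double resonance (544) -/
theorem kappaF : LdX403.KappaF := fun B G Leg ν D f a m β γ γ0 H K htw =>
  NsF544.kappa_one_lin H K htw le_rfl

/-- **CASE F OF THE THICK TABLE** -/
theorem caseF (hη : η ≤ 1 / 8) : Dead η pF := caseF_of_kappa hη kappaF

end Crest.Agent.R136.LadF115
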