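import Crest.Agent.R136.GauF_66
import Crest.Agent.R136.Lv6_831
import Crest.Agent.R136.ExtG_779

/-!
# R136, lightlike case of the thick table (helper196): assembly

**`dead_L_of`** : `Dead η pL` from `SeamExtZ η` and `SeamEnd η`; `SeamWin` = 66's `Gau66.seamWin`
(with 480, 560, 626), `SeamVis` = 831's `Lv831.seamVis`; **`dead_L_end`** : with 779's
`ExtG779.seamExtZ`, only `SeamEnd η` (882) is left.
-/

set_option autoImplicit false
set_option linter.unusedVariables false

namespace Crest.Agent.R136.TL196

open Crest.Agent.R136.NatT550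
open Crest.Agent.R136.TopB550

/-- **T.L** from two seams -/
theorem dead_L_of {η : ℝ} (hη : η < 1) (h2 : SeamExtZ η) (h4 : SeamEnd η) : Dead η pL :=
  dead_L (Gau66.seamWin hη) h2 (Lv831.seamVis hη.le) h4

/-- **T.L** from `SeamEnd` -/
theorem dead_L_end {η : ℝ} (hη : η < 1) (h4 : SeamEnd η) : Dead η pL :=
  dead_L_of hη ExtG779.seamExtZ h4

end Crest.Agent.R136.TL196
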