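import Crest.Agent.R136.Xb3_403
import Crest.Agent.R136.LdF4_511

/-!
# R136: the base row for `21` tied at one a.e. point (helper511)

`PlE a b κ` : natural plane with `z ∥ E` (slopes `1, κ`), `C_a` constant along the ray.
`full_of_NE` : homogeneous group functions, `C_a` costs something, a window model `NE` (403) ⊢
the single slots `X_a`, `X_b` are full.
`rates_of_full` : rates of the groups of `z`, `X_a`, `X_b`: `≥ 1, 1, 1 + κ`.
-/

set_option autoImplicit false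
set_option linter.unusedVariables false

open Finset Filter Topology

namespace Crest.Agent.R136.LdF5511

open Crest.Agent.R138.Ex926 (Base U)
open Crest.Agent.R136.Net191
open Crest.Agent.R136.NetQ186
open Crest.Agent.R136.Gf356
open Crest.Agent.R136.Fe1355 (RawTw)
open Crest.Agent.R136.Xb403 (NE bw)
open Crest.Agent.R136.LdF4511
open Dg219 (mw Walls Tn OutS gC dhC nC gset lf mem_gset gC_zero gC_eq nC_zero nC_of)

/-! ### splitting -/

section split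

variable {ι : Type*} [Fintype ι] [DecidableEq ι] {grp : ι → ℕ} {L : Set (ι → ℝ)} {dh : ι → ℝ}
  {nn : ℕ → ℝ × ℝ} {lam : (ι → ℝ) → ℝ} {A : ℝ × ℝ} {φ : ℕ → (ι → ℝ) → ℝ} {r : ℕ → ℝ}

/-- boxes which differ in one group only -/
theorem one_grp (h : OutS grp L dh nn lam A φ r) {c c' : ι → ℝ} (hc : c ∈ L) (hc' : c' ∈ L) (k : ℕ)
    (hcc : ∀ i, grp i ≠ k → c i = c' i) : lam c - lam c' = φ k c - φ k c' := by
  rw [h.sum c hc, h.sum c' hc', ← Finset.sum_sub_distrib]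
  by_cases hk : k ∈ gset grp
  · rw [Finset.sum_eq_single k]
    · intro j _ hj
      rw [h.loc j c c' fun i hi => hcc i (by rw [hi]; exact hj), sub_self]
    · exact fun h => absurd hk h
  · have hno : ∀ i, grp i ≠ k := fun i hi => hk (by rw [← hi]; exact mem_gset i)
    rw [h.loc k c c' fun i hi => absurd hi (hno i), sub_self]
    refine Finset.sum_eq_zero fun j _ => ?_
    rw [h.loc j c c' fun i _ => hcc i (hno i), sub_self]

/-- increments in different groups are independent -/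
theorem split2 (h : OutS grp L dh nn lam A φ r) {c0 cu cv cuv : ι → ℝ} (h0 : c0 ∈ L)
    (hu : cu ∈ L) (hv : cv ∈ L) (huv : cuv ∈ L)
    (hd : ∀ k, (∀ i, grp i = k → cu i = c0 i ∧ cuv i = cv i) ∨
      ∀ i, grp i = k → cv i = c0 i ∧ cuv i = cu i) :
    lam cuv - lam cv = lam cu - lam c0 := by
  rw [h.sum _ h0, h.sum _ hu, h.sum _ hv, h.sum _ huv, ← Finset.sum_sub_distrib,
    ← Finset.sum_sub_distrib]
  refine Finset.sum_congr rfl fun k _ => ?_
  rcases hd k with h1 | h1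
  · rw [h.loc k cu c0 fun i hi => (h1 i hi).1, h.loc k cuv cv fun i hi => (h1 i hi).2, sub_self,
      sub_self]
  · rw [h.loc k cv c0 fun i hi => (h1 i hi).1, h.loc k cuv cu fun i hi => (h1 i hi).2]

end split

/-! ### the plane -/

/-- natural plane with `z ∥ E`, `C_a` constant along the ray -/
structure PlE (a b : Fin 11 → ℝ) (κ : ℝ) : Prop where
  κ0 : 0 < κ
  nn : ∀ i, 0 ≤ a i
  a0 : a 0 = 1
  a2 : a 2 = κ
  a5 : a 5 = 0
  a6 : a 6 = κ
  a8 : a 8 = 1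
  a9 : a 9 = 1 + κ
  b5 : b 5 ≠ 0
  b2 : b 2 = κ * b 0
  b6 : b 6 = b 2 + b 5
  b8 : b 8 = b 0 + b 5
  b9 : b 9 = b 0 + b 6

namespace PlE

variable {a b : Fin 11 → ℝ} {κ : ℝ} (h : PlE a b κ)

include h

theorem n0 : a 0 ≠ 0 := by rw [h.a0]; exact one_ne_zero
theorem n2 : a 2 ≠ 0 := by rw [h.a2]; exact h.κ0.ne'
theorem n6 : a 6 ≠ 0 := by rw [h.a6]; exact h.κ0.ne'
theorem n8 : a 8 ≠ 0 := by rw [h.a8]; exact one_ne_zero
theorem n9 : a 9 ≠ 0 := by rw [h.a9]; linarith [h.κ0]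

theorem g5 : gC a b 5 = 0 := gC_zero.2 h.a5
theorem g0 : gC a b 0 ≠ 0 := fun e => h.n0 (gC_zero.1 e)
theorem g6 : gC a b 6 ≠ 0 := fun e => h.n6 (gC_zero.1 e)
theorem g8 : gC a b 8 ≠ 0 := fun e => h.n8 (gC_zero.1 e)
theorem g9 : gC a b 9 ≠ 0 := fun e => h.n9 (gC_zero.1 e)

/-- `z ∥ E` -/
theorem g02 : gC a b 0 = gC a b 2 := by
  rw [gC_eq h.n0 h.n2, h.a0, h.a2, h.b2]
  have := h.κ0.ne'
  field_simp

theorem g08 : gC a b 0 ≠ gC a b 8 := by
  rw [Ne, gC_eq h.n0 h.n8, h.a0, h.a8, h.b8]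
  intro e
  apply h.b5
  linarith

theorem g09 : gC a b 0 ≠ gC a b 9 := by
  rw [Ne, gC_eq h.n0 h.n9, h.a0, h.a9, h.b9, h.b6, h.b2]
  have hκ := h.κ0
  have h1 : 1 + κ ≠ 0 := by linarith
  intro e
  apply h.b5
  field_simp at e
  linarith

theorem g89 : gC a b 8 ≠ gC a b 9 := by
  rw [Ne, gC_eq h.n8 h.n9, h.a8, h.a9, h.b9, h.b8, h.b6, h.b2]
  have hκ := h.κ0
  have h1 : 1 + κ ≠ 0 := by linarith
  intro e
  have h2 : κ * b 5 = 0 := by
    field_simp at e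
    linarith
  rcases mul_eq_zero.1 h2 with h3 | h3
  · exact hκ.ne' h3
  · exact h.b5 h3

theorem g06 : gC a b 0 ≠ gC a b 6 := by
  rw [Ne, gC_eq h.n0 h.n6, h.a0, h.a6, h.b6, h.b2]
  have hκ := h.κ0
  intro e
  apply h.b5
  field_simp at e
  linarith

theorem g69 : gC a b 6 ≠ gC a b 9 := by
  rw [Ne, gC_eq h.n6 h.n9, h.a6, h.a9, h.b9, h.b6, h.b2]
  have hκ := h.κ0
  have h1 : 1 + κ ≠ 0 := by linarith
  intro e
  apply h.b5
  field_simp at e
  linarith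

end PlE

/-! ### boxes -/

/-- level slots `z, E : T` and `C_a, C_b, X_a, X_b` -/
def bl (T ca cb xa xb : ℝ) : Fin 11 → ℝ := ![T, 0, T, 0, 0, ca, cb, 0, xa, xb, 0]

theorem bl_smul (s T ca cb xa xb : ℝ) :
    s • bl T ca cb xa xb = bl (s * T) (s * ca) (s * cb) (s * xa) (s * xb) := by
  funext j
  fin_cases j <;> simp [bl]

theorem bl_legal {T ca cb xa xb : ℝ} (hT : 0 ≤ T) (h1 : 0 ≤ ca) (h2 : 0 ≤ cb) (h2' : cb ≤ T)
    (h3 : 0 ≤ xa) (h3' : xa ≤ T) (h4 : 0 ≤ xb) (h4' : xb ≤ T) : Legal monQ (bl T ca cb xa xb) := by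
  refine legalQ_iff.2 ⟨fun k => ?_, ?_, ?_, ?_, ?_, ?_, ?_, ?_, ?_, ?_, ?_, ?_⟩
  · fin_cases k <;>
      simp only [bl, Matrix.cons_val, Fin.zero_eta, Fin.mk_one, Fin.reduceFinMk, Fin.isValue] <;>
      linarith
  all_goals
    simp only [bl, Matrix.cons_val, Fin.isValue]
    linarith

/-! ### fullness from a window model -/

section full

variable {a b : Fin 11 → ℝ} {κ : ℝ} {L : Set (Fin 11 → ℝ)} {lam : (Fin 11 → ℝ) → ℝ} {A : ℝ × ℝ}
  {φ : ℕ → (Fin 11 → ℝ) → ℝ} {r : ℕ → ℝ}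

/-- value of a box at the level `T` -/
theorem lam_bl (hL : ∀ p, Legal monQ p → p ∈ L)
    (h : OutS (gC a b) L (dhC a b) (nC a b) lam A φ r) (P : PlE a b κ) {T ca cb xa xb : ℝ}
    (hT : 0 ≤ T) (h1 : 0 ≤ ca) (h2 : 0 ≤ cb) (h2' : cb ≤ T) (h3 : 0 ≤ xa) (h3' : xa ≤ T)
    (h4 : 0 ≤ xb) (h4' : xb ≤ T) :
    lam (bl T ca cb xa xb) = lam (bl T 0 0 0 0) - (lam (bl T 0 0 0 0) - lam (bl T 0 0 0 xb)) -
      (lam (bl T 0 0 0 0) - lam (bl T 0 cb xa 0)) -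
      (lam (bl T 0 0 0 0) - lam (bl T ca 0 0 0)) := by
  have m0 : bl T 0 0 0 0 ∈ L := hL _ (bl_legal hT le_rfl le_rfl hT le_rfl hT le_rfl hT)
  have m1 : bl T 0 cb xa 0 ∈ L := hL _ (bl_legal hT le_rfl h2 h2' h3 h3' le_rfl hT)
  have m2 : bl T 0 0 0 xb ∈ L := hL _ (bl_legal hT le_rfl le_rfl hT le_rfl hT h4 h4')
  have m3 : bl T ca 0 0 0 ∈ L := hL _ (bl_legal hT h1 le_rfl hT le_rfl hT le_rfl hT)
  have m4 : bl T 0 cb xa xb ∈ L := hL _ (bl_legal hT le_rfl h2 h2' h3 h3' h4 h4')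
  have m5 : bl T ca cb xa xb ∈ L := hL _ (bl_legal hT h1 h2 h2' h3 h3' h4 h4')
  -- `X_b` against `(C_b, X_a)`
  have s1 := split2 h m0 m2 m1 m4 (by
    intro k
    by_cases hk : k = gC a b 9
    · right
      intro i hi
      have h8 : i ≠ 8 := fun e => P.g89 (by rw [← e, hi, hk])
      have h6 : i ≠ 6 := fun e => P.g69 (by rw [← e, hi, hk])
      fin_cases i <;> simp [bl] at h8 h6 ⊢
    · left
      intro i hi
      have h9 : i ≠ 9 := fun e => hk (by rw [← hi, e])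
      fin_cases i <;> simp [bl] at h9 ⊢)
  -- `C_a` against the rest
  have s2 := split2 h m0 m4 m3 m5 (by
    intro k
    by_cases hk : k = 0
    · left
      intro i hi
      have h6 : i ≠ 6 := fun e => P.g6 (by rw [← e, hi, hk])
      have h8 : i ≠ 8 := fun e => P.g8 (by rw [← e, hi, hk])
      have h9 : i ≠ 9 := fun e => P.g9 (by rw [← e, hi, hk])
      fin_cases i <;> simp [bl] at h6 h8 h9 ⊢
    · right
      intro i hi
      have h5 : i ≠ 5 := fun e => hk (by rw [← hi, e, P.g5])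
      fin_cases i <;> simp [bl] at h5 ⊢)
  linarith

/-- one slot at the level `T` -/
theorem lam_bl8 (hL : ∀ p, Legal monQ p → p ∈ L)
    (h : OutS (gC a b) L (dhC a b) (nC a b) lam A φ r) (P : PlE a b κ) {T xa : ℝ}
    (hT : 0 ≤ T) (h3 : 0 ≤ xa) (h3' : xa ≤ T) :
    lam (bl T 0 0 0 0) - lam (bl T 0 0 xa 0) = -φ (gC a b 8) (Pi.single 8 xa) := by
  have m0 : bl T 0 0 0 0 ∈ L := hL _ (bl_legal hT le_rfl le_rfl hT le_rfl hT le_rfl hT)
  have m1 : bl T 0 0 xa 0 ∈ L := hL _ (bl_legal hT le_rfl le_rfl hT h3 h3' le_rfl hT)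
  rw [one_grp h m0 m1 (gC a b 8) (fun i hi => by
    have h8 : i ≠ 8 := fun e => hi (by rw [e])
    fin_cases i <;> simp [bl] at h8 ⊢)]
  have key : ∀ i, gC a b i = gC a b 8 → i ≠ 0 ∧ i ≠ 2 := fun i hi =>
    ⟨fun e => P.g08 (by rw [← e, hi]), fun e => P.g08 (by rw [P.g02, ← e, hi])⟩
  rw [h.zero _ (bl T 0 0 0 0) (fun i hi => by
      obtain ⟨h0, h2⟩ := key i hi
      fin_cases i <;> simp [bl] at h0 h2 ⊢),
    h.loc _ (bl T 0 0 xa 0) (Pi.single 8 xa) (fun i hi => by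
      obtain ⟨h0, h2⟩ := key i hi
      fin_cases i <;> simp [bl] at h0 h2 ⊢)]
  ring

theorem lam_bl9 (hL : ∀ p, Legal monQ p → p ∈ L)
    (h : OutS (gC a b) L (dhC a b) (nC a b) lam A φ r) (P : PlE a b κ) {T xb : ℝ}
    (hT : 0 ≤ T) (h3 : 0 ≤ xb) (h3' : xb ≤ T) :
    lam (bl T 0 0 0 0) - lam (bl T 0 0 0 xb) = -φ (gC a b 9) (Pi.single 9 xb) := by
  have m0 : bl T 0 0 0 0 ∈ L := hL _ (bl_legal hT le_rfl le_rfl hT le_rfl hT le_rfl hT)
  have m1 : bl T 0 0 0 xb ∈ L := hL _ (bl_legal hT le_rfl le_rfl hT le_rfl hT h3 h3')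
  rw [one_grp h m0 m1 (gC a b 9) (fun i hi => by
    have h9 : i ≠ 9 := fun e => hi (by rw [e])
    fin_cases i <;> simp [bl] at h9 ⊢)]
  have key : ∀ i, gC a b i = gC a b 9 → i ≠ 0 ∧ i ≠ 2 := fun i hi =>
    ⟨fun e => P.g09 (by rw [← e, hi]), fun e => P.g09 (by rw [P.g02, ← e, hi])⟩
  rw [h.zero _ (bl T 0 0 0 0) (fun i hi => by
      obtain ⟨h0, h2⟩ := key i hi
      fin_cases i <;> simp [bl] at h0 h2 ⊢),
    h.loc _ (bl T 0 0 0 xb) (Pi.single 9 xb) (fun i hi => by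
      obtain ⟨h0, h2⟩ := key i hi
      fin_cases i <;> simp [bl] at h0 h2 ⊢)]
  ring

/-- homogeneity of a single slot, the box need not be legal -/
theorem hom_single (hL : ∀ p, Legal monQ p → p ∈ L)
    (h : OutS (gC a b) L (dhC a b) (nC a b) lam A φ r)
    (hom : ∀ k, k ≠ 0 → ∀ c ∈ L, ∀ s : ℝ, 0 ≤ s → φ k (s • c) = s * φ k c) {j : Fin 11}
    (hj : gC a b j ≠ 0) {c1 : Fin 11 → ℝ} (hc1 : c1 ∈ L)
    (hc : ∀ i, gC a b i = gC a b j → c1 i = if i = j then 1 else 0) {y : ℝ} (hy : 0 ≤ y) :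
    φ (gC a b j) (Pi.single j y) = y * φ (gC a b j) (Pi.single j 1) := by
  have e1 : φ (gC a b j) (Pi.single j 1) = φ (gC a b j) c1 := h.loc _ _ _ fun i hi => by
    rw [hc i hi, Pi.single_apply]
  have e2 : φ (gC a b j) (Pi.single j y) = φ (gC a b j) (y • c1) := h.loc _ _ _ fun i hi => by
    rw [Pi.smul_apply, hc i hi, Pi.single_apply]
    split_ifs <;> simp
  rw [e1, e2, hom _ hj c1 hc1 y hy]

/-- **fullness of `X_a` and `X_b`** from a window model at the level `1` -/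
theorem full_of_NE (hL : ∀ p, Legal monQ p → p ∈ L)
    (h : OutS (gC a b) L (dhC a b) (nC a b) lam A φ r) (P : PlE a b κ)
    (sharp : ∀ c ∈ L, ∀ c' ∈ L, c ≤ c' → lam c - lam c' ≤ ∑ s, (c' s - c s))
    (hom : ∀ k, k ≠ 0 → ∀ c ∈ L, ∀ s : ℝ, 0 ≤ s → φ k (s • c) = s * φ k c)
    {m : ℝ} (hm : 0 < m)
    (sw : ∀ t xa : ℝ, 0 ≤ t → t ≤ 1 → 0 ≤ xa → xa ≤ 1 →
      m * t ≤ lam (bl 1 0 0 xa 0) - lam (bl 1 t 0 xa 0))
    {B : Base} {G : ℕ → RCfg (Fin 11)} {Leg : Set (Fin 11 → ℝ)} {ν : (Fin 11 → ℝ) → ℝ} {D : ℝ}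
    {f : ℕ → ℕ → ℝ} (H : NE B G Leg ν 1 D f) (htw : RawTw B G fun n k k' => f n k' - f n k)
    {c₁ : ℝ} (hν : ∀ ca cb xa xb : ℝ, ν (bw ca cb xa xb) = lam (bl 1 ca cb xa xb) - c₁) :
    φ (gC a b 8) (Pi.single 8 1) ≤ -1 ∧ φ (gC a b 9) (Pi.single 9 1) ≤ -1 := by
  have hmem : ∀ ca cb xa xb : ℝ, 0 ≤ ca → 0 ≤ cb → cb ≤ 1 → 0 ≤ xa → xa ≤ 1 → 0 ≤ xb → xb ≤ 1 →
      bl 1 ca cb xa xb ∈ L := fun ca cb xa xb h1 h2 h3 h4 h5 h6 h7 =>
    hL _ (bl_legal zero_le_one h1 h2 h3 h4 h5 h6 h7)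
  have c1 : bl 1 0 0 1 0 ∈ L := hmem 0 0 1 0 le_rfl le_rfl zero_le_one zero_le_one le_rfl le_rfl
    zero_le_one
  have c2 : bl 1 0 0 0 1 ∈ L := hmem 0 0 0 1 le_rfl le_rfl zero_le_one le_rfl zero_le_one
    zero_le_one le_rfl
  have hom8 : ∀ y : ℝ, 0 ≤ y → φ (gC a b 8) (Pi.single 8 y) = y * φ (gC a b 8) (Pi.single 8 1) :=
    fun y hy => hom_single hL h hom P.g8 c1 (fun i hi => by
      have h0 : i ≠ 0 := fun e => P.g08 (by rw [← e, hi])
      have h2 : i ≠ 2 := fun e => P.g08 (by rw [P.g02, ← e, hi])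
      fin_cases i <;> simp [bl] at h0 h2 ⊢) hy
  have hom9 : ∀ y : ℝ, 0 ≤ y → φ (gC a b 9) (Pi.single 9 y) = y * φ (gC a b 9) (Pi.single 9 1) :=
    fun y hy => hom_single hL h hom P.g9 c2 (fun i hi => by
      have h0 : i ≠ 0 := fun e => P.g09 (by rw [← e, hi])
      have h2 : i ≠ 2 := fun e => P.g09 (by rw [P.g02, ← e, hi])
      fin_cases i <;> simp [bl] at h0 h2 ⊢) hy
  -- `X_a`
  have xa_full : ∀ y : ℝ, 0 < y → y ≤ 1 → y ≤ lam (bl 1 0 0 0 0) - lam (bl 1 0 0 y 0) := by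
    intro y hy hy1
    have := H.xa (y := y) (c := m) hy hy1 hm (by
      intro t ht hty
      rw [hν, hν]
      have := sw t t ht (hty.trans hy1) ht (hty.trans hy1)
      linarith) (by
      intro t ht hty
      rw [hν, hν]
      have h1 := sharp _ (hmem 0 0 t 0 le_rfl le_rfl zero_le_one ht (hty.trans hy1) le_rfl
        zero_le_one) _ (hmem 0 0 y 0 le_rfl le_rfl zero_le_one hy.le hy1 le_rfl zero_le_one)
        (by intro i; fin_cases i <;> simp [bl, hty])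
      have h2 : ∑ s, (bl 1 0 0 y 0 s - bl 1 0 0 t 0 s) = y - t := by
        simp [Fin.sum_univ_succ, bl]
      linarith)
    rw [hν, hν] at this
    linarith
  have h8 : φ (gC a b 8) (Pi.single 8 1) ≤ -1 := by
    have h1 := xa_full 1 one_pos le_rfl
    rw [lam_bl8 hL h P zero_le_one zero_le_one le_rfl] at h1
    linarith
  refine ⟨h8, ?_⟩
  -- `X_b`
  have key := H.kappa_one (a := -φ (gC a b 9) (Pi.single 9 1)) (m := m)
    (β := fun cb xa => lam (bl 1 0 0 0 0) - lam (bl 1 0 cb xa 0))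
    (γ := fun ca => lam (bl 1 0 0 0 0) - lam (bl 1 ca 0 0 0)) hm htw (by
      intro ca cb xa xb h1 _ h2 h2' h3 h3' h4 h4'
      rw [hν, hν, lam_bl hL h P zero_le_one h1 h2 h2' h3 h3' h4 h4',
        lam_bl9 hL h P zero_le_one h4 h4', hom9 xb h4]
      ring) (by
      intro t ht ht1
      rcases ht.eq_or_lt with rfl | ht0
      · simp
      · exact xa_full t ht0 ht1) (by
      intro t ht ht1
      exact sw t 0 ht ht1 le_rfl zero_le_one)
  linarith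

/-- **rates of the groups of `z`, `X_a`, `X_b`** -/
theorem rates_of_full (hL : ∀ p, Legal monQ p → p ∈ L)
    (h : OutS (gC a b) L (dhC a b) (nC a b) lam A φ r) (P : PlE a b κ) (haL : a ∈ L)
    (hom : ∀ k, k ≠ 0 → ∀ c ∈ L, ∀ s : ℝ, 0 ≤ s → φ k (s • c) = s * φ k c)
    (own : ∀ c ∈ L, ∀ c' ∈ L, c ≤ c' → (∀ i, c i = 0) → c' 0 - c 0 ≤ lam c - lam c')
    (h8 : φ (gC a b 8) (Pi.single 8 1) ≤ -1) (h9 : φ (gC a b 9) (Pi.single 9 1) ≤ -1) :
    1 ≤ r (gC a b 0) ∧ 1 ≤ r (gC a b 8) ∧ 1 + κ ≤ r (gC a b 9) := by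
  have hκ := P.κ0
  have m0 : (0 : Fin 11 → ℝ) ∈ L := by
    refine hL _ (legalQ_iff.2 ⟨fun k => le_rfl, ?_, ?_, ?_, ?_, ?_, ?_, ?_, ?_, ?_, ?_, ?_⟩) <;> simp
  have e0 : Legal monQ (Pi.single 0 1 : Fin 11 → ℝ) := by
    refine legalQ_iff.2 ⟨fun k => ?_, ?_, ?_, ?_, ?_, ?_, ?_, ?_, ?_, ?_, ?_, ?_⟩
    · by_cases hk : k = 0
      · subst hk; simp
      · rw [Pi.single_eq_of_ne hk]
    all_goals simp [Pi.single_apply]
  have a1 : (1:ℝ) • a ∈ L := by rw [one_smul]; exact haL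
  refine ⟨?_, ?_, ?_⟩
  · have h1 := own 0 m0 _ (hL _ e0) (by
      intro k
      by_cases hk : k = 0
      · subst hk; simp
      · rw [Pi.single_eq_of_ne hk]; exact le_rfl) (fun _ => rfl)
    rw [one_grp h m0 (hL _ e0) (gC a b 0) (fun i hi => by
      have : i ≠ 0 := fun e => hi (by rw [e])
      rw [Pi.single_eq_of_ne this]; rfl), h.zero _ 0 (fun i _ => rfl)] at h1
    have h2 := rt_ge h P.nn P.g0 haL (hL _ e0) (u := 1) a1 (fun i hi => by
      by_cases hi0 : i = 0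
      · subst hi0; simp [P.a0]
      · rw [Pi.single_eq_of_ne hi0, one_mul]; exact P.nn i)
    simp at h1
    linarith
  · have m1 : bl 1 0 0 1 0 ∈ L := hL _ (bl_legal zero_le_one le_rfl le_rfl zero_le_one zero_le_one
      le_rfl le_rfl zero_le_one)
    have key : ∀ i, gC a b i = gC a b 8 → i ≠ 0 ∧ i ≠ 2 := fun i hi =>
      ⟨fun e => P.g08 (by rw [← e, hi]), fun e => P.g08 (by rw [P.g02, ← e, hi])⟩
    have e1 : φ (gC a b 8) (bl 1 0 0 1 0) = φ (gC a b 8) (Pi.single 8 1) :=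
      h.loc _ _ _ fun i hi => by
        obtain ⟨h0, h2⟩ := key i hi
        fin_cases i <;> simp [bl] at h0 h2 ⊢
    have h2 := rt_ge h P.nn P.g8 haL m1 (u := 1) a1 (fun i hi => by
      obtain ⟨h0, h2⟩ := key i hi
      rw [one_mul]
      by_cases hi8 : i = 8
      · subst hi8; rw [P.a8]; simp [bl]
      · refine le_trans (le_of_eq ?_) (P.nn i)
        fin_cases i <;> simp [bl] at h0 h2 hi8 ⊢)
    linarith
  · have m1 : bl (1 + κ) 0 0 0 (1 + κ) ∈ L := hL _ (bl_legal (by linarith) le_rfl le_rfl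
      (by linarith) le_rfl (by linarith) (by linarith) le_rfl)
    have m2 : bl 1 0 0 0 1 ∈ L := hL _ (bl_legal zero_le_one le_rfl le_rfl zero_le_one le_rfl
      zero_le_one zero_le_one le_rfl)
    have key : ∀ i, gC a b i = gC a b 9 → i ≠ 0 ∧ i ≠ 2 := fun i hi =>
      ⟨fun e => P.g09 (by rw [← e, hi]), fun e => P.g09 (by rw [P.g02, ← e, hi])⟩
    have e1 : φ (gC a b 9) (bl (1 + κ) 0 0 0 (1 + κ)) = (1 + κ) * φ (gC a b 9) (Pi.single 9 1) := by
      have e2 : (1 + κ) • bl 1 0 0 0 1 = bl (1 + κ) 0 0 0 (1 + κ) := by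
        rw [bl_smul]; simp
      rw [← e2, hom _ P.g9 _ m2 _ (by linarith)]
      congr 1
      exact h.loc _ _ _ fun i hi => by
        obtain ⟨h0, h2⟩ := key i hi
        fin_cases i <;> simp [bl] at h0 h2 ⊢
    have h2 := rt_ge h P.nn P.g9 haL m1 (u := 1) a1 (fun i hi => by
      obtain ⟨h0, h2⟩ := key i hi
      rw [one_mul]
      by_cases hi9 : i = 9
      · subst hi9; rw [P.a9]; simp [bl]
      · refine le_trans (le_of_eq ?_) (P.nn i)
        fin_cases i <;> simp [bl] at h0 h2 hi9 ⊢)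
    have h3 : (1 + κ) * φ (gC a b 9) (Pi.single 9 1) ≤ (1 + κ) * -1 :=
      mul_le_mul_of_nonneg_left h9 (by linarith)
    linarith

end full

/-! ### the row at an a.e. point -/

section row

open Crest.Agent.R136.Net191 (cK0)
open Crest.Agent.R136.Qg926 Crest.Agent.R136.Wq400
open Crest.Agent.R136.Aw413 (AeW WAt coneM zero_mem)
open Crest.Agent.R136.Xb403 (MaE stP stP_ok pok_base ne_of_wat cloM_base nu_bw bwT_base top_base
  cut_base cut_base')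

variable {ι : ℕ → Type*} [∀ n, DecidableEq (ι n)] {B Bo : Base} {I J : ∀ n, Finset (ι n)}
  {co : ∀ n, ι n → ι n → Fin 11 → ℝ} {Ma : Mons 11} {C : ℝ} {lam : (Fin 11 → ℝ) → ℝ}
  {a b : Fin 11 → ℝ} {κ : ℝ} {A : ℝ × ℝ} {φ : ℕ → (Fin 11 → ℝ) → ℝ} {r : ℕ → ℝ}
  {κo : Fin 11 → ℝ} {V Tw : Fin 11 → Prop} {f : ∀ n, ι n → Fq4}

/-- **the base row**: rates of the groups of `z`, `X_a`, `X_b`, full slots `X_a`, `X_b` -/
theorem base_row (h : AeW B Bo I J co monQ Ma C lam a b A φ r 0 1 κo V Tw)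
    (hco : ∀ n, ∀ i ∈ I n, ∀ j ∈ I n, co n i j = coQ (f n i) (f n j))
    (hne : ∀ᶠ n in (U : Filter ℕ), (J n).Nonempty) (hM : MaE Ma) (P : PlE a b κ)
    (haL : a ∈ coneM Ma) (hV : ∀ k, V k → k = 2 ∨ k = 3 ∨ k = 4) (hTw : Tw 2) (hC : 0 ≤ C)
    (hom : ∀ k, k ≠ 0 → ∀ c ∈ coneM Ma, ∀ s : ℝ, 0 ≤ s → φ k (s • c) = s * φ k c)
    {m : ℝ} (hm : 0 < m)
    (sw : ∀ t xa : ℝ, 0 ≤ t → t ≤ 1 → 0 ≤ xa → xa ≤ 1 →
      m * t ≤ lam (bl 1 0 0 xa 0) - lam (bl 1 t 0 xa 0)) :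
    1 ≤ r (gC a b 0) ∧ 1 ≤ r (gC a b 8) ∧ 1 + κ ≤ r (gC a b 9) ∧
      φ (gC a b 8) (Pi.single 8 1) ≤ -1 ∧ φ (gC a b 9) (Pi.single 9 1) ≤ -1 := by
  have hK0 : 1 ≤ cK0 monQ C := cK0_one hC
  have hL : ∀ p, Legal monQ p → p ∈ coneM Ma := fun p hp k e he => hp.wall k e (h.sub k he)
  have hok := stP_ok (K := 4 * cK0 monQ C) (T := 1) pok_base (by linarith) zero_le_one h.sub
  obtain ⟨W, hW, -, -⟩ := h.wnd (stP {0, 2} {0, 2, 5, 6, 8, 9} (4 * cK0 monQ C) 1 Ma) rfl hok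
    (fun _ _ => 1) (fun _ => Crest.Agent.R138.Ex926.Base.Sub.const one_pos) J (fun _ => 1)
    (Eventually.of_forall fun n => Finset.Subset.refl _) hne
    (Crest.Agent.R138.Ex926.Base.Sub.const one_pos)
    (Eventually.of_forall fun n => by rw [one_mul])
  have own : ∀ c ∈ coneM Ma, ∀ c' ∈ coneM Ma, c ≤ c' → (∀ i, c i = 0) →
      c' 0 - c 0 ≤ lam c - lam c' := fun c hc c' hc' hcc h0 => by
    have := h.own c hc c' hc' hcc fun k _ => by rw [h0, h0, mul_zero]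
    linarith
  -- density
  have hdens : lam (fun s => if s ∈ ({0, 2, 5, 6, 8, 9} : Finset (Fin 11)) then (1:ℝ) else 0) ≤
      lam (Qg926.cut {0, 2}
        (fun s => if s ∈ ({0, 2, 5, 6, 8, 9} : Finset (Fin 11)) then (1:ℝ) else 0) 0) +
      lam (Qg926.cut {0, 2} 0
        fun s => if s ∈ ({0, 2, 5, 6, 8, 9} : Finset (Fin 11)) then (1:ℝ) else 0) := by
    rw [cut_base, cut_base', top_base]
    have m1 : (![1, 0, 1, 0, 0, 1, 1, 0, 1, 1, 0] : Fin 11 → ℝ) ∈ coneM Ma :=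
      hL _ (bl_legal zero_le_one zero_le_one zero_le_one le_rfl zero_le_one le_rfl zero_le_one
        le_rfl)
    have m2 : (![1, 0, 1, 0, 0, 0, 0, 0, 0, 0, 0] : Fin 11 → ℝ) ∈ coneM Ma :=
      hL _ (bl_legal zero_le_one le_rfl le_rfl zero_le_one le_rfl zero_le_one le_rfl zero_le_one)
    have m3 : (![0, 0, 0, 0, 0, 1, 1, 0, 1, 1, 0] : Fin 11 → ℝ) ∈ coneM Ma := by
      refine hL _ (legalQ_iff.2 ⟨fun k => ?_, ?_, ?_, ?_, ?_, ?_, ?_, ?_, ?_, ?_, ?_, ?_⟩)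
      · fin_cases k <;> simp
      all_goals simp
    have hs := split2 h.out (zero_mem (Ma := Ma)) m3 m2 m1 (by
      intro k
      by_cases hk : k = gC a b 0
      · left
        intro i hi
        rw [hk] at hi
        have h5 : i ≠ 5 := fun e => P.g0 (by rw [← hi, e, P.g5])
        have h6 : i ≠ 6 := fun e => P.g06 (by rw [← hi, e])
        have h8 : i ≠ 8 := fun e => P.g08 (by rw [← hi, e])
        have h9 : i ≠ 9 := fun e => P.g09 (by rw [← hi, e])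
        fin_cases i <;> simp at h5 h6 h8 h9 ⊢
      · right
        intro i hi
        have h0 : i ≠ 0 := fun e => hk (by rw [← hi, e])
        have h2 : i ≠ 2 := fun e => hk (by rw [← hi, e, P.g02])
        fin_cases i <;> simp at h0 h2 ⊢)
    rw [h.zero] at hs
    linarith
  obtain ⟨E', hNE, htw⟩ := ne_of_wat pok_base ⟨by decide, by decide, by decide, by decide⟩
    (by decide) hW hco hM h.sub (cloM_base Ma) one_pos (fun k hk => by
      rcases hV k hk with rfl | rfl | rfl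
      · left; decide
      · right; decide
      · right; decide) hTw hdens (fun y hy _ => by
      have m1 : Pi.single 0 y ∈ coneM Ma := hL _ (by
        refine legalQ_iff.2 ⟨fun k => ?_, ?_, ?_, ?_, ?_, ?_, ?_, ?_, ?_, ?_, ?_, ?_⟩
        · by_cases hk : k = 0
          · subst hk; simpa using hy
          · rw [Pi.single_eq_of_ne hk]
        all_goals simp [Pi.single_apply, hy])
      have h1 := own 0 zero_mem _ m1 (by
        intro k
        by_cases hk : k = 0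
        · subst hk; simpa using hy
        · rw [Pi.single_eq_of_ne hk]; exact le_rfl) (fun _ => rfl)
      rw [h.zero] at h1
      simp at h1
      linarith)
  have hν : ∀ ca cb xa xb : ℝ, W.nu (bw ca cb xa xb) = lam (bl 1 ca cb xa xb) - lam W.top := by
    intro ca cb xa xb
    rw [nu_bw, hW.elam, hW.eS, hW.etop]
    show lam (Xb403.bwT {0, 2} (fun s : Fin 11 => if s ∈ ({0, 2, 5, 6, 8, 9} : Finset (Fin 11))
      then (1:ℝ) else 0) ca cb xa xb) - _ = _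
    rw [bwT_base]
    rfl
  obtain ⟨h8, h9⟩ := full_of_NE hL h.out P h.sharp hom hm sw hNE htw hν
  obtain ⟨r0, r8, r9⟩ := rates_of_full hL h.out P haL hom own h8 h9
  exact ⟨r0, r8, r9, h8, h9⟩

end row

end Crest.Agent.R136.LdF5511
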