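import Crest.Agent.R136.WinE0_323
import Crest.Agent.R136.D2f_272
import Crest.Agent.R136.LdF5_511

/-!
# R136 (S0187), row E, window half, piece (B): `NumsE` (helper107)

* `aE κ`, `bEs` : the slopes of the natural plane `κ = κ3` with `θ 0 = θ 2`;
* `numE_of` : the numbers from the output of the splitting;
* `numsE : NumsE η`.
-/

set_option autoImplicit false
set_option linter.unusedVariables false
set_option linter.unusedSectionVars false

open Finset Filter Topology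

namespace Crest.Agent.R136.NmE107

open Crest.Agent.R138.Ex926 (Base U)
open Crest.Agent.R136.Net191
open Crest.Agent.R136.NetQ186
open Crest.Agent.R136.Gf356
open Crest.Agent.R136.NatR550
open Crest.Agent.R136.NatT550
open Crest.Agent.R136.Aw413
open Crest.Agent.R136.Qg926
open Crest.Agent.R136.Wq400
open Crest.Agent.R136.Wq638
open Crest.Agent.R136.Xb403 (MaE)
open Crest.Agent.R136.Rc146 (OutA)
open Crest.Agent.R136.Top484 (Par4 Dat4)
open Crest.Agent.R136.Tb628 (eCa RowPt Hom RecS sA sB s0)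
open Crest.Agent.R136.Xd272
open Crest.Agent.R136.LdF5511
open Crest.Agent.R136.LdF4511
open Crest.Agent.R136.WinE323
open Dg219 (mw Walls Tn OutS gC dhC nC gset lf mem_gset gC_zero gC_eq nC_zero nC_of)

/-- slopes in `v` -/
def aE (κ : ℝ) : Fin 11 → ℝ := ![1, 0, κ, 0, κ, 0, κ, κ, 1, 1 + κ, 1 + κ]
/-- slopes in `t` -/
def bEs : Fin 11 → ℝ := ![0, 0, 0, 0, 0, 1, 1, 1, 1, 1, 1]

theorem sA_aE (κ : ℝ) : sA κ κ = aE κ := by
  funext i
  fin_cases i <;> simp [sA, nL, aE]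

theorem nL_bEs : nL 0 1 1 1 = bEs := by
  funext i
  fin_cases i <;> simp [nL, bEs]

theorem sB_bEs {θ : Fin 3 → ℝ} (h1 : 0 < θ 1) (h02 : θ 0 = θ 2) :
    sB θ (θ 1 - θ 2) (θ 1 - θ 2) = bEs := by
  rw [← nL_bEs, ← Crest.Agent.R136.Xd272.sB_own h1, h02]

section grp

variable {κ : ℝ} (hκ : 0 < κ)

include hκ

theorem plE : PlE (aE κ) bEs κ where
  κ0 := hκ
  nn := by
    intro i
    fin_cases i <;> simp [aE] <;> linarith
  a0 := rfl
  a2 := rfl
  a5 := rfl
  a6 := rfl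
  a8 := rfl
  a9 := rfl
  b5 := by simp [bEs]
  b2 := by simp [bEs]
  b6 := by simp [bEs]
  b8 := by simp [bEs]
  b9 := by simp [bEs]

/-- members of the groups -/
theorem mem_z {i : Fin 11} (hi : gC (aE κ) bEs i = gC (aE κ) bEs 0) : i = 0 ∨ i = 2 ∨ i = 4 := by
  have P := plE hκ
  have hk1 : 1 + κ ≠ 0 := by linarith
  have hk := hκ.ne'
  have ha : aE κ i ≠ 0 := fun e => P.g0 (by rw [← hi, gC_zero.2 e])
  rw [gC_eq ha P.n0] at hi
  fin_cases i <;> simp [aE, bEs, hk, hk1] at hi ha ⊢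

theorem mem_zero {i : Fin 11} (hi : gC (aE κ) bEs i = 0) : i = 1 ∨ i = 3 ∨ i = 5 := by
  have hk1 : 1 + κ ≠ 0 := by linarith
  have hk := hκ.ne'
  rw [gC_zero] at hi
  fin_cases i <;> simp [aE, hk, hk1] at hi ⊢

theorem mem_9 {i : Fin 11} (hi : gC (aE κ) bEs i = gC (aE κ) bEs 9) : i = 9 ∨ i = 10 := by
  have P := plE hκ
  have hk1 : 1 + κ ≠ 0 := by linarith
  have hk := hκ.ne'
  have ha : aE κ i ≠ 0 := fun e => P.g9 (by rw [← hi, gC_zero.2 e])
  rw [gC_eq ha P.n9] at hi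
  fin_cases i <;> simp [aE, bEs, hk, hk1] at hi ha ⊢
  all_goals linarith

theorem mem_8 {i : Fin 11} (hi : gC (aE κ) bEs i = gC (aE κ) bEs 8) :
    i = 8 ∨ (κ = 1 ∧ (i = 6 ∨ i = 7)) := by
  have P := plE hκ
  have hk1 : 1 + κ ≠ 0 := by linarith
  have hk := hκ.ne'
  have ha : aE κ i ≠ 0 := fun e => P.g8 (by rw [← hi, gC_zero.2 e])
  rw [gC_eq ha P.n8] at hi
  fin_cases i <;> simp [aE, bEs, hk, hk1] at hi ha ⊢
  · exact hi
  · exact hi

theorem mem_6 (h1 : κ ≠ 1) {i : Fin 11} (hi : gC (aE κ) bEs i = gC (aE κ) bEs 6) :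
    i = 6 ∨ i = 7 := by
  have P := plE hκ
  have hk1 : 1 + κ ≠ 0 := by linarith
  have hk := hκ.ne'
  have ha : aE κ i ≠ 0 := fun e => P.g6 (by rw [← hi, gC_zero.2 e])
  rw [gC_eq ha P.n6] at hi
  fin_cases i <;> simp [aE, bEs, hk, hk1] at hi ha ⊢
  all_goals first
    | exact h1 hi
    | exact h1 hi.symm
    | (exfalso; linarith)

end grp

/-! ### cone -/

theorem memN {c : Fin 11 → ℝ} (h4 : c 4 ≤ c 2 + c 3) (h6 : c 6 ≤ c 2 + c 5)
    (h7 : c 7 ≤ c 4 + c 5) (h7' : c 7 ≤ c 3 + c 6) (h8 : c 8 ≤ c 0 + c 5) (h9 : c 9 ≤ c 0 + c 6)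
    (h9' : c 9 ≤ c 2 + c 8) (h10 : c 10 ≤ c 0 + c 7) (h10' : c 10 ≤ c 4 + c 8)
    (h10'' : c 10 ≤ c 3 + c 9) : c ∈ coneN := ⟨h4, h6, h7, h7', h8, h9, h9', h10, h10', h10''⟩

theorem bE_mem {x a b c d : ℝ} (hd : 0 ≤ d) (hda : d ≤ a) (hax : a ≤ x) (hb : 0 ≤ b) (hbx : b ≤ x)
    (hc : 0 ≤ c) (hcx : c ≤ x) : bE x a b c d ∈ coneN := by
  refine memN ?_ ?_ ?_ ?_ ?_ ?_ ?_ ?_ ?_ ?_ <;>
    simp only [bE, Matrix.cons_val, Fin.isValue] <;> linarith

theorem aE_mem (κ : ℝ) : aE κ ∈ coneN := by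
  refine memN ?_ ?_ ?_ ?_ ?_ ?_ ?_ ?_ ?_ ?_ <;>
    simp only [aE, Matrix.cons_val, Fin.isValue] <;> linarith

theorem legal_coneN {c : Fin 11 → ℝ} (h : Legal monQ c) : c ∈ coneN := by
  obtain ⟨h0, h4, h6, h7, h7', h7'', h8, h9, h9', h10, h10', h10''⟩ := legalQ_iff.1 h
  exact memN (by assumption) (by assumption) (by assumption) (by assumption) (by assumption)
    (by assumption) (by assumption) (by assumption) (by assumption) (by assumption)

section num

variable {κ : ℝ} {lam : (Fin 11 → ℝ) → ℝ} {A : ℝ × ℝ} {φ : ℕ → (Fin 11 → ℝ) → ℝ} {r : ℕ → ℝ}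

theorem dh_9 (i : Fin 11) (hi : i = 9 ∨ i = 10) : dhC (aE κ) bEs i = 1 + κ ∨ 1 + κ = 0 := by
  by_cases h : 1 + κ = 0
  · exact Or.inr h
  · left
    rcases hi with rfl | rfl <;> simp [dhC, aE, h]

/-- value of the boxes `bE` -/
theorem form_of (hκ : 0 < κ)
    (h : OutA (gC (aE κ) bEs) coneN (aE κ) bEs (dhC (aE κ) bEs) (nC (aE κ) bEs) lam A φ r)
    (hom : ∀ k, k ≠ 0 → ∀ c ∈ coneN, ∀ s : ℝ, 0 ≤ s → φ k (s • c) = s * φ k c)
    (h8 : φ (gC (aE κ) bEs 8) (Pi.single 8 1) ≤ -1) (r8 : 1 ≤ r (gC (aE κ) bEs 8)) :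
    ∃ β : ℝ, 0 ≤ β ∧ ∀ x a b c d : ℝ, 0 ≤ d → d ≤ a → a ≤ x → 0 ≤ b → b ≤ x → 0 ≤ c → c ≤ x →
      lam (bE x a b c d) = lam (bE x 0 0 0 0) -
        (a + r (gC (aE κ) bEs 9) / (1 + κ) * b + r 0 * c + β * d) := by
  have P := plE hκ
  have hL : ∀ p, Legal monQ p → p ∈ coneN := fun p hp => legal_coneN hp
  have hk1 : (1 : ℝ) + κ ≠ 0 := by linarith
  have hk := hκ.ne'
  have hO := h.toOutS
  -- the group of `X_b, N`
  have s9 : ∀ x a b c d : ℝ, 0 ≤ d → d ≤ a → a ≤ x → 0 ≤ b → b ≤ x → 0 ≤ c → c ≤ x →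
      lam (bE x a b c d) - lam (bE x a 0 c d) = -(r (gC (aE κ) bEs 9) / (1 + κ) * b) := by
    intro x a b c d hd hda hax hb hbx hc hcx
    have m1 := bE_mem hd hda hax hb hbx hc hcx
    have m0 := bE_mem hd hda hax le_rfl (hb.trans hbx) hc hcx
    rw [one_grp hO m1 m0 (gC (aE κ) bEs 9) (fun i hi => by
      have h9 : i ≠ 9 := fun e => hi (by rw [e])
      have h10 : i ≠ 10 := fun e => hi (by
        rw [e, gC_eq (by simp [aE, hk1]) P.n9]; simp [aE, bEs])
      fin_cases i <;> simp [bE] at h9 h10 ⊢),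
      h.rate _ _ m1 (b / (1 + κ)) (fun i hi => by
        rcases mem_9 hκ hi with rfl | rfl <;> simp [bE, dhC, aE, hk1]),
      h.zero _ (bE x a 0 c d) (fun i hi => by
        rcases mem_9 hκ hi with rfl | rfl <;> simp [bE])]
    ring
  -- the group of `C_a`
  have s0 : ∀ x a c d : ℝ, 0 ≤ d → d ≤ a → a ≤ x → 0 ≤ c → c ≤ x →
      lam (bE x a 0 c d) - lam (bE x a 0 0 d) = -(r 0 * c) := by
    intro x a c d hd hda hax hc hcx
    have m1 := bE_mem hd hda hax le_rfl (hc.trans hcx) hc hcx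
    have m0 := bE_mem hd hda hax le_rfl (hc.trans hcx) le_rfl (hc.trans hcx)
    rw [one_grp hO m1 m0 0 (fun i hi => by
      have h5 : i ≠ 5 := fun e => hi (by rw [e]; exact P.g5)
      fin_cases i <;> simp [bE] at h5 ⊢),
      h.rate _ _ m1 c (fun i hi => by
        rcases mem_zero hκ hi with rfl | rfl | rfl <;> simp [bE, dhC, aE, bEs]),
      h.zero _ (bE x a 0 0 d) (fun i hi => by
        rcases mem_zero hκ hi with rfl | rfl | rfl <;> simp [bE])]
    ring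
  by_cases h1 : κ = 1
  · -- one group
    refine ⟨r (gC (aE κ) bEs 8) - 1, by linarith, ?_⟩
    have e8 : φ (gC (aE κ) bEs 8) (Pi.single 8 1) = -1 := by
      refine le_antisymm h8 ?_
      have m0 : bl 1 0 0 0 0 ∈ coneN := hL _ (bl_legal zero_le_one le_rfl le_rfl zero_le_one
        le_rfl zero_le_one le_rfl zero_le_one)
      have m1 : bl 1 0 0 1 0 ∈ coneN := hL _ (bl_legal zero_le_one le_rfl le_rfl zero_le_one
        zero_le_one le_rfl le_rfl zero_le_one)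
      have e1 := (h.mono (gC (aE κ) bEs 8) _ m0 _ m1 (fun i _ => by
        fin_cases i <;> simp [bl])).2
      have e2 : ∑ i ∈ Finset.univ.filter (fun i => gC (aE κ) bEs i = gC (aE κ) bEs 8),
          (bl 1 0 0 1 0 i - bl 1 0 0 0 0 i) ≤ 1 := by
        refine (Finset.sum_le_sum_of_subset_of_nonneg (Finset.subset_univ _)
          (fun i _ _ => by fin_cases i <;> simp [bl])).trans ?_
        simp [Fin.sum_univ_succ, bl]
      have key : ∀ i, gC (aE κ) bEs i = gC (aE κ) bEs 8 → i = 6 ∨ i = 7 ∨ i = 8 := fun i hi => by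
        rcases mem_8 hκ hi with h | ⟨-, h | h⟩
        · exact Or.inr (Or.inr h)
        · exact Or.inl h
        · exact Or.inr (Or.inl h)
      rw [h.zero _ (bl 1 0 0 0 0) (fun i hi => by
          rcases key i hi with rfl | rfl | rfl <;> simp [bl]),
        h.loc _ (bl 1 0 0 1 0) (Pi.single 8 1) (fun i hi => by
          rcases key i hi with rfl | rfl | rfl <;> simp [bl])] at e1
      linarith
    have key : ∀ i, gC (aE κ) bEs i = gC (aE κ) bEs 8 → i = 6 ∨ i = 7 ∨ i = 8 := fun i hi => by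
      rcases mem_8 hκ hi with h | ⟨-, h | h⟩
      · exact Or.inr (Or.inr h)
      · exact Or.inl h
      · exact Or.inr (Or.inl h)
    intro x a b c d hd hda hax hb hbx hc hcx
    have m1 := bE_mem hd hda hax le_rfl (hb.trans hbx) le_rfl (hb.trans hbx)
    have m0 := bE_mem (x := x) (a := 0) (b := 0) (c := 0) (d := 0) le_rfl le_rfl (hb.trans hbx)
      le_rfl (hb.trans hbx) le_rfl (hb.trans hbx)
    have e3 : lam (bE x a 0 0 d) - lam (bE x 0 0 0 0) =
        -(a + (r (gC (aE κ) bEs 8) - 1) * d) := by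
      have a0 : 0 ≤ a - d := by linarith
      have mc : bl (a - d) 0 0 (a - d) 0 ∈ coneN := hL _ (bl_legal a0 le_rfl le_rfl a0 a0 le_rfl
        le_rfl a0)
      have c1 : bl 1 0 0 1 0 ∈ coneN := hL _ (bl_legal zero_le_one le_rfl le_rfl zero_le_one
        zero_le_one le_rfl le_rfl zero_le_one)
      have mT : Tn (aE κ) bEs (d, 0) ∈ coneN := by
        refine memN ?_ ?_ ?_ ?_ ?_ ?_ ?_ ?_ ?_ ?_ <;>
          simp only [Tn, aE, bEs, Matrix.cons_val, Fin.isValue] <;> nlinarith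
      have hs := h.add (gC (aE κ) bEs 8) (fun i hi => dh_pos P.nn P.g8 hi) (d, 0) _ mc
      rw [one_grp hO m1 m0 (gC (aE κ) bEs 8) (fun i hi => by
          have h8 : i ≠ 8 := fun e => hi (by rw [e])
          have h6 : i ≠ 6 := fun e => hi (by
            rw [e, gC_eq P.n6 P.n8]; simp [aE, bEs, h1])
          have h7 : i ≠ 7 := fun e => hi (by
            rw [e, gC_eq (by simp [aE, hk]) P.n8]; simp [aE, bEs, h1])
          fin_cases i <;> simp [bE] at h6 h7 h8 ⊢),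
        h.zero _ (bE x 0 0 0 0) (fun i hi => by
          rcases key i hi with rfl | rfl | rfl <;> simp [bE]),
        h.loc _ (bE x a 0 0 d) (Tn (aE κ) bEs (d, 0) + bl (a - d) 0 0 (a - d) 0) (fun i hi => by
          rcases key i hi with rfl | rfl | rfl <;> simp [bE, bl, Tn, aE, bEs, h1]), hs,
        h.rate _ _ mT d (fun i hi => by
          rcases key i hi with rfl | rfl | rfl <;> simp [Tn, dhC, aE, bEs, h1]),
        h.loc _ (bl (a - d) 0 0 (a - d) 0) (Pi.single 8 (a - d)) (fun i hi => by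
          rcases key i hi with rfl | rfl | rfl <;> simp [bl]),
        hom_single hL hO hom P.g8 c1 (fun i hi => by
          rcases key i hi with rfl | rfl | rfl <;> simp [bl]) a0, e8]
      ring
    have e1 := s9 x a b c d hd hda hax hb hbx hc hcx
    have e2 := s0 x a c d hd hda hax hc hcx
    linarith
  · -- two groups
    refine ⟨r (gC (aE κ) bEs 6) / κ, div_nonneg (rt_nonneg hO P.nn P.g6) hκ.le, ?_⟩
    have key8 : ∀ i, gC (aE κ) bEs i = gC (aE κ) bEs 8 → i = 8 := fun i hi => by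
      rcases mem_8 hκ hi with h | ⟨h, -⟩
      · exact h
      · exact absurd h h1
    have key6 : ∀ i, gC (aE κ) bEs i = gC (aE κ) bEs 6 → i = 6 ∨ i = 7 := fun i hi =>
      mem_6 hκ h1 hi
    have e8 : r (gC (aE κ) bEs 8) = 1 := by
      refine le_antisymm ?_ r8
      have m0 : bl 1 0 0 0 0 ∈ coneN := hL _ (bl_legal zero_le_one le_rfl le_rfl zero_le_one
        le_rfl zero_le_one le_rfl zero_le_one)
      have m1 : bl 1 0 0 1 0 ∈ coneN := hL _ (bl_legal zero_le_one le_rfl le_rfl zero_le_one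
        zero_le_one le_rfl le_rfl zero_le_one)
      have e1 := (h.mono (gC (aE κ) bEs 8) _ m0 _ m1 (fun i _ => by
        fin_cases i <;> simp [bl])).2
      have e2 : ∑ i ∈ Finset.univ.filter (fun i => gC (aE κ) bEs i = gC (aE κ) bEs 8),
          (bl 1 0 0 1 0 i - bl 1 0 0 0 0 i) ≤ 1 := by
        refine (Finset.sum_le_sum_of_subset_of_nonneg (Finset.subset_univ _)
          (fun i _ _ => by fin_cases i <;> simp [bl])).trans ?_
        simp [Fin.sum_univ_succ, bl]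
      rw [h.zero _ (bl 1 0 0 0 0) (fun i hi => by rw [key8 i hi]; simp [bl]),
        h.rate _ _ m1 1 (fun i hi => by rw [key8 i hi]; simp [bl, dhC, aE])] at e1
      linarith
    intro x a b c d hd hda hax hb hbx hc hcx
    have hx : 0 ≤ x := hb.trans hbx
    have m1 := bE_mem hd hda hax le_rfl hx le_rfl hx
    have m2 := bE_mem (x := x) (a := a) (b := 0) (c := 0) (d := 0) le_rfl (hd.trans hda) hax
      le_rfl hx le_rfl hx
    have m0 := bE_mem (x := x) (a := 0) (b := 0) (c := 0) (d := 0) le_rfl le_rfl hx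
      le_rfl hx le_rfl hx
    have e3 : lam (bE x a 0 0 d) - lam (bE x a 0 0 0) = -(r (gC (aE κ) bEs 6) / κ * d) := by
      rw [one_grp hO m1 m2 (gC (aE κ) bEs 6) (fun i hi => by
          have h6 : i ≠ 6 := fun e => hi (by rw [e])
          have h7 : i ≠ 7 := fun e => hi (by
            rw [e, gC_eq (by simp [aE, hk]) P.n6]; simp [aE, bEs])
          fin_cases i <;> simp [bE] at h6 h7 ⊢),
        h.rate _ _ m1 (d / κ) (fun i hi => by
          rcases key6 i hi with rfl | rfl <;> simp [bE, dhC, aE, hk]),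
        h.zero _ (bE x a 0 0 0) (fun i hi => by
          rcases key6 i hi with rfl | rfl <;> simp [bE])]
      ring
    have e4 : lam (bE x a 0 0 0) - lam (bE x 0 0 0 0) = -a := by
      rw [one_grp hO m2 m0 (gC (aE κ) bEs 8) (fun i hi => by
          have h8 : i ≠ 8 := fun e => hi (by rw [e])
          fin_cases i <;> simp [bE] at h8 ⊢),
        h.rate _ _ m2 a (fun i hi => by
          rw [key8 i hi]; simp [bE, dhC, aE]),
        h.zero _ (bE x 0 0 0 0) (fun i hi => by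
          rw [key8 i hi]; simp [bE]), e8]
      ring
    have e1 := s9 x a b c d hd hda hax hb hbx hc hcx
    have e2 := s0 x a c d hd hda hax hc hcx
    linarith

/-- density of the level slots -/
theorem dens_of (hκ : 0 < κ)
    (h : OutA (gC (aE κ) bEs) coneN (aE κ) bEs (dhC (aE κ) bEs) (nC (aE κ) bEs) lam A φ r)
    (h0 : lam 0 = 0) {x : ℝ} (hx : 0 ≤ x) : lam ![x, x, x, 0, x, x, x, x, x, x, x] ≤
      lam ![0, x, 0, 0, 0, x, x, x, x, x, x] + lam ![x, 0, x, 0, x, 0, 0, 0, 0, 0, 0] := by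
  have P := plE hκ
  have m0 : (0 : Fin 11 → ℝ) ∈ coneN := by
    refine memN ?_ ?_ ?_ ?_ ?_ ?_ ?_ ?_ ?_ ?_ <;> simp
  have m1 : (![0, x, 0, 0, 0, x, x, x, x, x, x] : Fin 11 → ℝ) ∈ coneN := by
    refine memN ?_ ?_ ?_ ?_ ?_ ?_ ?_ ?_ ?_ ?_ <;>
      simp only [Matrix.cons_val, Fin.isValue] <;> linarith
  have m2 : (![x, 0, x, 0, x, 0, 0, 0, 0, 0, 0] : Fin 11 → ℝ) ∈ coneN := by
    refine memN ?_ ?_ ?_ ?_ ?_ ?_ ?_ ?_ ?_ ?_ <;>
      simp only [Matrix.cons_val, Fin.isValue] <;> linarith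
  have m3 : (![x, x, x, 0, x, x, x, x, x, x, x] : Fin 11 → ℝ) ∈ coneN := by
    refine memN ?_ ?_ ?_ ?_ ?_ ?_ ?_ ?_ ?_ ?_ <;>
      simp only [Matrix.cons_val, Fin.isValue] <;> linarith
  have hs := split2 h.toOutS m0 m1 m2 m3 (by
    intro k
    by_cases hk : k = gC (aE κ) bEs 0
    · left
      intro i hi
      rcases mem_z hκ (by rw [hi, hk]) with rfl | rfl | rfl <;> simp
    · right
      intro i hi
      have h0 : i ≠ 0 := fun e => hk (by rw [← hi, e])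
      have h2 : i ≠ 2 := fun e => hk (by rw [← hi, e, P.g02])
      have h4 : i ≠ 4 := fun e => hk (by
        rw [← hi, e, gC_eq (by simp [aE, hκ.ne']) P.n0]; simp [aE, bEs])
      fin_cases i <;> simp at h0 h2 h4 ⊢)
  rw [h0] at hs
  linarith

/-- **the numbers** -/
theorem numE_of (hκ : 0 < κ)
    (h : OutA (gC (aE κ) bEs) coneN (aE κ) bEs (dhC (aE κ) bEs) (nC (aE κ) bEs) lam A φ r)
    (hom : ∀ k, k ≠ 0 → ∀ c ∈ coneN, ∀ s : ℝ, 0 ≤ s → φ k (s • c) = s * φ k c)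
    (h0 : lam 0 = 0)
    (own : ∀ c ∈ coneN, ∀ c' ∈ coneN, c ≤ c' → (∀ i, c i = 0) → c' 0 - c 0 ≤ lam c - lam c')
    (rz : 1 ≤ r (gC (aE κ) bEs 0)) (r8 : 1 ≤ r (gC (aE κ) bEs 8))
    (h8 : φ (gC (aE κ) bEs 8) (Pi.single 8 1) ≤ -1) {m : ℝ} (hm : 0 < m)
    (sw : m ≤ lam (bl 1 0 0 0 0) - lam (bl 1 1 0 0 0)) :
    A.1 ≤ -(4 + κ + κ) ∨ ∃ y m β : ℝ, NumE lam y m β := by
  have P := plE hκ
  have hO := h.toOutS
  have hL : ∀ p, Legal monQ p → p ∈ coneN := fun p hp => legal_coneN hp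
  have htot := tot3 hO P.nn (i := 0) (j := 8) (l := 9) P.n0 P.n8 P.n9 P.g08 P.g09 P.g89
  by_cases hy : 2 ≤ r (gC (aE κ) bEs 9) / (1 + κ)
  · left
    rw [le_div_iff₀ (by linarith)] at hy
    linarith
  rw [not_le] at hy
  right
  obtain ⟨β, hβ, hf⟩ := form_of hκ h hom h8 r8
  refine ⟨r (gC (aE κ) bEs 9) / (1 + κ), r 0, β, ?_⟩
  have m0 : bl 1 0 0 0 0 ∈ coneN := hL _ (bl_legal zero_le_one le_rfl le_rfl zero_le_one
    le_rfl zero_le_one le_rfl zero_le_one)
  have m1 : bl 1 1 0 0 0 ∈ coneN := hL _ (bl_legal zero_le_one zero_le_one le_rfl zero_le_one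
    le_rfl zero_le_one le_rfl zero_le_one)
  have e0 : lam (bl 1 0 0 0 0) - lam (bl 1 1 0 0 0) = r 0 := by
    rw [one_grp hO m0 m1 0 (fun i hi => by
        have h5 : i ≠ 5 := fun e => hi (by rw [e]; exact P.g5)
        fin_cases i <;> simp [bl] at h5 ⊢),
      h.rate _ _ m1 1 (fun i hi => by
        rcases mem_zero hκ hi with rfl | rfl | rfl <;> simp [bl, dhC, aE, bEs]),
      h.zero _ (bl 1 0 0 0 0) (fun i hi => by
        rcases mem_zero hκ hi with rfl | rfl | rfl <;> simp [bl])]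
    ring
  have e1 := (h.mono 0 _ m0 _ m1 (fun i _ => by fin_cases i <;> simp [bl])).2
  have e2 : ∑ i ∈ Finset.univ.filter (fun i => gC (aE κ) bEs i = 0),
      (bl 1 1 0 0 0 i - bl 1 0 0 0 0 i) ≤ 1 := by
    refine (Finset.sum_le_sum_of_subset_of_nonneg (Finset.subset_univ _)
      (fun i _ _ => by fin_cases i <;> simp [bl])).trans ?_
    simp [Fin.sum_univ_succ, bl]
  rw [h.zero _ (bl 1 0 0 0 0) (fun i hi => by
      rcases mem_zero hκ hi with rfl | rfl | rfl <;> simp [bl]),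
    h.rate _ _ m1 1 (fun i hi => by
      rcases mem_zero hκ hi with rfl | rfl | rfl <;> simp [bl, dhC, aE, bEs])] at e1
  exact {
    y0 := div_nonneg (rt_nonneg hO P.nn P.g9) (by linarith)
    y2 := hy
    m0 := by linarith
    m1 := by linarith
    β0 := hβ
    form := hf
    dens := fun x hx => dens_of hκ h h0 hx
    frost := fun y hy' => by
      have c0 : (0 : Fin 11 → ℝ) ∈ coneN := by
        refine memN ?_ ?_ ?_ ?_ ?_ ?_ ?_ ?_ ?_ ?_ <;> simp
      have c1 : (Pi.single 0 y : Fin 11 → ℝ) ∈ coneN := by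
        refine memN ?_ ?_ ?_ ?_ ?_ ?_ ?_ ?_ ?_ ?_ <;> simp [Pi.single_apply, hy']
      have := own 0 c0 _ c1 (by
        intro k
        by_cases hk : k = 0
        · subst hk; simpa using hy'
        · rw [Pi.single_eq_of_ne hk]; exact le_rfl) (fun _ => rfl)
      rw [h0] at this
      simp at this
      linarith }

end num

/-- **piece (B) of the window half of case E** -/
theorem numsE {η : ℝ} (hη : η ≤ 1 / 8) : NumsE η := by
  intro p D I1 π eE fA fB V T w0 R T0 PD ν own c₀ h hp hrec hcone ξ x hh lam A φ r P hom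
  obtain ⟨v2, v3, h02⟩ := hp
  have ok := h.tp.ok
  have h1 := ok.θ1
  have sl := h.tp.slots
  have k2 : 0 < p.θ 1 - p.θ 2 := by simpa [btQ] using (sl.vis 2 v2).2
  have t2 : T 2 := by
    by_contra hc
    exact absurd (sl.cap 2 v2 hc).1 (by decide)
  have hM := maQ_nat (θ := p.θ) w0 (R - 1) (p.θ 1 - p.θ 2) (p.θ 1 - p.θ 2)
    (by rw [sB_bEs h1 h02]; simp [bEs])
  have hS1 := fun (c : Fin 11 → ℝ) hc y hy hcy hb => P.S1 (by simp [sA, nL]) (by simp [sB, nL])
    hrec (c := c) hc (y := y) hy hcy hb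
  have aew := P.aew
  have hO := P.out
  unfold Tb628.Hom at hom
  have b2 : sB p.θ (p.θ 1 - p.θ 2) (p.θ 1 - p.θ 2) 2 = 0 := by rw [sB_bEs h1 h02]; simp [bEs]
  set Ma := actM monQ (s0 w0 (R - 1)) (sA (p.θ 1 - p.θ 2) (p.θ 1 - p.θ 2))
    (sB p.θ (p.θ 1 - p.θ 2) (p.θ 1 - p.θ 2)) with hMa
  rw [sB_bEs h1 h02, sA_aE] at aew hO hom hS1
  rw [sB_bEs h1 h02] at b2
  set κ := p.θ 1 - p.θ 2 with hκ
  have PP := plE k2
  have hM' : MaE Ma := ⟨by rw [mv_25]; exact hM.m625, by rw [mv_05]; exact hM.m805,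
    by rw [mv_06]; exact hM.m906, by rw [mv_28]; exact hM.m928, by rw [mv_01]; exact hM.m701⟩
  have homk : ∀ k, k ≠ 0 → ∀ c ∈ coneM Ma, ∀ s : ℝ, 0 ≤ s → φ k (s • c) = s * φ k c :=
    fun k hk c hc s hs => hom k (fun i hi => dh_pos PP.nn hk hi) c hc s hs
  have blN : ∀ {t xa : ℝ}, 0 ≤ t → t ≤ 1 → 0 ≤ xa → xa ≤ 1 → bl 1 t 0 xa 0 ∈ coneM Ma :=
    fun {t xa} ht _ hx hx1 => by
      rw [hcone]
      exact legal_coneN (bl_legal zero_le_one ht le_rfl zero_le_one hx hx1 le_rfl zero_le_one)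
  have hsw : ∀ t xa : ℝ, 0 ≤ t → t ≤ 1 → 0 ≤ xa → xa ≤ 1 →
      p.q 1 * t ≤ lam (bl 1 0 0 xa 0) - lam (bl 1 t 0 xa 0) := by
    intro t xa ht ht1 hx hx1
    have e : bl 1 0 0 xa 0 + eCa t = bl 1 t 0 xa 0 := by
      funext i
      fin_cases i <;> simp [bl, eCa]
    have := hS1 (bl 1 0 0 xa 0) (blN le_rfl zero_le_one hx hx1) t ht
      (by rw [e]; exact blN ht ht1 hx hx1) (by
        intro k hk1 hk2
        fin_cases k <;> simp [aE, bEs, bl, k2.ne'] at hk1 hk2 ⊢)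
    rw [e] at this
    exact this
  have row := base_row (f := fun n x => GeoQ186.scl (uH D.B D.lev w0 n) (uA D.B D.lev D.w w0 n)
      (uB D.B D.lev D.w w0 n) (uY D.B D.lev D.w w0 n) (incQ π D.L eE fA fB n x))
    aew (fun n i _ j _ => rfl) h.ext.ne hM' PP
    (by rw [hcone]; exact aE_mem κ) (fun k hk => ?_) ⟨t2, b2⟩ zero_le_two homk ok.g0.2 hsw
  · obtain ⟨rz, r8, -, h8, -⟩ := row
    have ownN : ∀ c ∈ coneM Ma, ∀ c' ∈ coneM Ma, c ≤ c' → (∀ i, c i = 0) →
        c' 0 - c 0 ≤ lam c - lam c' := fun c hc c' hc' hcc h0 => by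
      have := aew.own c hc c' hc' hcc fun k _ => by rw [h0, h0, mul_zero]
      linarith
    have h00 := aew.zero
    rw [hcone] at ownN hO homk
    refine numE_of k2 hO homk h00 ownN rz r8 h8 ok.g0.2 ?_
    have := hsw 1 0 zero_le_one le_rfl le_rfl zero_le_one
    linarith
  · rcases (sl.vis k hk.1).1 with rfl | rfl | rfl <;> simp

end Crest.Agent.R136.NmE107
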