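import Crest.Agent.R136.WinE4_323

/-!
# R136 (S0187), row E, window half, piece (A), end (helper323)

* `profE_of` : the profile.
* `FWin.rig_inc`, **`rigInc : RigInc`**.
-/

set_option autoImplicit false
set_option linter.unusedSectionVars false
set_option linter.unusedVariables false

open Filter Topology

namespace Crest.Agent.R136.WinE323

open Finset
open Crest.Agent.R136.Sh605
open Crest.Agent.R136.Net186
open Crest.Agent.R136.NetQ186
open Crest.Agent.R136.Qg926
open Crest.Agent.R136.Net191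
open Crest.Agent.R138.Ex926 (Base U cls mem_cls le_count_mul)
open Crest.Agent.R136.Gf356
open Crest.Agent.R136.RgE344
open Crest.Agent.R136.Xb403 (stP POk)
open Crest.Agent.R136.Wq400 (kapQ wtQ)
open Crest.Agent.R136.Wk323 (tq s4 s4_tq tq_ne tq_s4 uu nI st coQ_st co4_nrm lrep lrep_spec Tight nrm
  Unit4 Near4 co4_lip coA coA_eq abs_mul_le fAll TightX tight_units wtR sub_lip)
open Crest.Agent.R136.Wk323.LWin (lT lfb mem_rep mem_lrep mem_zrep)

/-! ### the boxes -/

theorem cut_qE {top : Fin 11 → ℝ} {x a b c d : ℝ} (h0 : top 0 = x) (h2 : top 2 = x)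
    (h4 : top 4 = x) : cut ({0, 2, 4} : Finset (Fin 11)) (qE a b c d) top = bE x a b c d := by
  funext s
  unfold cut
  fin_cases s <;> simp [qE, bE, h0, h2, h4]

theorem legal_bE {x a b c d : ℝ} (hx : 0 ≤ x) (ha : 0 ≤ a) (hax : a ≤ x) (hb : 0 ≤ b)
    (hbx : b ≤ x) (hc : 0 ≤ c) (hd : 0 ≤ d) (hdx : d ≤ x) : Legal monQ (bE x a b c d) := by
  refine legalQ_iff.2 ⟨fun k => ?_, ?_, ?_, ?_, ?_, ?_, ?_, ?_, ?_, ?_, ?_, ?_⟩
  · fin_cases k <;> simp [bE] <;> assumption
  all_goals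
    simp only [bE, Matrix.cons_val, Fin.isValue]
    linarith

theorem bE_le {x a b c d : ℝ} (hx : 0 ≤ x) (hax : a ≤ x) (hbx : b ≤ x) (hcx : c ≤ x)
    (hdx : d ≤ x) (s : Fin 11) : bE x a b c d s ≤ x := by
  fin_cases s <;> simp [bE] <;> assumption

variable {ι : ℕ → Type*} [∀ n, DecidableEq (ι n)]

/-- **the profile of the window** -/
theorem profE_of {W : Wnd 11 ι} {x y m β : ℝ} (hx : 0 < x) (eS : W.S = {0, 2, 4})
    (t3 : W.top 3 = 0) (top : ∀ s, s ≠ 3 → W.top s = x) (hMw : ∀ k, W.Mw.mon k ⊆ monQ.mon k)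
    (eR : W.R' = x) (N : NumE W.lam y m β) : ProfE (isoL W) W.nu x y m β where
  x0 := hx
  y0 := N.y0
  y2 := N.y2
  m0 := N.m0
  m1 := N.m1
  β0 := N.β0
  leg := by
    intro a b c d a0 ax b0 bx c0 cx d0 dx
    have hcut : cut W.S (qE a b c d) W.top = bE x a b c d := by
      rw [eS]; exact cut_qE (top 0 (by decide)) (top 2 (by decide)) (top 4 (by decide))
    have hl := legal_bE hx.le a0 ax b0 bx c0 d0 dx
    refine ⟨⟨?_, ?_⟩, ?_, ?_, ?_, ?_, ?_⟩
    · rw [hcut]
      exact ⟨⟨hl.nonneg, fun k e he => hl.wall k e (hMw k he)⟩, fun s => by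
        rw [eR]; exact bE_le hx.le ax bx cx dx s⟩
    · intro s hs
      by_cases h3 : s = 3
      · subst h3; rw [t3]; simp [qE]
      · rw [top s h3]
        rw [eS] at hs
        revert hs h3
        fin_cases s <;> simp [qE] <;> linarith
    · simp [qE]
    · simp [qE]
    · rw [eS]; intro s hs
      have : s = 0 ∨ s = 2 ∨ s = 4 := by simpa using hs
      rcases this with rfl | rfl | rfl <;> simp [qE]
    · simp [qE]
    · simp [qE]
  form := by
    intro a b c d d0 da ax b0 bx c0 cx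
    have hcut : ∀ a b c d : ℝ, cut W.S (qE a b c d) W.top = bE x a b c d := fun a b c d => by
      rw [eS]; exact cut_qE (top 0 (by decide)) (top 2 (by decide)) (top 4 (by decide))
    show W.lam (cut W.S (qE a b c d) W.top) - W.lam W.top =
      (W.lam (cut W.S (qE 0 0 0 0) W.top) - W.lam W.top) - _
    rw [hcut, hcut, N.form x a b c d d0 da ax b0 bx c0 cx]
    ring

/-- lines and level cells are independent -/
theorem dens_of {W : Wnd 11 ι} {x y m β : ℝ} (hx : 0 ≤ x) (eS : W.S = {0, 2, 4})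
    (t3 : W.top 3 = 0) (top : ∀ s, s ≠ 3 → W.top s = x) (N : NumE W.lam y m β) :
    W.lam W.top ≤ W.lam (cut W.S W.top 0) + W.lam (cut W.S 0 W.top) := by
  have e : ∀ s, W.top s = if s = 3 then 0 else x := fun s => by
    split_ifs with h
    · rw [h, t3]
    · exact top s h
  have e1 : W.top = ![x, x, x, 0, x, x, x, x, x, x, x] := by
    funext s
    rw [e]
    fin_cases s <;> simp
  have e2 : cut W.S W.top 0 = ![0, x, 0, 0, 0, x, x, x, x, x, x] := by
    rw [eS, e1]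
    funext s
    unfold cut
    fin_cases s <;> simp
  have e3 : cut W.S 0 W.top = ![x, 0, x, 0, x, 0, 0, 0, 0, 0, 0] := by
    rw [eS, e1]
    funext s
    unfold cut
    fin_cases s <;> simp
  rw [e2, e3, e1]
  exact N.dens x hx

namespace FWin

variable {W : Wnd 11 ι} {F : ∀ n, ι n → Fq4} {x : ℝ} (H : FWin W F x)

include H

/-- coordinates in the frame of the base incidence -/
theorem crd_eq {n : ℕ} (y : ι n) (s : Fin 10) :
    W.crd n (W.s₀ n) y (tq s) = co4 (Wk323.st (F n (W.s₀ n))) (Wk323.st (F n y)) s / uu W n s := by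
  unfold Wnd.crd
  rw [H.co, Wk323.coQ_st (H.str n _) (H.str n y) (Wk323.tq_ne s), Wk323.s4_tq]
  rfl

theorem nI_e {n : ℕ} (y : ι n) : (nI W F n y).e = W.crd n (W.s₀ n) y 2 := (H.crd_eq y 1).symm
theorem nI_fb {n : ℕ} (y : ι n) : (nI W F n y).fb = W.crd n (W.s₀ n) y 3 := (H.crd_eq y 2).symm
theorem nI_fa {n : ℕ} (y : ι n) : (nI W F n y).fa = W.crd n (W.s₀ n) y 4 := (H.crd_eq y 3).symm

/-- **RIG_E on incidences** -/
theorem rig_inc {y m β θ θ' : ℝ} (hθ0 : 0 < θ') (hθ' : θ' < θ) (hθx : θ' < x)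
    (hRig : RigAtE x y m β θ) (P : ProfE (isoL W) W.nu x y m β)
    (hdens : W.lam W.top ≤ W.lam (cut W.S W.top 0) + W.lam (cut W.S 0 W.top))
    (hfrost : ∀ y, 0 ≤ y → y ≤ x → W.lam (Pi.single W.kz y) ≤ -y)
    {E : ∀ n, Finset (ι n)} {Mu : ℕ → ℝ} (hE : Wnd.EOk W E Mu) :
    ∀ ε : ℝ, 0 < ε → ∀ᶠ n in (U : Filter ℕ), ∃ G' ⊆ E n,
      W.B'.d n ^ ε * ((E n).card : ℝ) ≤ (G'.card : ℝ) ∧ RelF W n (W.B'.d n ^ θ') G' := by
  have ht0 : W.top W.kz = x := by rw [H.kz]; exact H.top 0 (by decide)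
  obtain ⟨E', g, hP, -, hM⟩ := hE.exists_model H.ok (fun _ => pcode W) (g₀ := fun n => (n : ℝ))
    (tendsto_natCast_atTop_atTop.mono_left Crest.Agent.R138.Ex926.U_le_atTop) hdens (σ := 1)
    (R := x) zero_le_one le_rfl (by rw [ht0]) (fun y hy hyx => by rw [one_mul]; exact hfrost y hy hyx)
  have hcfg := Wnd.ev_cfg H.ok hE hP
  have hE2 : ∀ᶠ n in (U : Filter ℕ), E' n ⊆ W.Cl n ∧ W.cfg E' n = W.cfg0 n (E' n) := by
    filter_upwards [hcfg] with n ⟨g1, h1, h2, h3⟩
    exact ⟨(hP.sub n).trans h1, h3⟩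
  have hA := H.absE hE2
  have hM' := H.rmodel hE2 hM
  have hR := hRig W.B' (fun n => wr (W.cfg E' n) (relF W F n)) (isoL W) W.nu _ x _ _ _ _ hM' le_rfl
    hA P
  intro ε hε
  have hε7 : 0 < ε / 7 := by positivity
  set κ := min (θ - θ') (x - θ') with hκ
  have hκ0 : 0 < κ := lt_min (sub_pos.2 hθ') (sub_pos.2 hθx)
  filter_upwards [hR _ hε7, pairs_pull H.ok hE hP hdens hε7, hE2, H.ok.ev_good, H.tight,
    Crest.Agent.R136.Gf356.ev_const_le W.B' hκ0 100] with n ⟨u, e0, c0, hu1, I', hI', hcard, hrel⟩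
    h1 ⟨h2, h3⟩ gd hu hc
  change I' ⊆ (W.cfg E' n).I at hI'
  change W.B'.d n ^ (ε / 7) * ((W.cfg E' n).I.card : ℝ) ≤ (I'.card : ℝ) at hcard
  refine ⟨(E' n).filter fun i => (W.lc n i, W.zc n i) ∈ I', (filter_subset _ _).trans (hP.sub n),
    ?_, u 0, u 1, e0, hu1, fun y hy => ?_⟩
  · have := h1 I' hI' hcard
    rwa [show 7 * (ε / 7) = ε by ring] at this
  have hpos : ∀ t : ℝ, 0 < W.B'.d n ^ t := fun t => Real.rpow_pos_of_pos (W.B'.pos n) t
  obtain ⟨hy1, hy2⟩ := mem_filter.1 hy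
  have hyc := h2 hy1
  obtain ⟨b1', b2'⟩ := mem_zrep hyc rfl
  obtain ⟨-, d2, d4⟩ := H.levC gd hu hyc b1' b2'.symm
  obtain ⟨r1, -⟩ := hrel _ _ hy2
  rw [← H.nI_e, ← H.nI_fa, ← H.nI_fb]
  obtain ⟨q0, q1⟩ := EWin.unit_le hu1
  set δ := W.B'.d n ^ x with hδ
  have e1 : 100 * W.B'.d n ^ θ ≤ W.B'.d n ^ θ' := by
    have := mul_le_mul_of_nonneg_right hc (hpos θ).le
    refine this.trans ?_
    rw [← Real.rpow_add (W.B'.pos n)]
    exact Real.rpow_le_rpow_of_exponent_ge (W.B'.pos n) (W.B'.lt n).le (by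
      have := min_le_left (θ - θ') (x - θ'); linarith)
  have e2 : 100 * δ ≤ W.B'.d n ^ θ' := by
    have := mul_le_mul_of_nonneg_right hc (hpos x).le
    refine this.trans ?_
    rw [← Real.rpow_add (W.B'.pos n)]
    exact Real.rpow_le_rpow_of_exponent_ge (W.B'.pos n) (W.B'.lt n).le (by
      have := min_le_right (θ - θ') (x - θ'); linarith)
  have hδ0 : 0 < δ := hpos x
  set e := (nI W F n y).e with he
  set ez := (nI W F n (W.zrep n (W.zc n y))).e
  set gz := (mI (nI W F n (W.zrep n (W.zc n y)))).fa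
  have hG : (nI W F n y).fa + (nI W F n y).fb * e = (mI (nI W F n y)).fa := rfl
  rw [hG]
  set gy := (mI (nI W F n y)).fa
  change |u 0 * ez + u 1 * (gz + 0 * ez) - e0| ≤ _ at r1
  have g1 : |u 0 * (ez - e)| ≤ 1 * δ := abs_mul_le q0 d2
  have g2 : |u 1 * (gz - gy)| ≤ 1 * (2 * δ) := abs_mul_le q1 d4
  have z4 : u 0 * e + u 1 * gy - e0 = (u 0 * ez + u 1 * (gz + 0 * ez) - e0) -
      u 0 * (ez - e) - u 1 * (gz - gy) := by ring
  rw [z4]
  have t1 := abs_sub ((u 0 * ez + u 1 * (gz + 0 * ez) - e0) - u 0 * (ez - e)) (u 1 * (gz - gy))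
  have t2 := abs_sub (u 0 * ez + u 1 * (gz + 0 * ez) - e0) (u 0 * (ez - e))
  have := hpos θ
  linarith

end FWin

/-- **piece (A)** -/
theorem rigInc : RigInc := by
  intro x y m β θ θ' K C Ma B B' I J co F Y w D T lam Cl s₀ h0 h1 h2 hR N hco hstr hK1 hK hsub hY hok
  have hx : 0 < x := h0.trans h2
  set W := (stE K x Ma).wnd B B' I J co monQ C Y w D T lam Cl s₀ with hW
  have top3 : W.top 3 = 0 := by
    show (if (3 : Fin 11) ∈ rsE then x else 0) = 0
    rw [if_neg (by unfold rsE; decide)]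
  have top : ∀ s, s ≠ 3 → W.top s = x := by
    intro s hs
    show (if s ∈ rsE then x else 0) = x
    rw [if_pos]
    revert hs
    unfold rsE
    fin_cases s <;> decide
  have H : FWin W F x :=
    { ok := hok
      co := hco
      str := hstr
      S := rfl
      kz := rfl
      tight := by
        filter_upwards [hY] with n hn
        have e : uu W n = fun s : Fin 10 => K ^ wtR (tq s) * B.d n ^ Y n (tq s) := by
          funext s
          show K ^ wtQ (tq s) * B.d n ^ Y n (tq s) = _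
          have e1 : wtQ (tq s) = wtR (tq s) := by fin_cases s <;> rfl
          rw [e1]
        rw [e]
        exact tight_units (lt_of_lt_of_le one_pos hK1) (B.pos n) hn
      kap := fun s => by
        show 2 * cK0 monQ C ≤ K ^ wtQ s
        refine hK.trans (le_self_pow₀ hK1 ?_)
        fin_cases s <;> decide
      x0 := hx.le
      top3 := top3
      top := top }
  exact H.rig_inc h0 h1 h2 hR (profE_of hx rfl top3 top (fun k => hsub k) rfl N)
    (dens_of hx.le rfl top3 top N) (fun y hy _ => N.frost y hy) hok.eok_class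

end Crest.Agent.R136.WinE323
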