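import Crest.Agent.R136.LA5_501

/-!
# R136 [RIG_E]: **Lemma A** (for helper344), part 6 (helper501)

`lemA`: lines `(x l, c l, p l)` and heights `(z k, f k)`; if two lines which meet at `k` satisfy
`p l' - p l = f k * (c l' - c l)` (up to `δ ^ (1 - ε)`), the lines of a pencil are spread in `c`
(exponent `m > 0`) and the heights are spread in `z` (exponent `1`), then on a `δ ^ (C ε)`-part of the
incidences `f k = μ z k + c0` and `p l + μ x l = c0 c l + q0` up to a power `δ ^ θ`, `θ = θ(m)`.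
-/

set_option autoImplicit false
set_option linter.unusedVariables false
set_option linter.unusedSectionVars false

open Finset

namespace Crest.Agent.R136.LA501

/-- **LEMMA A** -/
theorem lemA {m : ℝ} (hm : 0 < m) (hm1 : m ≤ 1) : ∃ θ : ℝ, 0 < θ ∧ ∃ C : ℝ, 1 ≤ C ∧
    ∃ ε₀ : ℝ, 0 < ε₀ ∧ ∀ ε : ℝ, 0 < ε → ε ≤ ε₀ → ∃ δ₀ : ℝ, 0 < δ₀ ∧ ∀ δ : ℝ, 0 < δ → δ ≤ δ₀ →
    ∀ (L Z : Finset ℕ) (I : Finset (ℕ × ℕ)) (z f x c p : ℕ → ℝ), I ⊆ L ×ˢ Z → I.Nonempty →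
      δ ^ ε * L.card * Z.card ≤ (I.card : ℝ) →
      (∀ k ∈ Z, |z k| ≤ 1 ∧ |f k| ≤ 1) →
      (∀ l ∈ L, |x l| ≤ 2 ∧ |c l| ≤ 1 ∧ |p l| ≤ 1) →
      (∀ k ∈ Z, ∀ r : ℝ, δ ≤ r → r ≤ 1 →
        ((Z.filter fun k' => |z k' - z k| ≤ r).card : ℝ) ≤ δ ^ (-ε) * r * Z.card) →
      (∀ l k : ℕ, (l, k) ∈ I → ∀ r : ℝ, δ ≤ r → r ≤ 2 →
        ((L.filter fun l' => (l', k) ∈ I ∧ |(x l' + z k * c l') - (x l + z k * c l)| ≤ δ ∧
          |c l' - c l| ≤ r).card : ℝ) ≤ δ ^ (-ε) * δ * r ^ m * L.card) →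
      (∀ l l' k : ℕ, (l, k) ∈ I → (l', k) ∈ I →
        |(x l' + z k * c l') - (x l + z k * c l)| ≤ δ →
        |p l' - p l - f k * (c l' - c l)| ≤ δ ^ (1 - ε)) →
      ∃ μ c0 q0 : ℝ, |μ| ≤ δ ^ (-(C * ε)) ∧ ∃ I' ⊆ I, δ ^ (C * ε) * L.card * Z.card ≤ (I'.card : ℝ) ∧
        ∀ l k : ℕ, (l, k) ∈ I' → |f k - μ * z k - c0| ≤ δ ^ θ ∧
          |p l + μ * x l - c0 * c l - q0| ≤ δ ^ θ := by
  obtain ⟨M, hM⟩ : ∃ M : ℕ, 1 / m ≤ M := exists_nat_ge _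
  have hMm : 1 ≤ (M : ℝ) * m := by rw [div_le_iff₀ hm] at hM; exact hM
  obtain ⟨a, c₀, ha, ha1, hc₀, HS⟩ := strip hm hm1
  set c1 : ℝ := min c₀ (a / 64) with hc1
  have hc10 : 0 < c1 := lt_min hc₀ (by positivity)
  have hc1a : c1 ≤ a / 64 := min_le_right _ _
  obtain ⟨ε₁, hε₁, HS⟩ := HS c1 hc10 (min_le_left _ _)
  set K : ℕ := (4 * M + 16) * M with hK
  set K2 : ℝ := 3 * (K : ℝ) + 108 * M + 27 with hK2
  have hK20 : 0 < K2 := by positivity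
  refine ⟨a / 5, by positivity, 108 * M + 169, by
    have : (0 : ℝ) ≤ M := Nat.cast_nonneg _
    linarith, min (ε₁ / 3) (min (1 / (4 * K2)) (c1 / K2)), by positivity, fun ε hε hεε => ?_⟩
  have e1 : 3 * ε ≤ ε₁ := by
    have : ε ≤ ε₁ / 3 := hεε.trans (min_le_left _ _)
    linarith
  have e2 : K2 * ε ≤ 1 / 4 := by
    have : ε ≤ 1 / (4 * K2) := hεε.trans ((min_le_right _ _).trans (min_le_left _ _))
    calc K2 * ε ≤ K2 * (1 / (4 * K2)) := mul_le_mul_of_nonneg_left this hK20.le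
      _ = _ := by field_simp
  have e3 : K2 * ε ≤ c1 := by
    have : ε ≤ c1 / K2 := hεε.trans ((min_le_right _ _).trans (min_le_right _ _))
    calc K2 * ε ≤ K2 * (c1 / K2) := mul_le_mul_of_nonneg_left this hK20.le
      _ = _ := by field_simp
  have hKε : 0 ≤ (K : ℝ) * ε := by positivity
  have hMε : 0 ≤ (M : ℝ) * ε := by positivity
  have hexp : K2 * ε = 3 * (K * ε) + 108 * (M * ε) + 27 * ε := by rw [hK2]; ring
  obtain ⟨δ₁, hδ₁, HS⟩ := HS (3 * ε) (by positivity) e1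
  obtain ⟨d1, hd1, hd11, HD1⟩ := exists_small_rpow (t := ε) (b := 1 / 100) hε (by norm_num)
  obtain ⟨d2, hd2, hd21, HD2⟩ := exists_small_rpow (t := 1 / 2) (b := 1 / 2) (by norm_num)
    (by norm_num)
  obtain ⟨d3, hd3, hd31, HD3⟩ := exists_small_rpow (t := c1) (b := 1 / 5) hc10 (by norm_num)
  obtain ⟨d4, hd4, hd41, HD4⟩ := exists_small_rpow (t := a / 20) (b := 1 / 5) (by positivity)
    (by norm_num)
  refine ⟨min δ₁ (min (min d1 d2) (min d3 d4)), by positivity, ?_⟩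
  intro δ hδ hδδ L Z I z f x c p hsub hne hdens hzf hlb hhz hpen hstar
  have hδ1 : δ ≤ δ₁ := hδδ.trans (min_le_left _ _)
  have q1 := HD1 δ hδ (hδδ.trans ((min_le_right _ _).trans ((min_le_left _ _).trans
    (min_le_left _ _))))
  have q2 := HD2 δ hδ (hδδ.trans ((min_le_right _ _).trans ((min_le_left _ _).trans
    (min_le_right _ _))))
  have q3 := HD3 δ hδ (hδδ.trans ((min_le_right _ _).trans ((min_le_right _ _).trans
    (min_le_left _ _))))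
  have q4 := HD4 δ hδ (hδδ.trans ((min_le_right _ _).trans ((min_le_right _ _).trans
    (min_le_right _ _))))
  have hd : δ ≤ 1 := (hδδ.trans ((min_le_right _ _).trans ((min_le_left _ _).trans
    (min_le_left _ _)))).trans hd11
  obtain ⟨⟨l₀, k₀⟩, h₀⟩ := hne
  have hmem := mem_product.1 (hsub h₀)
  have hLn : L.Nonempty := ⟨l₀, hmem.1⟩
  have hZn : Z.Nonempty := ⟨k₀, hmem.2⟩
  have hLc : (0 : ℝ) < L.card := by exact_mod_cast hLn.card_pos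
  have hZc : (0 : ℝ) < Z.card := by exact_mod_cast hZn.card_pos
  have hp : ∀ t : ℝ, 0 < δ ^ t := fun t => Real.rpow_pos_of_pos hδ t
  have hδε : δ ^ (-ε) = 1 / δ ^ ε := by rw [Real.rpow_neg hδ.le, one_div]
  -- raw hypotheses
  have hraw : Raw δ (δ ^ ε) m L Z I z f x c p :=
    { zf := hzf
      lb := hlb
      hz := fun k hk r h1 h2 => (hhz k hk r h1 h2).trans (le_of_eq (by rw [hδε]; ring))
      pen := fun l k hlk r h1 h2 => (hpen l k hlk r h1 h2).trans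
        (le_of_eq (by rw [hδε]; ring))
      star := fun l l' k h1 h2 h3 => (hstar l l' k h1 h2 h3).trans
        (le_of_eq (by rw [Real.rpow_sub hδ, Real.rpow_one])) }
  have hres : (res I L Z) = I := by
    unfold res
    ext q
    rw [mem_filter]
    exact ⟨fun h => h.2, fun h => ⟨hsub h, h⟩⟩
  set e : ℝ := δ ^ (3 * ε) with he
  have he0 : 0 < e := hp _
  have he3 : e = δ ^ ε * δ ^ ε * δ ^ ε := by
    rw [he, ← Real.rpow_add hδ, ← Real.rpow_add hδ]; congr 1; ring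
  have hpw : ∀ n : ℕ, e ^ n = δ ^ (3 * ((n : ℝ) * ε)) := by
    intro n
    rw [he, ← Real.rpow_natCast (δ ^ (3 * ε)) n, ← Real.rpow_mul hδ.le]
    congr 1; ring
  have hδe : δ ≤ e := by
    calc δ = δ ^ (1 : ℝ) := (Real.rpow_one δ).symm
      _ ≤ _ := rp_anti hδ hd (by linarith)
  obtain ⟨L1, hL1, Z1, hZ1, hL1c, hZ1c, H⟩ := hraw.cfg hδ (hp _) q1 hm hm1 hLn hZn (d := δ ^ ε)
    (e' := e) (hp _) (q1.trans (by norm_num)) (by rw [hres]; exact hdens) he0 (by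
      rw [he3, div_eq_mul_inv]
      refine mul_le_mul_of_nonneg_left ?_ (by positivity)
      linarith) hδe
  obtain ⟨μ, g0, w, hμ, hδw, hwa, hmass⟩ := HS δ hδ hδ1 L1 Z1 (res I L1 Z1) z f x c p H
  have hw : 0 < w := hδ.trans_le hδw
  have hw1 : w ≤ 1 := hwa.trans (Real.rpow_le_one hδ.le hd (by positivity))
  -- numbers
  have n0 : ∀ s t : ℝ, s ≤ t → δ ^ t ≤ δ ^ s := fun s t h => rp_anti hδ hd h
  have n1 : δ / e ≤ δ ^ (-c1) * w := by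
    rw [div_le_iff₀ he0]
    have g1 : (1 : ℝ) ≤ δ ^ (-c1) * e := by
      rw [he, ← Real.rpow_add hδ]
      calc (1 : ℝ) = δ ^ (0 : ℝ) := (Real.rpow_zero δ).symm
        _ ≤ _ := n0 _ _ (by linarith)
    calc δ ≤ w := hδw
      _ = 1 * w := (one_mul w).symm
      _ ≤ (δ ^ (-c1) * e) * w := mul_le_mul_of_nonneg_right g1 hw.le
      _ = _ := by ring
  have n2 : |μ| * δ ≤ 2 * (δ ^ (-c1) * w) := by
    calc |μ| * δ ≤ (2 * δ ^ (-c1)) * w := mul_le_mul hμ hδw hδ.le (by have := hp (-c1); positivity)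
      _ = _ := by ring
  have n3 : w ≤ δ ^ (-c1) * w := by
    have : (1 : ℝ) ≤ δ ^ (-c1) := by
      calc (1 : ℝ) = δ ^ (0 : ℝ) := (Real.rpow_zero δ).symm
        _ ≤ _ := n0 _ _ (by linarith)
    calc w = 1 * w := (one_mul w).symm
      _ ≤ _ := mul_le_mul_of_nonneg_right this hw.le
  have n4 : 5 * δ ^ (-c1) ≤ δ ^ (-(2 * c1)) := by
    have g1 : δ ^ (-(2 * c1)) = δ ^ (-c1) * δ ^ (-c1) := by
      rw [← Real.rpow_add hδ]; congr 1; ring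
    rw [g1]
    refine mul_le_mul_of_nonneg_right ?_ (hp _).le
    rw [Real.rpow_neg hδ.le, ← one_div, le_div_iff₀ (hp _)]
    linarith
  have hKexp : 3 * ((K : ℝ) * ε) ≤ c1 := by linarith
  have hKexp' : 3 * ((K : ℝ) * ε) ≤ 1 / 4 := by linarith
  have n5 : δ ^ (1 / 4 : ℝ) ≤ e ^ K := by
    rw [hpw]; exact n0 _ _ hKexp'
  have n6 : δ ^ (1 / 4 : ℝ) ≤ w ^ (1 / 4 : ℝ) := Real.rpow_le_rpow hδ.le hδw (by norm_num)
  have hw14 : 0 < w ^ (1 / 4 : ℝ) := Real.rpow_pos_of_pos hw _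
  have hK0 : 0 < e ^ K := by positivity
  have n7 : δ ≤ e ^ K * w ^ (1 / 4 : ℝ) := by
    calc δ = δ ^ (1 : ℝ) := (Real.rpow_one δ).symm
      _ ≤ δ ^ (1 / 4 + 1 / 4 : ℝ) := n0 _ _ (by norm_num)
      _ = δ ^ (1 / 4 : ℝ) * δ ^ (1 / 4 : ℝ) := Real.rpow_add hδ _ _
      _ ≤ _ := mul_le_mul n5 n6 (hp _).le hK0.le
  have n8 : 2 * (δ ^ (-(2 * c1)) * w) / (e ^ K * w ^ (1 / 4 : ℝ)) ≤ δ ^ (a / 4) := by
    rw [div_le_iff₀ (by positivity), hpw]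
    have g1 : w = w ^ (3 / 4 : ℝ) * w ^ (1 / 4 : ℝ) := by
      rw [← Real.rpow_add hw]; norm_num
    have g2 : w ^ (3 / 4 : ℝ) ≤ δ ^ (3 * a / 8) := by
      calc w ^ (3 / 4 : ℝ) ≤ (δ ^ (a / 2)) ^ (3 / 4 : ℝ) :=
            Real.rpow_le_rpow hw.le hwa (by norm_num)
        _ = _ := by rw [← Real.rpow_mul hδ.le]; congr 1; ring
    have g3 : (2 : ℝ) ≤ δ ^ (-c1) := by
      rw [Real.rpow_neg hδ.le, ← one_div, le_div_iff₀ (hp _)]
      linarith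
    have g4 : 2 * (δ ^ (-(2 * c1)) * w ^ (3 / 4 : ℝ)) ≤ δ ^ (a / 4) * δ ^ (3 * ((K : ℝ) * ε)) := by
      calc 2 * (δ ^ (-(2 * c1)) * w ^ (3 / 4 : ℝ))
          ≤ δ ^ (-c1) * (δ ^ (-(2 * c1)) * δ ^ (3 * a / 8)) := by
            refine mul_le_mul g3 (mul_le_mul_of_nonneg_left g2 (hp _).le) ?_ (hp _).le
            have := Real.rpow_pos_of_pos hw (3 / 4)
            have := hp (-(2 * c1))
            positivity
        _ = δ ^ (-c1 + (-(2 * c1) + 3 * a / 8)) := by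
            rw [← Real.rpow_add hδ, ← Real.rpow_add hδ]
        _ ≤ δ ^ (a / 4 + 3 * ((K : ℝ) * ε)) := n0 _ _ (by linarith)
        _ = _ := Real.rpow_add hδ _ _
    calc 2 * (δ ^ (-(2 * c1)) * w) = 2 * (δ ^ (-(2 * c1)) * w ^ (3 / 4 : ℝ)) * w ^ (1 / 4 : ℝ) := by
          rw [mul_assoc 2, mul_assoc (δ ^ (-(2 * c1))), ← g1]
      _ ≤ (δ ^ (a / 4) * δ ^ (3 * ((K : ℝ) * ε))) * w ^ (1 / 4 : ℝ) :=
          mul_le_mul_of_nonneg_right g4 hw14.le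
      _ = _ := by ring
  have hhalf : ∀ n : ℕ, 3 * ((n : ℝ) * ε) ≤ 1 / 2 → 2 * δ ≤ e ^ n := by
    intro n hn
    rw [hpw]
    have g1 : δ = δ ^ (1 / 2 : ℝ) * δ ^ (1 / 2 : ℝ) := by
      rw [← Real.rpow_add hδ]; norm_num
    calc 2 * δ = (2 * δ ^ (1 / 2 : ℝ)) * δ ^ (1 / 2 : ℝ) := by rw [mul_assoc, ← g1]
      _ ≤ 1 * δ ^ (1 / 2 : ℝ) := mul_le_mul_of_nonneg_right (by linarith) (hp _).le
      _ = δ ^ (1 / 2 : ℝ) := one_mul _
      _ ≤ _ := n0 _ _ hn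
  have h4M : 2 * δ ≤ e ^ (4 * M) := hhalf _ (by push_cast; linarith)
  have h9 : 2 * δ ≤ e ^ 9 := hhalf _ (by push_cast; linarith)
  have h94 : 2 * δ ≤ (e ^ 9) ^ (4 * M) := by
    rw [← pow_mul]
    exact hhalf _ (by push_cast; linarith)
  have n9 : δ / e ^ 9 + |μ| * δ + 2 * δ ^ (a / 4) ≤ δ ^ (a / 5) := by
    have g1 : δ / e ^ 9 ≤ δ ^ (a / 4) := by
      rw [div_le_iff₀ (by positivity), hpw, ← Real.rpow_add hδ]
      calc δ = δ ^ (1 : ℝ) := (Real.rpow_one δ).symm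
        _ ≤ _ := n0 _ _ (by push_cast; linarith)
    have g2 : |μ| * δ ≤ 2 * δ ^ (a / 4) := by
      calc |μ| * δ ≤ (2 * δ ^ (-c1)) * δ := mul_le_mul_of_nonneg_right hμ hδ.le
        _ = 2 * (δ ^ (-c1) * δ ^ (1 : ℝ)) := by rw [Real.rpow_one]; ring
        _ = 2 * δ ^ (-c1 + 1) := by rw [← Real.rpow_add hδ]
        _ ≤ _ := mul_le_mul_of_nonneg_left (n0 _ _ (by linarith)) (by norm_num)
    have g3 : 5 * δ ^ (a / 4) ≤ δ ^ (a / 5) := by
      have g4 : δ ^ (a / 4) = δ ^ (a / 20) * δ ^ (a / 5) := by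
        rw [← Real.rpow_add hδ]; congr 1; ring
      rw [g4]
      calc 5 * (δ ^ (a / 20) * δ ^ (a / 5)) = (5 * δ ^ (a / 20)) * δ ^ (a / 5) := by ring
        _ ≤ 1 * δ ^ (a / 5) := mul_le_mul_of_nonneg_right (by linarith) (hp _).le
        _ = _ := one_mul _
    linarith
  obtain ⟨q0, I', hI', hI'c, hμ', hrel⟩ := asm H hMm (μ := μ) (g0 := g0) (w := w)
    (W := δ ^ (-(2 * c1)) * w) (w1 := δ ^ (a / 4)) (W2 := δ ^ (a / 5)) hw hw1 hmass h4M (by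
      have g1 : 5 * δ ^ (-c1) * w ≤ δ ^ (-(2 * c1)) * w := mul_le_mul_of_nonneg_right n4 hw.le
      linarith) n7 n8 (Real.rpow_le_one hδ.le hd (by positivity)) h94 h9 n9
  refine ⟨μ, g0, q0, ?_, I', fun q hq => ?_, ?_, ?_⟩
  · refine hμ'.trans ?_
    rw [hpw, ← Real.rpow_neg hδ.le]
    refine n0 _ _ ?_
    push_cast
    linarith
  · obtain ⟨l, k⟩ := q
    exact (mem_res.1 (hI' hq)).2
  · refine le_trans ?_ hI'c
    have g1 : δ ^ ε * δ ^ ε * (L.card : ℝ) ≤ L1.card := by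
      refine le_trans (mul_le_mul_of_nonneg_right ?_ hLc.le) hL1c
      rw [div_eq_mul_inv]
      exact mul_le_mul_of_nonneg_left (by linarith) (hp _).le
    have g2 : δ ^ ε * δ ^ ε * (Z.card : ℝ) ≤ Z1.card := by
      refine le_trans (mul_le_mul_of_nonneg_right ?_ hZc.le) hZ1c
      rw [div_eq_mul_inv]
      exact mul_le_mul_of_nonneg_left (by linarith) (hp _).le
    have g3 : δ ^ ((108 * (M : ℝ) + 169) * ε) = e ^ (36 * M + 55) * (δ ^ ε * δ ^ ε) *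
        (δ ^ ε * δ ^ ε) := by
      rw [hpw, ← Real.rpow_add hδ, ← Real.rpow_add hδ, ← Real.rpow_add hδ]
      congr 1
      push_cast
      ring
    rw [g3]
    calc e ^ (36 * M + 55) * (δ ^ ε * δ ^ ε) * (δ ^ ε * δ ^ ε) * L.card * Z.card
        = e ^ (36 * M + 55) * ((δ ^ ε * δ ^ ε * L.card) * (δ ^ ε * δ ^ ε * Z.card)) := by ring
      _ ≤ e ^ (36 * M + 55) * (L1.card * Z1.card) := by
          refine mul_le_mul_of_nonneg_left ?_ (by positivity)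
          exact mul_le_mul g1 g2 (by have := hp ε; positivity) (Nat.cast_nonneg _)
      _ = _ := by ring
  · intro l k hlk
    obtain ⟨r1, r2⟩ := hrel l k hlk
    refine ⟨r1.trans (n0 _ _ (by linarith)), r2⟩

end Crest.Agent.R136.LA501
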