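import Crest.Agent.R136.RgE8_344
import Crest.Agent.R136.LA6_501

/-!
# R136 (S0187): RIG_E, final assembly (helper344)
-/

set_option autoImplicit false
set_option linter.unusedVariables false
set_option linter.unusedSectionVars false

open Filter Topology Finset

namespace Crest.Agent.R136.RgE344

open Crest.Agent.R136.Sh605
open Crest.Agent.R138.Ex926 (Base U exists_diag)
open Crest.Agent.R138.Dp76 (Dense)
open Crest.Agent.R136.Gf356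
open Crest.Agent.R136.RgN344
open Crest.Agent.R136.Prn779 (restr RModel.refine)
open Crest.Agent.R136.Wk323 (coA one_le_rpow_neg ev_mul_le)

theorem lemA_all {m : ℝ} (hm : 0 < m) (hm1 : m ≤ 1) : LemA m := by
  obtain ⟨θ, hθ, C, hC, ε₀, hε₀, h⟩ := Crest.Agent.R136.LA501.lemA hm hm1
  refine ⟨θ, hθ, C, hC, ε₀, hε₀, fun ε hε hεε => ?_⟩
  obtain ⟨δ₀, hδ₀, h2⟩ := h ε hε hεε
  refine ⟨δ₀, hδ₀, fun δ hδ hδδ => ?_⟩
  intro L Z I z f x c p h1 h2' h3 h4 h5 h6 h7 h8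
  exact h2 δ hδ hδδ L Z I z f x c p h1 h2' h3 h4 h5 h6 h7 h8

/-- the rows step (210) -/
def RowsE : Prop :=
  ∀ (B : Base) (G : ℕ → RCfg (Fin 11)) (Leg : Set (Fin 11 → ℝ)) (ν : (Fin 11 → ℝ) → ℝ)
    (D R x y m β : ℝ) (T : ℕ → ℕ → Ln4) (E fa fb : ℕ → ℕ → ℝ),
    RModel B G 1 R Leg ν D → x ≤ R → AbsE B G x T E fa fb → ProfE Leg ν x y m β → 0 < β →
    ∀ τ : ℝ, 0 < τ → τ ≤ x → ∀ (u : ℕ → Fin 2 → ℝ), (∀ n, u n 0 ^ 2 + u n 1 ^ 2 = 1) →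
    ∀ μ c0 q0 : ℕ → ℝ,
    (∀ ε : ℝ, 0 < ε → ∀ᶠ n in (U : Filter ℕ), ∀ l k, (l, k) ∈ (G n).I →
      |u n 0 * eE E fa fb n k 0 + u n 1 * eE E fa fb n k 1 - μ n * (G n).z k - c0 n| ≤
        B.d n ^ (τ - ε) ∧
      |u n 0 * wE T n l 0 + u n 1 * wE T n l 1 + μ n * (T n l).p 1 - c0 n * (T n l).v 1 - q0 n| ≤
        B.d n ^ (τ - ε)) →
    (∀ ε : ℝ, 0 < ε → ∀ᶠ n in (U : Filter ℕ), |μ n| ≤ B.d n ^ (-ε)) →
    ∀ ε : ℝ, 0 < ε → ∀ᶠ n in (U : Filter ℕ), |μ n| ≤ B.d n ^ ((2 - y) * τ - ε)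

/-- the strips step (501) -/
def StripsAll : Prop :=
  ∀ (B : Base) (G : ℕ → RCfg (Fin 11)) (Leg : Set (Fin 11 → ℝ)) (ν : (Fin 11 → ℝ) → ℝ)
    (D R x y m β : ℝ) (T : ℕ → ℕ → Ln4) (E fa fb : ℕ → ℕ → ℝ),
    RModel B G 1 R Leg ν D → x ≤ R → AbsE B G x T E fa fb → ProfE Leg ν x y m β → 0 < β →
    ∀ s : ℝ, 0 < s → s < x * (1 - y / 2) → StripsE B G s T E fa fb

variable {B : Base} {G : ℕ → RCfg (Fin 11)} {Leg : Set (Fin 11 → ℝ)} {ν : (Fin 11 → ℝ) → ℝ}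
  {D R x y m β : ℝ} {T : ℕ → ℕ → Ln4} {E fa fb : ℕ → ℕ → ℝ}

/-- the absolute window of a part of the incidences -/
theorem AbsE.restr (A : AbsE B G x T E fa fb) {I' : ℕ → Finset (ℕ × ℕ)}
    (h : ∀ n, I' n ⊆ (G n).I) :
    AbsE B (fun n => restr (G n) (I' n)) x T E fa fb where
  bd := by
    filter_upwards [A.bd] with n hn l k hlk using hn l k (h n hlk)
  bdr := by
    filter_upwards [A.bdr] with n hn k i l hi hl s using hn k i l (h n hi) (h n hl) s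
  rel := fun ε hε => by
    filter_upwards [A.rel ε hε] with n hn k i l hi hl s hs using hn k i l (h n hi) (h n hl) s hs

/-- `ρ^ε #L #Z` is at least `ρ^ε #I` -/
theorem dens_I (H : RUnif B G Leg ν D) {n : ℕ} {ε c : ℝ}
    (h : B.d n ^ ε * (((G n).L.card : ℝ) * ((G n).Z.card : ℝ)) ≤ c) :
    B.d n ^ ε * ((G n).I.card : ℝ) ≤ c := by
  refine le_trans (mul_le_mul_of_nonneg_left ?_ (rpos B n _).le) h
  have := Finset.card_le_card (H.sub n)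
  rw [Finset.card_product] at this
  exact_mod_cast this

/-- **RIG_E, `β = 0`** -/
theorem rig_zero (H : RModel B G 1 R Leg ν D) (hxR : x ≤ R) (A : AbsE B G x T E fa fb)
    (P : ProfE Leg ν x y m 0) {s : ℝ} (hs : 0 < s) (hsx : s ≤ x) {θ C ε₀ : ℝ} (hθ : 0 < θ)
    (hC : 1 ≤ C) (hε₀ : 0 < ε₀)
    (hLA : ∀ ε : ℝ, 0 < ε → ε ≤ ε₀ → ∃ δ₀ : ℝ, 0 < δ₀ ∧ ∀ δ : ℝ, 0 < δ → δ ≤ δ₀ →
      LemAIn m θ C ε δ) {θ' : ℝ} (hθ' : 2 * θ' ≤ s * θ / 2) (hθ'0 : 0 < θ') {ε : ℝ} (hε : 0 < ε) :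
    ∀ᶠ n in (U : Filter ℕ), ∃ (u : Fin 2 → ℝ) (e0 c0 : ℝ),
      u 0 ^ 2 + u 1 ^ 2 = 1 ∧ ∃ I' ⊆ (G n).I, B.d n ^ ε * ((G n).I.card : ℝ) ≤ (I'.card : ℝ) ∧
        ∀ l k, (l, k) ∈ I' →
          |u 0 * eE E fa fb n k 0 + u 1 * eE E fa fb n k 1 - e0| ≤ B.d n ^ θ' ∧
          |u 0 * wE T n l 0 + u 1 * wE T n l 1 - e0 * (T n l).v 1 - c0| ≤ B.d n ^ θ' := by
  obtain ⟨ε₁, hε₁, hε₁ε, h1⟩ := lemA_step H hxR A P hs hsx hθ hC hε₀ hLA hε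
  obtain ⟨ε₂, hε₂, hε₂ε, h2⟩ := lemA_step H hxR A P hs hsx hθ hC hε₀ hLA hε₁
  filter_upwards [h1, h2, star_zero H hxR A P hs hsx hε₂, ev_const_le B hθ'0 2] with n h1 h2 h3 h4
  obtain ⟨I0, hI0, hI0c, hst0, hst1⟩ := h3
  obtain ⟨μ0, a0, b0, _, I1, hI1, hI1c, hr0⟩ := h2 ![1, 0] I0 (by simp) hI0 hI0c hst0
  obtain ⟨μ1, a1, b1, _, I2, hI2, hI2c, hr1⟩ := h1 ![0, 1] I1 (by simp) (hI1.trans hI0) hI1c
    (hst1.mono hI1 hε₂ε)
  -- a unit vector orthogonal to `(μ0, μ1)`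
  obtain ⟨u, hu, huμ⟩ : ∃ u : Fin 2 → ℝ, u 0 ^ 2 + u 1 ^ 2 = 1 ∧ u 0 * μ0 + u 1 * μ1 = 0 := by
    by_cases h0 : μ0 = 0 ∧ μ1 = 0
    · exact ⟨![1, 0], by simp, by simp [h0.1, h0.2]⟩
    · have hpos : 0 < μ0 ^ 2 + μ1 ^ 2 := by
        by_contra hcon
        rw [not_lt] at hcon
        have e0 : μ0 ^ 2 = 0 := le_antisymm (by nlinarith [sq_nonneg μ1]) (sq_nonneg _)
        have e1 : μ1 ^ 2 = 0 := le_antisymm (by nlinarith [sq_nonneg μ0]) (sq_nonneg _)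
        exact h0 ⟨by simpa using e0, by simpa using e1⟩
      set r := Real.sqrt (μ0 ^ 2 + μ1 ^ 2) with hr
      have hr0 : 0 < r := Real.sqrt_pos.2 hpos
      have hr2 : r ^ 2 = μ0 ^ 2 + μ1 ^ 2 := Real.sq_sqrt hpos.le
      refine ⟨![μ1 / r, -μ0 / r], ?_, ?_⟩
      · show (μ1 / r) ^ 2 + (-μ0 / r) ^ 2 = 1
        rw [div_pow, div_pow, ← add_div, neg_sq, add_comm, ← hr2, div_self (by positivity)]
      · show μ1 / r * μ0 + -μ0 / r * μ1 = 0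
        ring
  have hu1 : ∀ j, |u j| ≤ 1 := by
    intro j
    rw [← sq_le_one_iff_abs_le_one]
    fin_cases j
    · show u 0 ^ 2 ≤ 1
      nlinarith [sq_nonneg (u 1)]
    · show u 1 ^ 2 ≤ 1
      nlinarith [sq_nonneg (u 0)]
  have hdot : ∀ (a b M : ℝ), |a| ≤ M → |b| ≤ M → |u 0 * a + u 1 * b| ≤ 2 * M := by
    intro a b M ha hb
    have hM : 0 ≤ M := (abs_nonneg _).trans ha
    refine (abs_add_le _ _).trans ?_
    rw [abs_mul, abs_mul]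
    have e1 : |u 0| * |a| ≤ 1 * M := mul_le_mul (hu1 0) ha (abs_nonneg _) (by norm_num)
    have e2 : |u 1| * |b| ≤ 1 * M := mul_le_mul (hu1 1) hb (abs_nonneg _) (by norm_num)
    linarith
  have herr : 2 * B.d n ^ (s * θ / 2) ≤ B.d n ^ θ' := by
    have e1 : B.d n ^ (s * θ / 2) ≤ B.d n ^ (2 * θ') := rpow_anti B n hθ'
    have e2 : B.d n ^ θ' = B.d n ^ (-θ') * B.d n ^ (2 * θ') := by
      rw [← rpow_add']; congr 1; ring
    rw [e2]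
    exact mul_le_mul h4 e1 (rpos B n _).le (rpos B n _).le
  refine ⟨u, u 0 * a0 + u 1 * a1, u 0 * b0 + u 1 * b1, hu, I2, (hI2.trans hI1).trans hI0,
    dens_I H.toRUnif hI2c, fun l k hlk => ?_⟩
  obtain ⟨r1, r2⟩ := hr0 l k (hI2 hlk)
  obtain ⟨r3, r4⟩ := hr1 l k hlk
  simp only [Matrix.cons_val_zero, Matrix.cons_val_one, one_mul, zero_mul, add_zero,
    zero_add] at r1 r2 r3 r4
  refine ⟨?_, ?_⟩
  · have e1 : u 0 * eE E fa fb n k 0 + u 1 * eE E fa fb n k 1 - (u 0 * a0 + u 1 * a1) =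
        u 0 * (eE E fa fb n k 0 - μ0 * (G n).z k - a0) +
        u 1 * (eE E fa fb n k 1 - μ1 * (G n).z k - a1) + (u 0 * μ0 + u 1 * μ1) * (G n).z k := by
      ring
    rw [e1, huμ, zero_mul, add_zero]
    exact (hdot _ _ _ r1 r3).trans herr
  · have e1 : u 0 * wE T n l 0 + u 1 * wE T n l 1 - (u 0 * a0 + u 1 * a1) * (T n l).v 1 -
        (u 0 * b0 + u 1 * b1) =
        u 0 * (wE T n l 0 + μ0 * (T n l).p 1 - a0 * (T n l).v 1 - b0) +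
        u 1 * (wE T n l 1 + μ1 * (T n l).p 1 - a1 * (T n l).v 1 - b1) -
        (u 0 * μ0 + u 1 * μ1) * (T n l).p 1 := by
      ring
    rw [e1, huμ, zero_mul, sub_zero]
    exact (hdot _ _ _ r2 r4).trans herr

open Classical in
set_option maxHeartbeats 1000000 in
/-- **RIG_E, `β > 0`** -/
theorem rig_pos (hRows : RowsE) (hSt : StripsAll) (H : RModel B G 1 R Leg ν D) (hxR : x ≤ R)
    (A : AbsE B G x T E fa fb) (P : ProfE Leg ν x y m β) (hβ : 0 < β) {s : ℝ} (hs : 0 < s)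
    (hsx : s ≤ x) (hsy : s < x * (1 - y / 2)) {θ C ε₀ : ℝ} (hθ : 0 < θ)
    (hC : 1 ≤ C) (hε₀ : 0 < ε₀)
    (hLA : ∀ ε : ℝ, 0 < ε → ε ≤ ε₀ → ∃ δ₀ : ℝ, 0 < δ₀ ∧ ∀ δ : ℝ, 0 < δ → δ ≤ δ₀ →
      LemAIn m θ C ε δ) {τ θ' : ℝ} (hτ : 0 < τ) (hτs : τ ≤ s) (hτθ : τ ≤ s * θ / 2)
    (hθ' : 2 * θ' ≤ τ) (hθ'2 : 4 * θ' ≤ (2 - y) * τ) (hθ'0 : 0 < θ') {ε : ℝ} (hε : 0 < ε) :
    ∀ᶠ n in (U : Filter ℕ), ∃ (u : Fin 2 → ℝ) (e0 c0 : ℝ),
      u 0 ^ 2 + u 1 ^ 2 = 1 ∧ ∃ I' ⊆ (G n).I, B.d n ^ ε * ((G n).I.card : ℝ) ≤ (I'.card : ℝ) ∧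
        ∀ l k, (l, k) ∈ I' →
          |u 0 * eE E fa fb n k 0 + u 1 * eE E fa fb n k 1 - e0| ≤ B.d n ^ θ' ∧
          |u 0 * wE T n l 0 + u 1 * wE T n l 1 - e0 * (T n l).v 1 - c0| ≤ B.d n ^ θ' := by
  have hStr := hSt B G Leg ν D R x y m β T E fa fb H hxR A P hβ s hs hsy
  -- the relations at every scale of losses
  set Pr : ℕ → ℕ → ((Fin 2 → ℝ) × ℝ × ℝ × ℝ × Finset (ℕ × ℕ)) → Prop := fun j n a =>
    a.1 0 ^ 2 + a.1 1 ^ 2 = 1 ∧ |a.2.1| ≤ B.d n ^ (-(1 / ((j : ℝ) + 1))) ∧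
    a.2.2.2.2 ⊆ (G n).I ∧ B.d n ^ (1 / ((j : ℝ) + 1)) * ((G n).I.card : ℝ) ≤ (a.2.2.2.2.card : ℝ) ∧
    ∀ l k, (l, k) ∈ a.2.2.2.2 →
      |a.1 0 * eE E fa fb n k 0 + a.1 1 * eE E fa fb n k 1 - a.2.1 * (G n).z k - a.2.2.1| ≤
        B.d n ^ τ ∧
      |a.1 0 * wE T n l 0 + a.1 1 * wE T n l 1 + a.2.1 * (T n l).p 1 - a.2.2.1 * (T n l).v 1 -
        a.2.2.2.1| ≤ B.d n ^ τ with hPr
  have hex : ∀ j : ℕ, ∀ᶠ n in (U : Filter ℕ), ∃ a, Pr j n a := by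
    intro j
    have hj : (0 : ℝ) < 1 / ((j : ℝ) + 1) := by positivity
    obtain ⟨ε₁, hε₁, hε₁ε, h1⟩ := lemA_step H hxR A P hs hsx hθ hC hε₀ hLA hj
    filter_upwards [h1, star_pos H hxR A P hβ hs hsx hStr hε₁] with n h1 h3
    obtain ⟨u, I0, hu, hI0, hI0c, hst⟩ := h3
    obtain ⟨μ, c0, q0, hμ, I1, hI1, hI1c, hr⟩ := h1 u I0 hu hI0 hI0c hst
    refine ⟨(u, μ, c0, q0, I1), hu, hμ, hI1.trans hI0, dens_I H.toRUnif hI1c, fun l k hlk => ?_⟩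
    obtain ⟨r1, r2⟩ := hr l k hlk
    exact ⟨r1.trans (rpow_anti B n hτθ), r2.trans (rpow_anti B n hτθ)⟩
  obtain ⟨j, hj, hj2⟩ := exists_diag (fun j n => ∃ a, Pr j n a) hex
  set a : ℕ → ((Fin 2 → ℝ) × ℝ × ℝ × ℝ × Finset (ℕ × ℕ)) := fun n =>
    if h : ∃ a, Pr (j n) n a then h.choose else (![1, 0], 0, 0, 0, ∅) with ha
  have haP : ∀ᶠ n in (U : Filter ℕ), Pr (j n) n (a n) := by
    filter_upwards [hj2] with n hn
    have h := hn (j n) le_rfl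
    show Pr (j n) n (if h : ∃ a, Pr (j n) n a then h.choose else (![1, 0], 0, 0, 0, ∅))
    rw [dif_pos h]
    exact h.choose_spec
  have hau : ∀ n, (a n).1 0 ^ 2 + (a n).1 1 ^ 2 = 1 := by
    intro n
    by_cases h : ∃ a, Pr (j n) n a
    · have : a n = h.choose := dif_pos h
      rw [this]
      exact h.choose_spec.1
    · have : a n = (![1, 0], 0, 0, 0, ∅) := dif_neg h
      rw [this]
      simp
  have hjs : ∀ η : ℝ, 0 < η → ∀ᶠ n in (U : Filter ℕ), 1 / ((j n : ℝ) + 1) ≤ η := by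
    intro η hη
    have h6 := (tendsto_one_div_add_atTop_nhds_zero_nat.comp hj).eventually_lt_const hη
    filter_upwards [h6] with n hn using hn.le
  have hJ : Dense B (fun n => (a n).2.2.2.2) (fun n => (G n).I) := by
    refine ⟨?_, fun η hη => ?_⟩
    · filter_upwards [haP] with n hn using hn.2.2.1
    · filter_upwards [haP, hjs η hη] with n hn h2
      refine le_trans ?_ hn.2.2.2.1
      exact mul_le_mul_of_nonneg_right (rpow_anti B n h2) (Nat.cast_nonneg _)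
  obtain ⟨I', hI'1, hI'2, hI'3, H'⟩ := RModel.refine H hJ
  have hI'D : Dense B I' (fun n => (G n).I) := hI'3.trans hJ
  have A' := A.restr hI'1
  have hμ0 : ∀ ε : ℝ, 0 < ε → ∀ᶠ n in (U : Filter ℕ), |(a n).2.1| ≤ B.d n ^ (-ε) := by
    intro ε hε
    filter_upwards [haP, hjs ε hε] with n hn h2
    exact hn.2.1.trans (rpow_anti B n (by linarith))
  have h2y : 0 < (2 - y) * τ / 2 := by
    have := P.y2
    have h2 : 0 < 2 - y := by linarith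
    positivity
  have hμ := hRows B (fun n => restr (G n) (I' n)) Leg ν D R x y m β T E fa fb H' hxR A' P hβ
    τ hτ (hτs.trans hsx) (fun n => (a n).1) hau (fun n => (a n).2.1) (fun n => (a n).2.2.1)
    (fun n => (a n).2.2.2.1) (by
      intro ε hε
      filter_upwards [haP, hI'2] with n hn h2 l k hlk
      obtain ⟨r1, r2⟩ := hn.2.2.2.2 l k (h2 hlk)
      exact ⟨r1.trans (rpow_anti B n (by linarith)), r2.trans (rpow_anti B n (by linarith))⟩)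
    hμ0 _ h2y
  filter_upwards [hμ, haP, hI'2, hI'D.2 ε hε, ev_const_le B hθ'0 3, bdsE H A] with n g1 g2 g3 g4 g5 g6
  obtain ⟨b1, b2, b3⟩ := g6
  have hpos : ∀ t : ℝ, 0 < B.d n ^ t := fun t => rpos B n t
  have hbig : B.d n ^ θ' = B.d n ^ (-θ') * B.d n ^ (2 * θ') := by
    rw [← rpow_add']; congr 1; ring
  have herr : 3 * B.d n ^ (2 * θ') ≤ B.d n ^ θ' := by
    rw [hbig]
    exact mul_le_mul_of_nonneg_right g5 (hpos _).le
  have hτ' : B.d n ^ τ ≤ B.d n ^ (2 * θ') := rpow_anti B n hθ'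
  have hμ' : |(a n).2.1| ≤ B.d n ^ (2 * θ') := g1.trans (rpow_anti B n (by linarith))
  refine ⟨(a n).1, (a n).2.2.1, (a n).2.2.2.1, hau n, I' n, hI'1 n, g4, fun l k hlk => ?_⟩
  obtain ⟨r1, r2⟩ := g2.2.2.2.2 l k (g3 hlk)
  have hlk' := hI'1 n hlk
  obtain ⟨hlL, hkZ⟩ := Finset.mem_product.1 (H.sub n hlk')
  have m1 : |(a n).2.1 * (G n).z k| ≤ B.d n ^ (2 * θ') := by
    rw [abs_mul]
    calc _ ≤ B.d n ^ (2 * θ') * 1 := mul_le_mul hμ' (b2 k hkZ).1 (abs_nonneg _) (hpos _).le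
      _ = _ := mul_one _
  have m2 : |(a n).2.1 * (T n l).p 1| ≤ B.d n ^ (2 * θ') * 2 := by
    rw [abs_mul]
    exact mul_le_mul hμ' (b3 l hlL).1 (abs_nonneg _) (hpos _).le
  refine ⟨?_, ?_⟩
  · have e1 : (a n).1 0 * eE E fa fb n k 0 + (a n).1 1 * eE E fa fb n k 1 - (a n).2.2.1 =
        ((a n).1 0 * eE E fa fb n k 0 + (a n).1 1 * eE E fa fb n k 1 - (a n).2.1 * (G n).z k -
          (a n).2.2.1) + (a n).2.1 * (G n).z k := by ring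
    rw [e1]
    exact (abs_add_le _ _).trans (by linarith [hpos (2 * θ')])
  · have e1 : (a n).1 0 * wE T n l 0 + (a n).1 1 * wE T n l 1 - (a n).2.2.1 * (T n l).v 1 -
        (a n).2.2.2.1 = ((a n).1 0 * wE T n l 0 + (a n).1 1 * wE T n l 1 +
          (a n).2.1 * (T n l).p 1 - (a n).2.2.1 * (T n l).v 1 - (a n).2.2.2.1) -
          (a n).2.1 * (T n l).p 1 := by ring
    rw [e1]
    exact (abs_sub _ _).trans (by linarith)

/-- **RIG_E** from the rows and the strips -/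
theorem rigE_of (hRows : RowsE) (hSt : StripsAll) : RigE' := by
  intro x y m β hx hy hy2 hm hm1 hβ
  obtain ⟨θ, hθ, C, hC, ε₀, hε₀, hLA⟩ := lemA_all hm hm1
  have h1y : 0 < 1 - y / 2 := by linarith
  have h2y : 0 < 2 - y := by linarith
  set s : ℝ := x * (1 - y / 2) / 2 with hs
  have hs0 : 0 < s := by positivity
  have hsy : s < x * (1 - y / 2) := by
    have : 0 < x * (1 - y / 2) := by positivity
    linarith
  have hsx : s ≤ x := by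
    have : x * (1 - y / 2) ≤ x * 1 := mul_le_mul_of_nonneg_left (by linarith) hx.le
    linarith
  set τ : ℝ := min s (s * θ / 2) with hτ
  have hτ0 : 0 < τ := lt_min hs0 (by positivity)
  set θ' : ℝ := min (τ / 2) ((2 - y) * τ / 4) with hθ'
  have hθ'0 : 0 < θ' := lt_min (by positivity) (by positivity)
  have hθ'1 : 2 * θ' ≤ τ := by
    have := min_le_left (τ / 2) ((2 - y) * τ / 4)
    linarith
  have hθ'2 : 4 * θ' ≤ (2 - y) * τ := by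
    have := min_le_right (τ / 2) ((2 - y) * τ / 4)
    linarith
  have hτs : τ ≤ s := min_le_left _ _
  have hτθ : τ ≤ s * θ / 2 := min_le_right _ _
  refine ⟨θ', hθ'0, ?_⟩
  intro B G Leg ν D R T E fa fb H hxR A P ε hε
  rcases hβ.eq_or_lt with h0 | h0
  · subst h0
    exact rig_zero H hxR A P hs0 hsx hθ hC hε₀ hLA (hθ'1.trans hτθ) hθ'0 hε
  · exact rig_pos hRows hSt H hxR A P h0 hs0 hsx hsy hθ hC hε₀ hLA hτ0 hτs hτθ hθ'1 hθ'2 hθ'0 hε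

end Crest.Agent.R136.RgE344
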