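import Crest.Agent.R136.RgR4_210
import Crest.Agent.R136.RgE9_344

/-!
# R136 (S0187): RIG_E: the Prop `RowsE` of `RgE9_344` (helper210)
-/

set_option autoImplicit false

namespace Crest.Agent.R136.RgR210

open Crest.Agent.R136.RgE344

theorem rows_all : RowsE := by
  intro B G Leg ν D R x y m β T E fa fb H hxR A P hβ τ hτ hτx u hu μ c0 q0 hrel hμ
  exact rowsE H hxR A P hβ hτ hτx u hu μ c0 q0 hrel hμ

/-- **RIG_E** from the strips -/
theorem rigE_of_strips (hSt : StripsAll) : RigE' := rigE_of rows_all hSt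

end Crest.Agent.R136.RgR210
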