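import Crest.Agent.R136.WkES5_501
import Crest.Agent.R136.RgR5_210

/-!
# R136 (S0187): RIG_E, unconditional (helper501; pieces of helper344, helper210, helper356)
-/

set_option autoImplicit false

namespace Crest.Agent.R136.StripE501

open Crest.Agent.R136.RgE344

/-- **RIG_E** -/
theorem rigE' : RigE' := Crest.Agent.R136.RgR210.rigE_of_strips strips_all

end Crest.Agent.R136.StripE501
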