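import Crest.Agent.R136.WinC3_344
import Crest.Agent.R136.WkES6_501
import Crest.Agent.R136.WinE5_323
import Crest.Agent.R136.NmE1_107

/-! R136, case E: `Re436.WinE η` for `η ≤ 1/8`, with no hypotheses left. -/

namespace Crest.Agent.R136.WinC344

theorem winE {η : ℝ} (hη : η ≤ 1/8) : Re436.WinE η :=
  winE_of hη StripE501.rigE' WinE323.rigInc (NmE107.numsE hη)

end Crest.Agent.R136.WinC344
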