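import Crest.Agent.R136.Z2i_403
import Crest.Agent.R136.LabC_371

/-!
# R136, case Z2: `LabZ` from helper926's window statement (helper403)

* `WinLab` : the conclusion of `LabH.window` at the source of `Thick`
* **`labZ_of_win`** : `WinLab` ⊢ `LabZ`
* **`z2_win`** : `WinLab` ⊢ `False` in case Z2
-/

set_option autoImplicit false
set_option linter.unusedVariables false

open Finset Filter Topology

namespace Crest.Agent.R136.Z2e403

open Crest.Agent.R138.Ex926 (Base U)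
open Crest.Agent.R136.Net191
open Crest.Agent.R136.NetQ186
open Crest.Agent.R136.Qg926
open Crest.Agent.R136.Wq638
open Crest.Agent.R136.NatT550
open Crest.Agent.R136.NatR550 (nL DN rec_eq)
open Crest.Agent.R136.Top484
open Crest.Agent.R136.LdF3511
open Crest.Agent.R136.Lab926 (natB pdB WinH)
open Crest.Agent.R136.LabC371 (WinE winH_of_ev)

theorem natB_nat4 (w0 R v t1 t2 t3 : ℝ) : natB w0 R v t1 t2 t3 = nat4 w0 R v t1 t2 t3 := rfl

theorem pdB_pdZ (κ : ℝ) : pdB (1 + κ) 1 = pdZ κ := rfl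

/-- helper926's window statement -/
def WinLab (p : Par4) (D : Dat4) (I1 : ℕ → Finset (ℕ × ℝ))
    (co : ∀ n : ℕ, ℕ × ℝ → ℕ × ℝ → Fin 11 → ℝ) (V : Fin 11 → Prop) (w0 R T0 : ℝ)
    (ν : (Fin 11 → ℝ) → ℝ) (c₀ v1 γ : ℝ) : Prop :=
  ∃ S : ℕ → ℝ, D.B.Sub S ∧ (∀ n, 1 ≤ S n) ∧ ∀ (B' : Base) (J : ℕ → Finset (ℕ × ℝ)) (SJ : ℕ → ℝ)
    (X : ℕ → Fin 11 → ℝ) (wn : ℕ → ℝ) (DD' : Set (Fin 11 → ℝ)) (TT : ℕ → ℝ)
    (lam : (Fin 11 → ℝ) → ℝ) (R1 v t1 t2 t3 : ℕ → ℝ) (kN k1 : ℝ),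
    WinH D.B B' D.I I1 J co p.θ w0 R T0 (ownQ p.θ w0 R V) S SJ X wn DD' TT lam R1 v t1 t2 t3 kN
      k1 v1 γ → ∀ ε : ℝ, 0 < ε → ∀ᶠ n in (U : Filter ℕ),
    ν (X n) + wn n * (lam (pdB k1 kN) + 3 * k1 + kN - ε) ≤ c₀ + (p.g * v n + (1 - v n) -
      ((v n + t3 n) + (v n + t2 n) + (v n + t1 n)) -
        (p.q 0 * t3 n + p.q 1 * t1 n + p.q 2 * t2 n))

/-- the small number of the window -/
noncomputable def gZ (θ1 v : ℝ) : ℝ := min (θ1 * ((1 - v) / 2)) ((1 - v) / 2)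

/-- **`LabZ` from the window statement** -/
theorem labZ_of_win {p : Par4} {D : Dat4} {I1 : ℕ → Finset (ℕ × ℝ)}
    {co : ∀ n : ℕ, ℕ × ℝ → ℕ × ℝ → Fin 11 → ℝ} {V : Fin 11 → Prop} {w0 R T0 : ℝ}
    {ν : (Fin 11 → ℝ) → ℝ} {c₀ v : ℝ} (hT0 : 0 ≤ T0) (hθ : 0 < p.θ 1)
    (hκ : 0 < p.θ 1 - p.θ 2) (h1 : v < 1)
    (W : WinLab p D I1 co V w0 R T0 ν c₀ ((1 + v) / 2) (gZ (p.θ 1) v)) :
    LabZ p D I1 co V w0 R ν c₀ v := by
  obtain ⟨S, hS, S1, hW⟩ := W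
  refine ⟨S, hS, ?_⟩
  intro B' J x σ w DD TT lamX hSB hz hJ hSJ' hw hF hpd hrel ε hε
  obtain ⟨SJ, hSJ, hd⟩ := hSJ'
  have hg0 : 0 < gZ (p.θ 1) v := lt_min (mul_pos hθ (by linarith)) (by linarith)
  have g1 : gZ (p.θ 1) v ≤ p.θ 1 * ((1 - v) / 2) := min_le_left _ _
  have g2 : gZ (p.θ 1) v ≤ (1 - v) / 2 := min_le_right _ _
  have hE : WinE D.B B' D.I I1 J co p.θ w0 R T0 (ownQ p.θ w0 R V) S SJ
      (fun n => x n + w n • cX (p.θ 1 - p.θ 2)) w DD TT lamX (fun _ => R - 1)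
      (fun n => v + σ n - w n) (fun n => -(p.θ 1 * (v + σ n)))
      (fun n => -(p.θ 2 * (v + σ n)) - (p.θ 1 - p.θ 2) * w n)
      (fun n => -(p.θ 0 * (v + σ n))) 1 (1 + (p.θ 1 - p.θ 2)) ((1 + v) / 2) (gZ (p.θ 1) v) :=
    { hz := hz
      sub := Eventually.of_forall hJ
      dense := hd
      hSJ := hSJ
      hS := hSB
      S1 := S1
      wlim := hw
      hv1 := by linarith
      hγ := hg0
      ev := by
        filter_upwards [hF] with n h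
        refine ⟨h.leg, fun k hk => h.nat k hk, h.nat3, h.v0, h.v1, g1.trans h.γ, h.h12, ?_⟩
        have := h.tR
        linarith
      tby := by
        filter_upwards [hF] with n h
        exact h.h20
      tres := by
        filter_upwards [hF] with n h
        exact h.h0
      own0 := by
        filter_upwards [hF] with n h
        exact h.own
      own1 := by
        filter_upwards [hF] with n h
        exact h.own'
      pdD := hpd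
      kN0 := one_pos
      kNk := by linarith
      rel := fun ε' hε' => by
        filter_upwards [hrel ε' hε'] with n hn s hs
        obtain ⟨μ, hμ, hμ2⟩ := hn s hs
        refine ⟨μ, 0, 0, hμ, ?_, fun y hy hl => ?_⟩
        · rw [abs_zero]; exact Real.rpow_nonneg (B'.pos n).le _
        · rw [zero_mul, sub_zero, sub_zero]
          exact hμ2 y hy hl }
  obtain ⟨X', R1', v', t1', t2', t3', he, hH⟩ := winH_of_ev hE
  filter_upwards [he, hW B' J SJ X' w DD TT lamX R1' v' t1' t2' t3' 1 (1 + (p.θ 1 - p.θ 2)) hH ε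
    hε] with n hn key
  obtain ⟨e1, e2, e3, e4, e5, e6⟩ := hn
  rw [e1, e3, e4, e5, e6, pdB_pdZ] at key
  unfold DN
  linarith

/-- **Z2 from the window statement** -/
theorem z2_win (hKM : ∀ V : ℝ, Crest.Agent.R138.Tub70.KM32 V)
    {η : ℝ} {p : Par4} {D : Dat4} {I1 : ℕ → Finset (ℕ × ℝ)} {π : Equiv.Perm (Fin 3)}
    {eE fA fB : ℕ → ℕ × ℝ → ℝ} {V T : Fin 11 → Prop} {w0 R T0 : ℝ} {PD : Set (Fin 11 → ℝ)}
    {ν own : (Fin 11 → ℝ) → ℝ} {c₀ : ℝ}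
    (h : Thick η p D I1 π eE fA fB V T w0 R T0 PD ν own c₀)
    (hp : V 2 ∧ ¬ V 3 ∧ ¬ V 4 ∧ p.θ 0 = p.θ 1) (hη : η ≤ 1 / 8) {v : ℝ} (h0 : 0 < v)
    (h1 : v < 1)
    (W : WinLab p D I1 (couQ D.B D.lev D.w w0 (incQ π D.L eE fA fB)) V w0 R T0 ν c₀
      ((1 + v) / 2) (gZ (p.θ 1) v)) : False := by
  obtain ⟨hκ, -, -⟩ := z2_par h hp hη
  exact z2_lab hKM h hp hη h0 h1 (labZ_of_win h.tp.big.T0 h.tp.ok.θ1 hκ h1 W)

end Crest.Agent.R136.Z2e403
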