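import Crest.Agent.R136.Z2j_57
import Crest.Agent.R136.C2p_400

/-!
# R136, case (C2z) (helper57): `FC2` and the row
-/

set_option autoImplicit false
set_option linter.unusedVariables false
set_option linter.unusedSectionVars false

open Filter Topology

namespace Crest.Agent.R136.Z2H57

open Crest.Agent.R136.Net191
open Crest.Agent.R136.NetQ186
open Crest.Agent.R136.NatR550
open Crest.Agent.R136.Aw413
open Crest.Agent.R138.Ex926 (Base U)

theorem single5_mem {x : ℝ} (hx : 0 ≤ x) : (Pi.single 5 x : Fin 11 → ℝ) ∈ coneN := by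
  simp only [coneN, Set.mem_ofPred_eq]
  refine ⟨?_, ?_, ?_, ?_, ?_, ?_, ?_, ?_, ?_, ?_⟩ <;> simp [hx]

theorem single26_mem {x : ℝ} (hx : 0 ≤ x) :
    (Pi.single 2 x + Pi.single 6 x : Fin 11 → ℝ) ∈ coneN := by
  simp only [coneN, Set.mem_ofPred_eq]
  refine ⟨?_, ?_, ?_, ?_, ?_, ?_, ?_, ?_, ?_, ?_⟩ <;> simp [hx]

theorem smul_uC (x : ℝ) : x • uC = Pi.single 5 x := by
  funext k
  fin_cases k <;> simp [uC]

theorem smul_uB (x : ℝ) : x • uB = Pi.single 2 x + Pi.single 6 x := by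
  funext k
  fin_cases k <;> simp [uB]

/-- the sweeps at the origin -/
theorem sweeps0 {Ma : Mons 11} {lam : (Fin 11 → ℝ) → ℝ} (hcone : coneM Ma = coneN)
    (h1 : S1L (coneM Ma) lam) (h2 : S2L (coneM Ma) lam) : ∃ c : ℝ, 0 < c ∧
      (∀ x : ℝ, 0 ≤ x → x ≤ 1 → c * x ≤ lam 0 - lam (Pi.single 5 x)) ∧
      (∀ x : ℝ, 0 ≤ x → x ≤ 1 → c * x ≤ lam 0 - lam (Pi.single 2 x + Pi.single 6 x)) := by
  obtain ⟨c1, hc1, H1⟩ := h1
  obtain ⟨c2, hc2, H2⟩ := h2
  refine ⟨min c1 c2, lt_min hc1 hc2, fun x hx _ => ?_, fun x hx _ => ?_⟩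
  · have := H1 0 zero_mem rfl x hx (by rw [zero_add, smul_uC, hcone]; exact single5_mem hx)
    rw [zero_add, smul_uC] at this
    exact (mul_le_mul_of_nonneg_right (min_le_left _ _) hx).trans this
  · have := H2 0 zero_mem rfl rfl le_rfl x hx
      (by rw [zero_add, smul_uB, hcone]; exact single26_mem hx)
    rw [zero_add, smul_uB] at this
    exact (mul_le_mul_of_nonneg_right (min_le_right _ _) hx).trans this

/-- **F-half of (C2z)** for every `κ > 0` (slope `1/2`), from 400's `c2_all` -/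
theorem fc2 (κ : ℝ) (hκ : 0 < κ) : FC2 κ (1 / 2) := by
  intro B I J co f Ma C lam A φ r κo V Tw hC hco hcone hne hout hhom h k0 k3 hV hTw h1 h2
  obtain ⟨c, hc, S1, S2⟩ := sweeps0 hcone h1 h2
  exact C2p400.c2_all (f := f) hκ (by norm_num) (by norm_num) (Or.inr (by norm_num)) h hcone
    (fun n i _ j _ => hco n i j) hne (fun k hk => Or.inr ((hV k).1 hk)) ((hTw 3).2 rfl) hc S1 S2

/-- **case (C2z)** of the thick table, unconditional -/
theorem caseC2z' {η : ℝ} (hη : η ≤ 1 / 8) : TopB550.Dead η TopB550.pC2z :=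
  caseC2z hη fun κ hκ => ⟨1 / 2, fc2 κ hκ⟩

end Crest.Agent.R136.Z2H57
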