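import Crest.Agent.R138.KMs_630
import Crest.Agent.R136.TopB_550
import Crest.Agent.R136.HR12_829
import Crest.Agent.R136.C1e_865
import Crest.Agent.R136.C1sH_940
import Crest.Agent.R136.C2p_400
import Crest.Agent.R136.Z2k_57
import Crest.Agent.R136.D2f_272
import Crest.Agent.R136.C3h_795
import Crest.Agent.R136.Dl5_667
import Crest.Agent.R136.LadF_115
import Crest.Agent.R136.F2z_569
import Crest.Agent.R136.ReE8_436
import Crest.Agent.R136.WinE9_344
import Crest.Agent.R136.TL4_196
import Crest.Agent.R136.End19_882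
import Crest.Agent.R136.Z2j_403
import Crest.Agent.R136.LabH_371
import Crest.Agent.R136.LabW10_926

/-!
# R136: the thick table (helper774)

All rows plugged into `TopB550.ThickTable`.

* **`thickTable (0 < η) (η ≤ 1 / 8) : ThickTable η`**
-/

set_option autoImplicit false
set_option linter.unusedVariables false

open Finset Filter Topology

namespace Crest.Agent.R136.Dry774

open Crest.Agent.R136.Net191
open Crest.Agent.R136.NetQ186
open Crest.Agent.R136.Wq638
open Crest.Agent.R136.Top484
open Crest.Agent.R136.NatT550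
open Crest.Agent.R136.TopB550

/-- **T.Z2** -/
theorem caseZ2 {η : ℝ} (hη : η ≤ 1 / 8) : Dead η pZ2 := by
  intro p D I1 π eE fA fB V T w0 R T0 PD ν own c₀ h hp
  have h1 : (1 : ℝ) / 2 < 1 := by norm_num
  have hθ := h.tp.ok.θ1
  exact Z2e403.z2_win Crest.Agent.R138.KMs630.km32 h hp hη (v := 1 / 2) (by norm_num) h1
    ((LabT371.labH_of_thick h).window Crest.Agent.R138.KMs630.km32 (by norm_num)
      (lt_min (mul_pos hθ (by norm_num)) (by norm_num)))

/-- **the thick table** -/
theorem thickTable {η : ℝ} (hη0 : 0 < η) (hη : η ≤ 1 / 8) : ThickTable η where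
  A := HR829.caseA Crest.Agent.R138.KMs630.km32 η
  F := LadF115.caseF hη
  Z2 := caseZ2 hη
  E := Re436.caseE (WinC344.winE hη) (F2w569.caseF2 hη)
    (HR829.caseA Crest.Agent.R138.KMs630.km32 η) (C1865.caseC1 hη) (C1s940.caseC1s hη0 hη)
  E3 := Re436.caseE3 (F2w569.caseF2 hη)
    (HR829.caseA Crest.Agent.R138.KMs630.km32 η) (C1865.caseC1 hη) (C1s940.caseC1s hη0 hη)
  D1 := Dl667.caseD1 hη
  D2 := Xd272.caseD2 hη
  C1 := C1865.caseC1 hη
  C1s := C1s940.caseC1s hη0 hη
  C2 := C2p400.caseC2 hη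
  C2z := Z2H57.caseC2z' hη
  L := TL196.dead_L_end (by linarith) End882.seamEnd
  C3 := C3h795.caseC3 hη Crest.Agent.R138.KMs630.km32

end Crest.Agent.R136.Dry774
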