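import Crest.Agent.R136.En4b_879

/-!
# R136: the enemy in `ℝ⁴`, part c (helper879): incidences of real lines

`grid_cf`: a raw grid configuration as a finite set `J` of incidences `(real line, height)` with
classes: everything a literal configuration needs (levels `0` and `M`, resolution `2^-M`).
-/

set_option autoImplicit false

open Finset

namespace Crest.Agent.R136.En879

open Sh605 KS879

noncomputable section

/-- index of the dyadic cell of level `m` of the height `z` -/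
def zc4 (m : ℕ) (z : ℝ) : ℤ := ⌊(2:ℝ) ^ m * z⌋

/-- the object of level `m` of an incidence -/
def ob4 (m : ℕ) (x : Ln4 × ℝ) : Ln4 × ℤ := (x.1, zc4 m x.2)

/-- the incidences as real objects -/
def phi4 (N : ℕ) (x : GLine4 × ℤ) : Ln4 × ℝ := (rl4 N x.1, rh4 N x.2)

theorem phi4_inj {N M : ℕ} (hN : 1 ≤ N) (hM : 16 * N ≤ 2 ^ M) {x y : GLine4 × ℤ}
    (h : ob4 M (phi4 N x) = ob4 M (phi4 N y)) : x = y := by
  simp only [ob4, phi4, Prod.mk.injEq] at h
  exact Prod.ext (rl4_inj hN h.1) (rh4_cell_inj hN (by omega) h.2)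

open Classical in
/-- **a raw grid configuration as incidences of real lines.** -/
theorem grid_cf {b0 η : ℝ} {N M : ℕ} {s : Finset GLine4} {I : Finset (GLine4 × ℤ)} {μ : ℝ}
    (h : Raw b0 η N M s I μ) :
    ∃ (J : Finset (Ln4 × ℝ)) (cl : Ln4 × ℤ → ℕ) (ctr : ℕ → Ln4 × ℤ),
      J.Nonempty ∧ J.card = I.card ∧ (J.card : ℝ) ≤ 2 ^ (5 * M) ∧
      (∀ x ∈ J, 1 / 4 ≤ x.2 ∧ x.2 ≤ 3 / 4) ∧ (∀ x ∈ J, zc4 0 x.2 = 0) ∧
      (∀ x ∈ J, ∀ y ∈ J, ob4 M x = ob4 M y → x = y) ∧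
      (∀ x ∈ J, ∀ i, |x.1.v i| ≤ 1 / 16 ∧ |x.1.p i| ≤ 3 / 64) ∧
      -- classes of level `M`
      (∀ x ∈ J, zc4 M x.2 = (ctr (cl (ob4 M x))).2 ∧
        InSheet x.1 stdE (ctr (cl (ob4 M x))).1 ![1 / 2 ^ M, 1 / 2 ^ M, 1 / 2 ^ M]
          (cubeQ (ctr (cl (ob4 M x))).1) (1 / 2 ^ M)
          (((ctr (cl (ob4 M x))).2 : ℝ) / 2 ^ M) (1 / 2 ^ M)) ∧
      (∀ x ∈ J, μ ≤ (((J.image (ob4 M)).filter fun o => cl o = cl (ob4 M x)).card : ℝ)) ∧
      -- own cells
      (∀ x ∈ J, (2:ℝ) ^ ((1 - η) * M) ≤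
        32 * (((J.filter fun y => y.1 = x.1).image (ob4 M)).card : ℝ)) ∧
      -- sheets of level `0`
      (∀ (e : Fin 3 → V3) (c : Ln4) (w : V3) (q : ℝ → V3 → ℝ) (a : ℝ),
        Sheet e c w q a 0 1 (1 / 2 ^ M) → w 1 ≤ 1 →
        (((J.image fun x => x.1).filter fun t => InSheet t e c w q a 0 1).card : ℝ) ≤
          128000000 * ((M : ℝ) + 6) ^ 2 * 8 ^ M * (a * w 2 * w 1)) := by
  have hN := h.N1
  have hN0 : (0:ℝ) < N := by exact_mod_cast hN
  have hobi : ∀ x y : GLine4 × ℤ, ob4 M (phi4 N x) = ob4 M (phi4 N y) → x = y :=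
    fun x y => phi4_inj hN h.hM
  have hφi : Function.Injective (phi4 N) := fun x y hxy => hobi x y (by rw [hxy])
  -- classes
  set cl : Ln4 × ℤ → ℕ := fun o => if h : ∃ x : GLine4 × ℤ, ob4 M (phi4 N x) = o then
    Encodable.encode (key4 N h.choose) else 0 with hcl
  have hcl' : ∀ x, cl (ob4 M (phi4 N x)) = Encodable.encode (key4 N x) := by
    intro x
    have hex : ∃ x' : GLine4 × ℤ, ob4 M (phi4 N x') = ob4 M (phi4 N x) := ⟨x, rfl⟩
    simp only [hcl]
    rw [dif_pos hex]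
    rw [hobi _ _ hex.choose_spec]
  set ctr : ℕ → Ln4 × ℤ := fun c => if h : ∃ x ∈ I, Encodable.encode (key4 N x) = c then
    ob4 M (phi4 N h.choose) else (⟨0, 0⟩, 0) with hctr
  have hctr' : ∀ x ∈ I, ∃ y ∈ I, key4 N y = key4 N x ∧ ctr (cl (ob4 M (phi4 N x))) =
      ob4 M (phi4 N y) := by
    intro x hx
    rw [hcl']
    have hex : ∃ y ∈ I, Encodable.encode (key4 N y) = Encodable.encode (key4 N x) := ⟨x, hx, rfl⟩
    refine ⟨hex.choose, hex.choose_spec.1, Encodable.encode_injective hex.choose_spec.2, ?_⟩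
    simp only [hctr]
    rw [dif_pos hex]
  have hz0 : ∀ x ∈ I, zc4 0 (rh4 N x.2) = 0 := by
    intro x hx
    obtain ⟨a1, a2⟩ := rh4_mem hN (h.mem x hx).2
    unfold zc4
    rw [pow_zero, one_mul, Int.floor_eq_zero_iff]
    exact ⟨by linarith, by linarith⟩
  refine ⟨I.image (phi4 N), cl, ctr, h.Ine.image _, card_image_of_injective _ hφi, ?_, ?_, ?_, ?_,
    ?_, ?_, ?_, ?_, ?_⟩
  · -- cardinality
    rw [card_image_of_injective _ hφi]
    have hMr : (16:ℝ) * N ≤ 2 ^ M := by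
      have : ((16 * N : ℕ) : ℝ) ≤ ((2 ^ M : ℕ) : ℝ) := by exact_mod_cast h.hM
      push_cast at this; exact this
    have h1 : I ⊆ s ×ˢ Icc (-(N : ℤ)) N := by
      intro x hx
      obtain ⟨a1, a2⟩ := h.mem x hx
      rw [mem_product, mem_Icc]
      exact ⟨a1, abs_le.1 a2⟩
    have h2 := card_le_card h1
    rw [card_product, Int.card_Icc] at h2
    have h3 : ((N : ℤ) + 1 - -(N : ℤ)).toNat ≤ 3 * N := by omega
    have h4 := card_le_of_inj hN h.bd h.inj
    have h5 : (I.card : ℝ) ≤ (s.card : ℝ) * (3 * N) := by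
      have : I.card ≤ s.card * (3 * N) := h2.trans (Nat.mul_le_mul_left _ h3)
      exact_mod_cast this
    have hN1 : (1:ℝ) ≤ N := by exact_mod_cast hN
    calc (I.card : ℝ) ≤ (s.card : ℝ) * (3 * N) := h5
      _ ≤ (27 * (N : ℝ) ^ 3) * (3 * N) := by gcongr
      _ = 81 * (N:ℝ) ^ 4 := by ring
      _ ≤ 81 * ((N:ℝ) ^ 4 * N) := by
        have : (N:ℝ) ^ 4 ≤ (N:ℝ) ^ 4 * N := le_mul_of_one_le_right (by positivity) hN1
        linarith
      _ ≤ (16 * (N : ℝ)) ^ 5 := by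
        have : (0:ℝ) ≤ (N : ℝ) ^ 5 := by positivity
        nlinarith
      _ ≤ (2 ^ M) ^ 5 := by gcongr
      _ = 2 ^ (5 * M) := by rw [← pow_mul]; ring_nf
  · intro x hx
    obtain ⟨x', hx', rfl⟩ := mem_image.1 hx
    exact rh4_mem hN (h.mem x' hx').2
  · intro x hx
    obtain ⟨x', hx', rfl⟩ := mem_image.1 hx
    exact hz0 x' hx'
  · intro x hx y hy hxy
    obtain ⟨x', hx', rfl⟩ := mem_image.1 hx
    obtain ⟨y', hy', rfl⟩ := mem_image.1 hy
    rw [hobi x' y' hxy]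
  · intro x hx i
    obtain ⟨x', hx', rfl⟩ := mem_image.1 hx
    have hb := h.bd _ (h.mem x' hx').1 i
    have b1 : |((x'.1.1 i : ℤ) : ℝ)| ≤ N := by exact_mod_cast hb.1
    have b2 : |((x'.1.2 i : ℤ) : ℝ)| ≤ N := by exact_mod_cast hb.2
    have c1 : |((x'.1.1 i : ℤ) : ℝ) / N| ≤ 1 := by
      rw [abs_div, abs_of_pos hN0, div_le_one hN0]; exact b1
    have c2 : |((x'.1.2 i : ℤ) : ℝ) / N| ≤ 1 := by
      rw [abs_div, abs_of_pos hN0, div_le_one hN0]; exact b2
    simp only [phi4, rl4]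
    rw [abs_le] at c1 c2
    constructor
    · rw [abs_le]; constructor <;> linarith [c2.1, c2.2]
    · rw [abs_le]; constructor <;> linarith [c1.1, c1.2, c2.1, c2.2]
  · intro x hx
    obtain ⟨x', hx', rfl⟩ := mem_image.1 hx
    obtain ⟨y, hy, hxy, hK⟩ := hctr' x' hx'
    rw [hK]
    have h2 : x'.2 = y.2 := by
      have := congrArg Prod.snd hxy; simpa [key4] using this.symm
    refine ⟨?_, ?_⟩
    · show zc4 M (rh4 N x'.2) = zc4 M (rh4 N y.2)
      rw [h2]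
    · exact mates_in hN h.hM' (h.bd _ (h.mem x' hx').1) (h.bd _ (h.mem y hy).1) hxy.symm
  · intro x hx
    obtain ⟨x', hx', rfl⟩ := mem_image.1 hx
    rw [hcl']
    refine (h.mul x' hx').1.trans (Nat.cast_le.2 ?_)
    refine card_le_card_of_injOn (fun y => ob4 M (phi4 N y)) (fun y hy => ?_)
      (fun a _ b _ hab => hobi a b hab)
    rw [Finset.mem_coe, mem_filter] at hy
    rw [Finset.mem_coe, mem_filter]
    refine ⟨mem_image_of_mem _ (mem_image_of_mem _ hy.1), ?_⟩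
    rw [hcl', hy.2]
  · intro x hx
    obtain ⟨x', hx', rfl⟩ := mem_image.1 hx
    refine (h.own x'.1 (h.mem x' hx').1).trans ?_
    have : ((I.filter fun y => y.1 = x'.1).card : ℝ) ≤
        ((((I.image (phi4 N)).filter fun y => y.1 = (phi4 N x').1).image (ob4 M)).card : ℝ) := by
      refine Nat.cast_le.2 (card_le_card_of_injOn (fun y => ob4 M (phi4 N y)) (fun y hy => ?_)
        (fun a _ b _ hab => hobi a b hab))
      rw [Finset.mem_coe, mem_filter] at hy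
      rw [Finset.mem_coe]
      refine mem_image_of_mem _ (mem_filter.2 ⟨mem_image_of_mem _ hy.1, ?_⟩)
      show rl4 N y.1 = rl4 N x'.1
      rw [hy.2]
    linarith
  · intro e c w q a hS hw
    have h1 := kr_grid hN h.hM s h.inj hS hw
    refine le_trans (Nat.cast_le.2 ?_) h1
    refine le_trans (card_le_card (t := (s.filter fun l => InSheet (rl4 N l) e c w q a 0 1).image
      (rl4 N)) ?_) card_image_le
    intro t ht
    rw [mem_filter, mem_image] at ht
    obtain ⟨⟨x, hx, rfl⟩, ht2⟩ := ht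
    obtain ⟨x', hx', rfl⟩ := mem_image.1 hx
    exact mem_image.2 ⟨x'.1, mem_filter.2 ⟨(h.mem x' hx').1, ht2⟩, rfl⟩

end

end Crest.Agent.R136.En879
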