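import Crest.Agent.R136.End17_882
import Crest.Agent.R136.Xct_638
import Crest.Agent.R138.KMs_630

/-!
# R136 (S0187): END, part 18 (helper882): the seam END of the lightlike case

`seamEnd_of` : `SeamEnd` from D-max at all natural levels (class `ClW`, losses) and the range of the
widths.
-/

set_option autoImplicit false
set_option linter.unusedVariables false

open Finset Filter Topology

namespace Crest.Agent.R136.End882

open Crest.Agent.R138.Ex926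
open Crest.Agent.R136.Net191
open Crest.Agent.R136.NetQ186
open Crest.Agent.R136.GeoQ186
open Crest.Agent.R136.Gz779
open Crest.Agent.R136.Qg926
open Crest.Agent.R136.Wq638
open Crest.Agent.R136.TL196
open Crest.Agent.R136.NatT550
open Crest.Agent.R138.Mk163 (zc zl rho alive own)

/-- the record box is smaller than the box of the wide angle -/
theorem kbm_le_rz {θ T1 x v : ℝ} (h1 : 2 * (T1 - θ * v) ≤ x) (h3 : v ≤ x) (k : Fin 11) :
    kbm v v (T1 - θ * v) k ≤ rz θ T1 x v k := by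
  have q0 : v ≤ v := le_rfl
  have q1 : 2 * (T1 - θ * v) + v - v ≤ x := by linarith
  have q2 : T1 - θ * v ≤ T1 - θ * v := le_rfl
  have q4 : T1 - θ * v + v ≤ T1 + (1 - θ) * v := by linarith
  have q6 : 2 * (T1 - θ * v) ≤ 2 * (T1 - θ * v) := le_rfl
  have q7 : 2 * (T1 - θ * v) + v ≤ 2 * T1 + (1 - 2 * θ) * v := by linarith
  have q8 : T1 - θ * v + v ≤ T1 + (1 - θ) * v := by linarith
  have q9 : 2 * (T1 - θ * v) + v ≤ 2 * T1 + (1 - 2 * θ) * v := by linarith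
  have q10 : 2 * (T1 - θ * v) + v + v ≤ 2 * T1 + 2 * (1 - θ) * v := by linarith
  unfold kbm rz
  fin_cases k
  · exact q0
  · exact q1
  · exact q2
  · exact h3
  · exact q4
  · exact q2
  · exact q6
  · exact q7
  · exact q8
  · exact q9
  · exact q10

theorem units_pos {η₀ : ℝ} {c : LCtx} (ok : c.Ok η₀) : ∀ᶠ n in (U : Filter ℕ),
    0 < uH c.D.B c.D.lev c.w0 n ∧ 0 < uA c.D.B c.D.lev c.D.w c.w0 n ∧
      0 < uB c.D.B c.D.lev c.D.w c.w0 n ∧ 0 < uY c.D.B c.D.lev c.D.w c.w0 n := by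
  filter_upwards [Wid638.ord0 ok] with n ⟨P0, P1, P2, _⟩
  have hd : ∀ s : ℝ, 0 < c.D.B.d n ^ s := fun s => Real.rpow_pos_of_pos (c.D.B.pos n) s
  have hr := HR829.rho_pos (c.D.lev n 0)
  unfold uH uA uB uY
  exact ⟨mul_pos (hd _) (pow_pos two_pos _), mul_pos (div_pos P1 hr) (hd _),
    mul_pos (div_pos P2 hr) (hd _), mul_pos (div_pos P0 hr) (hd _)⟩

open Classical in
set_option maxHeartbeats 4000000 in
/-- **the seam END** -/
theorem seamEnd_of {η₀ : ℝ} {c : LCtx} (ok : c.Ok η₀) {wl wh : ℕ → Fin 3 → ℝ}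
    (hD : ∀ δ0 : ℝ, 0 < δ0 → ∃ H : ℕ → ℝ, c.D.B.Sub H ∧ ∀ᶠ n in (U : Filter ℕ), ∀ m : ℕ,
      c.D.lev n 0 ≤ m → m ≤ c.D.lev n 1 → ∀ cl : ℤ,
        DMaxK (alive (c.D.I n) m cl) (fun t => cLn c.π (c.D.L n t)) (zl m cl) (rho m)
          (H n * (c.D.A n * (rho (c.D.lev n 0) / rho m) ^ c.p.g)) (Rq c.p.q m) (c.D.r0 n)
          (ClW (c.D.B.d n ^ δ0 * rho m) (wl n) (wh n)))
    (hR : ∀ C : ℝ, ∀ᶠ n in (U : Filter ℕ), ∀ k : Fin 3, wl n k ≤ c.D.B.d n ^ C * c.D.w k n 0 ∧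
      c.D.w k n 0 ≤ c.D.B.d n ^ C * wh n k) :
    ∃ H : ℕ → ℕ → ℝ, (∀ i, c.D.B.Sub (H i)) ∧
      ∀ (B' : Base) (J : ℕ → Finset (ℕ × ℝ)) (ξ w : ℕ → ℝ) (lam lo : (Fin 11 → ℝ) → ℝ)
        (Cl E : ℕ → Finset (ℕ × ℝ)) (s₀ : ℕ → ℕ × ℝ) (h : ℕ → Fin 6 → ℝ) (ηg : ℕ → ℝ)
        (J' : ℕ → Finset (ℕ × ℝ)) (To : ℕ → ℝ) (ν' own' : (Fin 11 → ℝ) → ℝ),
        GZ c (T1z (c.p.θ 1)) (xz (c.p.θ 1)) (Rz (c.p.θ 1)) B' J ξ w lam lo Cl E s₀ h ηg J' To ν'
          own' → (∀ i, B'.Sub (H i)) → (1 ≤ c.p.θ 1 ∨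
            Zer (c.p.θ 1) (T1z (c.p.θ 1)) (xz (c.p.θ 1)) (Rz (c.p.θ 1)) own') → False := by
  have pok := ok.th.tp.ok
  have mka := ok.th.tp.pre.mka
  have hq : ∀ j, 0 ≤ c.p.q j := by
    intro j
    fin_cases j
    · exact pok.q0.1
    · exact pok.g0.2.le
    · exact pok.q2.1.le
  obtain ⟨η, κ, M₀, hη0, hη1, hκ, key⟩ := end_key
    (fun V => Crest.Agent.R138.KMs630.km32 V) pok.g0.1 hq
  obtain ⟨K, hK1, hK2, hK3⟩ := ok.th.comb
  obtain ⟨Hf, hHf, hfin⟩ := fin_nat ok hK1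
  obtain ⟨Hr, hHr, hHr1, hres⟩ := Wid638.res_le ok
  choose HD hHD hDm using fun i : ℕ => hD (1 / ((i : ℝ) + 1)) (by positivity)
  refine ⟨fun i => match i with
    | 0 => Hf
    | 1 => Hr
    | (i + 2) => HD i, fun i => ?_, ?_⟩
  · match i with
    | 0 => exact hHf
    | 1 => exact hHr
    | (i + 2) => exact hHD i
  intro B' J ξ w lam lo Cl E s₀ h ηg J' To ν' own' G hS hZ
  have sf : B'.Sub Hf := hS 0
  have sr : B'.Sub Hr := hS 1
  have sD : ∀ i, B'.Sub (HD i) := fun i => hS (i + 2)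
  have rw' := G.gw.rw
  set θ : ℝ := c.p.θ 1 with hθ
  have hθ0 : 0 < θ := pok.θ1
  set T1 : ℝ := T1z θ with hT1
  have hT1θ : θ ≤ T1 := le_T1z θ
  have hT1one : 1 ≤ T1 := one_le_T1z θ
  have hxz : xz θ = 2 * T1 + 3 := rfl
  -- parameters
  set κ' : ℝ := min η (κ / 4) with hκ'
  have hκ'0 : 0 < κ' := lt_min hη0 (by positivity)
  have hκ'1 : κ' ≤ η := min_le_left _ _
  have hκ'2 : κ' ≤ κ / 4 := min_le_right _ _
  set δ' : ℝ := κ' / (4 * (|3 - c.p.g| + 1)) with hδ'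
  have hg0 := abs_nonneg (3 - c.p.g)
  have hδ'0 : 0 < δ' := by positivity
  have hδ'κ : (|3 - c.p.g| + 1) * δ' = κ' / 4 := by rw [hδ']; field_simp
  have hδ'1 : δ' ≤ κ' / 4 := by nlinarith
  have hδ'2 : |3 - c.p.g| * δ' ≤ κ' / 4 := by nlinarith
  set M₁ : ℕ := max M₀ (Nat.ceil (4 / η)) with hM₁
  have hM₀₁ : M₀ ≤ M₁ := le_max_left _ _
  have hM₁4 : 4 ≤ η * M₁ := by
    have h1 : 4 / η ≤ (Nat.ceil (4 / η) : ℝ) := Nat.le_ceil _
    have h2 : (Nat.ceil (4 / η) : ℝ) ≤ M₁ := by exact_mod_cast le_max_right _ _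
    have h3 := h1.trans h2
    rw [div_le_iff₀ hη0] at h3
    linarith
  obtain ⟨u, v, hu, huv, hv1, hr1, hcont⟩ := cont_nat ok G hZ hη0 hη1 hM₁4 hδ'0
    (by linarith : δ' ≤ 1 / 2) hκ'0 hκ'1
  set r : ℝ := v - u with hr
  have hr0 : 0 < r := by rw [hr]; linarith
  have hv0 : 0 < v := hu.trans huv
  set δ : ℝ := δ' * r with hδ
  set κ₂ : ℝ := κ' * r with hκ₂
  set εp : ℝ := δ' * r / 4 with hεp
  set εc : ℝ := δ' * r / 8 with hεc
  set ε1 : ℝ := κ' * r / 4 with hε1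
  have hδ0 : 0 < δ := mul_pos hδ'0 hr0
  have hκ₂0 : 0 < κ₂ := mul_pos hκ'0 hr0
  have hεp0 : 0 < εp := by rw [hεp]; positivity
  have hεc0 : 0 < εc := by rw [hεc]; positivity
  have hε10 : 0 < ε1 := by rw [hε1]; positivity
  have hδr : δ < r := by rw [hδ]; nlinarith
  have hκ₂1 : κ₂ ≤ 1 := by rw [hκ₂]; nlinarith
  have hεκ : εp ≤ κ₂ := by rw [hεp, hκ₂]; nlinarith
  have hE4 : κ₂ < κ * (v - u - δ) := by
    rw [← hr, hκ₂, hδ]
    have h1 : κ' * r ≤ κ / 4 * r := mul_le_mul_of_nonneg_right hκ'2 hr0.le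
    have h2 : κ * (r - δ' * r) = κ * r * (1 - δ') := by ring
    have h3 : 0 < κ * r := mul_pos hκ hr0
    rw [h2]
    nlinarith
  set t : ℝ := T1 - θ * v with ht
  have ht0 : 0 ≤ t := by rw [ht]; nlinarith
  have hfinc : |3 - c.p.g| * δ + ε1 < κ₂ := by
    have h1 : |3 - c.p.g| * δ = (|3 - c.p.g| * δ') * r := by rw [hδ]; ring
    have h2 : (|3 - c.p.g| * δ') * r ≤ κ' / 4 * r := mul_le_mul_of_nonneg_right hδ'2 hr0.le
    rw [h1, hε1, hκ₂]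
    have : 0 < κ' * r := mul_pos hκ'0 hr0
    linarith
  -- the long side
  obtain ⟨δ0, hδ00, hga⟩ := Wid638.gap_a ok rw' T1
  obtain ⟨N, hN⟩ : ∃ N : ℕ, 1 / ((N : ℝ) + 1) ≤ δ0 := by
    obtain ⟨N, hN⟩ := exists_nat_one_div_lt hδ00
    exact ⟨N, hN.le⟩
  have hev : ∀ᶠ n in (U : Filter ℕ), False := by
    filter_upwards [e_conds B' (M₁ := M₁) (u := u) (v := v) hκ₂0 hδ0 hδr
        (by rw [hεp, hεc]; nlinarith : εc < εp) (by rw [hεp, hδ]; nlinarith : 2 * εp < δ) hE4,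
      Wid638.tight ok rw' T1, Wid638.sides ok rw' T1, Wid638.sdn_pos ok rw' T1,
      Wid638.gap_N ok rw' T1 (t + 4), Wid638.gap_b ok rw' T1 (t + 4), hga 3, hres B' J ξ w lam lo rw',
      Wid638.lev_mem ok rw' T1, units_pos ok, hcont εc hεc0 ε1 hε10,
      hfin B' J ξ w lam lo Cl E s₀ h ηg J' To ν' own' G sf u v δ κ₂ ε1 t hu huv hv1 hδ0 hδr hε10
        hfinc ht,
      hK1 1 one_pos, hK2, mka.one, hDm N, sub_rpow (sD N) hκ₂0, sub_rpow sr hδ0,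
      rng_win ok rw' T1 (2 * t + 2) hR, rng_win ok rw' T1 3 hR, G.sub, G.gw.esub,
      G.gw.cls.csub, G.gw.cls.sub, rw'.Jsub, Crest.Agent.R136.NbC196.nb_closeL ok G.gw
        (fun k => 2 + kbm u v t k), G.gw.gau.tau, G.gw.gau.b2 1 one_pos, G.gw.gau.b3 1 one_pos,
      G.gw.gau.bη 1 one_pos, rw'.lev_in] with
      n ⟨E0, E2, E3, E4, E5, E8, E9, E16⟩ htq ⟨s0, s8, s9, s10⟩ ⟨p0, p8, p9, p10⟩ hgN hgb hga3
        hresn hlev ⟨uH0, uA0, uB0, uY0⟩ hcn hfn hKn hcombn hone hDmn hHDn hHrn hlo hhi hsub hEs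
        hCs hJI hJs hnbn htau hb2 hb3 hbη hξ
    have hd := c.D.B.pos n
    have hd1 := (c.D.B.lt n).le
    have he := B'.pos n
    have he1 := B'.lt n
    have hep : ∀ s : ℝ, 0 < B'.d n ^ s := fun s => Real.rpow_pos_of_pos he s
    have hdp : ∀ s : ℝ, 0 < c.D.B.d n ^ s := fun s => Real.rpow_pos_of_pos hd s
    obtain ⟨F, hFJ, ⟨i0, hi0⟩, k1, k2, k3, k4, k5, k6, k7⟩ := hcn _ _ _ _ _ rfl rfl rfl rfl rfl
    have hFE : F ⊆ E n := hFJ.trans hsub.1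
    have hFJ2 : F ⊆ J n := hFE.trans (hEs.trans hCs)
    have hFI : F ⊆ c.D.I n := hFJ2.trans hJI
    have hlam0 : 0 < sdn' c T1 ξ w n 0 := p0
    have hlam1 : sdn' c T1 ξ w n 0 ≤ 1 := by
      rw [sdn'_eq, s0]
      have h1 : rho (c.D.lev n 0) ≤ 1 := by
        unfold rho
        rw [div_le_one (pow_pos two_pos _)]
        exact one_le_pow₀ one_le_two
      have h2 : c.D.B.d n ^ ξ n ≤ 1 := Real.rpow_le_one hd.le hd1 hξ.1.le
      exact mul_le_one₀ h1 (hdp _).le h2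
    obtain ⟨f1, f2, f3, f4, f5, f6, f7, f8, f9, f10, f11, f12, f13⟩ := lev_facts hη0 hη1 hM₁4 he he1
      hlam0 hlam1 hu huv hδ0 hδr E3 E8 E9
    have hm0 := (hlev u hu.le (huv.trans hv1).le _ f1 f2).1
    have hm1 := (hlev v hv0.le hv1.le _ f3 f4).2
    -- closeness in real units
    have hreal : ∀ (q : Fin 11 → ℝ) (C : ℝ) (x y : ℕ × ℝ) (k : Fin 11),
        |coG c.F h n x y k| ≤ C * (c.D.B.d n ^ XG (c.XB T1 ξ w) n k * B'.d n ^ q k) →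
        |coQ (rg (gR (uH c.D.B c.D.lev c.w0 n) (uA c.D.B c.D.lev c.D.w c.w0 n)
            (uB c.D.B c.D.lev c.D.w c.w0 n) (uY c.D.B c.D.lev c.D.w c.w0 n) (h n))
            (incQ c.π c.D.L c.eE c.fA c.fB n x))
          (rg (gR (uH c.D.B c.D.lev c.w0 n) (uA c.D.B c.D.lev c.D.w c.w0 n)
            (uB c.D.B c.D.lev c.D.w c.w0 n) (uY c.D.B c.D.lev c.D.w c.w0 n) (h n))
            (incQ c.π c.D.L c.eE c.fA c.fB n y)) k| ≤
          C * (sdn' c T1 ξ w n k * B'.d n ^ q k) := fun q C x y k hc =>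
      co_real uH0 uA0 uB0 uY0 hc
    have hbox : ∀ (u' v' : ℝ) (k : Fin 11),
        sbox (sdn' c T1 ξ w n 0 * B'.d n ^ u') (sdn' c T1 ξ w n 8 * B'.d n ^ (t + u'))
          (sdn' c T1 ξ w n 9 * B'.d n ^ (2 * t + u'))
          (sdn' c T1 ξ w n 10 * B'.d n ^ (2 * t + u' + v')) k =
        sdn' c T1 ξ w n k * B'.d n ^ kbm u' v' t k := fun u' v' k =>
      sbox_win hd he htq uH0 uA0 uB0 uY0 u' v' t k
    have hsn : ∀ k, 0 < sdn' c T1 ξ w n k := fun k =>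
      div_pos (hdp _) (sfac_pos uH0 uA0 uB0 uY0 k)
    obtain ⟨g1, -, -⟩ := gau_real hd htq uH0 uA0 uB0 uY0 (h n)
      (incQ c.π c.D.L c.eE c.fA c.fB n i0) (B'.d n ^ (xz θ - 1))
    obtain ⟨-, g2, g3⟩ := gau_real hd htq uH0 uA0 uB0 uY0 (h n)
      (incQ c.π c.D.L c.eE c.fA c.fB n i0) (B'.d n ^ (-1 : ℝ))
    have hLL := Wid638.LL_of ok
    refine win_end (x := xz θ) (lam := sdn' c T1 ξ w n 0) (W1 := sdn' c T1 ξ w n 8)
      (W2 := sdn' c T1 ξ w n 9) (Th := sdn' c T1 ξ w n 10) (t := t) key hη0 hη1 hM₁4 hM₀₁ hκ.le hu huv hv1 hδ0 hδr ht0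
      (by rw [hxz]; linarith only [hT1one] : 0 ≤ xz θ) hεc0 hεp0 hεκ hκ₂1 he E0 E2 E3 E4 E5 E8 E9 E16
      hlam0 hlam1 p8 p9 p10 hgN hgb
      (L := fun m => cLn c.π (c.D.L n m)) (inc := incQ c.π c.D.L c.eE c.fA c.fB n)
      (gg := gR (uH c.D.B c.D.lev c.w0 n) (uA c.D.B c.D.lev c.D.w c.w0 n)
        (uB c.D.B c.D.lev c.D.w c.w0 n) (uY c.D.B c.D.lev c.D.w c.w0 n) (h n)) hFI hi0
      (fun x hx => ⟨trueLn_mkT _ _ _ _ _, rfl, (ok.th.tp.flag n x hx).1,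
        (ok.th.tp.flag n x hx).2.1, (ok.th.tp.flag n x hx).2.2⟩) ?_ ?_ (g1 ?_) (g2 hb2) (g3 hb3)
      rfl rfl rfl rfl k1 ?_ (mul_pos (G.ext.oprof.pos n) (hep _)) k3 k4 k5 k6 hone hm0 ?_
      (Nat.cast_pos.2 hKn.1)
      (nb := fun x y => nlab c.D.B c.D.I (coF c.F) monQ 2 n (fun _ => c.R) y =
        nlab c.D.B c.D.I (coF c.F) monQ 2 n (fun _ => c.R) x ∧
          zc (c.D.lev n 1) y.2 = zc (c.D.lev n 1) x.2) ?_ ?_ (mka.Apos n) hHDn.2
      (hdp (1 / ((N : ℝ) + 1))) (fun m h0 h1 cl => hDmn m h0 h1 cl) (fun k => (hlo k).1)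
      (fun k => (hhi k).2) ?_ ?_ ?_ (hfn _ _ _ _ _ _ _ _ _ _ rfl rfl rfl rfl rfl rfl rfl rfl rfl rfl)
    · change h n 4 * _ = 0
      rw [G.gw.gau.h4 n, zero_mul]
    · change h n 5 * _ = 0
      rw [G.gw.gau.h5 n, zero_mul]
    · exact (mul_le_mul_of_nonneg_right (htau i0 (hFE hi0)) (hdp _).le).trans hbη
    · intro x hx y hy s
      rw [hbox]
      exact hreal _ _ x y s (k2 x hx y hy s)
    · exact (Nat.sub_le _ _).trans (f11.trans hm1)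
    · intro P hP P' hP' hc
      have h1 := hcombn P (hP.trans (hFJ2.trans hJs)) P' hP'
        (fun i hi j hj h1 h2 => hc i hi j hj ⟨h1, h2⟩)
      exact_mod_cast h1
    · intro x hx y hy hxy
      refine ⟨hxy.2, fun s => ?_⟩
      have h1 := hreal (fun k => 2 + kbm u v t k) 1 x y s (by
        rw [one_mul]
        exact hnbn x (hFE hx) y hy hxy.1 s)
      rw [hbox]
      refine h1.trans (le_of_eq ?_)
      rw [one_mul, Real.rpow_add he]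
      ring
    · -- the long side
      have h1 : c.D.B.d n ^ δ0 ≤ c.D.B.d n ^ (1 / ((N : ℝ) + 1)) :=
        Real.rpow_le_rpow_of_exponent_ge hd hd1 hN
      calc sdn' c T1 ξ w n 8 ≤ B'.d n ^ (3 : ℝ) * c.D.B.d n ^ δ0 * sdn' c T1 ξ w n 0 := hga3
        _ ≤ B'.d n ^ (3 : ℝ) * c.D.B.d n ^ (1 / ((N : ℝ) + 1)) * sdn' c T1 ξ w n 0 :=
          mul_le_mul_of_nonneg_right (mul_le_mul_of_nonneg_left h1 (hep _).le) hlam0.le
        _ = _ := by ring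
    · -- resolution
      have h1 := hresn v hv0.le hv1.le
      have h0 : 0 < c.D.w 0 n 0 * c.D.B.d n ^ ((1 - c.p.θ 0) * ξ n) := by
        have h2 := p10
        rw [s10] at h2
        exact pos_of_mul_pos_left h2 (hep _).le
      have e1 : B'.d n ^ (-2 * T1) * B'.d n ^ (2 * t + 2 * v - δ) =
          B'.d n ^ (-δ) * B'.d n ^ ((1 - c.p.θ 0) * v) := by
        rw [← Real.rpow_add he, ← Real.rpow_add he]
        congr 1
        have h5 : c.p.θ 0 = 2 * θ - 1 := by linarith only [hLL.1, hLL.2]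
        rw [h5, ht]
        ring
      calc c.D.r0 n ≤ Hr n * (c.D.w 0 n 0 * c.D.B.d n ^ ((1 - c.p.θ 0) * ξ n) *
            B'.d n ^ ((1 - c.p.θ 0) * v)) := h1
        _ ≤ B'.d n ^ (-δ) * (c.D.w 0 n 0 * c.D.B.d n ^ ((1 - c.p.θ 0) * ξ n) *
            B'.d n ^ ((1 - c.p.θ 0) * v)) :=
          mul_le_mul_of_nonneg_right hHrn.2 (mul_pos h0 (hep _)).le
        _ = c.D.w 0 n 0 * c.D.B.d n ^ ((1 - c.p.θ 0) * ξ n) * (B'.d n ^ (-δ) *
            B'.d n ^ ((1 - c.p.θ 0) * v)) := by ring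
        _ = _ := by
          rw [← e1, sdn'_eq, s10]
          ring
    · intro x hx
      refine (k7 x hx).trans (Nat.cast_le.2 (card_le_card fun y hy => ?_))
      rw [mem_filter] at hy ⊢
      refine ⟨hy.1, hy.2.1, fun s => ?_⟩
      rw [hbox]
      refine (hreal _ _ x y s (hy.2.2 s)).trans ?_
      refine mul_le_mul_of_nonneg_left (mul_le_mul_of_nonneg_left ?_ (hsn s).le) (hep _).le
      exact Real.rpow_le_rpow_of_exponent_ge he he1.le (kbm_le_rz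
        (by rw [hxz]; linarith only [hT1one, mul_pos hθ0 hv0]) (by rw [hxz]; linarith only [hT1one, hv1]) s)
  obtain ⟨n, hn⟩ := hev.exists
  exact hn

end Crest.Agent.R136.End882
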