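import Crest.Agent.R136.End18_882
import Crest.Agent.R136.DmL_829

/-!
# R136 (S0187): END, part 19 (helper882): `seamEnd`

The two alternatives of `first` are the two forms of the geometry `geo4` (with and without the range
`wr, cr` of the widths of the test sheets).
-/

set_option autoImplicit false
set_option linter.unusedVariables false

open Finset Filter Topology

namespace Crest.Agent.R136.End882

open Crest.Agent.R138.Ex926
open Crest.Agent.R136.TL196
open Crest.Agent.R138.Mk163 (zc zl rho alive own)

/-- **the seam END of the lightlike case** -/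
theorem seamEnd {η₀ : ℝ} : TL196.SeamEnd η₀ := by
  intro c ok
  first
  | exact seamEnd_of ok (wl := fun n k => c.D.wr k n) (wh := fun n k => c.D.cr k n)
      (fun δ0 h0 => by
        obtain ⟨H, hH, -, hn⟩ := DmN829.dmax_ctx ok h0
        refine ⟨H, hH, ?_⟩
        filter_upwards [hn] with n hn m h0 h1 cl e c' w' q' a' hS hC
        exact hn m h0 h1 cl e c' w' q' a' hS ⟨hC.1.1, hC.1.2, hC.2⟩)
      (fun C => DmN829.rng_ctx ok C)
  | refine seamEnd_of ok (wl := fun _ _ => 0)
      (wh := fun n k => c.D.w k n 0 * c.D.B.d n ^ (-(n : ℝ))) (fun δ0 h0 => ?_) (fun C => ?_)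
    · obtain ⟨H, hH, -, hn⟩ := DmN829.dmax_ctx ok h0
      refine ⟨H, hH, ?_⟩
      filter_upwards [hn] with n hn m h0 h1 cl e c' w' q' a' hS hC
      exact hn m h0 h1 cl e c' w' q' a' hS hC.1
    · filter_upwards [Wid638.ord0 ok, U_le_atTop (eventually_ge_atTop (Nat.ceil C))] with
        n ⟨P0, P1, P2, _⟩ hn k
      have hk : 0 < c.D.w k n 0 := by
        fin_cases k
        · exact P0
        · exact P1
        · exact P2
      have hd := c.D.B.pos n
      have hd1 := (c.D.B.lt n).le
      refine ⟨mul_nonneg (Real.rpow_nonneg hd.le _) hk.le, ?_⟩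
      have h1 : 1 ≤ c.D.B.d n ^ (C + -(n : ℝ)) := by
        refine Real.one_le_rpow_of_pos_of_le_one_of_nonpos hd hd1 ?_
        have : C ≤ n := (Nat.le_ceil C).trans (by exact_mod_cast hn)
        linarith
      calc c.D.w k n 0 ≤ c.D.w k n 0 * c.D.B.d n ^ (C + -(n : ℝ)) :=
            le_mul_of_one_le_right hk.le h1
        _ = _ := by rw [Real.rpow_add hd]; ring

end Crest.Agent.R136.End882
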