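import Crest.Agent.R136.LdF7_511

/-!
# R136, case F: full slots at every scale of any tangent (helper511)

* `projL`, `GA.proj` : 146's group data for boxes which are known on one group only
* `full_slot` : a slot which is full in the homogeneous zoom is full at every scale
* **`full_tan`** : `X_a` and `X_b` are full at every scale, at every tangent of a stage
-/

set_option autoImplicit false
set_option linter.unusedVariables false
set_option linter.unusedSectionVars false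

open Finset Filter Topology

namespace Crest.Agent.R136.LdF9511

open Crest.Agent.R138.Ex926 (Base U IsTan)
open Crest.Agent.R136.Net191
open Crest.Agent.R136.NetQ186
open Crest.Agent.R136.Wq638
open Crest.Agent.R136.NatT550
open Crest.Agent.R136.NatR550 (nL)
open Crest.Agent.R136.Top484
open Crest.Agent.R136.LdF511
open Crest.Agent.R136.LdF3511
open Crest.Agent.R136.LdF4511
open Crest.Agent.R136.LdF5511
open Crest.Agent.R136.LdF7511
open Crest.Agent.R136.Dl667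
open Crest.Agent.R136.Tb628 (oS oS_eq)
open Crest.Agent.R136.K2S774 (cn Prf JT Stage RecD RungD BaseOk ind1 A2)
open Crest.Agent.R136.Lift146 (GA uS uS_in uS_off)
open Crest.Agent.R136.Dg219 (Walls mw gC dhC nC OutS gC_zero gset mem_gset)
open Crest.Agent.R136.Rc146 (OutA)
open Crest.Agent.R136.Dg262 (X)

section proj

variable {ι κ : Type*} [Fintype ι] [DecidableEq ι] [DecidableEq κ] {grp : ι → κ}
  {L : Set (ι → ℝ)} {a b dh : ι → ℝ} {n : κ → ℝ × ℝ} {k : κ} {φ : (ι → ℝ) → ℝ} {r : ℝ}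

/-- boxes known on the group `k` only -/
def projL (grp : ι → κ) (L : Set (ι → ℝ)) (k : κ) : Set (ι → ℝ) :=
  {c | ∃ d ∈ L, ∀ i, grp i = k → d i = c i}

theorem GA.proj (H : GA grp L a b dh n k φ r) : GA grp (projL grp L k) a b dh n k φ r where
  smul := fun c ⟨d, hd, h⟩ t ht => ⟨t • d, H.smul d hd t ht, fun i hi => by
    rw [Pi.smul_apply, Pi.smul_apply, h i hi]⟩
  addm := fun c ⟨d, hd, h⟩ c' ⟨d', hd', h'⟩ => ⟨d + d', H.addm d hd d' hd', fun i hi => by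
    rw [Pi.add_apply, Pi.add_apply, h i hi, h' i hi]⟩
  nat := fun z => ⟨_, H.nat z, fun _ _ => rfl⟩
  eq := H.eq
  nk := H.nk
  pos := H.pos
  loc := H.loc
  zero := H.zero
  mono := fun c ⟨d, hd, h⟩ c' ⟨d', hd', h'⟩ hcc => by
    have h1 := H.mono d hd d' hd' fun i hi => by rw [h i hi, h' i hi]; exact hcc i hi
    rw [H.loc c d fun i hi => (h i hi).symm, H.loc c' d' fun i hi => (h' i hi).symm]
    refine ⟨h1.1, h1.2.trans (le_of_eq ?_)⟩
    refine Finset.sum_congr rfl fun i hi => ?_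
    have hi' := (Finset.mem_filter.1 hi).2
    rw [h i hi', h' i hi']
  smod := fun p ⟨p', hp, ep⟩ q ⟨q', hq, eq⟩ s ⟨s', hs, es⟩ t ⟨t', ht, et⟩ h1 h2 => by
    rw [H.loc p p' fun i hi => (ep i hi).symm, H.loc q q' fun i hi => (eq i hi).symm,
      H.loc s s' fun i hi => (es i hi).symm, H.loc t t' fun i hi => (et i hi).symm]
    exact H.smod p' hp q' hq s' hs t' ht (fun i hi => by
      rw [es i hi, ep i hi, eq i hi]; exact h1 i hi) (fun i hi => by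
      rw [et i hi, ep i hi, eq i hi]; exact h2 i hi)
  rate := fun c ⟨d, hd, h⟩ u hu => by
    rw [H.loc c d fun i hi => (h i hi).symm]
    exact H.rate d hd u fun i hi => by rw [h i hi]; exact hu i hi
  add := fun z c ⟨d, hd, h⟩ => by
    rw [H.loc c d fun i hi => (h i hi).symm, ← H.add z d hd]
    exact H.loc _ _ fun i hi => by rw [Pi.add_apply, Pi.add_apply, h i hi]

/-- **a slot which is full in the homogeneous zoom is full at every scale** -/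
theorem full_slot (H : GA grp L a b dh n k φ r) {j : ι} (hj : grp j = k) {c1 : ι → ℝ}
    (hc1 : c1 ∈ L) (hc : ∀ i, grp i = k → c1 i = if i = j then 1 else 0) {t : ℕ → ℝ}
    (ht : ∀ l, 0 < t l) (ht0 : Tendsto t atTop (𝓝 0)) {φ2 : (ι → ℝ) → ℝ}
    (hlim : ∀ c ∈ L, Tendsto (fun l => φ (t l • c) / t l) atTop (𝓝 (φ2 c)))
    (hom : ∀ c ∈ L, ∀ s : ℝ, 0 ≤ s → φ2 (s • c) = s * φ2 c) (he : φ2 c1 ≤ -1) {y : ℝ}
    (hy : 0 ≤ y) : φ (Pi.single j y) ≤ -y := by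
  have hdh := H.pos j hj
  have hm : dh j • c1 ∈ L := H.smul _ hc1 _ hdh.le
  have e1 : ∀ i, grp i = k → (dh j • c1) i = uS dh {j} i := fun i hi => by
    rw [Pi.smul_apply, smul_eq_mul, hc i hi]
    by_cases hij : i = j
    · subst hij
      rw [if_pos rfl, mul_one, uS_in (by simp)]
    · rw [if_neg hij, mul_zero, uS_off (by simpa using hij)]
  have hS : uS dh {j} ∈ projL grp L k := ⟨_, hm, e1⟩
  have hl : Tendsto (fun l => φ (t l • uS dh {j}) / t l) atTop (𝓝 (φ2 (dh j • c1))) := by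
    refine (hlim _ hm).congr fun l => ?_
    rw [H.loc (t l • dh j • c1) (t l • uS dh {j}) fun i hi => by
      show t l • (dh j • c1) i = t l • uS dh {j} i
      rw [e1 i hi]]
  have h1 := (GA.proj H).ge_zoom hS ht ht0 hl (y := y / dh j) (by positivity)
  rw [hom c1 hc1 _ hdh.le] at h1
  have e2 : φ (Pi.single j y) = φ ((y / dh j) • uS dh {j}) := H.loc _ _ fun i hi => by
    rw [Pi.smul_apply, smul_eq_mul]
    by_cases hij : i = j
    · subst hij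
      rw [Pi.single_eq_same, uS_in (by simp)]
      field_simp
    · rw [Pi.single_eq_of_ne hij, uS_off (by simpa using hij), mul_zero]
  rw [e2]
  have h2 : y * 1 ≤ y * -(φ2 c1) := mul_le_mul_of_nonneg_left (by linarith) hy
  have h3 : y / dh j * -(dh j * φ2 c1) = y * -(φ2 c1) := by
    field_simp
  linarith

/-- losses are at most the increments -/
theorem single_ge (H : GA grp L a b dh n k φ r) {j : ι} (hj : grp j = k) {c1 : ι → ℝ}
    (hc1 : c1 ∈ L) (hc : ∀ i, grp i = k → c1 i = if i = j then 1 else 0) {y : ℝ} (hy : 0 ≤ y) :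
    -y ≤ φ (Pi.single j y) := by
  have h0 : (0 : ι → ℝ) ∈ L := H.zero_mem
  have hm := H.smul _ hc1 y hy
  have e1 : ∀ i, grp i = k → (y • c1) i = (Pi.single j y : ι → ℝ) i := fun i hi => by
    rw [Pi.smul_apply, smul_eq_mul, hc i hi, Pi.single_apply]
    split_ifs <;> simp
  have h1 := (H.mono 0 h0 _ hm fun i hi => by
    rw [e1 i hi, Pi.zero_apply, Pi.single_apply]
    split_ifs
    · exact hy
    · exact le_rfl).2
  rw [H.zero, H.loc (y • c1) (Pi.single j y) e1] at h1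
  have h2 : ∑ i ∈ Finset.univ.filter (fun i => grp i = k), ((y • c1) i - (0 : ι → ℝ) i) = y := by
    rw [Finset.sum_congr rfl fun i hi => by
      rw [e1 i (Finset.mem_filter.1 hi).2, Pi.zero_apply, sub_zero]]
    rw [Finset.sum_eq_single j]
    · rw [Pi.single_eq_same]
    · intro i _ hij
      rw [Pi.single_eq_of_ne hij]
    · intro h'
      exact absurd (Finset.mem_filter.2 ⟨Finset.mem_univ j, hj⟩) h'
  rw [h2] at h1
  linarith

end proj

section pt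

variable {η : ℝ} {p : Par4} {D : Dat4} {I1 : ℕ → Finset (ℕ × ℝ)} {π : Equiv.Perm (Fin 3)}
  {eE fA fB : ℕ → ℕ × ℝ → ℝ} {V T : Fin 11 → Prop} {w0 R T0 : ℝ} {PD : Set (Fin 11 → ℝ)}
  {ν own : (Fin 11 → ℝ) → ℝ} {c₀ : ℝ} {J : Finset (Fin 11)} {s : ℝ} {x b : Fin 11 → ℝ}
  {lam lo : (Fin 11 → ℝ) → ℝ}

theorem unit8 {a b : Fin 11 → ℝ} {κ : ℝ} (P : PlE a b κ) (i : Fin 11)
    (hi : gC a b i = gC a b 8) : bl 1 0 0 1 0 i = if i = 8 then 1 else 0 := by
  have h0 : i ≠ 0 := fun e => P.g08 (by rw [← e, hi])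
  have h2 : i ≠ 2 := fun e => P.g08 (by rw [P.g02, ← e, hi])
  fin_cases i <;> simp [bl] at h0 h2 ⊢

theorem unit9 {a b : Fin 11 → ℝ} {κ : ℝ} (P : PlE a b κ) (i : Fin 11)
    (hi : gC a b i = gC a b 9) : bl 1 0 0 0 1 i = if i = 9 then 1 else 0 := by
  have h0 : i ≠ 0 := fun e => P.g09 (by rw [← e, hi])
  have h2 : i ≠ 2 := fun e => P.g09 (by rw [P.g02, ← e, hi])
  fin_cases i <;> simp [bl] at h0 h2 ⊢

/-- **`X_a` and `X_b` are full at every scale, at every tangent of a stage** -/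
theorem full_tan (h : Thick η p D I1 π eE fA fB V T w0 R T0 PD ν own c₀) {v : ℝ} (h0 : 0 < v)
    (h1 : v < 1) (hκ : 0 < p.θ 1 - p.θ 2) (hV2 : V 2) (hJ : J ⊆ {3, 4, 7})
    (a0 : ∀ i, 0 ≤ TF J (p.θ 1 - p.θ 2) s x i) (hb : ∀ i, i ∉ J → b i = rhoF p.θ i)
    (hTie : ∀ k, V k → oS p.θ k * TF J (p.θ 1 - p.θ 2) s x 0 ≤ TF J (p.θ 1 - p.θ 2) s x k)
    {Qd : Set (Fin 11 → ℝ)} (hQ : QdOk p.θ V J Qd)
    (hst : StVQ Qd p V ν own w0 R v J lam lo) {z : ℝ × ℝ} (hz : z.1 < 0) {k : ℕ → ℝ}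
    {lam' lo' : (Fin 11 → ℝ) → ℝ} (kpos : ∀ l, 0 < k l) (k0 : Tendsto k atTop (𝓝 0))
    (H1 : IsTan (cn (mw monQ) (AF J)) (cn (mw monQ) (AF J)) lam
      (fun _ => X 0 (TF J (p.θ 1 - p.θ 2) s x) b z) k lam')
    (H2 : IsTan (cn (mw monQ) (AF J)) (cn (mw monQ) (AF J)) lo
      (fun _ => X 0 (TF J (p.θ 1 - p.θ 2) s x) b z) k lo')
    {x' : ℕ → Fin 11 → ℝ} {h' : ℕ → ℝ}
    (hJT : JT (mw monQ) (AF J) (Leg monQ R) ν own (recF p.θ w0 (R - 1) v) x' h' lam' lo')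
    (hB : BaseOk {k | V k} 0 (oS p.θ) (TF J (p.θ 1 - p.θ 2) s x) (recF p.θ w0 (R - 1) v) x' h')
    {A : ℝ × ℝ} {φ : ℕ → (Fin 11 → ℝ) → ℝ} {rt : ℕ → ℝ}
    (hO : OutA (gC (TF J (p.θ 1 - p.θ 2) s x) b) (cn (mw monQ) (AF J))
      (TF J (p.θ 1 - p.θ 2) s x) b (dhC (TF J (p.θ 1 - p.θ 2) s x) b)
      (nC (TF J (p.θ 1 - p.θ 2) s x) b) lam' A φ rt) :
    (1 ≤ rt (gC (TF J (p.θ 1 - p.θ 2) s x) b 0) ∧ 1 ≤ rt (gC (TF J (p.θ 1 - p.θ 2) s x) b 8) ∧
      1 + (p.θ 1 - p.θ 2) ≤ rt (gC (TF J (p.θ 1 - p.θ 2) s x) b 9)) ∧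
      (∀ y : ℝ, 0 ≤ y → φ (gC (TF J (p.θ 1 - p.θ 2) s x) b 8) (Pi.single 8 y) = -y) ∧
      ∀ y : ℝ, 0 ≤ y → φ (gC (TF J (p.θ 1 - p.θ 2) s x) b 9) (Pi.single 9 y) = -y := by
  have P := plE_TF hκ h.tp.ok.θ1 hJ a0 hb
  obtain ⟨t, lam2, lo2, x2, h2, φ2, tpos, t0, -, -, -, -, hP, hhom, hlim⟩ :=
    ptV_ofH h h0 h1 a0 hb hTie hQ hst hz kpos k0 H1 H2 hJT hB hO
  obtain ⟨g0, g8, g9, f8, f9⟩ := base_pt h hκ hV2 hJ a0 hb hP hhom
  have na : K2S774.Nat (mw monQ) (AF J) (TF J (p.θ 1 - p.θ 2) s x) := fun w hw => natTF _ _ _ hw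
  have nb : K2S774.Nat (mw monQ) (AF J) b :=
    hst.nat_b hQ.rd.nat fun i hi => hb i (by simpa using hi)
  have hL : ∀ p', Legal monQ p' → p' ∈ cn (mw monQ) (AF J) := fun p' hp' w _ =>
    hp'.wall w.1 w.2.1 w.2.2
  have m8 : bl 1 0 0 1 0 ∈ cn (mw monQ) (AF J) := hL _ (bl_legal zero_le_one le_rfl le_rfl
    zero_le_one zero_le_one le_rfl le_rfl zero_le_one)
  have m9 : bl 1 0 0 0 1 ∈ cn (mw monQ) (AF J) := hL _ (bl_legal zero_le_one le_rfl le_rfl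
    zero_le_one le_rfl zero_le_one zero_le_one le_rfl)
  have G8 := K2B146.cn_ga na nb hO (k := gC (TF J (p.θ 1 - p.θ 2) s x) b 8) (i0 := 8) rfl
    fun i hi => dh_pos a0 P.g8 hi
  have G9 := K2B146.cn_ga na nb hO (k := gC (TF J (p.θ 1 - p.θ 2) s x) b 9) (i0 := 9) rfl
    fun i hi => dh_pos a0 P.g9 hi
  have e8 : φ2 (gC (TF J (p.θ 1 - p.θ 2) s x) b 8) (bl 1 0 0 1 0) =
      φ2 (gC (TF J (p.θ 1 - p.θ 2) s x) b 8) (Pi.single 8 1) := hP.out.loc _ _ _ fun i hi => by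
    rw [unit8 P i hi, Pi.single_apply]
  have e9 : φ2 (gC (TF J (p.θ 1 - p.θ 2) s x) b 9) (bl 1 0 0 0 1) =
      φ2 (gC (TF J (p.θ 1 - p.θ 2) s x) b 9) (Pi.single 9 1) := hP.out.loc _ _ _ fun i hi => by
    rw [unit9 P i hi, Pi.single_apply]
  refine ⟨⟨g0, g8, g9⟩, fun y hy => le_antisymm ?_ ?_, fun y hy => le_antisymm ?_ ?_⟩
  · exact full_slot G8 rfl m8 (unit8 P) tpos t0 (fun c hc => hlim _ (mem_gset 8) c hc)
      (fun c hc s hs => hhom _ (fun i hi => dh_pos a0 P.g8 hi) c hc s hs) (by rw [e8]; exact f8) hy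
  · exact single_ge G8 rfl m8 (unit8 P) hy
  · exact full_slot G9 rfl m9 (unit9 P) tpos t0 (fun c hc => hlim _ (mem_gset 9) c hc)
      (fun c hc s hs => hhom _ (fun i hi => dh_pos a0 P.g9 hi) c hc s hs) (by rw [e9]; exact f9) hy
  · exact single_ge G9 rfl m9 (unit9 P) hy

end pt

end Crest.Agent.R136.LdF9511
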