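import Crest.Agent.R136.LdF6_146
import Crest.Agent.R136.LdF9_511
import Crest.Agent.R136.LadB_115

/-!
# R136, case F, rung `s = 1` (helper146): wiring

* `SwI.tr`, **`ptV_ofI`** : the point at infinity of a point of a rung: homogeneous, same slopes and
  rates, asymptotic inequalities become exact
* **`F2_fl`** : the F-lemma of the rung `s = 1` (`F_a` or `P` visible), `θ 0 ≠ θ 1`, any D-max cone
-/

set_option autoImplicit false
set_option linter.unusedVariables false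

open Finset Filter Topology

namespace Crest.Agent.R136.LdF6146

open Crest.Agent.R138.Ex926 (Base U IsTan)
open Crest.Agent.R136.Net191
open Crest.Agent.R136.NetQ186
open Crest.Agent.R136.Gf356
open Crest.Agent.R136.Wq638
open Crest.Agent.R136.Ev356 (mv)
open Crest.Agent.R136.GeoQ186 (scl)
open Crest.Agent.R136.NatT550
open Crest.Agent.R136.NatR550 (nL)
open Crest.Agent.R136.Top484
open Crest.Agent.R136.LdF511
open Crest.Agent.R136.LdF3511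
open Crest.Agent.R136.LdF4511
open Crest.Agent.R136.LdF5511
open Crest.Agent.R136.LdF7511
open Crest.Agent.R136.LdF9511
open Crest.Agent.R136.Dl667
open Crest.Agent.R136.LadA115 (cz)
open Crest.Agent.R136.Tb628 (oS oS_eq)
open Crest.Agent.R136.K2S774 (cn Prf JT Stage RecD RungD BaseOk ind1 A2)
open Crest.Agent.R136.K2A146 (FLemA)
open Crest.Agent.R136.AwJ774 (mA mem_mA coneM_mA aew_of_jt)
open Crest.Agent.R136.Aw413 (coneM AeW)
open Crest.Agent.R136.Dg219 (Walls mw gC dhC nC OutS gC_zero gC_eq gset mem_gset)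
open Crest.Agent.R136.Rc146 (OutA)
open Crest.Agent.R136.Dg262 (X)

/-! ### the point at infinity -/

section inf

variable {η : ℝ} {p : Par4} {D : Dat4} {I1 : ℕ → Finset (ℕ × ℝ)} {π : Equiv.Perm (Fin 3)}
  {eE fA fB : ℕ → ℕ × ℝ → ℝ} {V T : Fin 11 → Prop} {w0 R T0 : ℝ} {PD : Set (Fin 11 → ℝ)}
  {ν own : (Fin 11 → ℝ) → ℝ} {c₀ : ℝ}

/-- sweeps and independence pass to a blow-down -/
theorem SwI.tr {Jd : Finset (Fin 11)} {a : Fin 11 → ℝ} {lam lam2 : (Fin 11 → ℝ) → ℝ}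
    (S : SwI p Jd a lam)
    (H : ∀ c ∈ cn (mw monQ) (AF Jd), ∀ c' ∈ cn (mw monQ) (AF Jd), ∀ C e y0 : ℝ,
      (∀ y, y0 ≤ y → C + lam (y • c) ≤ lam (y • c') + e * y) → lam2 c ≤ lam2 c' + e) :
    SwI p Jd a lam2 where
  sw := by
    intro u hu u67 u0 c hc σ h hh hcu hT hs
    have k := H (c + h • u) hcu c hc 0 (DlF p u * h) 0 fun y hy => by
      have e1 : y • (c + h • u) = y • c + (y * h) • u := by rw [smul_add, smul_smul]
      have k1 := S.sw u hu u67 u0 (y • c) (K2S774.cn_smul hc hy) (y * σ) (y * h)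
        (mul_nonneg hy hh) (by rw [← e1]; exact K2S774.cn_smul hcu hy) (fun i hi h0 => by
          have := mul_le_mul_of_nonneg_left (hT i hi h0) hy
          rw [Pi.smul_apply, smul_eq_mul, mul_assoc]; exact this) (fun i hi h0 => by
          obtain ⟨g1, g2⟩ := hs i hi h0
          refine ⟨g1, ?_⟩
          rw [Pi.smul_apply, smul_eq_mul, g2, mul_assoc])
      rw [e1]
      have e2 : -(DlF p u) * (y * h) = -(DlF p u * h * y) := by ring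
      rw [e2] at k1
      linarith
    have e3 : -(DlF p u) * h = -(DlF p u * h) := by ring
    rw [e3]
    linarith
  ind := by
    intro c hc c' hc' hcc hc1
    have key : ∀ y : ℝ, 0 ≤ y → lam (y • c) = lam (y • c') := fun y hy =>
      S.ind (y • c) (K2S774.cn_smul hc hy) (y • c') (K2S774.cn_smul hc' hy)
        (fun i hi => by rw [Pi.smul_apply, Pi.smul_apply, hcc i hi])
        (by rw [Pi.smul_apply, smul_eq_mul]; exact mul_nonneg hy hc1)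
    have k1 := H c hc c' hc' 0 0 0 fun y hy => by rw [key y hy]; simp
    have k2 := H c' hc' c hc 0 0 0 fun y hy => by rw [key y hy]; simp
    linarith

/-- **the point at infinity of a point of a rung**: homogeneous groups, the same slopes and rates;
asymptotic inequalities at `lam'` become exact -/
theorem ptV_ofI (h : Thick η p D I1 π eE fA fB V T w0 R T0 PD ν own c₀) {v : ℝ} (h0 : 0 < v)
    (h1 : v < 1) {Jd : Finset (Fin 11)} {s : ℝ} {x b : Fin 11 → ℝ}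
    (a0 : ∀ i, 0 ≤ TF Jd (p.θ 1 - p.θ 2) s x i)
    (hb : ∀ i, i ∉ Jd → b i = rhoF p.θ i)
    (hTie : ∀ k, V k → oS p.θ k * TF Jd (p.θ 1 - p.θ 2) s x 0 ≤ TF Jd (p.θ 1 - p.θ 2) s x k)
    {Qd : Set (Fin 11 → ℝ)} (hQ : QdOk p.θ V Jd Qd)
    {lam lo : (Fin 11 → ℝ) → ℝ} (hst : StVQ Qd p V ν own w0 R v Jd lam lo) {z : ℝ × ℝ}
    (hz : z.1 < 0) {k : ℕ → ℝ} {lam' lo' : (Fin 11 → ℝ) → ℝ} (kpos : ∀ l, 0 < k l)
    (k0 : Tendsto k atTop (𝓝 0))
    (H1 : IsTan (cn (mw monQ) (AF Jd)) (cn (mw monQ) (AF Jd)) lam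
      (fun _ => X 0 (TF Jd (p.θ 1 - p.θ 2) s x) b z) k lam')
    (H2 : IsTan (cn (mw monQ) (AF Jd)) (cn (mw monQ) (AF Jd)) lo
      (fun _ => X 0 (TF Jd (p.θ 1 - p.θ 2) s x) b z) k lo')
    {x' : ℕ → Fin 11 → ℝ} {h' : ℕ → ℝ}
    (hJ : JT (mw monQ) (AF Jd) (Leg monQ R) ν own (recF p.θ w0 (R - 1) v) x' h' lam' lo')
    (hB : BaseOk {k | V k} 0 (oS p.θ) (TF Jd (p.θ 1 - p.θ 2) s x) (recF p.θ w0 (R - 1) v) x' h')
    {A : ℝ × ℝ} {φ : ℕ → (Fin 11 → ℝ) → ℝ} {rt : ℕ → ℝ}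
    (hO : OutA (gC (TF Jd (p.θ 1 - p.θ 2) s x) b) (cn (mw monQ) (AF Jd))
      (TF Jd (p.θ 1 - p.θ 2) s x) b (dhC (TF Jd (p.θ 1 - p.θ 2) s x) b)
      (nC (TF Jd (p.θ 1 - p.θ 2) s x) b) lam' A φ rt) :
    ∃ (lam2 lo2 : (Fin 11 → ℝ) → ℝ) (x2 : ℕ → Fin 11 → ℝ) (h2 : ℕ → ℝ)
      (φ2 : ℕ → (Fin 11 → ℝ) → ℝ),
      JT (mw monQ) (AF Jd) (Leg monQ R) ν own (recF p.θ w0 (R - 1) v) x2 h2 lam2 lo2 ∧
      BaseOk {k | V k} 0 (oS p.θ) (TF Jd (p.θ 1 - p.θ 2) s x) (recF p.θ w0 (R - 1) v) x2 h2 ∧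
      PtV D.B D.I I1 (couQ D.B D.lev D.w w0 (incQ π D.L eE fA fB)) p V T Jd
        (TF Jd (p.θ 1 - p.θ 2) s x) b lam2 lo2 A φ2 rt ∧
      HomV Jd (TF Jd (p.θ 1 - p.θ 2) s x) b φ2 ∧
      (∀ c ∈ cn (mw monQ) (AF Jd), ∀ c' ∈ cn (mw monQ) (AF Jd), ∀ C e y0 : ℝ,
        (∀ y, y0 ≤ y → C + lam' (y • c) ≤ lam' (y • c') + e * y) → lam2 c ≤ lam2 c' + e) ∧
      ∀ k ∈ gset (gC (TF Jd (p.θ 1 - p.θ 2) s x) b), ∀ c ∈ cn (mw monQ) (AF Jd),
        ∀ c' ∈ cn (mw monQ) (AF Jd), ∀ C e y0 : ℝ,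
        (∀ y, y0 ≤ y → C + φ k (y • c) ≤ φ k (y • c') + e * y) → φ2 k c ≤ φ2 k c' + e := by
  have z5 : (5 : Fin 11) ∉ Jd := fun h5 => hst.ZD 5 (by simp) (by simpa using h5)
  have z1 : (1 : Fin 11) ∉ Jd := fun h5 => hst.ZD 1 (by simp) (by simpa using h5)
  have a5 : TF Jd (p.θ 1 - p.θ 2) s x 5 = 0 := by
    rw [← TF_off z5, TpF_val]; simp
  have a1 : TF Jd (p.θ 1 - p.θ 2) s x 1 = 0 := by
    rw [← TF_off z1, TpF_val]; simp
  have ha : K2S774.Nat (mw monQ) (AF Jd) (TF Jd (p.θ 1 - p.θ 2) s x) :=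
    fun w hw => natTF _ _ _ hw
  have hP' := hst.prf.tan kpos H1 H2
  obtain ⟨lam2, lo2, x2, h2, φ2, hJ2, hB2, hP2, hO2, hhom, htr, -, htφ⟩ :=
    K2C146.exists_hom_inf (fun w hw => AF_full hw) a0 ha
      (hst.nat_b hQ.rd.nat fun i hi => hb i (by simpa using hi)) hJ hP' hB hO
  have hA := aew_of_jt (src_thick h h0 h1)
    (Tw := fun k => T k ∧ V k ∧ TF Jd (p.θ 1 - p.θ 2) s x k =
      oS p.θ k * TF Jd (p.θ 1 - p.θ 2) s x 0) hJ2 hB2 (fun i hi => hTie i hi)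
    (fun k hk => ⟨hk.1, hk.2.1, hk.2.2⟩) (fun hk => vis0 h.tp.slots hk.2.1) hO2.toOutS
  rw [sub_zero] at hA
  exact ⟨lam2, lo2, x2, h2, φ2, hJ2, hB2,
    { toSwI := SwI.tr (swI_of_stage h.tp.ok.θ1 hQ hst a0 ha
        (fun i hi => hb i (by simpa using hi)) a5 a1 hz kpos k0 H1) htr
      aew := hA
      out := hO2
      prf := hP2 }, hhom, htr, htφ⟩

end inf

/-! ### the F-lemma of the rung -/

section F2

variable {η : ℝ} {p : Par4} {D : Dat4} {I1 : ℕ → Finset (ℕ × ℝ)} {π : Equiv.Perm (Fin 3)}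
  {eE fA fB : ℕ → ℕ × ℝ → ℝ} {V T : Fin 11 → Prop} {w0 R T0 : ℝ} {PD : Set (Fin 11 → ℝ)}
  {ν own : (Fin 11 → ℝ) → ℝ} {c₀ : ℝ}

theorem no3 : ∀ k, ∀ e ∈ (mA monQ (AF {3})).mon k, e 3 = 0 := fun k e he => by
  obtain ⟨_, -, -, h3⟩ := mem_mA.1 he
  exact h3 3 (by simp)

theorem m4810 : mv 4 8 ∈ (mA monQ (AF {3})).mon 10 :=
  mem_mA.2 ⟨by decide, by show mv 4 8 1 = 0; decide, by show (10 : Fin 11) ∉ _; decide,
    fun s hs => by
      rw [Finset.mem_singleton] at hs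
      subst hs
      show mv 4 8 3 = 0
      decide⟩

theorem m0710 : mv 0 7 ∈ (mA monQ (AF {3})).mon 10 :=
  mem_mA.2 ⟨by decide, by show mv 0 7 1 = 0; decide, by show (10 : Fin 11) ∉ _; decide,
    fun s hs => by
      rw [Finset.mem_singleton] at hs
      subst hs
      show mv 0 7 3 = 0
      decide⟩

theorem n017 : mv 0 1 ∉ (mA monQ (AF {3})).mon 7 := (maE_AF (by decide)).r

theorem cz_bx (x c8 c4 c10 : ℝ) :
    cz x (Lf400.bx (0 : Fin 11 → ℝ) 8 4 10 c8 c4 c10) = bq x c4 0 c8 0 c10 := by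
  funext i
  rw [bq_app]
  unfold cz Lf400.bx
  fin_cases i <;> simp

/-- **the F-lemma of the rung `s = 1`** (`F_a` or `P` visible), any D-max cone -/
theorem F2_fl (h : Thick η p D I1 π eE fA fB V T w0 R T0 PD ν own c₀) {v : ℝ} (h0 : 0 < v)
    (h1 : v < 1) (hκ : 0 < p.θ 1 - p.θ 2) (h01 : p.θ 0 ≠ p.θ 1) (hV2 : V 2) (hV3 : ¬ V 3)
    (hV4 : ¬ V 4) {x b : Fin 11 → ℝ} (hx : 0 < x 3)
    (hb : ∀ i, i ∉ ({3} : Finset (Fin 11)) → b i = rhoF p.θ i)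
    {Qd : Set (Fin 11 → ℝ)} (hQ : QdOk p.θ V {3} Qd) {g2 : ℝ}
    (hg2 : g2 ≤ 4 + (p.θ 1 - p.θ 2) + DlF p (TpF (p.θ 1 - p.θ 2) 1))
    (hβ : ∀ (lam : (Fin 11 → ℝ) → ℝ) (A : ℝ × ℝ) (φ : ℕ → (Fin 11 → ℝ) → ℝ) (r : ℕ → ℝ),
      AeW D.B D.B D.I I1 (couQ D.B D.lev D.w w0 (incQ π D.L eE fA fB)) monQ
        (mA monQ (AF {3})) 2 lam (TF {3} (p.θ 1 - p.θ 2) 1 x) b A φ r 0 1 (oS p.θ)
        (fun k => V k ∧ TF {3} (p.θ 1 - p.θ 2) 1 x k = oS p.θ k * TF {3} (p.θ 1 - p.θ 2) 1 x 0)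
        (fun k => T k ∧ V k ∧ TF {3} (p.θ 1 - p.θ 2) 1 x k =
          oS p.θ k * TF {3} (p.θ 1 - p.θ 2) 1 x 0) →
      ∀ x : ℝ, 0 < x → ∀ N : ℕ, 0 < N → ∃ j ≤ N,
        lam (bq x x 0 0 0 0) - lam (bq x x (x * j / N) 0 0 (x * j / N)) + (x - x * (j + 1) / N) ≤
          lam (bq x x 0 0 0 0) - lam (bq x x 0 0 0 x))
    (hXb : gC (TF {3} (p.θ 1 - p.θ 2) 1 x) b 10 = gC (TF {3} (p.θ 1 - p.θ 2) 1 x) b 9 →
      ∀ (lam lo : (Fin 11 → ℝ) → ℝ) (A : ℝ × ℝ) (φ : ℕ → (Fin 11 → ℝ) → ℝ) (r : ℕ → ℝ),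
      PtV D.B D.I I1 (couQ D.B D.lev D.w w0 (incQ π D.L eE fA fB)) p V T {3}
        (TF {3} (p.θ 1 - p.θ 2) 1 x) b lam lo A φ r →
      HomV {3} (TF {3} (p.θ 1 - p.θ 2) 1 x) b φ →
      (∀ y : ℝ, 0 ≤ y → φ (gC (TF {3} (p.θ 1 - p.θ 2) 1 x) b 10) (Pi.single 10 y) ≤ -y) →
      ∀ y : ℝ, 0 ≤ y → φ (gC (TF {3} (p.θ 1 - p.θ 2) 1 x) b 9)
        (Pi.single 9 y + Pi.single 10 y) ≤ -(2 * y))
    {lam lo : (Fin 11 → ℝ) → ℝ} (hst : StVQ Qd p V ν own w0 R v {3} lam lo) :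
    FlV p V ν own w0 R v {3} 1 x b lam lo (fun l => l (ind1 {4, 7}) < 0) g2 := by
  intro z hz D' hD' k lam' lo' kpos k0 H1 H2 x' h' hJ hB φ rt hO hVis
  have PF := plF_TF hκ h.tp.ok.θ1 h01 hx hb
  have a0 := (TF_ii hκ hx).1
  have hTie := tie_TF h hV3 hV4 (J := {3}) (by decide) 1 x
  have hP := ptV_of h h0 h1 a0 hb hTie hQ hst hz kpos k0 H1 H2 hJ hB hO
  obtain ⟨-, f8, -⟩ := full_tan h h0 h1 hκ hV2 (by decide) a0 hb hTie hQ hst hz kpos k0 H1 H2 hJ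
    hB hO
  -- `N` at `lam'`
  obtain ⟨j, hj1, hjN⟩ := claimN PF hO.toOutS hP.prf hP.aew.zero (fun y hy => (f8 y hy).le)
    (fun y j' hj0 hjy hy g1 g2 g3 => by
      have := LadA115.leafN48 (f := fun n i => scl (uH D.B D.lev w0 n) (uA D.B D.lev D.w w0 n)
        (uB D.B D.lev D.w w0 n) (uY D.B D.lev D.w w0 n) (incQ π D.L eE fA fB n i)) hP.aew
        (by norm_num) (fun n i _ j _ => rfl) h.ext.ne (fun k hk => vis2 h hV3 hV4 hk.1)
        n017 m4810 no3 (b := 0) (x := y) (j := j')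
        (fun s => ⟨le_rfl, hy.le⟩) rfl rfl le_rfl le_rfl hj0 hjy
        (by rw [cz_bx, cz_bx]; exact g1) (by rw [cz_bx, cz_bx]; exact g2)
        (by rw [cz_bx, cz_bx]; exact g3)
      rwa [cz_bx, cz_bx] at this)
    (hβ lam' _ φ rt hP.aew) hVis
  -- the point at infinity
  obtain ⟨lam2, lo2, x2, h2, φ2, hJ2, hB2, hP2, hhom, htr, -⟩ :=
    ptV_ofI h h0 h1 a0 hb hTie hQ hst hz kpos k0 H1 H2 hJ hB hO
  obtain ⟨r0, r8, r9, -, -⟩ := base_pt h hκ hV2 (by decide) a0 hb hP2 hhom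
  have mN : bq 1 1 0 0 0 1 ∈ cn (mw monQ) (AF {3}) :=
    bq_mem zero_le_one zero_le_one le_rfl le_rfl le_rfl zero_le_one zero_le_one zero_le_one
      zero_le_one le_rfl (by simp) (by simp)
  have m0 : bq 1 1 0 0 0 0 ∈ cn (mw monQ) (AF {3}) :=
    bq_mem zero_le_one zero_le_one le_rfl le_rfl le_rfl le_rfl zero_le_one zero_le_one
      zero_le_one le_rfl (by simp) (by simp)
  have hN2 : lam2 (bq 1 1 0 0 0 1) ≤ lam2 (bq 1 1 0 0 0 0) - 1 := by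
    have := htr _ mN _ m0 (-j) (-1) j fun y hy => by
      rw [bq_smul, bq_smul]
      simp only [mul_one, mul_zero]
      have := hjN y hy
      linarith
    linarith
  -- `z` at the point at infinity
  have b00 : bq 0 0 0 0 0 0 = 0 := by
    funext i; rw [bq_app]; simp
  have mz : bq 1 0 0 0 0 0 ∈ cn (mw monQ) (AF {3}) :=
    bq_mem zero_le_one le_rfl le_rfl le_rfl le_rfl le_rfl le_rfl zero_le_one zero_le_one le_rfl
      (by simp) (by simp)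
  have mz0 : (0 : Fin 11 → ℝ) ∈ cn (mw monQ) (AF {3}) := K2S774.cn_zero
  have hz2 : lam2 (bq 1 0 0 0 0 0) ≤ -1 := by
    have := hP2.aew.own 0 (by rw [coneM_mA]; exact mz0) (bq 1 0 0 0 0 0)
      (by rw [coneM_mA]; exact mz) (by
        rw [← b00]; exact bq_le zero_le_one le_rfl le_rfl le_rfl le_rfl le_rfl) (fun k _ => by simp)
    rw [hP2.aew.zero] at this
    have e : bq 1 0 0 0 0 0 0 = 1 := rfl
    rw [e, Pi.zero_apply] at this
    linarith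
  have hom : ∀ k, k ≠ 0 → ∀ c ∈ cn (mw monQ) (AF {3}), ∀ s : ℝ, 0 ≤ s →
      φ2 k (s • c) = s * φ2 k c := fun k hk c hc s hs =>
    hhom k (fun i hi => dh_pos a0 hk hi) c hc s hs
  have tot := tot_F2 PF (fun w hw => (natTF _ _ _ hw).le) hP2.out.toOutS hom hP2.aew.zero hz2 r0 r8
    r9 hN2 fun e9 hN10 => by
      have hy : ∀ y : ℝ, 0 ≤ y →
          φ2 (gC (TF {3} (p.θ 1 - p.θ 2) 1 x) b 10) (Pi.single 10 y) ≤ -y := fun y hy => by
        have hL : ∀ p', Legal monQ p' → p' ∈ cn (mw monQ) (AF {3}) := fun p' hp' w _ =>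
          hp'.wall w.1 w.2.1 w.2.2
        have hc1 : ∀ i, gC (TF {3} (p.θ 1 - p.θ 2) 1 x) b i =
            gC (TF {3} (p.θ 1 - p.θ 2) 1 x) b 10 →
            bq 1 1 0 0 0 1 i = if i = 10 then 1 else 0 := by
          intro i hi
          have e0 : i ≠ 0 := fun e => by
            subst e
            exact PF.g09 (hi.trans e9.symm)
          have e4 : i ≠ 4 := fun e => by
            subst e; exact absurd (hi.symm.trans PF.g4) PF.g10
          clear hi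
          revert e0 e4
          fin_cases i <;> simp [bq]
        have k1 := hom_single hL hP2.out.toOutS hom PF.g10 mN hc1 hy
        rw [k1]
        have := mul_le_mul_of_nonneg_left hN10 hy
        linarith
      have := hXb e9.symm lam2 lo2 _ φ2 rt hP2 hhom hy 1 zero_le_one
      linarith
  show g2 ≤ -D' (1, 0) + DlF p (TpF (p.θ 1 - p.θ 2) 1)
  have e : ((D' (1, 0), D' (0, 1)) : ℝ × ℝ).1 = D' (1, 0) := rfl
  rw [e] at tot
  linarith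

end F2

end Crest.Agent.R136.LdF6146
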