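import Crest.Agent.R136.F2k3_569
import Crest.Agent.R136.LdF5_683
import Crest.Agent.R136.LdFb_146

/-!
# R136, case F at `θ0 = θ2` (helper569): `X_b` is exact given `N`, at any tangent

* `maF_AF`, `plK_TF` : walls and plane of the rung `s = 1 + κ`
* `xbK_pt` : `1 ≤ r₉ / (1 + κ) + φ₉ wN` at a homogeneous point of the rung
* **`xbN_tan`** : `X_b : y` is full given `N : y`, at every tangent of a stage, at every scale
* **`xn_tan`** : the same in the box form of 683's `slope_pt`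
* **`F1_tan2`, `F1_fl2`** : the rung `s = 1 + κ` at any tangent, `θ 0 = θ 2`
-/

set_option autoImplicit false
set_option linter.unusedVariables false

open Finset Filter Topology

namespace Crest.Agent.R136.F2b569

open Crest.Agent.R138.Ex926 (Base U IsTan)
open Crest.Agent.R136.Net191
open Crest.Agent.R136.NetQ186
open Crest.Agent.R136.Gf356
open Crest.Agent.R136.Ev356 (mv)
open Crest.Agent.R136.Wq638
open Crest.Agent.R136.GeoQ186 (scl)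
open Crest.Agent.R136.NatT550
open Crest.Agent.R136.NatR550 (nL)
open Crest.Agent.R136.Top484
open Crest.Agent.R136.LdF511
open Crest.Agent.R136.LdF3511
open Crest.Agent.R136.LdF4511
open Crest.Agent.R136.LdF5511
open Crest.Agent.R136.LdF7511
open Crest.Agent.R136.LdF9511
open Crest.Agent.R136.LdF5683 (bN bN_legal TF_one mem_of_legal slope_pt F1_num)
open Crest.Agent.R136.LdF6146 (ptV_ofI)
open Crest.Agent.R136.Dl667
open Crest.Agent.R136.F2k569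
open Crest.Agent.R136.Tb628 (oS oS_eq)
open Crest.Agent.R136.K2S774 (cn Prf JT Stage RecD RungD BaseOk ind1 A2)
open Crest.Agent.R136.K2A146 (FLemA)
open Crest.Agent.R136.Lift146 (GA uS uS_in uS_off)
open Crest.Agent.R136.AwJ774 (mA mem_mA coneM_mA aew_of_jt)
open Crest.Agent.R136.Aw413 (coneM AeW)
open Crest.Agent.R136.Dg219 (Walls mw gC dhC nC OutS gC_zero gC_eq gset mem_gset Tn)
open Crest.Agent.R136.Rc146 (OutA)
open Crest.Agent.R136.Dg262 (X)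

/-! ### walls and plane -/

theorem maF_AF : MaF (mA monQ (AF ∅)) where
  sub := fun k e he => (mem_mA.1 he).1
  m256 := AF_of (by simp) (by decide) ⟨by decide, by decide, by decide⟩
  m058 := AF_of (by simp) (by decide) ⟨by decide, by decide, by decide⟩
  m069 := AF_of (by simp) (by decide) ⟨by decide, by decide, by decide⟩
  m289 := AF_of (by simp) (by decide) ⟨by decide, by decide, by decide⟩
  m0710 := mem_mA.2 ⟨by decide, by decide, by decide, by decide⟩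
  no := fun k e he => by
    obtain ⟨_, h1, -⟩ := mem_mA.1 he
    exact h1

theorem plK_TF {θ : Fin 3 → ℝ} (hκ : 0 < θ 1 - θ 2) (h1 : 0 < θ 1) (h02 : θ 0 = θ 2)
    (x : Fin 11 → ℝ) :
    PlK (TF ∅ (θ 1 - θ 2) (1 + (θ 1 - θ 2)) x) (rhoF θ) (θ 1 - θ 2) where
  toPlE := plE_TF hκ h1 (J := ∅) (by simp) (TF_i hκ x).1 (fun _ _ => rfl)
  a1 := by rw [TF_one]; rfl
  a3 := by rw [TF_one]; rfl
  a4 := by rw [TF_one]; rfl
  a7 := by rw [TF_one]; rfl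
  a10 := by rw [TF_one]; rfl
  b4 := by simp only [rhoF, nL, Matrix.cons_val]; linarith
  b7 := by simp only [rhoF, nL, Matrix.cons_val]; linarith
  b10 := by simp only [rhoF, nL, Matrix.cons_val]; linarith

/-! ### from the point at infinity to every scale -/

/-- the group of `X_b`: the loss of `N` at infinity bounds the loss at every scale -/
theorem xbN_of {a b : Fin 11 → ℝ} {κ : ℝ} {L : Set (Fin 11 → ℝ)} {f : (Fin 11 → ℝ) → ℝ} {r9 : ℝ}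
    (P : PlK a b κ) (G : GA (gC a b) L a b (dhC a b) (nC a b) (gC a b 9) f r9)
    (mw : wN ∈ L) {e2 : ℝ} (key : 1 ≤ r9 / (1 + κ) + e2)
    (tr : ∀ C e : ℝ, (∀ s : ℝ, 0 ≤ s → C + f (s • (1 + κ) • wN) ≤ e * s) → (1 + κ) * e2 ≤ e)
    {y : ℝ} (hy : 0 ≤ y) :
    f (Pi.single 9 y + Pi.single 10 y) + y ≤ f (Pi.single 10 y) := by
  rcases hy.eq_or_lt with rfl | hy0
  · simp
  have hκ := P.κ0
  have p1 : (0 : ℝ) < 1 + κ := by linarith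
  have dh9 : dhC a b 9 = 1 + κ := by unfold dhC; rw [if_neg P.n9, P.a9]
  have dh10 : dhC a b 10 = 1 + κ := by unfold dhC; rw [if_neg P.n10, P.a10]
  have hm : (1 + κ) • wN ∈ L := G.smul _ mw _ p1.le
  have e1 : ∀ i, gC a b i = gC a b 9 → ((1 + κ) • wN) i = uS (dhC a b) {10} i := fun i hi => by
    rw [Pi.smul_apply, smul_eq_mul]
    rcases P.grp9 hi with rfl | rfl
    · rw [uS_off (by decide)]; simp [wN]
    · rw [uS_in (by simp), dh10]; simp [wN]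
  have hS : uS (dhC a b) {10} ∈ projL (gC a b) L (gC a b 9) := ⟨_, hm, e1⟩
  have Gp := GA.proj G
  obtain ⟨t, ht⟩ : ∃ t : ℝ, t = y / (1 + κ) := ⟨_, rfl⟩
  have t0 : 0 < t := by rw [ht]; positivity
  have ty : y = t * (1 + κ) := by rw [ht]; field_simp
  -- superadditivity
  have sup : ∀ s : ℝ, 0 ≤ s → f (t • uS (dhC a b) {10}) + f (s • uS (dhC a b) {10}) ≤
      f (t • uS (dhC a b) {10}) / t * s := by
    intro s hs
    have n0 : 0 ≤ -f (t • uS (dhC a b) {10}) := by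
      have := Gp.mono_y hS le_rfl t0.le
      rw [zero_smul, Gp.zero, neg_zero] at this
      exact this
    have n1 : ((⌊s / t⌋₊ : ℕ) : ℝ) * t ≤ s := by
      have := Nat.floor_le (div_nonneg hs t0.le)
      rwa [le_div_iff₀ t0] at this
    have n2 : s / t - 1 ≤ ((⌊s / t⌋₊ : ℕ) : ℝ) := by
      have := Nat.lt_floor_add_one (s / t)
      linarith
    have a1 := Gp.super_nat hS t0.le ⌊s / t⌋₊
    have a2 := Gp.mono_y hS (by positivity) n1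
    have a3 := mul_le_mul_of_nonneg_right n2 n0
    have a4 : f (t • uS (dhC a b) {10}) / t * s = s / t * f (t • uS (dhC a b) {10}) := by ring
    rw [a4]
    linarith
  have hφ2 := tr (f (t • uS (dhC a b) {10})) (f (t • uS (dhC a b) {10}) / t) fun s hs => by
    rw [G.loc (s • (1 + κ) • wN) (s • uS (dhC a b) {10}) fun i hi => by
      show s • ((1 + κ) • wN) i = s • uS (dhC a b) {10} i
      rw [e1 i hi]]
    exact sup s hs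
  have e3 : f (t • uS (dhC a b) {10}) = f (Pi.single 10 y) := G.loc _ _ fun i hi => by
    rw [Pi.smul_apply, smul_eq_mul]
    rcases P.grp9 hi with rfl | rfl
    · rw [uS_off (by decide)]; simp
    · rw [uS_in (by simp), dh10, Pi.single_eq_same, ty]
  rw [e3, le_div_iff₀ t0] at hφ2
  have e4 : f (Pi.single 9 y + Pi.single 10 y) = f (Tn a b (t, 0)) := G.loc _ _ fun i hi => by
    rcases P.grp9 hi with rfl | rfl
    · simp only [Tn, P.a9, Pi.add_apply]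
      simp [ty, mul_comm]
    · simp only [Tn, P.a10, Pi.add_apply]
      simp [ty, mul_comm]
  have e5 : f (Tn a b (t, 0)) = -(r9 * t) := G.rate _ (G.nat _) t fun i hi => by
    rcases P.grp9 hi with rfl | rfl
    · rw [dh9]; simp [Tn, P.a9, mul_comm]
    · rw [dh10]; simp [Tn, P.a10, mul_comm]
  rw [e4, e5]
  have k1 : r9 / (1 + κ) * (t * (1 + κ)) = r9 * t := by field_simp
  have k2 := mul_le_mul_of_nonneg_right key (mul_nonneg t0.le p1.le)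
  have k3 : (r9 / (1 + κ) + e2) * (t * (1 + κ)) = r9 * t + (1 + κ) * e2 * t := by
    rw [add_mul, k1]; ring
  rw [k3, one_mul, ← ty] at k2
  linarith

section pt

variable {η : ℝ} {p : Par4} {D : Dat4} {I1 : ℕ → Finset (ℕ × ℝ)} {π : Equiv.Perm (Fin 3)}
  {eE fA fB : ℕ → ℕ × ℝ → ℝ} {V T : Fin 11 → Prop} {w0 R T0 : ℝ} {PD : Set (Fin 11 → ℝ)}
  {ν own : (Fin 11 → ℝ) → ℝ} {c₀ : ℝ} {lam lo : (Fin 11 → ℝ) → ℝ} {A : ℝ × ℝ}
  {φ : ℕ → (Fin 11 → ℝ) → ℝ} {r : ℕ → ℝ}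

/-- **`X_b` is exact given `N`**, at a homogeneous point of the rung -/
theorem xbK_pt (h : Thick η p D I1 π eE fA fB V T w0 R T0 PD ν own c₀)
    (hκ : 0 < p.θ 1 - p.θ 2) (h02 : p.θ 0 = p.θ 2) (hV2 : V 2) (hV3 : ¬ V 3) (hV4 : ¬ V 4)
    (hP : PtV D.B D.I I1 (couQ D.B D.lev D.w w0 (incQ π D.L eE fA fB)) p V T ∅
      (TF ∅ (p.θ 1 - p.θ 2) (1 + (p.θ 1 - p.θ 2)) 0) (rhoF p.θ) lam lo A φ r)
    (hH : HomV ∅ (TF ∅ (p.θ 1 - p.θ 2) (1 + (p.θ 1 - p.θ 2)) 0) (rhoF p.θ) φ)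
    (nb : K2S774.Nat (mw monQ) (AF ∅) (rhoF p.θ)) :
    1 ≤ r (gC (TF ∅ (p.θ 1 - p.θ 2) (1 + (p.θ 1 - p.θ 2)) 0) (rhoF p.θ) 9) /
        (1 + (p.θ 1 - p.θ 2)) +
      φ (gC (TF ∅ (p.θ 1 - p.θ 2) (1 + (p.θ 1 - p.θ 2)) 0) (rhoF p.θ) 9) wN := by
  have hθ := h.tp.ok.θ1
  have P := plK_TF hκ hθ h02 0
  have a0 := (TF_i hκ 0).1
  have na : K2S774.Nat (mw monQ) (AF ∅) (TF ∅ (p.θ 1 - p.θ 2) (1 + (p.θ 1 - p.θ 2)) 0) :=
    fun w hw => natTF _ _ _ hw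
  have hM := maF_AF
  refine xbK (F := fun n i => scl (uH D.B D.lev w0 n) (uA D.B D.lev D.w w0 n)
    (uB D.B D.lev D.w w0 n) (uY D.B D.lev D.w w0 n) (incQ π D.L eE fA fB n i)) hP.aew hM
    (by norm_num) (fun n i _ j _ => rfl) h.ext.ne P (by rw [coneM_mA]; exact hP.out)
    (fun z => by rw [coneM_mA]; exact K2B146.cn_nat na nb z) (fun s hs => ?_)
    (fun k hk => vis2 h hV3 hV4 hk.1) ⟨tied2 h.tp.slots hV2, hV2, ?_⟩ (c := p.q 1) h.tp.ok.g0.2 ?_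
  · exact hH _ (fun i hi => dh_pos a0 P.g9 hi) wN (by
      have := wN_mem hM
      rwa [coneM_mA] at this) s hs
  · rw [P.a0, P.a2, oS_eq]
    simp
  · have h1 := (hP.toSwI.ca hθ P.a5 (c := 0) K2S774.cn_zero zero_le_one
      (fun i _ _ _ => by simp)).2
    rw [one_smul, zero_add, hP.aew.zero] at h1
    linarith

/-- **`X_b : y` is full given `N : y`**, at every tangent of a stage and at every scale -/
theorem xbN_tan (h : Thick η p D I1 π eE fA fB V T w0 R T0 PD ν own c₀) {v : ℝ} (h0 : 0 < v)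
    (h1 : v < 1) (hκ : 0 < p.θ 1 - p.θ 2) (h02 : p.θ 0 = p.θ 2) (hV2 : V 2) (hV3 : ¬ V 3)
    (hV4 : ¬ V 4) {Qd : Set (Fin 11 → ℝ)} (hQ : QdOk p.θ V ∅ Qd)
    (hst : StVQ Qd p V ν own w0 R v ∅ lam lo) {z : ℝ × ℝ} (hz : z.1 < 0) {k : ℕ → ℝ}
    {lam' lo' : (Fin 11 → ℝ) → ℝ} (kpos : ∀ l, 0 < k l) (k0 : Tendsto k atTop (𝓝 0))
    (H1 : IsTan (cn (mw monQ) (AF ∅)) (cn (mw monQ) (AF ∅)) lam
      (fun _ => X 0 (TF ∅ (p.θ 1 - p.θ 2) (1 + (p.θ 1 - p.θ 2)) 0) (rhoF p.θ) z) k lam')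
    (H2 : IsTan (cn (mw monQ) (AF ∅)) (cn (mw monQ) (AF ∅)) lo
      (fun _ => X 0 (TF ∅ (p.θ 1 - p.θ 2) (1 + (p.θ 1 - p.θ 2)) 0) (rhoF p.θ) z) k lo')
    {x' : ℕ → Fin 11 → ℝ} {h' : ℕ → ℝ}
    (hJT : JT (mw monQ) (AF ∅) (Leg monQ R) ν own (recF p.θ w0 (R - 1) v) x' h' lam' lo')
    (hB : BaseOk {k | V k} 0 (oS p.θ) (TF ∅ (p.θ 1 - p.θ 2) (1 + (p.θ 1 - p.θ 2)) 0)
      (recF p.θ w0 (R - 1) v) x' h')
    {A : ℝ × ℝ} {φ : ℕ → (Fin 11 → ℝ) → ℝ} {rt : ℕ → ℝ}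
    (hO : OutA (gC (TF ∅ (p.θ 1 - p.θ 2) (1 + (p.θ 1 - p.θ 2)) 0) (rhoF p.θ))
      (cn (mw monQ) (AF ∅)) (TF ∅ (p.θ 1 - p.θ 2) (1 + (p.θ 1 - p.θ 2)) 0) (rhoF p.θ)
      (dhC (TF ∅ (p.θ 1 - p.θ 2) (1 + (p.θ 1 - p.θ 2)) 0) (rhoF p.θ))
      (nC (TF ∅ (p.θ 1 - p.θ 2) (1 + (p.θ 1 - p.θ 2)) 0) (rhoF p.θ)) lam' A φ rt)
    {y : ℝ} (hy : 0 ≤ y) :
    φ (gC (TF ∅ (p.θ 1 - p.θ 2) (1 + (p.θ 1 - p.θ 2)) 0) (rhoF p.θ) 9)
        (Pi.single 9 y + Pi.single 10 y) + y ≤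
      φ (gC (TF ∅ (p.θ 1 - p.θ 2) (1 + (p.θ 1 - p.θ 2)) 0) (rhoF p.θ) 9) (Pi.single 10 y) := by
  have hθ := h.tp.ok.θ1
  have P := plK_TF hκ hθ h02 0
  have a0 := (TF_i hκ 0).1
  have na : K2S774.Nat (mw monQ) (AF ∅) (TF ∅ (p.θ 1 - p.θ 2) (1 + (p.θ 1 - p.θ 2)) 0) :=
    fun w hw => natTF _ _ _ hw
  have nb : K2S774.Nat (mw monQ) (AF ∅) (rhoF p.θ) := hst.nat_b hQ.rd.nat fun i hi => rfl
  obtain ⟨lam2, lo2, x2, h2, φ2, hJ2, hB2, hP2, hhom, -, htφ⟩ :=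
    ptV_ofI h h0 h1 a0 (fun _ _ => rfl) (tie_TF h hV3 hV4 (J := ∅) (by simp) _ 0) hQ hst hz kpos
      k0 H1 H2 hJT hB hO
  have key := xbK_pt h hκ h02 hV2 hV3 hV4 hP2 hhom nb
  have p1 : (0 : ℝ) < 1 + (p.θ 1 - p.θ 2) := by linarith
  have mw : wN ∈ cn (Dg219.mw monQ) (AF ∅) := by
    have := wN_mem maF_AF
    rwa [coneM_mA] at this
  refine xbN_of P (K2B146.cn_ga na nb hO (i0 := 9) rfl fun i hi => dh_pos a0 P.g9 hi) mw key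
    (fun C e he => ?_) hy
  have hφ2 := htφ _ (mem_gset 9) _ (K2S774.cn_smul mw p1.le) 0 K2S774.cn_zero C e 0 fun s hs => by
    rw [smul_zero, hO.zero _ 0 fun i _ => rfl, zero_add]
    exact he s hs
  rw [hP2.out.zero _ 0 fun i _ => rfl, zero_add,
    hhom _ (fun i hi => dh_pos a0 P.g9 hi) wN mw _ p1.le] at hφ2
  exact hφ2

/-- **`X_b` is full given `z, X_a, F_b, N : x`** at every tangent of a stage -/
theorem xn_tan (h : Thick η p D I1 π eE fA fB V T w0 R T0 PD ν own c₀) {v : ℝ} (h0 : 0 < v)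
    (h1 : v < 1) (hκ : 0 < p.θ 1 - p.θ 2) (h02 : p.θ 0 = p.θ 2) (hV2 : V 2) (hV3 : ¬ V 3)
    (hV4 : ¬ V 4) {Qd : Set (Fin 11 → ℝ)} (hQ : QdOk p.θ V ∅ Qd)
    (hst : StVQ Qd p V ν own w0 R v ∅ lam lo) {z : ℝ × ℝ} (hz : z.1 < 0) {k : ℕ → ℝ}
    {lam' lo' : (Fin 11 → ℝ) → ℝ} (kpos : ∀ l, 0 < k l) (k0 : Tendsto k atTop (𝓝 0))
    (H1 : IsTan (cn (mw monQ) (AF ∅)) (cn (mw monQ) (AF ∅)) lam
      (fun _ => X 0 (TF ∅ (p.θ 1 - p.θ 2) (1 + (p.θ 1 - p.θ 2)) 0) (rhoF p.θ) z) k lam')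
    (H2 : IsTan (cn (mw monQ) (AF ∅)) (cn (mw monQ) (AF ∅)) lo
      (fun _ => X 0 (TF ∅ (p.θ 1 - p.θ 2) (1 + (p.θ 1 - p.θ 2)) 0) (rhoF p.θ) z) k lo')
    {x' : ℕ → Fin 11 → ℝ} {h' : ℕ → ℝ}
    (hJT : JT (mw monQ) (AF ∅) (Leg monQ R) ν own (recF p.θ w0 (R - 1) v) x' h' lam' lo')
    (hB : BaseOk {k | V k} 0 (oS p.θ) (TF ∅ (p.θ 1 - p.θ 2) (1 + (p.θ 1 - p.θ 2)) 0)
      (recF p.θ w0 (R - 1) v) x' h')
    {A : ℝ × ℝ} {φ : ℕ → (Fin 11 → ℝ) → ℝ} {rt : ℕ → ℝ}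
    (hO : OutA (gC (TF ∅ (p.θ 1 - p.θ 2) (1 + (p.θ 1 - p.θ 2)) 0) (rhoF p.θ))
      (cn (mw monQ) (AF ∅)) (TF ∅ (p.θ 1 - p.θ 2) (1 + (p.θ 1 - p.θ 2)) 0) (rhoF p.θ)
      (dhC (TF ∅ (p.θ 1 - p.θ 2) (1 + (p.θ 1 - p.θ 2)) 0) (rhoF p.θ))
      (nC (TF ∅ (p.θ 1 - p.θ 2) (1 + (p.θ 1 - p.θ 2)) 0) (rhoF p.θ)) lam' A φ rt)
    {x : ℝ} (hx : 0 ≤ x) : x ≤ lam' (bN x 0 x x) - lam' (bN x x x x) := by
  have P := plK_TF hκ h.tp.ok.θ1 h02 0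
  have key := xbN_tan h h0 h1 hκ h02 hV2 hV3 hV4 hQ hst hz kpos k0 H1 H2 hJT hB hO hx
  have hL : ∀ c, Legal monQ c → c ∈ cn (mw monQ) (AF ∅) := fun c hc => mem_of_legal c hc
  rw [one_grp hO.toOutS (hL _ (bN_legal le_rfl hx hx hx le_rfl (by linarith)))
    (hL _ (bN_legal hx le_rfl hx hx le_rfl (by linarith)))
    (gC (TF ∅ (p.θ 1 - p.θ 2) (1 + (p.θ 1 - p.θ 2)) 0) (rhoF p.θ) 9) (fun i hi => by
      have h9 : i ≠ 9 := fun e => hi (by rw [e])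
      fin_cases i <;> simp [bN] at h9 ⊢)]
  rw [hO.loc _ (bN x 0 x x) (Pi.single 10 x) (fun i hi => by
      rcases P.grp9 hi with rfl | rfl <;> simp [bN]),
    hO.loc _ (bN x x x x) (Pi.single 9 x + Pi.single 10 x) (fun i hi => by
      rcases P.grp9 hi with rfl | rfl <;> simp [bN])]
  linarith

/-- **the rung `s = 1 + κ` at any tangent of a stage, `θ 0 = θ 2`** -/
theorem F1_tan2 (h : Thick η p D I1 π eE fA fB V T w0 R T0 PD ν own c₀) {v : ℝ} (h0 : 0 < v)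
    (h1 : v < 1) (hκ : 0 < p.θ 1 - p.θ 2) (h02 : p.θ 0 = p.θ 2) (hV2 : V 2) (hV3 : ¬ V 3)
    (hV4 : ¬ V 4) {Qd : Set (Fin 11 → ℝ)} (hQ : QdOk p.θ V ∅ Qd)
    (hst : StVQ Qd p V ν own w0 R v ∅ lam lo) {z : ℝ × ℝ} (hz : z.1 < 0) {k : ℕ → ℝ}
    {lam' lo' : (Fin 11 → ℝ) → ℝ} (kpos : ∀ l, 0 < k l) (k0 : Tendsto k atTop (𝓝 0))
    (H1 : IsTan (cn (mw monQ) (AF ∅)) (cn (mw monQ) (AF ∅)) lam
      (fun _ => X 0 (TF ∅ (p.θ 1 - p.θ 2) (1 + (p.θ 1 - p.θ 2)) 0) (rhoF p.θ) z) k lam')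
    (H2 : IsTan (cn (mw monQ) (AF ∅)) (cn (mw monQ) (AF ∅)) lo
      (fun _ => X 0 (TF ∅ (p.θ 1 - p.θ 2) (1 + (p.θ 1 - p.θ 2)) 0) (rhoF p.θ) z) k lo')
    {x' : ℕ → Fin 11 → ℝ} {h' : ℕ → ℝ}
    (hJT : JT (mw monQ) (AF ∅) (Leg monQ R) ν own (recF p.θ w0 (R - 1) v) x' h' lam' lo')
    (hB : BaseOk {k | V k} 0 (oS p.θ) (TF ∅ (p.θ 1 - p.θ 2) (1 + (p.θ 1 - p.θ 2)) 0)
      (recF p.θ w0 (R - 1) v) x' h')
    {A : ℝ × ℝ} {φ : ℕ → (Fin 11 → ℝ) → ℝ} {rt : ℕ → ℝ}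
    (hO : OutA (gC (TF ∅ (p.θ 1 - p.θ 2) (1 + (p.θ 1 - p.θ 2)) 0) (rhoF p.θ))
      (cn (mw monQ) (AF ∅)) (TF ∅ (p.θ 1 - p.θ 2) (1 + (p.θ 1 - p.θ 2)) 0) (rhoF p.θ)
      (dhC (TF ∅ (p.θ 1 - p.θ 2) (1 + (p.θ 1 - p.θ 2)) 0) (rhoF p.θ))
      (nC (TF ∅ (p.θ 1 - p.θ 2) (1 + (p.θ 1 - p.θ 2)) 0) (rhoF p.θ)) lam' A φ rt)
    (hvis : lam' (ind1 {3}) < 0) : A.1 ≤ -(4 + 2 * (p.θ 1 - p.θ 2)) := by
  have a0 := (TF_i hκ 0).1
  have hTie := tie_TF h hV3 hV4 (J := ∅) (by simp) (1 + (p.θ 1 - p.θ 2)) 0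
  have hP := ptV_of h h0 h1 a0 (fun _ _ => rfl) hTie hQ hst hz kpos k0 H1 H2 hJT hB hO
  obtain ⟨-, f8, f9⟩ := full_tan h h0 h1 hκ hV2 (by simp) a0 (fun _ _ => rfl) hTie hQ hst
    hz kpos k0 H1 H2 hJT hB hO
  exact slope_pt h hκ hV3 (fun h4 => absurd h4 hV4) hP hvis (fun y hy => (f8 y hy).le)
    fun x hx => xn_tan h h0 h1 hκ h02 hV2 hV3 hV4 hQ hst hz kpos k0 H1 H2 hJT hB hO (by linarith)

/-- **F-lemma of the rung `s = 1 + κ`, `θ 0 = θ 2`** (any D-max cone) -/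
theorem F1_fl2 (h : Thick η p D I1 π eE fA fB V T w0 R T0 PD ν own c₀) (hη : η ≤ 1 / 8) {v : ℝ}
    (h0 : 0 < v) (h1 : v < 1) (hκ : 0 < p.θ 1 - p.θ 2) (h02 : p.θ 0 = p.θ 2) (hV2 : V 2)
    (hV3 : ¬ V 3) (hV4 : ¬ V 4) {Qd : Set (Fin 11 → ℝ)} (hQ : QdOk p.θ V ∅ Qd)
    (hst : StVQ Qd p V ν own w0 R v ∅ lam lo) :
    FlV p V ν own w0 R v ∅ (1 + (p.θ 1 - p.θ 2)) 0 (rhoF p.θ) lam lo
      (fun lam' => lam' (ind1 {3}) < 0) (p.g / 2) :=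
  fun z hz D' hD' k lam' lo' kpos k0 H1 H2 x' h' hJ hB φ rt hO hVis =>
    F1_num h.tp.ok hη hκ (F1_tan2 h h0 h1 hκ h02 hV2 hV3 hV4 hQ hst hz kpos k0 H1 H2 hJ hB hO hVis)

end pt

end Crest.Agent.R136.F2b569
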