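import Crest.Agent.R136.LdF7_511
import Crest.Agent.R136.LadA_115

/-!
# R136: the first rung at `θ 0 = θ 2` (helper201)

`N ∥ X_b`.  Input `hA` (helper569): `X_b` is full given `N : y`.

* `rate9` : leaf `(F_b, X_b, N)` (400, 115), `F_b` visible ⊢ the rate of `{X_b, N}` is `≥ 2 (1 + κ)`
* `xa_row` : `X_a` is full at the point itself (groups need not be homogeneous)
* **`f1_2`** : the F-lemma of the rung `F_b`
-/

set_option autoImplicit false
set_option linter.unusedVariables false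

open Finset Filter Topology

namespace Crest.Agent.R136.F2c201

open Crest.Agent.R138.Ex926 (Base U IsTan)
open Crest.Agent.R136.Net191
open Crest.Agent.R136.NetQ186
open Crest.Agent.R136.Gf356
open Crest.Agent.R136.Wq638
open Crest.Agent.R136.GeoQ186 (scl)
open Crest.Agent.R136.NatT550
open Crest.Agent.R136.NatR550 (nL)
open Crest.Agent.R136.Top484
open Crest.Agent.R136.LdF511
open Crest.Agent.R136.LdF3511
open Crest.Agent.R136.LdF4511
open Crest.Agent.R136.LdF5511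
open Crest.Agent.R136.LdF7511
open Crest.Agent.R136.Dl667
open Crest.Agent.R136.Tb628 (oS oS_eq)
open Crest.Agent.R136.K2S774 (cn ind1)
open Crest.Agent.R136.AwJ774 (mA mem_mA coneM_mA)
open Crest.Agent.R136.Aw413 (coneM AeW zero_mem)
open Crest.Agent.R136.Qg926 Crest.Agent.R136.Wq400
open Crest.Agent.R136.Xb403 (MaE NE bw stP stP_ok pok_base ne_of_wat cloM_base nu_bw bwT_base
  top_base cut_base cut_base')
open Crest.Agent.R136.Dg219 (Walls mw gC dhC nC OutS gC_zero gC_eq)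
open Crest.Agent.R136.LadA115 (cz leafN39)
open Crest.Agent.R136.Ev356 (mv)

/-- the boxes of the leaf: `z, X_a : x`, `X_b : c9`, `F_b : c3`, `N : c10` -/
def bv (x c9 c3 c10 : ℝ) : Fin 11 → ℝ := ![x, 0, 0, c3, 0, 0, 0, 0, x, c9, c10]

theorem cz_bx (x c9 c3 c10 : ℝ) :
    cz x (Lf400.bx (Pi.single 8 x) 9 3 10 c9 c3 c10) = bv x c9 c3 c10 := by
  funext j
  fin_cases j <;> simp [cz, Lf400.bx, bv]

theorem bv_legal {x c9 c3 c10 : ℝ} (hx : 0 ≤ x) (h9 : 0 ≤ c9) (h9' : c9 ≤ x) (h3 : 0 ≤ c3)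
    (h10 : 0 ≤ c10) (h10' : c10 ≤ x) (hw : c10 ≤ c3 + c9) : Legal monQ (bv x c9 c3 c10) := by
  refine legalQ_iff.2 ⟨fun k => ?_, ?_, ?_, ?_, ?_, ?_, ?_, ?_, ?_, ?_, ?_, ?_⟩
  · fin_cases k <;>
      simp only [bv, Matrix.cons_val, Fin.zero_eta, Fin.mk_one, Fin.reduceFinMk, Fin.isValue] <;>
      linarith
  all_goals
    simp only [bv, Matrix.cons_val, Fin.isValue]
    linarith

section row

variable {ι : ℕ → Type*} [∀ n, DecidableEq (ι n)] {B Bo : Base} {I J : ∀ n, Finset (ι n)}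
  {co : ∀ n, ι n → ι n → Fin 11 → ℝ} {Ma : Mons 11} {C : ℝ} {lam : (Fin 11 → ℝ) → ℝ}
  {a b : Fin 11 → ℝ} {κ : ℝ} {A : ℝ × ℝ} {φ : ℕ → (Fin 11 → ℝ) → ℝ} {r : ℕ → ℝ}
  {κo : Fin 11 → ℝ} {V Tw : Fin 11 → Prop} {f : ∀ n, ι n → Fq4}

/-- **the leaf of the first rung**, `N ∥ X_b` : rate of the group `{X_b, N}` -/
theorem rate9 (h : AeW B Bo I J co monQ Ma C lam a b A φ r 0 1 κo V Tw)
    (hco : ∀ n, ∀ i ∈ I n, ∀ j ∈ I n, co n i j = coQ (f n i) (f n j))
    (hne : ∀ᶠ n in (U : Filter ℕ), (J n).Nonempty) (hC : 0 ≤ C) (hV : ∀ k, V k → k = 2)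
    (n017 : mv 0 1 ∉ Ma.mon 7) (hm : mv 3 9 ∈ Ma.mon 10) (P : PlE a b κ) (haL : a ∈ coneM Ma)
    (a3 : a 3 = 0) (a10 : a 10 = 1 + κ) (b10 : b 10 = b 9) (vis : lam (ind1 {3}) < 0)
    (hA : ∀ y : ℝ, 0 ≤ y → φ (gC a b 9) (y • (Pi.single 9 1 + Pi.single 10 1 : Fin 11 → ℝ)) + y ≤
      φ (gC a b 9) (y • (Pi.single 10 1 : Fin 11 → ℝ))) :
    2 * (1 + κ) ≤ r (gC a b 9) := by
  have hκ := P.κ0
  have hL : ∀ p, Legal monQ p → p ∈ coneM Ma := fun p hp k e he => hp.wall k e (h.sub k he)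
  have g3 : gC a b 3 = 0 := gC_zero.2 a3
  have n10 : a 10 ≠ 0 := by rw [a10]; linarith
  have g910 : gC a b 9 = gC a b 10 := by
    rw [gC_eq P.n9 n10, P.a9, a10, b10]
  -- visibility
  have m0 : (0 : Fin 11 → ℝ) ∈ coneM Ma := zero_mem
  have e3L : (ind1 {3} : Fin 11 → ℝ) ∈ coneM Ma := by
    refine hL _ (legalQ_iff.2 ⟨fun k => ?_, ?_, ?_, ?_, ?_, ?_, ?_, ?_, ?_, ?_, ?_, ?_⟩)
    · unfold ind1; split_ifs <;> norm_num
    all_goals simp [ind1]
  have v0 : φ 0 (ind1 {3}) < 0 := by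
    have h1 := one_grp h.out m0 e3L 0 (fun i hi => by
      have : i ≠ 3 := fun e => hi (by rw [e, g3])
      simp [ind1, this])
    rw [h.zero, h.out.zero 0 0 fun _ _ => rfl] at h1
    linarith
  -- the leaf
  have key : ∀ x : ℝ, 1 ≤ x → 2 * x - 1 ≤ -φ (gC a b 9) (bv x x 0 x) := by
    intro x hx
    have hx0 : 0 ≤ x := by linarith
    have in9 : ∀ i, gC a b i = gC a b 9 → i ≠ 0 ∧ i ≠ 3 ∧ i ≠ 8 := fun i hi =>
      ⟨fun e => P.g09 (by rw [← e, hi]), fun e => P.g9 (by rw [← hi, e, g3]),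
        fun e => P.g89 (by rw [← e, hi])⟩
    have in0 : ∀ i, gC a b i = 0 → i ≠ 0 ∧ i ≠ 8 ∧ i ≠ 9 ∧ i ≠ 10 := fun i hi =>
      ⟨fun e => P.g0 (by rw [← e, hi]), fun e => P.g8 (by rw [← e, hi]),
        fun e => P.g9 (by rw [← e, hi]), fun e => n10 (gC_zero.1 (by rw [← e, hi]))⟩
    have l0 : bv x 0 0 0 ∈ coneM Ma := hL _ (bv_legal hx0 le_rfl hx0 le_rfl le_rfl hx0 (by linarith))
    have l1 : bv x 0 x x ∈ coneM Ma := hL _ (bv_legal hx0 le_rfl hx0 hx0 hx0 le_rfl (by linarith))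
    have l2 : bv x x x x ∈ coneM Ma := hL _ (bv_legal hx0 hx0 le_rfl hx0 hx0 le_rfl (by linarith))
    have l3 : bv x (x - 1) x x ∈ coneM Ma :=
      hL _ (bv_legal hx0 (by linarith) (by linarith) hx0 hx0 le_rfl (by linarith))
    have l4 : bv x x 0 x ∈ coneM Ma := hL _ (bv_legal hx0 hx0 le_rfl le_rfl hx0 le_rfl (by linarith))
    have l5 : bv x x 1 x ∈ coneM Ma :=
      hL _ (bv_legal hx0 hx0 le_rfl zero_le_one hx0 le_rfl (by linarith))
    have hX : lam (bv x x x x) ≤ lam (bv x 0 x x) - x := by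
      have h1 := one_grp h.out l1 l2 (gC a b 9) (fun i hi => by
        have h9 : i ≠ 9 := fun e => hi (by rw [e])
        fin_cases i <;> simp [bv] at h9 ⊢)
      have e1 : φ (gC a b 9) (bv x 0 x x) =
          φ (gC a b 9) (x • (Pi.single 10 1 : Fin 11 → ℝ)) := h.out.loc _ _ _ fun i hi => by
        obtain ⟨i0, i3, i8⟩ := in9 i hi
        fin_cases i <;> simp [bv] at i0 i3 i8 ⊢
      have e2 : φ (gC a b 9) (bv x x x x) =
          φ (gC a b 9) (x • (Pi.single 9 1 + Pi.single 10 1 : Fin 11 → ℝ)) :=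
        h.out.loc _ _ _ fun i hi => by
        obtain ⟨i0, i3, i8⟩ := in9 i hi
        fin_cases i <;> simp [bv] at i0 i3 i8 ⊢
      rw [e1, e2] at h1
      have := hA x hx0
      linarith
    have hXj : lam (bv x (x - 1) x x) ≤ lam (bv x 0 x x) - (x - 1) := by
      have h1 := h.sharp _ l3 _ l2 (fun i => by fin_cases i <;> simp [bv])
      have h2 : ∑ s, (bv x x x x s - bv x (x - 1) x x s) = 1 := by
        simp [Fin.sum_univ_succ, bv]
      linarith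
    have hF : lam (bv x x 1 x) < lam (bv x x 0 x) := by
      have h1 := one_grp h.out l4 l5 0 (fun i hi => by
        have : i ≠ 3 := fun e => hi (by rw [e, g3])
        fin_cases i <;> simp [bv] at this ⊢)
      have e1 : φ 0 (bv x x 0 x) = 0 := h.out.zero _ _ fun i hi => by
        obtain ⟨i0, i8, i9, i10⟩ := in0 i hi
        fin_cases i <;> simp [bv] at i0 i8 i9 i10 ⊢
      have e2 : φ 0 (bv x x 1 x) = φ 0 (ind1 {3}) := h.out.loc _ _ _ fun i hi => by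
        obtain ⟨i0, i8, i9, i10⟩ := in0 i hi
        fin_cases i <;> simp [bv, ind1] at i0 i8 i9 i10 ⊢
      rw [e1, e2] at h1
      linarith
    have bb : ∀ s : Fin 11, 0 ≤ (Pi.single 8 x : Fin 11 → ℝ) s ∧
        (Pi.single 8 x : Fin 11 → ℝ) s ≤ x := fun s => by
      by_cases hs : s = 8
      · subst hs; rw [Pi.single_eq_same]; exact ⟨hx0, le_rfl⟩
      · rw [Pi.single_eq_of_ne hs]; exact ⟨le_rfl, hx0⟩
    have hl := leafN39 h hC hco hne hV n017 hm (b := Pi.single 8 x) (x := x) (j := 1) bb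
      (by simp) (by simp) (by simp) (by simp) (by simp) zero_le_one hx
      (by rw [cz_bx, cz_bx]; exact hX) (by rw [cz_bx, cz_bx]; exact hXj)
      (by rw [cz_bx, cz_bx]; exact hF)
    rw [cz_bx, cz_bx] at hl
    have h1 := one_grp h.out l0 l4 (gC a b 9) (fun i hi => by
      have h9 : i ≠ 9 := fun e => hi (by rw [e])
      have h10 : i ≠ 10 := fun e => hi (by rw [e, g910])
      fin_cases i <;> simp [bv] at h9 h10 ⊢)
    rw [h.out.zero _ (bv x 0 0 0) fun i hi => by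
      obtain ⟨i0, i3, i8⟩ := in9 i hi
      fin_cases i <;> simp [bv] at i0 i3 i8 ⊢] at h1
    linarith
  -- the rate
  have rt : ∀ x : ℝ, 1 ≤ x → 2 * x - 1 ≤ r (gC a b 9) * (x / (1 + κ)) := by
    intro x hx
    have hx0 : 0 ≤ x := by linarith
    have h1 := key x hx
    have l4 : bv x x 0 x ∈ coneM Ma := hL _ (bv_legal hx0 hx0 le_rfl le_rfl hx0 le_rfl (by linarith))
    have hu0 : 0 ≤ x / (1 + κ) := div_nonneg hx0 (by linarith)
    have hx' : x / (1 + κ) * (1 + κ) = x := div_mul_cancel₀ _ (by linarith)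
    have hu : (x / (1 + κ)) • a ∈ coneM Ma := by
      intro k e he
      have h2 := haL k e he
      have h3 : ∑ s, (e s : ℝ) * ((x / (1 + κ)) • a) s = (x / (1 + κ)) * ∑ s, (e s : ℝ) * a s := by
        rw [Finset.mul_sum]
        exact Finset.sum_congr rfl fun s _ => by rw [Pi.smul_apply, smul_eq_mul]; ring
      rw [h3, Pi.smul_apply, smul_eq_mul]
      exact mul_le_mul_of_nonneg_left h2 hu0
    have h2 := rt_ge h.out P.nn P.g9 haL l4 hu (fun i hi => by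
      have i0 : i ≠ 0 := fun e => P.g09 (by rw [← e, hi])
      have i8 : i ≠ 8 := fun e => P.g89 (by rw [← e, hi])
      by_cases i9 : i = 9
      · subst i9; rw [P.a9, hx']; simp [bv]
      by_cases i10 : i = 10
      · subst i10; rw [a10, hx']; simp [bv]
      · refine le_trans (le_of_eq ?_) (mul_nonneg hu0 (P.nn i))
        fin_cases i <;> simp [bv] at i0 i8 i9 i10 ⊢)
    linarith
  by_contra hcon
  push Not at hcon
  set ρ := r (gC a b 9)
  have hd : 0 < 2 * (1 + κ) - ρ := by linarith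
  have hκ1 : 0 < 1 + κ := by linarith
  set x := max 1 ((1 + κ) / (2 * (1 + κ) - ρ) + 1) with hxd
  have hx1 : 1 ≤ x := le_max_left _ _
  have hx2 : (1 + κ) / (2 * (1 + κ) - ρ) + 1 ≤ x := le_max_right _ _
  have h1 := rt x hx1
  have h2 : ρ * (x / (1 + κ)) * (1 + κ) = ρ * x := by field_simp
  have h3 : (2 * x - 1) * (1 + κ) ≤ ρ * x := by
    rw [← h2]
    exact mul_le_mul_of_nonneg_right h1 hκ1.le
  have h4 : (1 + κ) / (2 * (1 + κ) - ρ) < x := by linarith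
  rw [div_lt_iff₀ hd] at h4
  nlinarith

/-- **`X_a` is full**, rate of the group of `X_a`; the groups need not be homogeneous -/
theorem xa_row (h : AeW B Bo I J co monQ Ma C lam a b A φ r 0 1 κo V Tw)
    (hco : ∀ n, ∀ i ∈ I n, ∀ j ∈ I n, co n i j = coQ (f n i) (f n j))
    (hne : ∀ᶠ n in (U : Filter ℕ), (J n).Nonempty) (hM : MaE Ma) (P : PlE a b κ)
    (haL : a ∈ coneM Ma) (hV : ∀ k, V k → k = 2 ∨ k = 3 ∨ k = 4) (hTw : Tw 2) (hC : 0 ≤ C)
    {m : ℝ} (hm : 0 < m)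
    (sw : ∀ t xa : ℝ, 0 ≤ t → t ≤ 1 → 0 ≤ xa → xa ≤ 1 →
      m * t ≤ lam (bl 1 0 0 xa 0) - lam (bl 1 t 0 xa 0)) :
    1 ≤ r (gC a b 0) ∧ 1 ≤ r (gC a b 8) := by
  have hK0 : 1 ≤ cK0 monQ C := cK0_one hC
  have hL : ∀ p, Legal monQ p → p ∈ coneM Ma := fun p hp k e he => hp.wall k e (h.sub k he)
  have hok := stP_ok (K := 4 * cK0 monQ C) (T := 1) pok_base (by linarith) zero_le_one h.sub
  obtain ⟨W, hW, -, -⟩ := h.wnd (stP {0, 2} {0, 2, 5, 6, 8, 9} (4 * cK0 monQ C) 1 Ma) rfl hok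
    (fun _ _ => 1) (fun _ => Crest.Agent.R138.Ex926.Base.Sub.const one_pos) J (fun _ => 1)
    (Eventually.of_forall fun n => Finset.Subset.refl _) hne
    (Crest.Agent.R138.Ex926.Base.Sub.const one_pos)
    (Eventually.of_forall fun n => by rw [one_mul])
  have own : ∀ c ∈ coneM Ma, ∀ c' ∈ coneM Ma, c ≤ c' → (∀ i, c i = 0) →
      c' 0 - c 0 ≤ lam c - lam c' := fun c hc c' hc' hcc h0 => by
    have := h.own c hc c' hc' hcc fun k _ => by rw [h0, h0, mul_zero]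
    linarith
  -- density
  have hdens : lam (fun s => if s ∈ ({0, 2, 5, 6, 8, 9} : Finset (Fin 11)) then (1:ℝ) else 0) ≤
      lam (Qg926.cut {0, 2}
        (fun s => if s ∈ ({0, 2, 5, 6, 8, 9} : Finset (Fin 11)) then (1:ℝ) else 0) 0) +
      lam (Qg926.cut {0, 2} 0
        fun s => if s ∈ ({0, 2, 5, 6, 8, 9} : Finset (Fin 11)) then (1:ℝ) else 0) := by
    rw [cut_base, cut_base', top_base]
    have m1 : (![1, 0, 1, 0, 0, 1, 1, 0, 1, 1, 0] : Fin 11 → ℝ) ∈ coneM Ma :=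
      hL _ (bl_legal zero_le_one zero_le_one zero_le_one le_rfl zero_le_one le_rfl zero_le_one
        le_rfl)
    have m2 : (![1, 0, 1, 0, 0, 0, 0, 0, 0, 0, 0] : Fin 11 → ℝ) ∈ coneM Ma :=
      hL _ (bl_legal zero_le_one le_rfl le_rfl zero_le_one le_rfl zero_le_one le_rfl zero_le_one)
    have m3 : (![0, 0, 0, 0, 0, 1, 1, 0, 1, 1, 0] : Fin 11 → ℝ) ∈ coneM Ma := by
      refine hL _ (legalQ_iff.2 ⟨fun k => ?_, ?_, ?_, ?_, ?_, ?_, ?_, ?_, ?_, ?_, ?_, ?_⟩)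
      · fin_cases k <;> simp
      all_goals simp
    have hs := split2 h.out (zero_mem (Ma := Ma)) m3 m2 m1 (by
      intro k
      by_cases hk : k = gC a b 0
      · left
        intro i hi
        rw [hk] at hi
        have h5 : i ≠ 5 := fun e => P.g0 (by rw [← hi, e, P.g5])
        have h6 : i ≠ 6 := fun e => P.g06 (by rw [← hi, e])
        have h8 : i ≠ 8 := fun e => P.g08 (by rw [← hi, e])
        have h9 : i ≠ 9 := fun e => P.g09 (by rw [← hi, e])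
        fin_cases i <;> simp at h5 h6 h8 h9 ⊢
      · right
        intro i hi
        have h0 : i ≠ 0 := fun e => hk (by rw [← hi, e])
        have h2 : i ≠ 2 := fun e => hk (by rw [← hi, e, P.g02])
        fin_cases i <;> simp at h0 h2 ⊢)
    rw [h.zero] at hs
    linarith
  have single0 : ∀ y : ℝ, 0 ≤ y → Pi.single 0 y ∈ coneM Ma := fun y hy => hL _ (by
    refine legalQ_iff.2 ⟨fun k => ?_, ?_, ?_, ?_, ?_, ?_, ?_, ?_, ?_, ?_, ?_, ?_⟩
    · by_cases hk : k = 0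
      · subst hk; simpa using hy
      · rw [Pi.single_eq_of_ne hk]
    all_goals simp [Pi.single_apply, hy])
  have fr0 : ∀ y : ℝ, 0 ≤ y → lam (Pi.single 0 y) ≤ -y := fun y hy => by
    have h1 := own 0 zero_mem _ (single0 y hy) (by
      intro k
      by_cases hk : k = 0
      · subst hk; simpa using hy
      · rw [Pi.single_eq_of_ne hk]; exact le_rfl) (fun _ => rfl)
    rw [h.zero] at h1
    simp at h1
    linarith
  obtain ⟨E', hNE, htw⟩ := ne_of_wat pok_base ⟨by decide, by decide, by decide, by decide⟩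
    (by decide) hW hco hM h.sub (cloM_base Ma) one_pos (fun k hk => by
      rcases hV k hk with rfl | rfl | rfl
      · left; decide
      · right; decide
      · right; decide) hTw hdens (fun y hy _ => fr0 y hy)
  have hν : ∀ ca cb xa xb : ℝ, W.nu (bw ca cb xa xb) = lam (bl 1 ca cb xa xb) - lam W.top := by
    intro ca cb xa xb
    rw [nu_bw, hW.elam, hW.eS, hW.etop]
    show lam (Xb403.bwT {0, 2} (fun s : Fin 11 => if s ∈ ({0, 2, 5, 6, 8, 9} : Finset (Fin 11))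
      then (1:ℝ) else 0) ca cb xa xb) - _ = _
    rw [bwT_base]
    rfl
  have hmem : ∀ ca cb xa xb : ℝ, 0 ≤ ca → 0 ≤ cb → cb ≤ 1 → 0 ≤ xa → xa ≤ 1 → 0 ≤ xb → xb ≤ 1 →
      bl 1 ca cb xa xb ∈ coneM Ma := fun ca cb xa xb h1 h2 h3 h4 h5 h6 h7 =>
    hL _ (bl_legal zero_le_one h1 h2 h3 h4 h5 h6 h7)
  have h8 := hNE.xa (y := 1) (c := m) one_pos le_rfl hm (by
      intro t ht hty
      rw [hν, hν]
      have := sw t t ht hty ht hty
      linarith) (by
      intro t ht hty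
      rw [hν, hν]
      have h1 := h.sharp _ (hmem 0 0 t 0 le_rfl le_rfl zero_le_one ht hty le_rfl
        zero_le_one) _ (hmem 0 0 1 0 le_rfl le_rfl zero_le_one zero_le_one le_rfl le_rfl zero_le_one)
        (by intro i; fin_cases i <;> simp [bl, hty])
      have h2 : ∑ s, (bl 1 0 0 1 0 s - bl 1 0 0 t 0 s) = 1 - t := by
        simp [Fin.sum_univ_succ, bl]
      linarith)
  rw [hν, hν] at h8
  have a1 : (1:ℝ) • a ∈ coneM Ma := by rw [one_smul]; exact haL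
  refine ⟨?_, ?_⟩
  · have h1 := fr0 1 zero_le_one
    have h3 := one_grp h.out (zero_mem (Ma := Ma)) (single0 1 zero_le_one) (gC a b 0) (fun i hi => by
      have : i ≠ 0 := fun e => hi (by rw [e])
      rw [Pi.single_eq_of_ne this]; rfl)
    rw [h.zero, h.out.zero _ 0 (fun i _ => rfl)] at h3
    have h2 := rt_ge h.out P.nn P.g0 haL (single0 1 zero_le_one) (u := 1) a1 (fun i hi => by
      by_cases hi0 : i = 0
      · subst hi0; simp [P.a0]
      · rw [Pi.single_eq_of_ne hi0, one_mul]; exact P.nn i)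
    linarith
  · have m1 : bl 1 0 0 1 0 ∈ coneM Ma := hmem 0 0 1 0 le_rfl le_rfl zero_le_one zero_le_one
      le_rfl le_rfl zero_le_one
    have e1 := lam_bl8 hL h.out P zero_le_one zero_le_one le_rfl
    have key : ∀ i, gC a b i = gC a b 8 → i ≠ 0 ∧ i ≠ 2 := fun i hi =>
      ⟨fun e => P.g08 (by rw [← e, hi]), fun e => P.g08 (by rw [P.g02, ← e, hi])⟩
    have e2 : φ (gC a b 8) (bl 1 0 0 1 0) = φ (gC a b 8) (Pi.single 8 1) :=
      h.out.loc _ _ _ fun i hi => by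
        obtain ⟨h0, h2⟩ := key i hi
        fin_cases i <;> simp [bl] at h0 h2 ⊢
    have h2 := rt_ge h.out P.nn P.g8 haL m1 (u := 1) a1 (fun i hi => by
      obtain ⟨h0, h2⟩ := key i hi
      rw [one_mul]
      by_cases hi8 : i = 8
      · subst hi8; rw [P.a8]; simp [bl]
      · refine le_trans (le_of_eq ?_) (P.nn i)
        fin_cases i <;> simp [bl] at h0 h2 hi8 ⊢)
    linarith

end row

section pt

variable {η : ℝ} {p : Par4} {D : Dat4} {I1 : ℕ → Finset (ℕ × ℝ)} {π : Equiv.Perm (Fin 3)}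
  {eE fA fB : ℕ → ℕ × ℝ → ℝ} {V T : Fin 11 → Prop} {w0 R T0 : ℝ} {PD : Set (Fin 11 → ℝ)}
  {ν own : (Fin 11 → ℝ) → ℝ} {c₀ : ℝ}

/-- **the F-lemma of the first rung at `θ 0 = θ 2`**, only `E` visible; `hA` : `X_b` is full given
`N : y` -/
theorem f1_2 (h : Thick η p D I1 π eE fA fB V T w0 R T0 PD ν own c₀)
    (hκ : 0 < p.θ 1 - p.θ 2) (h02 : p.θ 0 = p.θ 2) (hV2 : V 2) (hV : ∀ k, V k → k = 2)
    {lam lo : (Fin 11 → ℝ) → ℝ} {A : ℝ × ℝ} {φ : ℕ → (Fin 11 → ℝ) → ℝ} {r : ℕ → ℝ}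
    (hP : PtV D.B D.I I1 (couQ D.B D.lev D.w w0 (incQ π D.L eE fA fB)) p V T ∅
      (TF ∅ (p.θ 1 - p.θ 2) (1 + (p.θ 1 - p.θ 2)) 0) (rhoF p.θ) lam lo A φ r)
    (vis : lam (ind1 {3}) < 0)
    (hA : ∀ y : ℝ, 0 ≤ y →
      φ (gC (TF ∅ (p.θ 1 - p.θ 2) (1 + (p.θ 1 - p.θ 2)) 0) (rhoF p.θ) 9)
          (y • (Pi.single 9 1 + Pi.single 10 1 : Fin 11 → ℝ)) + y ≤
        φ (gC (TF ∅ (p.θ 1 - p.θ 2) (1 + (p.θ 1 - p.θ 2)) 0) (rhoF p.θ) 9)
          (y • (Pi.single 10 1 : Fin 11 → ℝ))) :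
    p.g - (p.q 0 + p.q 2) * (p.θ 1 - p.θ 2) ≤
      -A.1 + DlF p (TpF (p.θ 1 - p.θ 2) (1 + (p.θ 1 - p.θ 2))) := by
  have hθ := h.tp.ok.θ1
  have a0 := (TF_i hκ (0 : Fin 11 → ℝ)).1
  have P := plE_TF (x := 0) (b := rhoF p.θ) hκ hθ (J := ∅) (by simp) a0 (fun _ _ => rfl)
  have hL : ∀ p', Legal monQ p' → p' ∈ cn (mw monQ) (AF ∅) := fun p' hp' w _ =>
    hp'.wall w.1 w.2.1 w.2.2
  have ev : ∀ i, TF ∅ (p.θ 1 - p.θ 2) (1 + (p.θ 1 - p.θ 2)) 0 i =
      TpF (p.θ 1 - p.θ 2) (1 + (p.θ 1 - p.θ 2)) i := fun i => (TF_off (by simp)).symm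
  have haL : TF ∅ (p.θ 1 - p.θ 2) (1 + (p.θ 1 - p.θ 2)) 0 ∈ coneM (mA monQ (AF ∅)) := by
    rw [coneM_mA]
    exact fun w hw => (natTF _ _ _ hw).le
  have r9 := rate9 (f := fun n i => scl (uH D.B D.lev w0 n) (uA D.B D.lev D.w w0 n)
    (uB D.B D.lev D.w w0 n) (uY D.B D.lev D.w w0 n) (incQ π D.L eE fA fB n i)) hP.aew
    (fun n i _ j _ => rfl) h.ext.ne (by norm_num) (fun k hk => hV k hk.1)
    (maE_AF (J := ∅) (by simp)).r ?_ P haL ?_ ?_ ?_ vis hA
  · obtain ⟨r0, r8⟩ := xa_row (f := fun n i => scl (uH D.B D.lev w0 n) (uA D.B D.lev D.w w0 n)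
      (uB D.B D.lev D.w w0 n) (uY D.B D.lev D.w w0 n) (incQ π D.L eE fA fB n i)) hP.aew
      (fun n i _ j _ => rfl) h.ext.ne (maE_AF (J := ∅) (by simp)) P haL
      (fun k hk => vis_ne h.tp.slots hk.1) ⟨tied2 h.tp.slots hV2, hV2, by
        rw [P.a0, P.a2, oS_eq]; simp⟩ (by norm_num) h.tp.ok.g0.2 (fun t xa t0 t1 x0 x1 => by
        have m1 : bl 1 0 0 xa 0 ∈ cn (mw monQ) (AF ∅) := hL _ (bl_legal zero_le_one le_rfl le_rfl
          zero_le_one x0 x1 le_rfl zero_le_one)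
        have h2 := (hP.toSwI.ca hθ P.a5 m1 t0 (fun i hi h5 hT => by
          have n0 : i ≠ 0 := fun h' => by rw [h', P.a0] at hT; exact one_ne_zero hT
          have n2 : i ≠ 2 := fun h' => by rw [h', P.a2] at hT; exact hκ.ne' hT
          have n8 : i ≠ 8 := fun h' => by rw [h'] at hT; exact P.n8 hT
          fin_cases i <;> simp [bl] at n0 n2 n8 h5 ⊢)).2
        rw [bl_add_single, zero_add] at h2
        exact h2)
    have ht := tot3 hP.aew.out a0 P.n0 P.n8 P.n9 P.g08 P.g09 P.g89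
    have e : DlF p (TpF (p.θ 1 - p.θ 2) (1 + (p.θ 1 - p.θ 2))) = _ := DlF_ray p _ _
    rw [e]
    nlinarith
  · exact mem_mA.2 ⟨(by decide : mv 3 9 ∈ monQ.mon 10), (by decide : mv 3 9 1 = 0),
      Finset.notMem_empty _, fun s hs => absurd hs (Finset.notMem_empty _)⟩
  · rw [ev 3, TpF_val]; simp
  · rw [ev 10, TpF_val]; simp
  · simp only [rhoF, nL, Matrix.cons_val]; rw [h02]

end pt

end Crest.Agent.R136.F2c201
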