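import Crest.Agent.R136.Xb2_403
import Crest.Agent.R136.Ev9_356

/-!
# R136, case F at `θ0 = θ2` (helper569): `X_b` is exact given `N`, part 1: the model

* `bk` : boxes with `C_a, C_b, P, X_a, X_b, N`; `EvK` : evolution (no own motion of `F_a`, `F_b`);
* `NK` : window with level slots `z, E, F_a`, in which `F_a` and `F_b` do not move;
* `NK.xfull` : `X_a` is full given `P, N`;
* `NK.kone` : 366's `kappa_one_R` with `P, N` frozen, every coupling of `C_b` and `X_a`;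
* `nk_of_ato` : producer from 356's offset windows.
-/

set_option autoImplicit false
set_option linter.unusedVariables false
set_option linter.unusedSectionVars false

open Filter Topology Finset

namespace Crest.Agent.R136.F2k569

open Crest.Agent.R138.Ex926 (Base U)
open Crest.Agent.R136.Gf356
open Crest.Agent.R136.Fe1355
open Crest.Agent.R136.Fe2355
open Crest.Agent.R136.Xb403 (EvE)

/-- box vector: `C_a, C_b, P, X_a, X_b, N` -/
def bk (ca cb p xa xb n : ℝ) : Fin 11 → ℝ := ![0, 0, 0, 0, 0, ca, cb, p, xa, xb, n]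

/-- evolution, `F_a` and `F_b` do not move -/
structure EvK (δ u φ : ℝ) (r r' : Fin 11 → ℝ) : Prop extends EvE δ u φ r r' where
  e7 : |r' 7 - r 7| ≤ δ
  e10 : |r' 10 - (r 10 + u * r 7)| ≤ δ

/-- **window with level slots `z`, `E`, `F_a`** -/
structure NK (B : Base) (G : ℕ → RCfg (Fin 11)) (Leg : Set (Fin 11 → ℝ))
    (ν : (Fin 11 → ℝ) → ℝ) (T D : ℝ) (f : ℕ → ℕ → ℝ) : Prop where
  H : RModel B G 1 T Leg ν D
  T0 : 0 < T
  leg : ∀ ca cb p xa xb n : ℝ, 0 ≤ ca → ca ≤ T → 0 ≤ cb → cb ≤ T → 0 ≤ p → p ≤ T → 0 ≤ xa →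
    xa ≤ T → 0 ≤ xb → xb ≤ T → 0 ≤ n → n ≤ T → bk ca cb p xa xb n ∈ Leg
  zb : ∀ᶠ n in (U : Filter ℕ), ∀ k ∈ (G n).Z, |(G n).z k| ≤ 1 ∧ |f n k| ≤ 1
  rb : ∀ᶠ n in (U : Filter ℕ), ∀ k i l, (i, k) ∈ (G n).I → (l, k) ∈ (G n).I → ∀ s,
    |(G n).rel k i l s| ≤ 1
  ev : ∀ ε : ℝ, 0 < ε → ∀ᶠ n in (U : Filter ℕ), ∀ k k' i l, (i, k) ∈ (G n).I →
    (l, k) ∈ (G n).I → (i, k') ∈ (G n).I → (l, k') ∈ (G n).I →
    EvK (B.d n ^ (T - ε)) ((G n).z k' - (G n).z k) (f n k' - f n k) ((G n).rel k i l)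
      ((G n).rel k' i l)

variable {B : Base} {G : ℕ → RCfg (Fin 11)} {Leg : Set (Fin 11 → ℝ)} {ν : (Fin 11 → ℝ) → ℝ}
  {T D : ℝ} {f : ℕ → ℕ → ℝ}

theorem bk_X (y x c : ℝ) : Fx940.bx2 (bk 0 0 y 0 0 y) 8 5 x c = bk c 0 y x 0 y := by
  funext j
  fin_cases j <;> simp [Fx940.bx2, bk]

theorem bk_bx (y n p x c : ℝ) : CD366.bx {7, 10} 9 6 8 5 y n p x c = bk c p y x n y := by
  funext j
  fin_cases j <;> simp [CD366.bx, bk]

namespace NK

variable (h : NK B G Leg ν T D f)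

include h

theorem leg' {ca cb p xa xb n : ℝ} (h1 : 0 ≤ ca ∧ ca ≤ T) (h2 : 0 ≤ cb ∧ cb ≤ T)
    (h5 : 0 ≤ p ∧ p ≤ T) (h3 : 0 ≤ xa ∧ xa ≤ T) (h4 : 0 ≤ xb ∧ xb ≤ T) (h6 : 0 ≤ n ∧ n ≤ T) :
    bk ca cb p xa xb n ∈ Leg :=
  h.leg ca cb p xa xb n h1.1 h1.2 h2.1 h2.2 h5.1 h5.2 h3.1 h3.2 h4.1 h4.2 h6.1 h6.2

/-- bounds of the differences -/
theorem db : ∀ᶠ n in (U : Filter ℕ), ∀ k ∈ (G n).Z, ∀ k' ∈ (G n).Z,
    |(G n).z k' - (G n).z k| ≤ 2 ∧ |f n k' - f n k| ≤ 2 := by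
  filter_upwards [h.zb] with n hn k hk k' hk'
  constructor
  · refine (abs_sub _ _).trans ?_
    linarith [(hn k hk).1, (hn k' hk').1]
  · refine (abs_sub _ _).trans ?_
    linarith [(hn k hk).2, (hn k' hk').2]

/-- frozen `P, N` stay frozen -/
theorem stay {y C' : ℝ} (hy : 0 ≤ y) (hyT : y ≤ T) (hC' : 0 < C') {ε : ℝ} (hε : 0 < ε) :
    ∀ᶠ n in (U : Filter ℕ), ∀ k k' i l, (i, k) ∈ (G n).I → (l, k) ∈ (G n).I →
      (i, k') ∈ (G n).I → (l, k') ∈ (G n).I → (G n).loose (bk 0 0 y 0 0 y) (C' * ε) k i l →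
      (G n).loose (bk 0 0 y 0 0 y) ((C' + 2) * ε) k' i l := by
  filter_upwards [h.ev ε hε, h.rb, h.db, ev_const_le B hε 4] with n hev hrb hdb h4
    k k' i l h1 h2 h3 h4' hlo j
  obtain ⟨hu, -⟩ := hdb k (h.H.memZ h1) k' (h.H.memZ h3)
  have E := hev k k' i l h1 h2 h3 h4'
  have g7 := hlo 7
  have g10 := hlo 10
  rw [h.H.base n] at g7 g10 ⊢
  have v7 : bk 0 0 y 0 0 y 7 = y := by simp [bk]
  have v10 : bk 0 0 y 0 0 y 10 = y := by simp [bk]
  rw [v7] at g7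
  rw [v10] at g10
  have hCε : 0 < C' * ε := by positivity
  set b := B.d n ^ (y - (C' + 1) * ε) with hb
  have hb0 : 0 < b := rpos B n _
  have k1 : B.d n ^ (T - ε) ≤ b := rpow_anti B n (by nlinarith)
  have k2 : B.d n ^ (y - C' * ε) ≤ b := rpow_anti B n (by nlinarith)
  have hA : b * 4 ≤ B.d n ^ (y - (C' + 2) * ε) := by
    have e1 : B.d n ^ (y - (C' + 2) * ε) = B.d n ^ (-ε) * b := by
      rw [hb, ← rpow_add']; congr 1; ring
    rw [e1]
    nlinarith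
  set r := (G n).rel k i l
  set r' := (G n).rel k' i l
  have hz : ∀ j, bk 0 0 y 0 0 y j = 0 → |r' j| ≤ B.d n ^ (bk 0 0 y 0 0 y j - (C' + 2) * ε) := by
    intro j hj
    rw [hj]
    refine (hrb k' i l h3 h4' j).trans ?_
    have : (1 : ℝ) ≤ B.d n ^ (-ε) := by linarith
    exact this.trans (rpow_anti B n (by nlinarith))
  by_cases j7 : j = 7
  · subst j7
    rw [v7]
    have e : r' 7 = (r' 7 - r 7) + r 7 := by ring
    rw [e]
    have := abs_add_le (r' 7 - r 7) (r 7)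
    linarith [E.e7.trans k1, g7.trans k2]
  by_cases j10 : j = 10
  · subst j10
    rw [v10]
    have e : r' 10 = (r' 10 - (r 10 + ((G n).z k' - (G n).z k) * r 7)) + r 10 +
        ((G n).z k' - (G n).z k) * r 7 := by ring
    rw [e]
    have t1 := abs_add_le (r' 10 - (r 10 + ((G n).z k' - (G n).z k) * r 7) + r 10)
      (((G n).z k' - (G n).z k) * r 7)
    have t2 := abs_add_le (r' 10 - (r 10 + ((G n).z k' - (G n).z k) * r 7)) (r 10)
    have t3 : |((G n).z k' - (G n).z k) * r 7| ≤ 2 * b := by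
      rw [abs_mul]; exact mul_le_mul hu (g7.trans k2) (abs_nonneg _) (by norm_num)
    linarith [E.e10.trans k1, g10.trans k2]
  · refine hz j ?_
    fin_cases j <;> simp [bk] at j7 j10 ⊢

/-- **`X_a` is full given `P, N`** -/
theorem xfull {y t m : ℝ} (ht : 0 ≤ t) (hty : t ≤ y) (hyT : y ≤ T) (hm : 0 < m)
    (hs : ∀ x : ℝ, 0 ≤ x → x ≤ t → m * x ≤ ν (bk 0 0 y x 0 y) - ν (bk x 0 y x 0 y))
    (hl : ∀ x : ℝ, 0 ≤ x → x ≤ t → ν (bk 0 0 y x 0 y) - ν (bk 0 0 y t 0 y) ≤ t - x) :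
    t ≤ ν (bk 0 0 y 0 0 y) - ν (bk 0 0 y t 0 y) := by
  rcases ht.eq_or_lt with h0 | h0
  · rw [← h0]; simp
  have hT := h.T0
  have hy : 0 ≤ y := ht.trans hty
  have z0 : (0 : ℝ) ≤ 0 ∧ (0 : ℝ) ≤ T := ⟨le_rfl, hT.le⟩
  have zy : (0 : ℝ) ≤ y ∧ y ≤ T := ⟨hy, hyT⟩
  have L : ∀ x x' : ℝ, 0 ≤ x → x ≤ T → 0 ≤ x' → x' ≤ T → bk x' 0 y x 0 y ∈ Leg :=
    fun x x' h1 h2 h3 h4 => h.leg' ⟨h3, h4⟩ z0 zy ⟨h1, h2⟩ z0 zy
  have htT : t ≤ T := hty.trans hyT
  have key := full_nl_R h.H (sX := 8) (sC := 5) (by decide) (p := bk 0 0 y 0 0 y)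
    (by simp [bk]) (by simp [bk]) (y := t) (C := 1) (m := m) h0 htT one_pos hm
    (L 0 0 le_rfl hT.le le_rfl hT.le)
    (by rw [bk_X]; exact L t 0 ht htT le_rfl hT.le)
    (by intro x h1 h2; rw [bk_X]; exact L x x h1 (h2.trans htT) h1 (h2.trans htT))
    (by
      intro C' hC'
      exact ⟨C' + 2, by linarith, fun ε hε => h.stay hy hyT hC' hε⟩)
    (by
      intro ε hε
      filter_upwards [h.zb, ev_const_le B hε 2] with n hn h2 k hk k' hk'
      rw [one_mul]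
      refine ((abs_sub _ _).trans ?_).trans h2
      linarith [(hn k hk).1, (hn k' hk').1])
    (by
      intro C' hC'
      refine ⟨1, one_pos, fun ε hε => ?_⟩
      filter_upwards [h.ev ε hε] with n hn k k' i l h1 h2 h3 h4 hlo
      exact (hn k k' i l h1 h2 h3 h4).e8.trans (rpow_anti B n (by linarith)))
    (by
      intro x h1 h2
      refine ⟨ν (bk 0 0 y x 0 y), ?_, ?_, ?_⟩
      · rw [bk_X]; exact hs x h1 h2
      · rw [bk_X]; exact hl x h1 h2
      · refine h.H.nu_anti (L 0 0 le_rfl hT.le le_rfl hT.le)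
          (L x 0 h1 (h2.trans htT) le_rfl hT.le) ?_
        intro j
        fin_cases j <;> simp [bk, h1])
  rwa [bk_X] at key

/-- **`X_b` is exact given `P, N`**, every coupling of `C_b` and `X_a` -/
theorem kone {a m : ℝ} {β : ℝ → ℝ → ℝ → ℝ} {γ : ℝ → ℝ} (hm : 0 < m)
    (htw : RawTw B G fun n k k' => f n k' - f n k)
    (nu : ∀ ca cb y xa xb : ℝ, 0 ≤ ca → ca ≤ T → 0 ≤ cb → cb ≤ y → 0 ≤ y → y ≤ T → 0 ≤ xa →
      xa ≤ y → 0 ≤ xb → xb ≤ y →
      ν (bk ca cb y xa xb y) = ν (bk 0 0 y 0 0 y) - a * xb - β y cb xa - γ ca)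
    (sh : ∀ y x t : ℝ, 0 ≤ x → x ≤ t → t ≤ y → y ≤ T → β y 0 t - β y 0 x ≤ t - x)
    (γ0 : γ 0 = 0) (Cr : ∀ t : ℝ, 0 ≤ t → t ≤ T → m * t ≤ γ t) : 1 ≤ a := by
  have hT := h.T0
  have Xf : ∀ y t : ℝ, 0 ≤ t → t ≤ y → y ≤ T → t ≤ β y 0 t := by
    intro y t h1 h2 h3
    have hy : 0 ≤ y := h1.trans h2
    have e : ∀ x c, 0 ≤ x → x ≤ y → 0 ≤ c → c ≤ T →
        ν (bk c 0 y x 0 y) = ν (bk 0 0 y 0 0 y) - β y 0 x - γ c := by
      intro x c g1 g2 g3 g4
      rw [nu c 0 y x 0 g3 g4 le_rfl hy hy h3 g1 g2 le_rfl hy]; ring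
    have key := h.xfull (y := y) (t := t) (m := m) h1 h2 h3 hm
      (by
        intro x g1 g2
        rw [e x 0 g1 (g2.trans h2) le_rfl hT.le, e x x g1 (g2.trans h2) g1 ((g2.trans h2).trans h3)]
        have c1 := Cr x g1 ((g2.trans h2).trans h3)
        linarith)
      (by
        intro x g1 g2
        rw [e x 0 g1 (g2.trans h2) le_rfl hT.le, e t 0 h1 h2 le_rfl hT.le]
        have := sh y x t g1 g2 h2 h3
        linarith)
    rw [e t 0 h1 h2 le_rfl hT.le] at key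
    linarith
  have K : CD366.K1 B G Leg ν {7, 10} 9 6 8 5 f T 4 a m (fun y p x => β y p x)
      (fun _ c => γ c) := by
    refine ⟨hT, by norm_num, hm, by decide, by decide, by decide, by decide, by decide, by decide,
      ?_, h.zb, ?_, ?_, ?_, ?_⟩
    · intro y n p x c' hy hyT hn hny hp hpy hx hxy hc hcy
      rw [bk_bx]
      exact h.leg c' p y x n y hc (hcy.trans hyT) hp (hpy.trans hyT) hy hyT hx (hxy.trans hyT) hn
        (hny.trans hyT) hy hyT
    · intro y hy hyT ε hε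
      filter_upwards [h.ev ε hε, h.stay hy hyT one_pos hε] with n hev hst k₀ k i i' hi hi' hk hk'
        hlo
      have E := hev k₀ k i i' hi hi' hk hk'
      rw [bk_bx] at hlo ⊢
      refine ⟨h.H.loose_mono (fun _ => le_rfl) (by linarith)
        (hst k₀ k i i' hi hi' hk hk' (by rwa [one_mul])), ?_⟩
      exact E.e9.trans (rpow_anti B n (by linarith))
    · intro y n p x c' hy hyT hn hny hp hpy hx hxy hc hcy
      rw [bk_bx, bk_bx]
      exact nu c' p y x n hc (hcy.trans hyT) hp hpy hy hyT hx hxy hn hny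
    · intro y t ht hty hyT
      exact Xf y t ht hty hyT
    · intro y t ht hty hyT
      exact Cr t ht (hty.trans hyT)
  exact CD366.kappa_one_R h.H K htw le_rfl

end NK

/-! ### from 356's offset windows to `NK` -/

section prod

open Crest.Agent.R136.NetQ186 Crest.Agent.R136.Net191 Crest.Agent.R136.Qg926
open Crest.Agent.R136.Ev356 Crest.Agent.R136.Aw413
open Crest.Agent.R136.Wq400

variable {ι : ℕ → Type*} [∀ n, DecidableEq (ι n)] {W : Wnd 11 ι} {F : ∀ n, ι n → Fq4}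
  {E : ∀ n, Finset (ι n)} {T : ℝ} {Ma : Mons 11}

/-- the walls used by the evolution -/
structure MaK (Ma : Mons 11) : Prop where
  m256 : mv 2 5 ∈ Ma.mon 6
  m058 : mv 0 5 ∈ Ma.mon 8
  m069 : mv 0 6 ∈ Ma.mon 9
  m289 : mv 2 8 ∈ Ma.mon 9
  m0710 : mv 0 7 ∈ Ma.mon 10
  r : mv 0 1 ∉ Ma.mon 7

/-- the offset: `C_a, .., N : L`, `F_b, F_a : Y` -/
def cK (L Y : ℝ) : Fin 11 → ℝ := ![0, 0, 0, Y, Y, L, L, L, L, L, L]

/-- **`NK` in an offset window of 356's class `QAtO`** -/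
theorem nk_of_ato {L Y : ℝ} (h : QAtO W F (cK L Y) Ma) (hM : MaK Ma) (hkz : W.kz = 0)
    (hS : W.S = {0, 2, 4})
    (hc : ∀ᶠ n in (U : Filter ℕ), W.Good n ∧ E n ⊆ W.Cl n ∧ W.cfg E n = W.cfg0 n (E n))
    (T0 : 0 < T) (hTY : T ≤ Y) (ht : ∀ s, T ≤ W.top s)
    (leg : ∀ ca cb p xa xb n : ℝ, 0 ≤ ca → ca ≤ T → 0 ≤ cb → cb ≤ T → 0 ≤ p → p ≤ T → 0 ≤ xa →
      xa ≤ T → 0 ≤ xb → xb ≤ T → 0 ≤ n → n ≤ T → bk ca cb p xa xb n ∈ W.legW)
    (H : RModel W.B' (W.cfg E) 1 T W.legW W.nu W.Dc) :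
    NK W.B' (W.cfg E) W.legW W.nu T W.Dc (fun n k => flg W n k 2) where
  H := H
  T0 := T0
  leg := leg
  zb := by
    have hK0 := h.q.ok.K0_one
    filter_upwards [Xb403.bd_of h.q (fun s => by have := h.kap4 s; linarith) hc,
      h.q.z_eq hkz hc] with n hn hz k hk
    rw [hz k]
    exact ⟨hn.2 k hk 0, hn.2 k hk 2⟩
  rb := by
    have hK0 := h.q.ok.K0_one
    exact (Xb403.bd_of h.q (fun s => by have := h.kap4 s; linarith) hc).mono fun n hn => hn.1
  ev := fun ε hε => by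
    have hK0 := h.q.ok.K0_one
    filter_upwards [h.evoX hc T0.le ht (half_pos hε), h.q.z_eq hkz hc, h.q.mot_eq hc, hc,
      h.capp T T0.le, Xb403.bd_of h.q (fun s => by have := h.kap4 s; linarith) hc,
      ev_const_le W.B' (half_pos hε) 8] with n hev hz hmot hn hca hbd h8
    obtain ⟨g, hE, hcfg⟩ := hn
    intro k k' i l h1 h2 h3 h4'
    have hkZ : k ∈ (W.cfg E n).Z := H.memZ h1
    have hkZ' : k' ∈ (W.cfg E n).Z := H.memZ h3
    have key := hev k k' i l h1 h3 h2 h4'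
    set χ := chiO (W.B'.d n) (cK L Y) Ma with hχ
    set a := ownC χ W n k k' (fsl W n i k 2) (fsl W n i k 3) with ha
    set r := (W.cfg E n).rel k i l with hr'
    set r' := (W.cfg E n).rel k' i l with hr''
    have hρ : 0 < W.B'.d n ^ T := Real.rpow_pos_of_pos (W.B'.pos n) _
    have hYT : W.B'.d n ^ Y ≤ W.B'.d n ^ T :=
      Real.rpow_le_rpow_of_exponent_ge (W.B'.pos n) (W.B'.lt n).le hTY
    have c256 : χ 2 5 6 = 1 := by rw [hχ, chiO, if_pos hM.m256]; simp [cK]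
    have c058 : χ 0 5 8 = 1 := by rw [hχ, chiO, if_pos hM.m058]; simp [cK]
    have c069 : χ 0 6 9 = 1 := by rw [hχ, chiO, if_pos hM.m069]; simp [cK]
    have c289 : χ 2 8 9 = 1 := by rw [hχ, chiO, if_pos hM.m289]; simp [cK]
    have c0710 : χ 0 7 10 = 1 := by rw [hχ, chiO, if_pos hM.m0710]; simp [cK]
    have c017 : χ 0 1 7 = 0 := by rw [hχ, chiO, if_neg hM.r]
    have c457 : |χ 4 5 7| ≤ W.B'.d n ^ T := by
      rw [hχ, chiO]
      split_ifs
      · have e : cK L Y 4 + cK L Y 5 - cK L Y 7 = Y := by simp [cK]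
        rw [e, abs_of_pos (Real.rpow_pos_of_pos (W.B'.pos n) _)]
        exact hYT
      · rw [abs_zero]; exact hρ.le
    have c4810 : |χ 4 8 10| ≤ W.B'.d n ^ T := by
      rw [hχ, chiO]
      split_ifs
      · have e : cK L Y 4 + cK L Y 8 - cK L Y 10 = Y := by simp [cK]
        rw [e, abs_of_pos (Real.rpow_pos_of_pos (W.B'.pos n) _)]
        exact hYT
      · rw [abs_zero]; exact hρ.le
    have m0 : a 0 = (W.cfg E n).z k' - (W.cfg E n).z k := by
      rw [ha, hz k, hz k']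
      unfold ownC mot
      rw [if_neg (by decide), if_pos (show (0 : Fin 11) ∈ W.S from h.S0)]
      exact (hmot k hkZ k' hkZ').1 0 (by simp)
    have m2 : a 2 = flg W n k' 2 - flg W n k 2 := by
      rw [ha]
      unfold ownC mot
      rw [if_neg (by decide), if_pos (show (2 : Fin 11) ∈ W.S by rw [hS]; decide)]
      exact (hmot k hkZ k' hkZ').1 2 (by simp)
    have m3 : a 3 = 0 := by
      rw [ha]
      unfold ownC mot
      rw [if_neg (by decide), if_neg (show (3 : Fin 11) ∉ W.S by rw [hS]; decide)]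
    have m4 : |a 4| ≤ 1 := by
      have h1' := h1
      have h3' := h3
      rw [hcfg] at h1' h3'
      exact (h.ownC_ap g hE h1' h3' hρ.le hca.2.2.2.2.2.2.2.2.2.2 4).r
    have hR : ∀ s, |r s| ≤ 1 := fun s => hbd.1 k i l h1 h2 s
    have hu : |a 0| ≤ 2 := by
      rw [m0, hz k, hz k']
      refine (abs_sub _ _).trans ?_
      have := hbd.2 k hkZ 0
      have := hbd.2 k' hkZ' 0
      linarith
    have hfin : W.B'.d n ^ (T - ε / 2) + 3 * W.B'.d n ^ T ≤ W.B'.d n ^ (T - ε) := by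
      have e1 : W.B'.d n ^ (T - ε) = W.B'.d n ^ (-(ε / 2)) * W.B'.d n ^ (T - ε / 2) := by
        rw [← Real.rpow_add (W.B'.pos n)]; congr 1; ring
      have e2 : W.B'.d n ^ T ≤ W.B'.d n ^ (T - ε / 2) :=
        Real.rpow_le_rpow_of_exponent_ge (W.B'.pos n) (W.B'.lt n).le (by linarith)
      have e3 : 0 < W.B'.d n ^ (T - ε / 2) := Real.rpow_pos_of_pos (W.B'.pos n) _
      rw [e1]
      nlinarith
    have hle : W.B'.d n ^ (T - ε / 2) ≤ W.B'.d n ^ (T - ε) := by linarith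
    have mul3 : ∀ {c x : ℝ}, |c| ≤ W.B'.d n ^ T → |x| ≤ 3 → |c * (a 4 * x)| ≤
        3 * W.B'.d n ^ T := by
      intro c x hcc hx
      rw [abs_mul, abs_mul]
      have h5 : |a 4| * |x| ≤ 1 * 3 := mul_le_mul m4 hx (abs_nonneg _) zero_le_one
      have h6 := mul_le_mul hcc h5 (by positivity) hρ.le
      linarith
    rw [← m0, ← m2]
    refine ⟨⟨?_, ?_, ?_, ?_⟩, ?_, ?_⟩
    · have := key 5 (h.q.notMem (by simp))
      have e : evoC χ a r 5 = r 5 := by simp only [evoC, Matrix.cons_val]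
      rw [e] at this
      exact this.trans hle
    · have := key 6 (h.q.notMem (by simp))
      have e : evoC χ a r 6 = r 6 - a 2 * r 5 := by
        simp only [evoC, Matrix.cons_val, c256, one_mul]
      rw [e] at this
      exact this.trans hle
    · have := key 8 (h.q.notMem (by simp))
      have e : evoC χ a r 8 = r 8 + a 0 * r 5 := by
        simp only [evoC, Matrix.cons_val, c058, one_mul]
      rw [e] at this
      exact this.trans hle
    · have := key 9 (h.q.notMem (by simp))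
      have e : evoC χ a r 9 = r 9 + a 0 * r 6 - a 2 * (r 8 + a 0 * r 5) := by
        simp only [evoC, Matrix.cons_val, c058, c069, c289, one_mul]
      rw [e] at this
      exact this.trans hle
    · have := key 7 (h.q.notMem (by simp))
      have e : evoC χ a r 7 = r 7 - χ 4 5 7 * (a 4 * r 5) := by
        simp only [evoC, Matrix.cons_val]
        rw [c017, m3]; ring
      rw [e] at this
      have e2 : r' 7 - r 7 = (r' 7 - (r 7 - χ 4 5 7 * (a 4 * r 5))) - χ 4 5 7 * (a 4 * r 5) := by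
        ring
      rw [e2]
      have h5 := abs_sub (r' 7 - (r 7 - χ 4 5 7 * (a 4 * r 5))) (χ 4 5 7 * (a 4 * r 5))
      have h6 := mul3 c457 (x := r 5) ((hR 5).trans (by norm_num))
      linarith
    · have := key 10 (h.q.notMem (by simp))
      have e : evoC χ a r 10 = r 10 + a 0 * r 7 - χ 4 8 10 * (a 4 * (r 8 + a 0 * r 5)) := by
        simp only [evoC, Matrix.cons_val]
        rw [c0710, c017, c058, m3]; ring
      rw [e] at this
      have e2 : r' 10 - (r 10 + a 0 * r 7) =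
          (r' 10 - (r 10 + a 0 * r 7 - χ 4 8 10 * (a 4 * (r 8 + a 0 * r 5)))) -
            χ 4 8 10 * (a 4 * (r 8 + a 0 * r 5)) := by ring
      rw [e2]
      have h5 := abs_sub (r' 10 - (r 10 + a 0 * r 7 - χ 4 8 10 * (a 4 * (r 8 + a 0 * r 5))))
        (χ 4 8 10 * (a 4 * (r 8 + a 0 * r 5)))
      have h7 : |r 8 + a 0 * r 5| ≤ 3 := by
        refine (abs_add_le _ _).trans ?_
        rw [abs_mul]
        have := mul_le_mul hu (hR 5) (abs_nonneg _) (by norm_num)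
        linarith [hR 8]
      have h6 := mul3 c4810 h7
      linarith

end prod

end Crest.Agent.R136.F2k569
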