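import Crest.Agent.R136.F2k1_569
import Crest.Agent.R136.C2w_400

/-!
# R136, case F at `θ0 = θ2` (helper569): `X_b` is exact given `N`, part 2: the window

* `MaF` : the walls of the chart, `R` slack; `legF`;
* `MO` : the walls which are tight at the offset `cK L Y`;
* `kw_of_aew` : the offset window of `AeW`.
-/

set_option autoImplicit false
set_option linter.unusedVariables false
set_option linter.unusedSectionVars false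

open Filter Topology Finset

namespace Crest.Agent.R136.F2k569

open Crest.Agent.R138.Ex926 (Base U)
open Crest.Agent.R136.Gf356
open Crest.Agent.R136.Fe1355
open Crest.Agent.R136.NetQ186 Crest.Agent.R136.Net191 Crest.Agent.R136.Qg926
open Crest.Agent.R136.Ev356 Crest.Agent.R136.Aw413
open Crest.Agent.R136.Wq400

/-- the walls of the chart, `R` slack -/
structure MaF (Ma : Mons 11) : Prop where
  sub : ∀ k, Ma.mon k ⊆ monQ.mon k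
  m256 : mv 2 5 ∈ Ma.mon 6
  m058 : mv 0 5 ∈ Ma.mon 8
  m069 : mv 0 6 ∈ Ma.mon 9
  m289 : mv 2 8 ∈ Ma.mon 9
  m0710 : mv 0 7 ∈ Ma.mon 10
  no : ∀ k, ∀ e ∈ Ma.mon k, e 1 = 0

theorem MaF.toMaK {Ma : Mons 11} (h : MaF Ma) : MaK Ma :=
  ⟨h.m256, h.m058, h.m069, h.m289, h.m0710, fun hc => absurd (h.no 7 _ hc) (by decide)⟩

/-- the monomials of the chart without `R` -/
theorem monQ_list1 : ∀ k : Fin 11, ∀ e ∈ monQ.mon k, e 1 = 0 →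
    (k, e) ∈ ([(4, mv 2 3), (6, mv 2 5), (7, mv 4 5), (7, ![0, 0, 1, 1, 0, 1, 0, 0, 0, 0, 0]),
      (7, mv 3 6), (8, mv 0 5), (9, mv 0 6), (9, mv 2 8), (9, ![1, 0, 1, 0, 0, 1, 0, 0, 0, 0, 0]),
      (10, mv 0 7), (10, mv 4 8), (10, ![0, 0, 1, 1, 0, 0, 0, 0, 1, 0, 0]),
      (10, ![1, 0, 0, 0, 1, 1, 0, 0, 0, 0, 0]), (10, ![1, 0, 1, 1, 0, 1, 0, 0, 0, 0, 0]),
      (10, mv 3 9), (10, ![1, 0, 0, 1, 0, 0, 1, 0, 0, 0, 0])] :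
      List (Fin 11 × (Fin 11 → ℕ))) := by decide

theorem monQ_cases1 (k : Fin 11) (e : Fin 11 → ℕ) (he : e ∈ monQ.mon k) (h1 : e 1 = 0) :
    (k = 4 ∧ e = mv 2 3) ∨ (k = 6 ∧ e = mv 2 5) ∨ (k = 7 ∧ e = mv 4 5) ∨
    (k = 7 ∧ e = ![0, 0, 1, 1, 0, 1, 0, 0, 0, 0, 0]) ∨ (k = 7 ∧ e = mv 3 6) ∨
    (k = 8 ∧ e = mv 0 5) ∨ (k = 9 ∧ e = mv 0 6) ∨ (k = 9 ∧ e = mv 2 8) ∨
    (k = 9 ∧ e = ![1, 0, 1, 0, 0, 1, 0, 0, 0, 0, 0]) ∨ (k = 10 ∧ e = mv 0 7) ∨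
    (k = 10 ∧ e = mv 4 8) ∨ (k = 10 ∧ e = ![0, 0, 1, 1, 0, 0, 0, 0, 1, 0, 0]) ∨
    (k = 10 ∧ e = ![1, 0, 0, 0, 1, 1, 0, 0, 0, 0, 0]) ∨
    (k = 10 ∧ e = ![1, 0, 1, 1, 0, 1, 0, 0, 0, 0, 0]) ∨ (k = 10 ∧ e = mv 3 9) ∨
    (k = 10 ∧ e = ![1, 0, 0, 1, 0, 0, 1, 0, 0, 0, 0]) := by
  have h := monQ_list1 k e he h1
  simp only [List.mem_cons, Prod.mk.injEq, List.not_mem_nil, or_false] at h
  exact h

/-- legality -/
theorem legF {Ma : Mons 11} (hM : MaF Ma) {c : Fin 11 → ℝ} (h423 : c 4 ≤ c 2 + c 3)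
    (h625 : c 6 ≤ c 2 + c 5) (h745 : c 7 ≤ c 4 + c 5) (h736 : c 7 ≤ c 3 + c 6)
    (h805 : c 8 ≤ c 0 + c 5) (h906 : c 9 ≤ c 0 + c 6) (h928 : c 9 ≤ c 2 + c 8)
    (h107 : c 10 ≤ c 0 + c 7) (h148 : c 10 ≤ c 4 + c 8) (h139 : c 10 ≤ c 3 + c 9) :
    c ∈ coneM Ma := by
  intro k e he
  rcases monQ_cases1 k e (hM.sub k he) (hM.no k e he) with ⟨rfl, rfl⟩ | ⟨rfl, rfl⟩ |
    ⟨rfl, rfl⟩ | ⟨rfl, rfl⟩ | ⟨rfl, rfl⟩ | ⟨rfl, rfl⟩ | ⟨rfl, rfl⟩ | ⟨rfl, rfl⟩ | ⟨rfl, rfl⟩ |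
    ⟨rfl, rfl⟩ | ⟨rfl, rfl⟩ | ⟨rfl, rfl⟩ | ⟨rfl, rfl⟩ | ⟨rfl, rfl⟩ | ⟨rfl, rfl⟩ | ⟨rfl, rfl⟩
  all_goals first
    | (rw [sum_mv]; assumption)
    | (simp [Fin.sum_univ_succ]; linarith)

/-- the walls which are tight at the offset -/
def MO (Ma : Mons 11) : Mons 11 where
  mon k := (Ma.mon k).filter fun e => k = 4 ∨ (e 3 = 0 ∧ e 4 = 0)
  low := fun k e he => Ma.low k e (mem_filter.1 he).1
  ne := fun k e he => Ma.ne k e (mem_filter.1 he).1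

theorem MO_sub (Ma : Mons 11) (k : Fin 11) : (MO Ma).mon k ⊆ Ma.mon k := filter_subset _ _

/-- walls of the offset window -/
theorem monO_cases : ∀ k : Fin 11, ∀ e ∈ monQ.mon k, e 1 = 0 → (k = 4 ∨ (e 3 = 0 ∧ e 4 = 0)) →
    (k = 4 ∧ e = mv 2 3) ∨ (k = 6 ∧ e = mv 2 5) ∨ (k = 8 ∧ e = mv 0 5) ∨
    (k = 9 ∧ e = mv 0 6) ∨ (k = 9 ∧ e = mv 2 8) ∨
    (k = 9 ∧ e = ![1, 0, 1, 0, 0, 1, 0, 0, 0, 0, 0]) ∨ (k = 10 ∧ e = mv 0 7) := by decide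

theorem cK_mem {Ma : Mons 11} (hM : MaF Ma) {L Y : ℝ} (hY : 0 ≤ Y) :
    cK L Y ∈ coneM Ma := by
  refine legF hM ?_ ?_ ?_ ?_ ?_ ?_ ?_ ?_ ?_ ?_ <;> simp [cK] <;> linarith

/-- boxes above the offset -/
theorem cK_leg {Ma : Mons 11} (hM : MaF Ma) {L Y T : ℝ} (hY : T ≤ Y) :
    Leg (MO Ma) T ⊆ {p | cK L Y + p ∈ coneM Ma} := by
  refine leg_coneO fun k e he => ?_
  by_cases hk : k = 4 ∨ (e 3 = 0 ∧ e 4 = 0)
  · left
    refine ⟨mem_filter.2 ⟨he, hk⟩, ?_⟩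
    rcases monO_cases k e (hM.sub k he) (hM.no k e he) hk with ⟨rfl, rfl⟩ | ⟨rfl, rfl⟩ |
      ⟨rfl, rfl⟩ | ⟨rfl, rfl⟩ | ⟨rfl, rfl⟩ | ⟨rfl, rfl⟩ | ⟨rfl, rfl⟩
    all_goals first
      | (rw [sum_mv]; simp [cK])
      | simp [Fin.sum_univ_succ, cK]
  · right
    rcases monQ_cases1 k e (hM.sub k he) (hM.no k e he) with ⟨rfl, rfl⟩ | ⟨rfl, rfl⟩ |
      ⟨rfl, rfl⟩ | ⟨rfl, rfl⟩ | ⟨rfl, rfl⟩ | ⟨rfl, rfl⟩ | ⟨rfl, rfl⟩ | ⟨rfl, rfl⟩ | ⟨rfl, rfl⟩ |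
      ⟨rfl, rfl⟩ | ⟨rfl, rfl⟩ | ⟨rfl, rfl⟩ | ⟨rfl, rfl⟩ | ⟨rfl, rfl⟩ | ⟨rfl, rfl⟩ | ⟨rfl, rfl⟩
    all_goals first
      | exact absurd (by decide) hk
      | (rw [sum_mv]; simp [cK]; linarith)
      | (simp [Fin.sum_univ_succ, cK]; linarith)

theorem sok_K : SOk {0, 2, 4} := by constructor <;> decide

variable {ι : ℕ → Type*} [∀ n, DecidableEq (ι n)] {W : Wnd 11 ι} {F : ∀ n, ι n → Fq4}
  {T : ℝ} {Ma : Mons 11}

/-- every box between `0` and `T` is legal -/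
theorem legW_K (hM : MaF Ma) (hS : W.S = {0, 2, 4}) (htop : W.top = fun _ => T)
    (hMw : W.Mw = MO Ma) (hR : W.R' = T) {p : Fin 11 → ℝ} (h0 : ∀ s, 0 ≤ p s) (h1 : ∀ s, p s ≤ T) :
    p ∈ W.legW := by
  have hT : 0 ≤ T := (h0 0).trans (h1 0)
  have key : ∀ s, 0 ≤ cut {0, 2, 4} p (fun _ => T) s ∧ cut {0, 2, 4} p (fun _ => T) s ≤ T := by
    intro s
    unfold cut
    split_ifs
    · exact ⟨hT, le_rfl⟩
    · exact ⟨h0 s, h1 s⟩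
  have e0 : cut {0, 2, 4} p (fun _ => T) 0 = T := cut_of_mem (by decide)
  have e2 : cut {0, 2, 4} p (fun _ => T) 2 = T := cut_of_mem (by decide)
  refine ⟨?_, fun s _ => by rw [htop]; exact h1 s⟩
  rw [hS, htop, hMw, hR]
  refine ⟨⟨fun s => (key s).1, fun k e he => ?_⟩, fun s => (key s).2⟩
  have he' := mem_filter.1 he
  rcases monO_cases k e (hM.sub k he'.1) (hM.no k e he'.1) he'.2 with ⟨rfl, rfl⟩ | ⟨rfl, rfl⟩ |
      ⟨rfl, rfl⟩ | ⟨rfl, rfl⟩ | ⟨rfl, rfl⟩ | ⟨rfl, rfl⟩ | ⟨rfl, rfl⟩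
  · rw [sum_mv, e2]; linarith [(key 4).2, (key 3).1]
  · rw [sum_mv, e2]; linarith [(key 6).2, (key 5).1]
  · rw [sum_mv, e0]; linarith [(key 8).2, (key 5).1]
  · rw [sum_mv, e0]; linarith [(key 9).2, (key 6).1]
  · rw [sum_mv, e2]; linarith [(key 9).2, (key 8).1]
  · have := (key 9).2
    have := (key 5).1
    have e : ∑ s, ((![1, 0, 1, 0, 0, 1, 0, 0, 0, 0, 0] : Fin 11 → ℕ) s : ℝ) *
        cut {0, 2, 4} p (fun _ => T) s = cut {0, 2, 4} p (fun _ => T) 0 +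
        cut {0, 2, 4} p (fun _ => T) 2 + cut {0, 2, 4} p (fun _ => T) 5 := by
      simp [Fin.sum_univ_succ]; ring
    rw [e, e0, e2]
    linarith
  · rw [sum_mv, e0]; linarith [(key 10).2, (key 7).1]

/-- **the offset window of `AeW`** -/
theorem kw_of_aew {B Bo : Base} {I J : ∀ n, Finset (ι n)} {co : ∀ n, ι n → ι n → Fin 11 → ℝ}
    {C : ℝ} {lam : (Fin 11 → ℝ) → ℝ} {a b : Fin 11 → ℝ} {A : ℝ × ℝ}
    {φ : ℕ → (Fin 11 → ℝ) → ℝ} {r : ℕ → ℝ} {κ : Fin 11 → ℝ} {V Tw : Fin 11 → Prop}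
    (h : AeW B Bo I J co monQ Ma C lam a b A φ r 0 1 κ V Tw) (hM : MaF Ma) (hC : 0 ≤ C)
    (hco : ∀ n, ∀ i ∈ I n, ∀ j ∈ I n, co n i j = coQ (F n i) (F n j))
    (hne : ∀ᶠ n in (U : Filter ℕ), (J n).Nonempty)
    (hS : ∀ i j : Fin 11, Dg219.gC a b i = Dg219.gC a b j → i ∈ ({0, 2, 4} : Finset (Fin 11)) →
      j ∈ ({0, 2, 4} : Finset (Fin 11)))
    (hV : ∀ k, V k → k = 2) (hT2 : Tw 2) (hT : 0 < T) {L Y : ℝ} (hTY : T ≤ Y) :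
    ∃ (W : Wnd 11 ι) (E : ∀ n, Finset (ι n)),
      NK W.B' (W.cfg E) W.legW W.nu T W.Dc (fun n k => flg W n k 2) ∧
      RawTw W.B' (W.cfg E) (fun n k k' => flg W n k' 2 - flg W n k 2) ∧
      ∀ p : Fin 11 → ℝ, W.nu p = lam (cK L Y + cut {0, 2, 4} p fun _ => T) -
        lam (cK L Y + fun _ => T) := by
  have hY : 0 ≤ Y := hT.le.trans hTY
  have hK0 : 1 ≤ cK0 monQ C := cK0_one hC
  have h0 : cK L Y ∈ coneM Ma := cK_mem hM hY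
  have hc0 : ∀ k, V k → cK L Y k ≤ κ k * cK L Y 0 := fun k hk => by
    rw [hV k hk]; simp [cK]
  set st : WSt 11 := stQ {0, 2, 4} (4 * cK0 monQ C) T (MO Ma) with hst
  have hsubO : ∀ k, (MO Ma).mon k ⊆ monQ.mon k := fun k => (MO_sub Ma k).trans (hM.sub k)
  have hok0 : st.Ok monQ (coneM (MO Ma)) := stQ_ok sok_K (by linarith) hT.le hsubO
  have hok : st.Ok monQ {p | cK L Y + p ∈ coneM Ma} := { hok0 with leg := cK_leg hM hTY }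
  obtain ⟨W, hW, -, -⟩ := h.wndO (cK L Y) h0 st rfl hok (fun _ _ => 1)
    (fun _ => Crest.Agent.R138.Ex926.Base.Sub.const one_pos) J (fun _ => 1)
    (Eventually.of_forall fun n => Finset.Subset.refl _) hne
    (Crest.Agent.R138.Ex926.Base.Sub.const one_pos)
    (Eventually.of_forall fun n => by rw [one_mul])
  have hden : st.Dens (fun p => lam (cK L Y + p) - lam (cK L Y)) 1 T :=
    h.densO h0 hc0 rfl hok hS zero_le_one le_rfl le_rfl fun y hy _ => by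
      refine legF hM ?_ ?_ ?_ ?_ ?_ ?_ ?_ ?_ ?_ ?_ <;> simp [cK] <;> linarith
  obtain ⟨E, g, hP, -, H, htw⟩ := hW.model hden (fun _ _ _ => 0)
    (g₀ := fun n => n)
    (tendsto_natCast_atTop_atTop.mono_left Crest.Agent.R138.Ex926.U_le_atTop) hc0
    (fun k hk => by
      left
      show k ∈ ({0, 2, 4} : Finset (Fin 11))
      rw [hV k hk]; decide)
  have hq : QWnd W F :=
    { ok := hW.ok
      hM := hW.eM
      hco := fun n i hi j hj => by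
        rw [hW.eI] at hi hj
        rw [hW.eco]
        exact hco n i hi j hj
      hS := by
        rw [hW.eS]
        show ∀ s ∈ ({0, 2, 4} : Finset (Fin 11)), _
        decide }
  have hc := hcQ hq hP
  have hqa : QAtO W F (cK L Y) Ma := QAtO.of_wat hW h0 hq (by
    show (0 : Fin 11) ∈ ({0, 2, 4} : Finset (Fin 11)); decide) (fun s => rfl) hM.toMaK.r
  have eS : W.S = {0, 2, 4} := hW.eS
  have etop : W.top = fun _ => T := hW.etop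
  have leg : ∀ p : Fin 11 → ℝ, (∀ s, 0 ≤ p s) → (∀ s, p s ≤ T) → p ∈ W.legW :=
    fun p h0 h1 => legW_K hM eS etop hW.eMw hW.eR h0 h1
  have m2 : (2 : Fin 11) ∈ W.S := by rw [eS]; decide
  have raw : RawL W E 2 := by
    refine htw 2 ?_ hT2 hT ?_ ⟨T, hT, ?_⟩
    · show (2 : Fin 11) ∈ ({0, 2, 4} : Finset (Fin 11)); decide
    · show cK L Y 2 = κ 2 * cK L Y 0
      simp [cK]
    · show cK L Y + cut {0, 2, 4} (fun _ => T) (Pi.single 2 T) ∈ coneM Ma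
      refine legF hM ?_ ?_ ?_ ?_ ?_ ?_ ?_ ?_ ?_ ?_ <;> simp [cK, cut] <;> linarith
  refine ⟨W, E, ?_, ?_, ?_⟩
  · refine nk_of_ato hqa hM.toMaK hW.ekz eS hc hT hTY (fun s => by rw [etop]) ?_ H
    intro ca cb p xa xb n h1 h2 h3 h4 h5 h6 h7 h8 h9 h10 h11 h12
    refine leg _ (fun s => ?_) fun s => ?_
    · fin_cases s <;> simp [bk] <;> assumption
    · fin_cases s <;> simp [bk] <;> first | assumption | exact hT.le
  · exact C2w400.rawTw_of_rawL hq hc m2 (by simp) hT (by rw [etop]) raw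
  · intro p
    unfold Wnd.nu
    rw [eS, etop, hW.elam]
    ring

end Crest.Agent.R136.F2k569
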