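import Crest.Agent.R136.F2k2_569
import Crest.Agent.R136.LdF5_511
import Crest.Agent.R136.Rc8_146

/-!
# R136, case F at `θ0 = θ2` (helper569): `X_b` is exact given `N`, part 3: the profile

* `PlK` : natural plane of rung (i) with `N ∥ X_b`, `F_a ∥ z`, `P ∥ C_b`;
* `val9` : the group `{X_b, N}`;
* `exists_lev` : a level `L` of `C_a` at which the loss of `C_a` given `F_b : Y` has a positive rate;
* **`xbK`** : `1 ≤ r₉ / (1 + κ) + φ₉ wN`.
-/

set_option autoImplicit false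
set_option linter.unusedVariables false
set_option linter.unusedSectionVars false

open Filter Topology Finset

namespace Crest.Agent.R136.F2k569

open Crest.Agent.R138.Ex926 (Base U)
open Crest.Agent.R136.Gf356
open Crest.Agent.R136.Fe1355
open Crest.Agent.R136.NetQ186 Crest.Agent.R136.Net191 Crest.Agent.R136.Qg926
open Crest.Agent.R136.Ev356 Crest.Agent.R136.Aw413
open Crest.Agent.R136.Wq400
open Crest.Agent.R136.LdF5511
open Crest.Agent.R136.Dg219 (gC dhC nC OutS gC_zero gC_eq Tn)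
open Crest.Agent.R136.Rc146 (OutA)

/-! ### the plane -/

theorem fin9 : ∀ i : Fin 11, i ≠ 0 → i ≠ 1 → i ≠ 2 → i ≠ 3 → i ≠ 4 → i ≠ 5 → i ≠ 6 → i ≠ 7 →
    i ≠ 8 → i = 9 ∨ i = 10 := by decide

theorem fin0 : ∀ i : Fin 11, i ≠ 0 → i ≠ 2 → i ≠ 4 → i ≠ 6 → i ≠ 7 → i ≠ 8 → i ≠ 9 → i ≠ 10 →
    i ∈ ({1, 3, 5} : Finset (Fin 11)) := by decide

theorem finL : ∀ j : Fin 11, j ≠ 1 → j ≠ 3 → j ≠ 5 → j ≠ 6 → j ≠ 7 → j ≠ 8 → j ≠ 9 → j ≠ 10 →
    j ∈ ({0, 2, 4} : Finset (Fin 11)) := by decide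

/-- natural plane of rung (i), `N ∥ X_b` -/
structure PlK (a b : Fin 11 → ℝ) (κ : ℝ) : Prop extends PlE a b κ where
  a1 : a 1 = 0
  a3 : a 3 = 0
  a4 : a 4 = κ
  a7 : a 7 = κ
  a10 : a 10 = 1 + κ
  b4 : b 4 = b 2
  b7 : b 7 = b 6
  b10 : b 10 = b 9

namespace PlK

variable {a b : Fin 11 → ℝ} {κ : ℝ} (h : PlK a b κ)

include h

theorem n4 : a 4 ≠ 0 := by rw [h.a4]; exact h.κ0.ne'
theorem n7 : a 7 ≠ 0 := by rw [h.a7]; exact h.κ0.ne'
theorem n10 : a 10 ≠ 0 := by rw [h.a10]; linarith [h.κ0]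

theorem g1 : gC a b 1 = 0 := gC_zero.2 h.a1
theorem g3 : gC a b 3 = 0 := gC_zero.2 h.a3
theorem g24 : gC a b 2 = gC a b 4 := by rw [gC_eq h.n2 h.n4, h.a2, h.a4, h.b4]
theorem g67 : gC a b 6 = gC a b 7 := by rw [gC_eq h.n6 h.n7, h.a6, h.a7, h.b7]
theorem g910 : gC a b 9 = gC a b 10 := by rw [gC_eq h.n9 h.n10, h.a9, h.a10, h.b10]

/-- the group of `X_b` -/
theorem grp9 {i : Fin 11} (hi : gC a b i = gC a b 9) : i = 9 ∨ i = 10 := by
  have h0 : i ≠ 0 := fun e => h.g09 (by rw [← e, hi])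
  have h1 : i ≠ 1 := fun e => h.g9 (by rw [← hi, e, h.g1])
  have h2 : i ≠ 2 := fun e => h.g09 (by rw [h.g02, ← e, hi])
  have h3 : i ≠ 3 := fun e => h.g9 (by rw [← hi, e, h.g3])
  have h4 : i ≠ 4 := fun e => h.g09 (by rw [h.g02, h.g24, ← e, hi])
  have h5 : i ≠ 5 := fun e => h.g9 (by rw [← hi, e, h.g5])
  have h6 : i ≠ 6 := fun e => h.g69 (by rw [← e, hi])
  have h7 : i ≠ 7 := fun e => h.g69 (by rw [h.g67, ← e, hi])
  have h8 : i ≠ 8 := fun e => h.g89 (by rw [← e, hi])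
  exact fin9 i h0 h1 h2 h3 h4 h5 h6 h7 h8

/-- the dropped group -/
theorem grp0 {i : Fin 11} (hi : gC a b i = 0) : i = 1 ∨ i = 3 ∨ i = 5 := by
  have h0 : i ≠ 0 := fun e => h.g0 (by rw [← e, hi])
  have h2 : i ≠ 2 := fun e => h.g0 (by rw [h.g02, ← e, hi])
  have h4 : i ≠ 4 := fun e => h.g0 (by rw [h.g02, h.g24, ← e, hi])
  have h6 : i ≠ 6 := fun e => h.g6 (by rw [← e, hi])
  have h7 : i ≠ 7 := fun e => h.g6 (by rw [h.g67, ← e, hi])
  have h8 : i ≠ 8 := fun e => h.g8 (by rw [← e, hi])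
  have h9 : i ≠ 9 := fun e => h.g9 (by rw [← e, hi])
  have h10 : i ≠ 10 := fun e => h.g9 (by rw [h.g910, ← e, hi])
  simpa using fin0 i h0 h2 h4 h6 h7 h8 h9 h10

/-- the level slots are a union of groups -/
theorem lev (i j : Fin 11) (hij : gC a b i = gC a b j) (hi : i ∈ ({0, 2, 4} : Finset (Fin 11))) :
    j ∈ ({0, 2, 4} : Finset (Fin 11)) := by
  have hi0 : gC a b j = gC a b 0 := by
    simp only [mem_insert, mem_singleton] at hi
    rcases hi with rfl | rfl | rfl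
    · exact hij.symm
    · rw [h.g02]; exact hij.symm
    · rw [h.g02, h.g24]; exact hij.symm
  have h1 : j ≠ 1 := fun e => h.g0 (by rw [← hi0, e, h.g1])
  have h3 : j ≠ 3 := fun e => h.g0 (by rw [← hi0, e, h.g3])
  have h5 : j ≠ 5 := fun e => h.g0 (by rw [← hi0, e, h.g5])
  have h6 : j ≠ 6 := fun e => h.g06 (by rw [← hi0, e])
  have h7 : j ≠ 7 := fun e => h.g06 (by rw [← hi0, e, h.g67])
  have h8 : j ≠ 8 := fun e => h.g08 (by rw [← hi0, e])
  have h9 : j ≠ 9 := fun e => h.g09 (by rw [← hi0, e])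
  have h10 : j ≠ 10 := fun e => h.g09 (by rw [← hi0, e, h.g910])
  exact finL j h1 h3 h5 h6 h7 h8 h9 h10

end PlK

/-! ### boxes -/

/-- box of the offset window -/
def vK (T L Y ca cb p xa xb n : ℝ) : Fin 11 → ℝ :=
  ![T, 0, T, Y, Y + T, L + ca, L + cb, L + p, L + xa, L + xb, L + n]

theorem vK_eq (T L Y ca cb p xa xb n : ℝ) :
    (cK L Y + cut {0, 2, 4} (bk ca cb p xa xb n) fun _ => T) = vK T L Y ca cb p xa xb n := by
  funext j
  fin_cases j <;> simp [cK, bk, vK, cut]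

/-- `N` with `F_b`, `X_a`, `z` -/
def wN : Fin 11 → ℝ := ![1, 0, 0, 1, 0, 0, 0, 0, 1, 0, 1]

/-- `F_b` and `C_a` -/
def gF (Y s : ℝ) : Fin 11 → ℝ := ![0, 0, 0, Y, 0, s, 0, 0, 0, 0, 0]

section

variable {Ma : Mons 11} (hM : MaF Ma)

include hM

theorem vK_mem {T L Y ca cb p xa xb n : ℝ} (hT : 0 ≤ T) (hTY : T ≤ Y) (ca0 : 0 ≤ ca)
    (cb0 : 0 ≤ cb) (cb1 : cb ≤ T) (p0 : 0 ≤ p) (p1 : p ≤ T) (xa0 : 0 ≤ xa) (xa1 : xa ≤ T)
    (xb0 : 0 ≤ xb) (xb1 : xb ≤ T) (n0 : 0 ≤ n) (n1 : n ≤ T) :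
    vK T L Y ca cb p xa xb n ∈ coneM Ma := by
  refine legF hM ?_ ?_ ?_ ?_ ?_ ?_ ?_ ?_ ?_ ?_ <;> simp only [vK, Matrix.cons_val] <;> linarith

theorem wN_mem : wN ∈ coneM Ma := by
  refine legF hM ?_ ?_ ?_ ?_ ?_ ?_ ?_ ?_ ?_ ?_ <;> simp only [wN, Matrix.cons_val] <;> norm_num

theorem gF_mem {Y s : ℝ} (hY : 0 ≤ Y) (hs : 0 ≤ s) : gF Y s ∈ coneM Ma := by
  refine legF hM ?_ ?_ ?_ ?_ ?_ ?_ ?_ ?_ ?_ ?_ <;> simp only [gF, Matrix.cons_val] <;> linarith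

end

/-! ### the profile -/

section prof

variable {a b : Fin 11 → ℝ} {κ : ℝ} {Ls : Set (Fin 11 → ℝ)} {lam : (Fin 11 → ℝ) → ℝ} {A : ℝ × ℝ}
  {φ : ℕ → (Fin 11 → ℝ) → ℝ} {r : ℕ → ℝ}

/-- **the group `{X_b, N}`** -/
theorem val9 (P : PlK a b κ) (hO : OutA (gC a b) Ls a b (dhC a b) (nC a b) lam A φ r)
    (hnat : ∀ z, Tn a b z ∈ Ls) (hsm : ∀ c ∈ Ls, ∀ s : ℝ, 0 ≤ s → s • c ∈ Ls)
    (hw : wN ∈ Ls) (hom : ∀ s : ℝ, 0 ≤ s → φ (gC a b 9) (s • wN) = s * φ (gC a b 9) wN)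
    {c : Fin 11 → ℝ} (hc : c 9 ≤ c 10) :
    φ (gC a b 9) c = -(r (gC a b 9) / (1 + κ)) * c 9 + (c 10 - c 9) * φ (gC a b 9) wN := by
  have hκ := P.κ0
  have h1 : (0 : ℝ) < 1 + κ := by linarith
  have hpos : ∀ i, gC a b i = gC a b 9 → 0 < dhC a b i := fun i hi => by
    unfold dhC
    rcases P.grp9 hi with rfl | rfl
    · rw [if_neg P.n9, P.a9]; exact h1
    · rw [if_neg P.n10, P.a10]; exact h1
  set t : ℝ := c 9 / (1 + κ) with ht
  have e1 : φ (gC a b 9) c = φ (gC a b 9) (Tn a b (t, 0) + (c 10 - c 9) • wN) :=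
    hO.loc _ _ _ fun i hi => by
      rcases P.grp9 hi with rfl | rfl
      · simp only [Pi.add_apply, Pi.smul_apply, smul_eq_mul, Tn, wN, Matrix.cons_val, P.a9]
        rw [ht]; field_simp; ring
      · simp only [Pi.add_apply, Pi.smul_apply, smul_eq_mul, Tn, wN, Matrix.cons_val, P.a10]
        rw [ht]; field_simp; ring
  have e2 : φ (gC a b 9) (Tn a b (t, 0)) = -(r (gC a b 9) * t) :=
    hO.rate _ _ (hnat _) t fun i hi => by
      unfold dhC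
      rcases P.grp9 hi with rfl | rfl
      · rw [if_neg P.n9]; simp [Tn, mul_comm]
      · rw [if_neg P.n10]; simp [Tn, mul_comm]
  rw [e1, hO.add _ hpos _ _ (hsm _ hw _ (by linarith)), e2, hom _ (by linarith), ht]
  field_simp

/-- **a level of `C_a`** at which the loss of `C_a` given `F_b : Y` has a positive rate -/
theorem exists_lev {Γ : ℝ → ℝ} (h0 : Γ 0 = 0)
    (hΓ : ∀ s t, 0 ≤ s → s ≤ t → 0 ≤ Γ t - Γ s ∧ Γ t - Γ s ≤ t - s) {m : ℝ} (h1 : m < Γ 1) :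
    ∃ L : ℝ, 0 ≤ L ∧ L < 1 ∧ ∀ t, 0 ≤ t → L + t ≤ 1 → m * t ≤ Γ (L + t) - Γ L := by
  have hc : ContinuousOn (fun s => Γ s - m * s) (Set.Icc 0 1) := by
    have : ContinuousOn Γ (Set.Icc 0 1) := by
      have hL : LipschitzOnWith 1 Γ (Set.Icc 0 1) := by
        refine LipschitzOnWith.of_dist_le_mul fun x hx y hy => ?_
        rw [Real.dist_eq, Real.dist_eq, NNReal.coe_one, one_mul]
        rcases le_total x y with hxy | hxy
        · have := hΓ x y hx.1 hxy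
          rw [abs_sub_comm (Γ x), abs_sub_comm x, abs_of_nonneg this.1,
            abs_of_nonneg (by linarith)]
          exact this.2
        · have := hΓ y x hy.1 hxy
          rw [abs_of_nonneg this.1, abs_of_nonneg (by linarith)]
          exact this.2
      exact hL.continuousOn
    exact this.sub (continuousOn_const.mul continuousOn_id)
  obtain ⟨L, hL, hmin⟩ := isCompact_Icc.exists_isMinOn (Set.nonempty_Icc.2 zero_le_one) hc
  have k0 : Γ L - m * L ≤ Γ 0 - m * 0 := hmin (Set.left_mem_Icc.2 zero_le_one)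
  refine ⟨L, hL.1, lt_of_le_of_ne hL.2 fun e => ?_, fun t ht hLt => ?_⟩
  · rw [e] at k0
    linarith
  · have k1 : Γ L - m * L ≤ Γ (L + t) - m * (L + t) := hmin ⟨by linarith [hL.1], hLt⟩
    linarith

end prof

/-! ### the homogeneous profile -/

section main

variable {ι : ℕ → Type*} [∀ n, DecidableEq (ι n)] {F : ∀ n, ι n → Fq4} {Ma : Mons 11}

/-- **`X_b` is exact given `N`**, homogeneous profile -/
theorem xbK {B Bo : Base} {I J : ∀ n, Finset (ι n)} {co : ∀ n, ι n → ι n → Fin 11 → ℝ}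
    {C : ℝ} {lam : (Fin 11 → ℝ) → ℝ} {a b : Fin 11 → ℝ} {A : ℝ × ℝ}
    {φ : ℕ → (Fin 11 → ℝ) → ℝ} {r : ℕ → ℝ} {κo : Fin 11 → ℝ} {V Tw : Fin 11 → Prop}
    (h : AeW B Bo I J co monQ Ma C lam a b A φ r 0 1 κo V Tw) (hM : MaF Ma) (hC : 0 ≤ C)
    (hco : ∀ n, ∀ i ∈ I n, ∀ j ∈ I n, co n i j = coQ (F n i) (F n j))
    (hne : ∀ᶠ n in (U : Filter ℕ), (J n).Nonempty) {κ : ℝ} (P : PlK a b κ)
    (hO : OutA (gC a b) (coneM Ma) a b (dhC a b) (nC a b) lam A φ r)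
    (hnat : ∀ z, Tn a b z ∈ coneM Ma)
    (hom : ∀ s : ℝ, 0 ≤ s → φ (gC a b 9) (s • wN) = s * φ (gC a b 9) wN)
    (hV : ∀ k, V k → k = 2) (hT2 : Tw 2) {c : ℝ} (hc : 0 < c)
    (hCa : lam (Pi.single 5 1) ≤ -c) :
    1 ≤ r (gC a b 9) / (1 + κ) + φ (gC a b 9) wN := by
  have hsm : ∀ c ∈ coneM Ma, ∀ s : ℝ, 0 ≤ s → s • c ∈ coneM Ma := fun c hc s hs k e he => by
    have h1 := mul_le_mul_of_nonneg_left (hc k e he) hs
    have h2 : ∑ i, (e i : ℝ) * (s • c) i = s * ∑ i, (e i : ℝ) * c i := by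
      rw [Finset.mul_sum]
      exact Finset.sum_congr rfl fun i _ => by rw [Pi.smul_apply, smul_eq_mul]; ring
    rw [h2, Pi.smul_apply, smul_eq_mul]
    exact h1
  obtain ⟨Y, hY⟩ : ∃ Y : ℝ, Y = c / 2 := ⟨_, rfl⟩
  have Y0 : 0 < Y := by rw [hY]; positivity
  have gm : ∀ s : ℝ, 0 ≤ s → gF Y s ∈ coneM Ma := fun s hs => gF_mem hM Y0.le hs
  obtain ⟨L, L0, L1, hL⟩ := exists_lev (Γ := fun s => lam (gF Y 0) - lam (gF Y s)) (m := c / 4)
    (by simp) (by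
      intro s t hs hst
      have hle : gF Y s ≤ gF Y t := by
        intro i; fin_cases i <;> simp [gF, hst]
      have h1 := h.anti _ (gm s hs) _ (gm t (hs.trans hst)) hle
      have h2 := h.sharp _ (gm s hs) _ (gm t (hs.trans hst)) hle
      have h3 : ∑ i, (gF Y t i - gF Y s i) = t - s := by
        simp [Fin.sum_univ_succ, gF]
      rw [h3] at h2
      constructor <;> linarith) (by
      have hle : (0 : Fin 11 → ℝ) ≤ gF Y 0 := by
        intro i; fin_cases i <;> simp [gF, Y0.le]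
      have h1 := h.sharp _ zero_mem _ (gm 0 le_rfl) hle
      have h3 : ∑ i, (gF Y 0 i - (0 : Fin 11 → ℝ) i) = Y := by
        simp [Fin.sum_univ_succ, gF]
      rw [h3, h.zero] at h1
      have hle2 : (Pi.single 5 1 : Fin 11 → ℝ) ≤ gF Y 1 := by
        intro i; fin_cases i <;> simp [gF, Y0.le]
      have hm5 : (Pi.single 5 1 : Fin 11 → ℝ) ∈ coneM Ma := by
        have := gF_mem hM (Y := 0) (s := 1) le_rfl zero_le_one
        have e : gF 0 1 = (Pi.single 5 1 : Fin 11 → ℝ) := by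
          funext i; fin_cases i <;> simp [gF]
        rwa [e] at this
      have h2 := h.anti _ hm5 _ (gm 1 zero_le_one) hle2
      linarith)
  obtain ⟨T, hTd⟩ : ∃ T : ℝ, T = min Y (1 - L) := ⟨_, rfl⟩
  have hT : 0 < T := by rw [hTd]; exact lt_min Y0 (by linarith)
  have hTY : T ≤ Y := by rw [hTd]; exact min_le_left _ _
  have hTL : T ≤ 1 - L := by rw [hTd]; exact min_le_right _ _
  obtain ⟨W, E, hN, htw, hν⟩ := kw_of_aew h hM hC hco hne P.lev hV hT2 hT (L := L) hTY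
  have hv : ∀ ca cb p xa xb n : ℝ, W.nu (bk ca cb p xa xb n) = lam (vK T L Y ca cb p xa xb n) -
      lam (cK L Y + fun _ => T) := fun ca cb p xa xb n => by rw [hν, vK_eq]
  have vm : ∀ {ca cb p xa xb n : ℝ}, 0 ≤ ca → 0 ≤ cb → cb ≤ T → 0 ≤ p → p ≤ T → 0 ≤ xa →
      xa ≤ T → 0 ≤ xb → xb ≤ T → 0 ≤ n → n ≤ T → vK T L Y ca cb p xa xb n ∈ coneM Ma :=
    fun h1 h2 h3 h4 h5 h6 h7 h8 h9 h10 h11 => vK_mem hM hT.le hTY h1 h2 h3 h4 h5 h6 h7 h8 h9 h10 h11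
  have hT0 := hT.le
  -- the loss of `C_a`
  have hγ : ∀ ca : ℝ, 0 ≤ ca → lam (vK T L Y 0 0 0 0 0 0) - lam (vK T L Y ca 0 0 0 0 0) =
      lam (gF Y L) - lam (gF Y (L + ca)) := by
    intro ca hca
    have m0 : vK T L Y 0 0 0 0 0 0 ∈ coneM Ma :=
      vm le_rfl le_rfl hT0 le_rfl hT0 le_rfl hT0 le_rfl hT0 le_rfl hT0
    have m1 : vK T L Y ca 0 0 0 0 0 ∈ coneM Ma :=
      vm hca le_rfl hT0 le_rfl hT0 le_rfl hT0 le_rfl hT0 le_rfl hT0
    rw [one_grp h.out m0 m1 0 (fun i hi => by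
        have h5 : i ≠ 5 := fun e => hi (by rw [e, P.g5])
        fin_cases i <;> simp [vK] at h5 ⊢),
      one_grp h.out (gm L L0) (gm (L + ca) (by linarith)) 0 (fun i hi => by
        have h5 : i ≠ 5 := fun e => hi (by rw [e, P.g5])
        fin_cases i <;> simp [gF] at h5 ⊢)]
    rw [h.out.loc 0 (vK T L Y 0 0 0 0 0 0) (gF Y L) (fun i hi => by
        rcases P.grp0 hi with rfl | rfl | rfl <;> simp [vK, gF]),
      h.out.loc 0 (vK T L Y ca 0 0 0 0 0) (gF Y (L + ca)) (fun i hi => by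
        rcases P.grp0 hi with rfl | rfl | rfl <;> simp [vK, gF])]
  refine hN.kone (m := c / 4)
    (β := fun y cb xa => lam (vK T L Y 0 0 y 0 0 y) - lam (vK T L Y 0 cb y xa 0 y))
    (γ := fun ca => lam (vK T L Y 0 0 0 0 0 0) - lam (vK T L Y ca 0 0 0 0 0))
    (by positivity) htw ?_ ?_ (by simp) ?_
  · intro ca cb y xa xb ca0 ca1 cb0 cb1 y0 y1 xa0 xa1 xb0 xb1
    rw [hv, hv]
    have cb2 := cb1.trans y1
    have xa2 := xa1.trans y1
    have xb2 := xb1.trans y1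
    have m0 : vK T L Y 0 0 y 0 0 y ∈ coneM Ma :=
      vm le_rfl le_rfl hT0 y0 y1 le_rfl hT0 le_rfl hT0 y0 y1
    have m1 : vK T L Y 0 0 y 0 xb y ∈ coneM Ma :=
      vm le_rfl le_rfl hT0 y0 y1 le_rfl hT0 xb0 xb2 y0 y1
    have m2 : vK T L Y 0 cb y xa 0 y ∈ coneM Ma :=
      vm le_rfl cb0 cb2 y0 y1 xa0 xa2 le_rfl hT0 y0 y1
    have m3 : vK T L Y 0 cb y xa xb y ∈ coneM Ma :=
      vm le_rfl cb0 cb2 y0 y1 xa0 xa2 xb0 xb2 y0 y1
    have m4 : vK T L Y ca cb y xa xb y ∈ coneM Ma :=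
      vm ca0 cb0 cb2 y0 y1 xa0 xa2 xb0 xb2 y0 y1
    have m5 : vK T L Y 0 0 0 0 0 0 ∈ coneM Ma :=
      vm le_rfl le_rfl hT0 le_rfl hT0 le_rfl hT0 le_rfl hT0 le_rfl hT0
    have m6 : vK T L Y ca 0 0 0 0 0 ∈ coneM Ma :=
      vm ca0 le_rfl hT0 le_rfl hT0 le_rfl hT0 le_rfl hT0 le_rfl hT0
    have s1 := split2 h.out m0 m1 m2 m3 (by
      intro k
      by_cases hk : k = gC a b 9
      · right
        intro i hi
        rcases P.grp9 (hi.trans hk) with rfl | rfl <;> simp [vK]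
      · left
        intro i hi
        have h9 : i ≠ 9 := fun e => hk (by rw [← hi, e])
        fin_cases i <;> simp [vK] at h9 ⊢)
    have s2 := split2 h.out m5 m6 m3 m4 (by
      intro k
      by_cases hk : k = 0
      · right
        intro i hi
        rcases P.grp0 (hi.trans hk) with rfl | rfl | rfl <;> simp [vK]
      · left
        intro i hi
        have h5 : i ≠ 5 := fun e => hk (by rw [← hi, e, P.g5])
        fin_cases i <;> simp [vK] at h5 ⊢)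
    have s3 := one_grp h.out m0 m1 (gC a b 9) (fun i hi => by
      have h9 : i ≠ 9 := fun e => hi (by rw [e])
      fin_cases i <;> simp [vK] at h9 ⊢)
    have v1 := val9 P hO hnat hsm (wN_mem hM) hom (c := vK T L Y 0 0 y 0 0 y) (by
      simp only [vK, Matrix.cons_val]; linarith)
    have v2 := val9 P hO hnat hsm (wN_mem hM) hom (c := vK T L Y 0 0 y 0 xb y) (by
      simp only [vK, Matrix.cons_val]; linarith)
    have e1 : vK T L Y 0 0 y 0 0 y 9 = L := by simp [vK]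
    have e2 : vK T L Y 0 0 y 0 0 y 10 = L + y := by simp [vK]
    have e3 : vK T L Y 0 0 y 0 xb y 9 = L + xb := by simp [vK]
    have e4 : vK T L Y 0 0 y 0 xb y 10 = L + y := by simp [vK]
    rw [e1, e2] at v1
    rw [e3, e4] at v2
    rw [v1, v2] at s3
    linear_combination s1 + s2 - s3
  · intro y x t x0 xt ty yT
    have y0 : 0 ≤ y := (x0.trans xt).trans ty
    have m1 : vK T L Y 0 0 y x 0 y ∈ coneM Ma :=
      vm le_rfl le_rfl hT0 y0 yT x0 ((xt.trans ty).trans yT) le_rfl hT0 y0 yT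
    have m2 : vK T L Y 0 0 y t 0 y ∈ coneM Ma :=
      vm le_rfl le_rfl hT0 y0 yT (x0.trans xt) (ty.trans yT) le_rfl hT0 y0 yT
    have h1 := h.sharp _ m1 _ m2 (by intro i; fin_cases i <;> simp [vK, xt])
    have h2 : ∑ i, (vK T L Y 0 0 y t 0 y i - vK T L Y 0 0 y x 0 y i) = t - x := by
      simp [Fin.sum_univ_succ, vK]
    rw [h2] at h1
    linarith
  · intro t t0 tT
    rw [hγ t t0]
    have := hL t t0 (by linarith)
    linarith

end main

end Crest.Agent.R136.F2k569
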