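import Crest.Agent.R136.F2b_569
import Crest.Agent.R136.F2a_355
import Crest.Agent.R136.LdF8_774
import Crest.Agent.R136.LadF_115
import Crest.Agent.R136.ReE0_436

/-!
# R136, case F at `θ0 = θ2` (helper569): the ladder, the row `pF2` of the thick table

* `stageQ2`, `qdOk2` : 355's first stage and D-max cone in the form of 667
* `ladder_FLQ` : 511's `ladder_FL` over any D-max cone
* **`caseF2_of_xbN`** : `Dead η pF2` from `XbN` (403)
-/

set_option autoImplicit false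
set_option linter.unusedVariables false

open Finset Filter Topology

namespace Crest.Agent.R136.F2w569

open Crest.Agent.R138.Ex926 (Base U IsTan)
open Crest.Agent.R136.Net191
open Crest.Agent.R136.NetQ186
open Crest.Agent.R136.Wq638
open Crest.Agent.R136.NatT550
open Crest.Agent.R136.NatR550 (nL)
open Crest.Agent.R136.Top484
open Crest.Agent.R136.LdF511
open Crest.Agent.R136.LdF3511
open Crest.Agent.R136.LdF7511
open Crest.Agent.R136.LdFb511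
open Crest.Agent.R136.LdF774 (rungQ_i rungQ_ii rungQ_iii)
open Crest.Agent.R136.Dl667
open Crest.Agent.R136.F2a355 (Qd2 mem_Qd2 qd2_rec recD_F2 stage_F2 StF2)
open Crest.Agent.R136.Tb628 (oS oS_eq)
open Crest.Agent.R136.K2S774 (cn Prf JT Stage RecD RungD BaseOk ind1 A2)
open Crest.Agent.R136.Dg219 (mw)
open Crest.Agent.R136.TopB550
open Crest.Agent.R136.Re436 (pF2)

/-- 355's D-max cone -/
theorem qdOk2 {θ : Fin 3 → ℝ} {V T : Fin 11 → Prop} (sl : SlotOk θ V T) (h02 : θ 0 = θ 2)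
    (J : Finset (Fin 11)) : QdOk θ V J (Qd2 θ) where
  rd :=
    { full := (recD_V sl J).full
      nat := (recD_V sl J).nat
      qd := fun d hd ξ t ht => qd2_rec h02 hd ξ ht
      tie := (recD_V sl J).tie }
  sub := fun d hd h67 => mem_Qd2.2 ⟨hd, h67⟩

section ladder

variable {η : ℝ} {p : Par4} {D : Dat4} {I1 : ℕ → Finset (ℕ × ℝ)} {π : Equiv.Perm (Fin 3)}
  {eE fA fB : ℕ → ℕ × ℝ → ℝ} {V T : Fin 11 → Prop} {w0 R T0 : ℝ} {PD : Set (Fin 11 → ℝ)}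
  {ν own : (Fin 11 → ℝ) → ℝ} {c₀ : ℝ}

/-- the first stage at `θ 0 = θ 2` -/
theorem stageQ2 (h : Thick η p D I1 π eE fA fB V T w0 R T0 PD ν own c₀) {v : ℝ} (h0 : 0 < v)
    (h1 : v < 1) (hκ : 0 < p.θ 1 - p.θ 2) (h02 : p.θ 0 = p.θ 2) (hV2 : V 2) (hV3 : ¬ V 3)
    (hV4 : ¬ V 4) :
    ∃ lam lo : (Fin 11 → ℝ) → ℝ, StVQ (Qd2 p.θ) p V ν own w0 R v ∅ lam lo := by
  obtain ⟨lam, lo, H⟩ := stage_F2 h h0 h1 hκ h02 hV3 hV4
  refine ⟨lam, lo, stage_congr (fun i => ⟨fun hi => vis2 h hV3 hV4 hi, fun hi => ?_⟩)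
    (fun i hi => ?_) H⟩
  · have hi' : i = 2 := hi
    subst hi'
    exact hV2
  · have := vis2 h hV3 hV4 hi
    subst this
    rw [oS_eq]; rfl

/-- **the ladder of case F over any D-max cone** -/
theorem ladder_FLQ (h : Thick η p D I1 π eE fA fB V T w0 R T0 PD ν own c₀) (hη : η ≤ 1 / 8)
    {Qd : Set (Fin 11 → ℝ)} (hQ : ∀ Jd, QdOk p.θ V Jd Qd) {v : ℝ} (h0 : 0 < v) (h1 : v < 1)
    (hst : ∃ lam lo : (Fin 11 → ℝ) → ℝ, StVQ Qd p V ν own w0 R v ∅ lam lo)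
    (hκ : 0 < p.θ 1 - p.θ 2) (hV2 : V 2) (hV3 : ¬ V 3) (hV4 : ¬ V 4)
    {x2 b2 : Fin 11 → ℝ} {g1 g2 : ℝ} (hx2 : 0 < x2 3)
    (hb2 : ∀ i, i ∉ ({3} : Finset (Fin 11)) → b2 i = rhoF p.θ i) (hg1 : 0 < g1) (hg2 : 0 < g2)
    (F1 : ∀ lam lo : (Fin 11 → ℝ) → ℝ, StVQ Qd p V ν own w0 R v ∅ lam lo →
      FlV p V ν own w0 R v ∅ (1 + (p.θ 1 - p.θ 2)) 0 (rhoF p.θ) lam lo
        (fun l => l (ind1 {3}) < 0) g1)
    (F2 : ∀ lam lo : (Fin 11 → ℝ) → ℝ, StVQ Qd p V ν own w0 R v {3} lam lo →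
      FlV p V ν own w0 R v {3} 1 x2 b2 lam lo (fun l => l (ind1 {4, 7}) < 0) g2) : False := by
  have hg := h.tp.ok.g0.1
  obtain ⟨lam, lo, H⟩ := hst
  have sub := (hQ ∅).sub
  obtain ⟨lam2, lo2, H2⟩ := K2A146.rungA H (hQ ∅).rd
    (rungQ_i sub hV3 hκ (b := rhoF p.θ) fun _ _ => rfl) hg1 (F1 lam lo H)
  have H2' : StVQ Qd p V ν own w0 R v {3} lam2 lo2 := by
    have e1 := A2_AF ∅ {3}
    rw [Finset.empty_union] at e1
    rw [e1, ← Finset.coe_union, Finset.empty_union] at H2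
    exact H2
  obtain ⟨lam3, lo3, H3⟩ := K2A146.rungA H2' (hQ {3}).rd
    (rungQ_ii sub h.tp.slots hV4 hκ hx2 hb2) hg2 (F2 lam2 lo2 H2')
  have H3' : StVQ Qd p V ν own w0 R v {3, 4, 7} lam3 lo3 := by
    have e1 := A2_AF {3} {4, 7}
    have e2 : ({3} : Finset (Fin 11)) ∪ {4, 7} = {3, 4, 7} := by decide
    rw [e2] at e1
    rw [e1, ← Finset.coe_union, e2] at H3
    exact H3
  have hs3 : 0 < min (p.g / 4) 1 := lt_min (by linarith) one_pos
  have hs1 : min (p.g / 4) 1 ≤ 1 + (p.θ 1 - p.θ 2) := (min_le_right _ _).trans (by linarith)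
  have hg3 : 0 < p.g / 2 := by linarith
  exact K2A146.deadA H3' (hQ {3, 4, 7}).rd
    (rungQ_iii sub (x := fun _ => 1) (b := rhoF p.θ) hκ hs3 hs1 one_pos one_pos one_pos
      fun _ _ => rfl) hg3
    (flA_of_ptH h h0 h1 (TF_iii hκ hs3 one_pos one_pos one_pos).1 (fun _ _ => rfl)
      (tie_TF h hV3 hV4 (by decide) _ _)
      (fun lam lo A φ r hP hH => F3_pt h hη hκ hV2 (min_le_left _ _) (min_le_right _ _)
        (by decide) (TF_iii hκ hs3 one_pos one_pos one_pos).1 (fun _ _ => rfl) hP hH)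
      (hQ {3, 4, 7}) H3' _)

end ladder

/-- **the row `pF2` of the thick table** from `XbN` -/
theorem caseF2_of_xbN {η : ℝ} (hη : η ≤ 1 / 8) (hX : ∀ (p : Par4) (D : Dat4)
    (I1 : ℕ → Finset (ℕ × ℝ)) (π : Equiv.Perm (Fin 3)) (eE fA fB : ℕ → ℕ × ℝ → ℝ)
    (V T : Fin 11 → Prop) (w0 R T0 : ℝ) (PD : Set (Fin 11 → ℝ)) (ν own : (Fin 11 → ℝ) → ℝ)
    (c₀ : ℝ), Thick η p D I1 π eE fA fB V T w0 R T0 PD ν own c₀ → pF2 p V →
    XbN D I1 (couQ D.B D.lev D.w w0 (incQ π D.L eE fA fB)) p V T (fun _ => 1) (rhoF p.θ)) :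
    Dead η pF2 := by
  intro p D I1 π eE fA fB V T w0 R T0 PD ν own c₀ h hp
  have hx := hX p D I1 π eE fA fB V T w0 R T0 PD ν own c₀ h hp
  obtain ⟨h2, h3, h4, h02⟩ := hp
  have hκ := LadF115.kap_pos h h2
  have hg := h.tp.ok.g0.1
  have h01 : p.θ 0 ≠ p.θ 1 := fun e => by rw [← h02, e] at hκ; linarith
  exact ladder_FLQ h hη (fun J => qdOk2 h.tp.slots h02 J) (v := 1 / 2) (by norm_num) (by norm_num)
    (stageQ2 h (by norm_num) (by norm_num) hκ h02 h2 h3 h4) hκ h2 h3 h4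
    (x2 := fun _ => 1) (b2 := rhoF p.θ) one_pos (fun _ _ => rfl)
    (g1 := p.g / 2) (g2 := p.g / 2) (by linarith) (by linarith)
    (fun lam lo H => F2b569.F1_fl2 h hη (by norm_num) (by norm_num) hκ h02 h2 h3 h4
      (qdOk2 h.tp.slots h02 ∅) H)
    (fun lam lo H => F2_of h hη (by norm_num) (by norm_num) hκ h2 h3 h4 one_pos (fun _ _ => rfl)
      (qdOk2 h.tp.slots h02 {3}) H
      (LdF6146.nClaim h hκ h01 h3 h4 one_pos fun _ _ => rfl) hx)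

end Crest.Agent.R136.F2w569
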