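import Crest.Agent.R136.LinF3_403
import Crest.Agent.R136.Lin11_560
import Crest.Agent.R136.LinW_938

/-!
# R136, thin branch (helper403): `SeamLinG` from the rows

* `relH2`, `relH1` : 560's relation with 938's rows
* **`seamLinG_rows`** : `RowsC → SeamLinG`
-/

set_option autoImplicit false
set_option linter.unusedVariables false

open Filter Topology

namespace Crest.Agent.R136.LinF403

open Finset Crest.Agent.R138.Ex926 Crest.Agent.R136.Net191 Crest.Agent.R136.Gf356
open Crest.Agent.R136.Qg926 Crest.Agent.R136.NetW191 Crest.Agent.R136.EvW938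
open Crest.Agent.R136.LadG697 Crest.Agent.R136.Ln619

/-- `N ∥ B` -/
theorem relH2 : RelH D11 {2, 3, 17} {10, 11} := by
  intro κ u f mm σ K hm hσ
  set t : ℝ := max K 0 with ht
  have ht0 : 0 ≤ t := le_max_right _ _
  have htK : K ≤ t := le_max_left _ _
  refine ⟨t + 1 + (3 * t + 1) / σ, by positivity, fun W g ε hε => ?_⟩
  have h1 : 0 ≤ (3 * t + 1) / σ := by positivity
  have h2 : 3 * t < σ * (t + 1 + (3 * t + 1) / σ) := by
    have e : σ * (t + 1 + (3 * t + 1) / σ) = σ * (t + 1) + (3 * t + 1) := by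
      field_simp
    rw [e]
    have := mul_nonneg hσ.le (by linarith : (0:ℝ) ≤ t + 1)
    linarith
  have hW : Lin560.LnW Lin560.Db Lin560.Ub W κ u f mm σ (t + 1 + (3 * t + 1) / σ) := g
  filter_upwards [Lin560.lin_rel3_of hW (fun E hE H => Lin938.lRow3 hW hE H) ht0 (by linarith) h2 hε]
    with n hn
  obtain ⟨G, g1, g2, g3⟩ := hn
  refine ⟨G, g1, g2, ?_⟩
  obtain ⟨j, j1, j2, j3⟩ := g3
  refine ⟨j, j1, j2, fun y hy y' hy' q hq => (j3 y hy y' hy' q hq).trans ?_⟩
  have hsd : 0 ≤ sd W u n (Fin.natAdd 4 q) := by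
    unfold sd
    exact (div_pos (Real.rpow_pos_of_pos (W.B.pos n) _) ((hW.ww.hl n).pos _)).le
  exact mul_le_mul_of_nonneg_right
    (Real.rpow_le_rpow_of_exponent_ge (W.B'.pos n) (W.B'.lt n).le (by linarith)) hsd

/-- `N ∥ A` -/
theorem relH1 : RelH D12 {2, 17} {11} := by
  intro κ u f mm σ K hm hσ
  set t : ℝ := max K 0 with ht
  have ht0 : 0 ≤ t := le_max_right _ _
  have htK : K ≤ t := le_max_left _ _
  refine ⟨t + 1 + (2 * t + 1) / σ, by positivity, fun W g ε hε => ?_⟩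
  have h1 : 0 ≤ (2 * t + 1) / σ := by positivity
  have h2 : 2 * t < σ * (t + 1 + (2 * t + 1) / σ) := by
    have e : σ * (t + 1 + (2 * t + 1) / σ) = σ * (t + 1) + (2 * t + 1) := by
      field_simp
    rw [e]
    have := mul_nonneg hσ.le (by linarith : (0:ℝ) ≤ t + 1)
    linarith
  have hW : Lin560.LnW Lin560.Da Lin560.Ua W κ u f mm σ (t + 1 + (2 * t + 1) / σ) := g
  filter_upwards [Lin560.lin_rel2_of hW (fun E hE H => Lin938.lRow2 hW hE H) ht0 (by linarith) h2 hε]
    with n hn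
  obtain ⟨G, g1, g2, g3⟩ := hn
  refine ⟨G, g1, g2, ?_⟩
  obtain ⟨j, j1, j2, j3⟩ := g3
  refine ⟨j, j1, j2, fun y hy y' hy' q hq => (j3 y hy y' hy' q hq).trans ?_⟩
  have hsd : 0 ≤ sd W u n (Fin.natAdd 4 q) := by
    unfold sd
    exact (div_pos (Real.rpow_pos_of_pos (W.B.pos n) _) ((hW.ww.hl n).pos _)).le
  exact mul_le_mul_of_nonneg_right
    (Real.rpow_le_rpow_of_exponent_ge (W.B'.pos n) (W.B'.lt n).le (by linarith)) hsd

/-- **`SeamLinG`** from the rows -/
theorem seamLinG_rows (hR : RowsC) : SeamLinG := seamLinG_of hR relH2 relH1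

end Crest.Agent.R136.LinF403
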