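import Crest.Agent.R136.Ndw_325
import Crest.Agent.R136.Nmw2_84
import Crest.Agent.R136.Amx5_325

/-!
# R136 (S0187), PLAN 2, mixed curvatures: `NdMx` from the chart and the nondegeneracy (helper325)

`ndMx_of_chart : ChartMx → NdPt → Amx84.NdMx`, `ndMx_of : ChartMx → NdPt → Amx325.NdMx`.
-/

set_option autoImplicit false
set_option linter.unusedVariables false

open Finset

namespace Crest.Agent.R136.Ndw325

open Crest.Agent.R136.Rk601 Crest.Agent.R136.Sh605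
open Crest.Agent.R136.Tl102 (cmb fr)
open Crest.Agent.R136.K4 (Plk4)
open Crest.Agent.R136.Tlt51 (Shp InP)
open Crest.Agent.R136.KapP335 (kapP DetP)
open Crest.Agent.R136.Pl2W102 (Near)
open Crest.Agent.R136.Pl2 (kp Al1)
open Crest.Agent.R136.Hcp208 (Dims)
open Crest.Agent.R136.Gbx862 (zj gb lc zj_mem)
open Crest.Agent.R136.AlD601 (Nd jS)
open Crest.Agent.R136.Adp876
open Crest.Agent.R136.Bl5667 (shp_pos kp_nonneg)

theorem num2 : (6 ^ 6 * 10 ^ 240 : ℝ) ≤ (2 ^ 16) * (2 ^ 4) ^ 240 := by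
  have h1 : (6 ^ 6 : ℝ) ≤ 2 ^ 16 := by norm_num
  have h2 : (10 : ℝ) ^ 240 ≤ (2 ^ 4) ^ 240 := pow_le_pow_left₀ (by norm_num) (by norm_num) 240
  exact mul_le_mul h1 h2 (by positivity) (by positivity)

/-- **`NdMx` of helper84** -/
theorem ndMx_of_chart (hCh : ChartMx) (hNd : NdPt) : Amx84.NdMx := by
  classical
  obtain ⟨C1, hC1, ch⟩ := hCh
  obtain ⟨C2, hC2, nd⟩ := hNd
  refine ⟨976 + 420 * (C1 + C2), by linarith, ?_⟩
  intro W Y a w1 w2 z0 ρ r H U V P L hW hr hρ hrρ ha hU hV hin dU dV hal hdet hnear hfl hbig hH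
    hHa T hT
  have b1 : (1:ℝ) ≤ 2 * W := by linarith
  have b0 : (0:ℝ) < 2 * W := by linarith
  have pw : ∀ {x y : ℝ}, x ≤ y → (2 * W) ^ x ≤ (2 * W) ^ y := fun hxy =>
    Real.rpow_le_rpow_of_exponent_le b1 hxy
  have pp : ∀ x : ℝ, 0 < (2 * W) ^ x := fun x => Real.rpow_pos_of_pos b0 _
  have hHr : (1 : ℝ) ≤ H := by exact_mod_cast hH
  have hH0 : (0 : ℝ) < H := by linarith
  have hl0 : 0 ≤ Real.log H := Real.log_nonneg hHr
  obtain ⟨va, vw0, v2, v1⟩ := shp_pos hr hV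
  have hw : ∀ k, 0 < V.w k := by
    intro k; fin_cases k
    · exact vw0
    · exact v1
    · exact v2
  set K : ℝ := (2 * W) ^ C1 with hKd
  set X : ℝ := (2 * W) ^ (C1 + C2) with hXd
  have hWK2 : 2 * W ≤ K := by
    have : (2 * W) ^ (1:ℝ) ≤ (2 * W) ^ C1 := pw hC1
    rwa [Real.rpow_one] at this
  have hK2 : 2 ≤ K := by linarith
  have hWK : W ≤ K := by linarith
  have hKX : K ≤ X := pw (by linarith)
  have hK0 : 0 < K := by linarith
  have hX0 : 0 < X := by linarith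
  have hY : 0 < Y := (mul_pos (pp _) ha).trans_le hbig
  set m : ℕ := ⌈K⌉₊ with hm
  have hKm : K ≤ m := Nat.le_ceil K
  have hm2 : (m : ℝ) ≤ 2 * K := by
    have := Nat.ceil_lt_add_one hK0.le
    rw [← hm] at this
    linarith
  have hm1 : 1 ≤ m := by
    have : (1:ℝ) ≤ m := by linarith
    exact_mod_cast this
  have hmr : (0:ℝ) < m := by exact_mod_cast (show 0 < m by omega)
  set B : ℝ := 10 ^ 240 * X ^ 414 * (1 + Real.log H) * (H : ℝ) ^ 2 with hB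
  have hB0 : 0 ≤ B := by positivity
  have key := Nmw84.cells_sum3 (V := V) (P := P) (L := L) (z0 := z0) (ρ := ρ) (B := B) (m := m) hm1
    hρ.le hw (fun t ht => (hin t ht).2) T
    (fun y t => y.2 < H ∧ gb V.e V.c w1 w2 z0 ρ H (L t) y.2 = y.1) hT hB0 ?_
  · refine key.trans ?_
    have e1 : (3 * (m : ℝ)) ^ 6 ≤ 6 ^ 6 * X ^ 6 := by
      calc (3 * (m : ℝ)) ^ 6 ≤ (6 * X) ^ 6 :=
            pow_le_pow_left₀ (by positivity) (by linarith) 6
        _ = 6 ^ 6 * X ^ 6 := by ring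
    have e2 : X ^ 420 = (2 * W) ^ (420 * (C1 + C2)) := by
      rw [hXd, ← Real.rpow_natCast, ← Real.rpow_mul b0.le]
      congr 1
      push_cast; ring
    have e3 : (2 ^ 16 * (2 ^ 4) ^ 240 : ℝ) ≤ (2 * W) ^ (976 : ℝ) := by
      have f1 : (2 * W) ^ (976 : ℝ) = (2 * W) ^ (976 : ℕ) := by
        exact_mod_cast Real.rpow_natCast (2 * W) 976
      rw [f1]
      calc (2 ^ 16 * (2 ^ 4) ^ 240 : ℝ) = 2 ^ 976 := by
            rw [← pow_mul, ← pow_add]
        _ ≤ (2 * W) ^ 976 := pow_le_pow_left₀ (by norm_num) (by linarith) 976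
    have e4 : 0 ≤ (1 + Real.log H) * (H : ℝ) ^ 2 := by positivity
    calc (3 * (m : ℝ)) ^ 6 * B ≤ (6 ^ 6 * X ^ 6) * B := mul_le_mul_of_nonneg_right e1 hB0
      _ = (6 ^ 6 * 10 ^ 240) * X ^ 420 * ((1 + Real.log H) * (H : ℝ) ^ 2) := by
          rw [hB]; ring
      _ ≤ (2 * W) ^ (976 : ℝ) * X ^ 420 * ((1 + Real.log H) * (H : ℝ) ^ 2) :=
          mul_le_mul_of_nonneg_right (mul_le_mul_of_nonneg_right (num2.trans e3) (by positivity)) e4
      _ = (2 * W) ^ (976 + 420 * (C1 + C2)) * (1 + Real.log H) * (H : ℝ) ^ 2 := by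
          rw [e2, Real.rpow_add b0]; ring
  · intro T0 hT0 T' hTT hcell
    have hex : ∀ y : (ℤ × ℤ) × ℕ, ∃ t : ℕ, y ∈ T' → t ∈ P ∧ (y.2 < H ∧
        gb V.e V.c w1 w2 z0 ρ H (L t) y.2 = y.1) ∧ Nmw84.Cl3 m V z0 ρ (L t) (L T0) := by
      intro y
      by_cases hy : y ∈ T'
      · obtain ⟨t, h1, h2, h3⟩ := hcell y hy
        exact ⟨t, fun _ => ⟨h1, h2, h3⟩⟩
      · exact ⟨0, fun h => absurd h hy⟩
    choose f hf using hex
    have le1 : (2 * W) ^ C1 ≤ (2 * W) ^ (976 + 420 * (C1 + C2)) := pw (by linarith)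
    have le2 : (2 * W) ^ C2 ≤ (2 * W) ^ (976 + 420 * (C1 + C2)) := pw (by linarith)
    obtain ⟨σ, s1, s2, rr, k0, μ, Λ, cq, cP, ε, αq, Jq, JP, hc⟩ := ch W Y a w1 w2 z0 ρ r U V (L T0)
      hW hr hρ hrρ ha hU hV (hin T0 hT0).1 (hin T0 hT0).2 dU dV (hal T0 hT0) (hdet T0 hT0)
      (hnear T0 hT0)
      ((mul_le_mul_of_nonneg_right le1 (kp_nonneg vw0.le z0 ρ (L T0))).trans (hfl T0 hT0))
      ((mul_le_mul_of_nonneg_right le1 ha.le).trans hbig)
    refine cell_count hK2 hKX hc hH hW hWK hr hρ ha hY hHa hU hV dU dV (hin T0 hT0).2 T'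
      (fun y => L (f y)) (fun y hy => (hf y hy).2.1.1) (fun y hy => hin _ (hf y hy).1)
      (fun y hy => (hf y hy).2.1.2) (fun y hy z h1 h2 k => ?_) (fun y hy => ?_)
    · refine ((hf y hy).2.2 z h1 h2 k).trans ?_
      exact div_le_div_of_nonneg_left (hw k).le hK0 hKm
    · have hfy := (hf y hy).1
      have h1 := nd W Y a w1 w2 z0 ρ r U V (L (f y)) H y.2 hW hr hρ hrρ ha hU hV (hin _ hfy).1
        (hin _ hfy).2 dU dV (hal _ hfy) (hdet _ hfy) (hnear _ hfy)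
        ((mul_le_mul_of_nonneg_right le2 (kp_nonneg vw0.le z0 ρ (L (f y)))).trans (hfl _ hfy))
        ((mul_le_mul_of_nonneg_right le2 ha.le).trans hbig) hH (hf y hy).2.1.1.le
      have h2 : X⁻¹ ≤ ((2 * W) ^ C2)⁻¹ := inv_anti₀ (pp C2) (pw (by linarith))
      exact h1.mono hY.le h2 h2

/-- **`NdMx` of `Amx3_325`** -/
theorem ndMx_of (hCh : ChartMx) (hNd : NdPt) : Amx325.NdMx :=
  Amx325.ndMx_of (ndMx_of_chart hCh hNd)

end Crest.Agent.R136.Ndw325
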