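import Crest.Agent.R136.QGa_312
import Crest.Agent.R136.RL10_478
import Crest.Agent.R136.Qgn3_887

/-!
# R136, thin branch (helper312): front half of the resonances of the rungs `2` and `1`

* `front_winM` : object + stage + tangents at an interior point ⊢ twin windows, record point moved by
  `-c h • btW θ`.
* `posM`, `posM_le`, `natX_posM` : positions of the interior base.
* `pair_rec`, `size_rec` : law at the interior base ⊢ law in the units of the record window.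
-/

set_option autoImplicit false
set_option linter.unusedVariables false

open Finset Filter Topology

namespace Crest.Agent.R136.QG312

open Crest.Agent.R136.Net191
open Crest.Agent.R136.NetW191
open Crest.Agent.R136.PrW464
open Crest.Agent.R136.NatW697
open Crest.Agent.R136.LadW697
open Crest.Agent.R136.LadG697
open Crest.Agent.R136.Zpr779
open Crest.Agent.R136.Qg926
open Crest.Agent.R136.EvW938
open Crest.Agent.R136.Bas938
open Crest.Agent.R136.AwJ774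
open Crest.Agent.R136.K2S774
open Crest.Agent.R136.RL478
open Crest.Agent.R136.ThS830
open Crest.Agent.R136.GauW619
open Crest.Agent.R136.Qgn887 (TDs TDs_not TDs_mem TDs_nonneg)
open Crest.Agent.R138.Ex926

/-! ### twin windows of an object -/

section front

variable {θ : Fin 3 → ℝ} {g : ℝ} {q : Fin 3 → ℝ} {V T : Set (Fin 18)} {w0 R T0 : ℝ}
  {B B' : Base} {I0 I : ℕ → Finset (ℕ × ℝ)} {κ : ℕ → ℝ} {u : ℕ → Fin 18 → ℝ}
  {F : ℕ → ℕ × ℝ → FW} {X : ℕ → Fin 18 → ℝ} {w : ℕ → ℝ} {Tn To : ℕ → ℝ}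
  {PD : Set (Fin 18 → ℝ)} {ν own : (Fin 18 → ℝ) → ℝ} {c₀ : ℝ}

/-- **twin windows of an object**, record window at `(t - c h) • btW θ`, interior window at `y` -/
theorem front_winM (H : ZW θ g q V T w0 R T0 B B' I0 I κ u F X w Tn To PD ν own c₀)
    {v1 : ℝ} (h0 : 0 < v1) (h1 : v1 < 1) {Dr Z V' : Set (Fin 18)} (hD : Dr3 Dr)
    {lam0 lo0 lamI loI : (Fin 18 → ℝ) → ℝ}
    (S : Stage QW (Leg monW R) ν own 18 (pathW θ w0 v1) (btW θ) (DlW g q) (QdW θ) Z V' 0 (btW θ) 1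
      (actW Dr) Dr lam0 lo0)
    (t c : ℝ) {y : Fin 18 → ℝ} (hy : NatG Dr y) {k : ℕ → ℝ} (kpos : ∀ l, 0 < k l)
    (k0 : Tendsto k atTop (𝓝 0))
    (tI : IsTan (cn QW (actW Dr)) (cn QW (actW Dr)) lam0 (fun _ => y) k lamI)
    (tIo : IsTan (cn QW (actW Dr)) (cn QW (actW Dr)) lo0 (fun _ => y) k loI) :
    ∃ (B2 : Base) (X1 : ℕ → Fin 18 → ℝ) (w1 h TI ToI TR ToR : ℕ → ℝ)
      (lamR loR : (Fin 18 → ℝ) → ℝ),
      (∀ n, 0 < w1 n) ∧ (∀ n, 0 < h n) ∧ Tendsto h U (𝓝 0) ∧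
      (∀ n, B2.d n = B.d n ^ (w1 n * h n)) ∧ (∀ n, NatG Dr (X1 n)) ∧
      AwZ146.BasX monW (mA monW (actW Dr)) (mA monW (actW Dr)) (fun n => X1 n + w1 n • y)
        (fun n => w1 n * h n) ∧
      ZWin B B2 I0 I (coU u κ F) monW 67 (fun n => X1 n + w1 n • y) (fun n => w1 n * h n)
        (cn QW (actW Dr)) TI lamI ∧
      ZProf B2 I (zolb B I0 (coU u κ F) monW 67 (fun n => X1 n + w1 n • y)
        (fun n => w1 n * h n)) (cn QW (actW Dr)) ToI loI ∧ (∀ n, 0 < ToI n) ∧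
      IWG θ g q B B2 I0 I κ u F (fun n => X1 n + w1 n • ((t - c * h n) • btW θ))
        (fun n => w1 n * h n) Dr TR ToR lamR loR ∧
      Stage QW (Leg monW R) ν own 18 (pathW θ w0 v1) (btW θ) (DlW g q) (QdW θ) Z V' 0 (btW θ) 1
        (actW Dr) Dr lamR loR := by
  obtain ⟨C, hC, hgd⟩ := OwW831.ZW.gd_unif H
  obtain ⟨δ, hδ, hG⟩ := hgd v1 h0 h1
  obtain ⟨B1, X1, w1, T1, To1, W1, -⟩ := exists_iwg H h0 h1 ⟨C, hC, δ, hδ, hG⟩ H.card hD
    S (fun _ n => |κ n|⁻¹) (fun _ => H.κ0)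
  obtain ⟨B2, h, TI, ToI, TR, ToR, lamR, loR, a1, a2, a3, a4, a5, a6, a7, a8, a9⟩ :=
    twin_iwgM hD W1 S t c kpos k0 tI tIo (fun _ n => |κ n|⁻¹) (fun _ => W1.iw.kap)
  exact ⟨B2, X1, w1, h, TI, ToI, TR, ToR, lamR, loR, W1.iw.win.w0, a1, a2, a7.iw.win.base,
    fun n => NatG.of_IW W1.iw n, basX_shift W1.iw.bas W1.iw.win.w0 (fun n => hy.nat)
      (fun n => le_rfl) a1 a2, a4, a5, a6, a7, a8⟩

end front

/-! ### positions -/

/-- the ray with dropped slots is natural -/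
theorem natG_TDs {Dr : Set (Fin 18)} (hD : Dr3 Dr) {s : ℝ} (hlo : ∀ k ∈ DrW s, k ∈ Dr) :
    NatG Dr (TDs s Dr) :=
  natG_of hD fun k hk => by rw [TDs_not hk, TW_of_not fun h => hk (hlo k h), saW_grW]

/-- the interior point is natural -/
theorem natG_yD {Dr : Set (Fin 18)} (hD : Dr3 Dr) {s : ℝ} (hlo : ∀ k ∈ DrW s, k ∈ Dr)
    (θ : Fin 3 → ℝ) (z : ℝ × ℝ) : NatG Dr (Dg262.X 0 (TDs s Dr) (btW θ) z) := by
  rw [X_zero]
  exact NatG.add ((natG_TDs hD hlo).smul _) ((natG_btW hD θ).smul _)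

section pos

variable {X1 : ℕ → Fin 18 → ℝ} {w1 h : ℕ → ℝ} {T b : Fin 18 → ℝ} {z : ℝ × ℝ} {c : ℝ}

/-- interior base minus record base -/
theorem posM (n : ℕ) (k : Fin 18) :
    (X1 n + w1 n • Dg262.X 0 T b z) k =
      (X1 n + w1 n • ((z.2 - c * h n) • b)) k + w1 n * h n * (c * b k) + w1 n * (z.1 * T k) := by
  simp only [Dg262.X, Pi.add_apply, Pi.smul_apply, smul_eq_mul, Pi.zero_apply]
  ring

/-- **interior labels are coarser than the record classes of base `bC`** -/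
theorem posM_le (hw : ∀ n, 0 < w1 n) (hpos : ∀ n, 0 < h n) (hh : Tendsto h U (𝓝 0)) (hz : z.1 < 0)
    (hT : ∀ k, 0 ≤ T k) {bC : Fin 18 → ℝ} (ha : ∀ k, T k = 0 → c * b k ≤ bC k) :
    ∀ᶠ n in (U : Filter ℕ), ∀ k, (X1 n + w1 n • Dg262.X 0 T b z) k ≤
      (X1 n + w1 n • ((z.2 - c * h n) • b)) k + w1 n * h n * bC k := by
  filter_upwards [front_le (X1 := X1) (b := b) (a := c • b) (bC := bC) hw hpos hh hz hT
    (fun k hk => by simpa using ha k hk)] with n hn k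
  have h1 := hn k
  rw [posM (c := c) (h := h)]
  simp only [Pi.add_apply, Pi.smul_apply, smul_eq_mul] at h1 ⊢
  nlinarith

/-- natural completions of the two bases -/
theorem natX_posM {θ : Fin 3 → ℝ} (n : ℕ) (k : Fin 18) :
    natX (fun n => X1 n + w1 n • Dg262.X 0 T (btW θ) z) n k =
      natX (fun n => X1 n + w1 n • ((z.2 - c * h n) • btW θ)) n k + w1 n * h n * (c * btW θ k) +
        w1 n * (z.1 * grW (T 0) (T 1) (T 17) k) := by
  rw [natX_shift (X := X1) (w := w1) (fun _ => Dg262.X 0 T (btW θ) z),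
    natX_shift (X := X1) (w := w1) (fun n => (z.2 - c * h n) • btW θ), grW_btW]
  have e1 : ∀ i, Dg262.X 0 T (btW θ) z i = z.1 * T i + z.2 * btW θ i := fun i => by
    simp only [Dg262.X, Pi.zero_apply]; ring
  have e2 : grW (Dg262.X 0 T (btW θ) z 0) (Dg262.X 0 T (btW θ) z 1) (Dg262.X 0 T (btW θ) z 17) k =
      z.1 * grW (T 0) (T 1) (T 17) k + z.2 * btW θ k := by
    rw [e1, e1, e1, grW_add, grW_smul, grW_smul]
    congr 2
    simp only [btW, grW_0, grW_1, grW_17]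
  rw [e2]
  ring

end pos

/-- the natural completion of the ray vanishes on the slots of weight `s` -/
theorem grW_TDs {Dr : Set (Fin 18)} (hD : Dr3 Dr) {s : ℝ} (hlo : ∀ k ∈ DrW s, k ∈ Dr)
    {k : Fin 18} (h4 : 4 ≤ k) (hk : (alW k : ℝ) = s) :
    grW (TDs s Dr 0) (TDs s Dr 1) (TDs s Dr 17) k = 0 := by
  have e : ∀ i, i ∉ Dr → TDs s Dr i = saW s i := fun i hi => by
    rw [TDs_not hi, TW_of_not fun h => hi (hlo i h)]
  rw [e 0 hD.h0, e 1 hD.h1, e 17 hD.h17]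
  have h1 : grW (saW s 0) (saW s 1) (saW s 17) k = saW s k := by
    simp only [saW_grW, grW_0, grW_1, grW_17]
  rw [h1, saW_alW h4, hk, sub_self]

end Crest.Agent.R136.QG312
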