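import Crest.Agent.R136.RL4_478

/-!
# R136 (helper478): twin windows of the W-chart, generic

`twin_iwg` : a record window with its stage; `t • btW θ` = record point, `y` = any point, `lamI, loI` =
tangents at `y`. Output: on the same part and with one unit a record window and the window at `y`.
-/

set_option autoImplicit false
set_option linter.unusedVariables false

open Finset Filter Topology

namespace Crest.Agent.R136.RL478

open Crest.Agent.R136.Net191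
open Crest.Agent.R136.NetW191
open Crest.Agent.R136.PrW464
open Crest.Agent.R136.NatW697
open Crest.Agent.R136.LadW697
open Crest.Agent.R136.LadG697
open Crest.Agent.R136.Zpr779
open Crest.Agent.R136.Qg926
open Crest.Agent.R136.EvW938
open Crest.Agent.R136.Bas938
open Crest.Agent.R136.AwJ774
open Crest.Agent.R136.K2S774
open Crest.Agent.R136.Gau66 (base_ext tendsto_min)
open Crest.Agent.R138.Ex926

/-- own profile in the coordinates of the zoomed window -/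
theorem zprof_zolb {B B' : Base} {I0 J : ℕ → Finset (ℕ × ℝ)} {κ : ℕ → ℝ} {u : ℕ → Fin 18 → ℝ}
    {F : ℕ → ℕ × ℝ → FW} {X : ℕ → Fin 18 → ℝ} {w : ℕ → ℝ} {D : Set (Fin 18 → ℝ)} {To' : ℕ → ℝ}
    {lo' : (Fin 18 → ℝ) → ℝ} {y : ℕ → Fin 18 → ℝ} {v : ℕ → ℝ}
    (hO : ZProf B' J (fun n a => zolb B I0 (coU u κ F) monW 67 X w n (y n + v n • a)) D To' lo') :
    ZProf B' J (zolb B I0 (coU u κ F) monW 67 (fun n => X n + w n • y n) (fun n => w n * v n))
      D To' lo' := by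
  have e1 : (fun n a => zolb B I0 (coU u κ F) monW 67 X w n (y n + v n • a)) =
      zolb B I0 (coU u κ F) monW 67 (fun n => X n + w n • y n) (fun n => w n * v n) := by
    funext n a x
    unfold zolb zlab
    rw [← zoom_zoom]
  rw [e1] at hO
  exact hO

section twin

variable {θ : Fin 3 → ℝ} {g : ℝ} {q : Fin 3 → ℝ} {V Z : Set (Fin 18)} {P : Set (Fin 18 → ℝ)}
  {ν own : (Fin 18 → ℝ) → ℝ} {r0 : Fin 18 → ℝ} {B B1 : Base} {I0 J : ℕ → Finset (ℕ × ℝ)}
  {κ : ℕ → ℝ} {u : ℕ → Fin 18 → ℝ} {F : ℕ → ℕ × ℝ → FW} {X1 : ℕ → Fin 18 → ℝ} {w1 : ℕ → ℝ}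
  {Dr : Set (Fin 18)} {Tn To : ℕ → ℝ} {lam0 lo0 lamI loI : (Fin 18 → ℝ) → ℝ}

/-- **twin windows** -/
theorem twin_iwg (hD : Dr3 Dr) (W : IWG θ g q B B1 I0 J κ u F X1 w1 Dr Tn To lam0 lo0)
    (S0 : Stage QW P ν own 18 r0 (btW θ) (DlW g q) (QdW θ) Z V 0 (btW θ) 1 (actW Dr) Dr lam0 lo0)
    (t : ℝ) {y : Fin 18 → ℝ} {k : ℕ → ℝ} (kpos : ∀ l, 0 < k l) (k0 : Tendsto k atTop (𝓝 0))
    (tI : IsTan (cn QW (actW Dr)) (cn QW (actW Dr)) lam0 (fun _ => y) k lamI)
    (tIo : IsTan (cn QW (actW Dr)) (cn QW (actW Dr)) lo0 (fun _ => y) k loI)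
    (H : ℕ → ℕ → ℝ) (hH : ∀ i, B1.Sub (H i)) :
    ∃ (B2 : Base) (h TI ToI TR ToR : ℕ → ℝ) (lamR loR : (Fin 18 → ℝ) → ℝ),
      (∀ n, 0 < h n) ∧ Tendsto h U (𝓝 0) ∧ (∀ n, B2.d n = B1.d n ^ h n) ∧
      ZWin B B2 I0 J (coU u κ F) monW 67 (fun n => X1 n + w1 n • y) (fun n => w1 n * h n)
        (cn QW (actW Dr)) TI lamI ∧
      ZProf B2 J (zolb B I0 (coU u κ F) monW 67 (fun n => X1 n + w1 n • y)
        (fun n => w1 n * h n)) (cn QW (actW Dr)) ToI loI ∧ (∀ n, 0 < ToI n) ∧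
      IWG θ g q B B2 I0 J κ u F (fun n => X1 n + w1 n • (t • btW θ)) (fun n => w1 n * h n) Dr
        TR ToR lamR loR ∧
      Stage QW P ν own 18 r0 (btW θ) (DlW g q) (QdW θ) Z V 0 (btW θ) 1 (actW Dr) Dr lamR loR ∧
      ∀ i, B2.Sub (H i) := by
  classical
  obtain ⟨φ, hφ, lamR, loR, tR, tRo, SR⟩ := S0.exists_recM (recW θ Dr V)
    (y := fun _ => t • btW θ) (σ := fun _ => t) (fun l i _ => rfl) kpos k0
  have kk0 : Tendsto (fun l => k (φ l)) atTop (𝓝 0) := k0.comp hφ.tendsto_atTop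
  have tI' := tan_sub tI hφ.tendsto_atTop
  have tIo' := tan_sub tIo hφ.tendsto_atTop
  obtain ⟨C, hC, hG⟩ := W.gdu
  obtain ⟨Hc, hHc, hcard⟩ := W.card
  set H' : ℕ → ℕ → ℝ := fun i => Nat.casesOn i Hc fun i => Nat.casesOn i (fun n => |κ n|⁻¹) H
    with hH'
  have hs : ∀ i, B1.Sub (H' i) := fun i => by
    rcases i with _ | i
    · exact hHc
    · rcases i with _ | i
      · exact W.iw.kap
      · exact hH i
  obtain ⟨k1, hk1, H1⟩ := W.iw.win.exists_zoom (x := fun _ => y) (fun _ => le_rfl)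
    (h := fun l => k (φ l)) (fun l => kpos _) kk0 cn_zero tI' W.iw.To0 W.iw.own cn_zero tIo' H' hs
  obtain ⟨k2, hk2, H2⟩ := W.iw.win.exists_zoom (x := fun _ => t • btW θ) (fun _ => le_rfl)
    (h := fun l => k (φ l)) (fun l => kpos _) kk0 cn_zero tR W.iw.To0 W.iw.own cn_zero tRo H' hs
  obtain ⟨k3, hk3, H3⟩ := exists_diag _
    (fun l => hG.level (fun _ => t) (h := fun l => k (φ l)) (fun l => kpos _) l)
  set kk : ℕ → ℕ := fun n => min (k1 n) (min (k2 n) (k3 n)) with hkk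
  have hkt : Tendsto kk U atTop := tendsto_min hk1 (tendsto_min hk2 hk3)
  obtain ⟨B', b1, b2, b3, b4, b5⟩ := H1 kk hkt (Eventually.of_forall fun n => min_le_left _ _)
  obtain ⟨B'', c1, c2, c3, c4, c5⟩ := H2 kk hkt
    (Eventually.of_forall fun n => (min_le_right _ _).trans (min_le_left _ _))
  have e : B'' = B' := base_ext fun n => by rw [b1, c1]
  subst e
  have hO1 : ∀ n, 0 < To n * B1.d n ^ (-(lo0 y)) := fun n =>
    mul_pos (W.iw.To0 n) (Real.rpow_pos_of_pos (B1.pos n) _)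
  have hO2 : ∀ n, 0 < To n * B1.d n ^ (-(lo0 (t • btW θ))) := fun n =>
    mul_pos (W.iw.To0 n) (Real.rpow_pos_of_pos (B1.pos n) _)
  have W2 := W.zoom hD S0.rcd (σ := fun _ => t) (S := |t|) (fun _ => le_rfl)
    (h := fun l => k (φ l)) (fun l => kpos _) kk0 hkt (Eventually.of_forall fun n => subset_rfl)
    b1 hC (H3.mono fun n hn => hn _ ((min_le_right _ _).trans (min_le_right _ _))) hO2 c4 c5
    (b3 1) (b3 0) hcard
  exact ⟨B'', fun n => k (φ (kk n)), _, _, _, _, lamR, loR, fun n => kpos _, kk0.comp hkt, b1, b4,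
    zprof_zolb (y := fun _ => y) (v := fun n => k (φ (kk n))) b5, hO1, W2, SR,
    fun i => b3 (i + 2)⟩

end twin

end Crest.Agent.R136.RL478
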