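import Crest.Agent.R136.QGc_312
import Crest.Agent.R136.Qh2_831
import Crest.Agent.R136.Qi1_599

/-!
# R136, thin branch (helper312): `JLaw` from the law at the interior base

* `jlaw_of` : output of 599's `rel_one` (`SzQ`, `ErQ` at `YI`, precision `x`) and the natural sizes at
  `t = 0` of the undropped slots with `btW θ k < 0` (289) ⊢ 831's `JLaw`.
-/

set_option autoImplicit false
set_option linter.unusedVariables false

open Finset Filter Topology

namespace Crest.Agent.R136.QG312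

open Crest.Agent.R136.Net191
open Crest.Agent.R136.NetW191
open Crest.Agent.R136.PrW464
open Crest.Agent.R136.NatW697
open Crest.Agent.R136.LadW697
open Crest.Agent.R136.LadG697
open Crest.Agent.R136.EvW938
open Crest.Agent.R136.Qg926
open Crest.Agent.R136.Qh831 (JLaw)
open Crest.Agent.R136.Qi599 (SzQ ErQ)
open Crest.Agent.R138.Ex926

section law

variable {θ : Fin 3 → ℝ} {s : ℤ} {Dr : Set (Fin 18)} {B B' : Base}
  {I0 J1 J2 : ℕ → Finset (ℕ × ℝ)} {κ : ℕ → ℝ} {u : ℕ → Fin 18 → ℝ} {F : ℕ → ℕ × ℝ → FW}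
  {YI XR : ℕ → Fin 18 → ℝ} {w : ℕ → ℝ} {c K x : ℝ} {Sp Js : Finset (Fin 14)} {Qp : Set (Fin 14)}
  {j : ℕ → ℕ × ℝ → Fin 14 → ℝ}

theorem szQ_le (hnat : ∀ n k, k ∉ Dr → YI n k = natX YI n k) {n : ℕ} {ε : ℝ} {p : Fin 14} :
    (Fin.natAdd 4 p ∈ Dr → SzQ B B' YI Dr x n ε p =
      B.d n ^ natX YI n (Fin.natAdd 4 p) * B'.d n ^ (x - ε)) ∧
    (Fin.natAdd 4 p ∉ Dr → SzQ B B' YI Dr x n ε p =
      B.d n ^ natX YI n (Fin.natAdd 4 p) * B'.d n ^ (-ε)) := by
  unfold SzQ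
  refine ⟨fun h => if_pos h, fun h => ?_⟩
  rw [if_neg h, hnat n _ h]

theorem erQ_eq (hnat : ∀ n k, k ∉ Dr → YI n k = natX YI n k) {n : ℕ} {ε : ℝ} {p : Fin 14} :
    ErQ B B' YI Dr x n ε p = B.d n ^ natX YI n (Fin.natAdd 4 p) * B'.d n ^ (x - ε) := by
  unfold ErQ
  by_cases h : Fin.natAdd 4 p ∈ Dr
  · rw [if_pos h]
  · rw [if_neg h, hnat n _ h]

/-- **831's `JLaw` at the record base** from the law at the interior base -/
theorem jlaw_of (hB : ∀ n, B'.d n = B.d n ^ w n)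
    (hpos : ∀ n, ∀ k ∈ JW s, natX YI n k = natX XR n k + w n * (c * btW θ k))
    (hnat : ∀ n k, k ∉ Dr → YI n k = natX YI n k)
    (hSp : ∀ p ∈ Sp, Fin.natAdd 4 p ∈ JW s) (hJs : ∀ p ∈ Js, Fin.natAdd 4 p ∈ JW s)
    (hQp : ∀ p ∈ Js, p ∈ Qp) (hb : ∀ k ∈ JW s, k ∉ Dr → btW θ k ≤ 0)
    (hK : ∀ k ∈ JW s, K ≤ c * btW θ k + x)
    (hx : ∀ k ∈ JW s, max 0 (btW θ k) ≤ c * btW θ k + x)
    (hsup : ∀ n i p, p ∉ (Sp : Set (Fin 14)) → j n i p = 0)
    (hsz : ∀ ε : ℝ, 0 < ε → ∀ᶠ n in (U : Filter ℕ), ∀ i ∈ J1 n, ∀ p,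
      u n (Fin.natAdd 4 p) * |j n i p| ≤ SzQ B B' YI Dr x n ε p)
    (hpr : ∀ ε : ℝ, 0 < ε → ∀ᶠ n in (U : Filter ℕ), ∀ i ∈ J1 n, ∀ i' ∈ J1 n,
      zlab B I0 (coU u κ F) monW 67 YI w n 0 i = zlab B I0 (coU u κ F) monW 67 YI w n 0 i' →
      ∀ p ∈ Qp, u n (Fin.natAdd 4 p) *
        |coW (κ n) (F n i) (F n i') (Fin.natAdd 4 p) -
          (j n i' p - tr (κ n) (rel (κ n) (F n i).g (F n i').g) (j n i) p)| ≤
            ErQ B B' YI Dr x n ε p)
    (hsub : ∀ n, J2 n ⊆ J1 n)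
    (hJ : ∀ p ∈ Sp, Fin.natAdd 4 p ∉ Dr → btW θ (Fin.natAdd 4 p) < 0 → ∀ ε : ℝ, 0 < ε →
      ∀ᶠ n in (U : Filter ℕ), ∀ i ∈ J2 n, u n (Fin.natAdd 4 p) * |j n i p| ≤
        B.d n ^ natX XR n (Fin.natAdd 4 p) * B'.d n ^ (-ε)) :
    JLaw θ B B' I0 J2 κ u F XR YI Sp Js K j where
  supp := fun n i p hp => hsup n i p (by simpa using hp)
  size := by
    intro ε hε
    have key : ∀ p ∈ Sp, ∀ᶠ n in (U : Filter ℕ), ∀ i ∈ J2 n,
        u n (Fin.natAdd 4 p) * |j n i p| ≤ B.d n ^ natX XR n (Fin.natAdd 4 p) *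
          B'.d n ^ (max 0 (btW θ (Fin.natAdd 4 p)) - ε) := by
      intro p hp
      have hpJ := hSp p hp
      by_cases hD : Fin.natAdd 4 p ∈ Dr
      · filter_upwards [hsz ε hε] with n hn i hi
        have h1 := hn i (hsub n hi) p
        rw [(szQ_le hnat).1 hD] at h1
        refine h1.trans (unit_rec hB hpos hpJ ?_)
        have := hx _ hpJ
        linarith
      rcases (hb _ hpJ hD).eq_or_lt with h3 | h3
      · filter_upwards [hsz ε hε] with n hn i hi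
        have h1 := hn i (hsub n hi) p
        rw [(szQ_le hnat).2 hD] at h1
        refine h1.trans (unit_rec hB hpos hpJ ?_)
        rw [h3, max_self, mul_zero]
        linarith
      · filter_upwards [hJ p hp hD h3 ε hε] with n hn i hi
        refine (hn i hi).trans (le_of_eq ?_)
        rw [max_eq_left h3.le, zero_sub]
    have key2 : ∀ p : Fin 14, ∀ᶠ n in (U : Filter ℕ), p ∈ Sp → ∀ i ∈ J2 n,
        u n (Fin.natAdd 4 p) * |j n i p| ≤ B.d n ^ natX XR n (Fin.natAdd 4 p) *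
          B'.d n ^ (max 0 (btW θ (Fin.natAdd 4 p)) - ε) := fun p => by
      by_cases hp : p ∈ Sp
      · filter_upwards [key p hp] with n hn _
        exact hn
      · exact Eventually.of_forall fun n h => absurd h hp
    rw [← Filter.eventually_all] at key2
    filter_upwards [key2] with n hn i hi p hp
    exact hn p hp i hi
  pair := by
    intro ε hε
    filter_upwards [hpr ε hε] with n hn i hi i' hi' hl p hp
    have hz : ∀ x, zlab B I0 (coU u κ F) monW 67 YI w n 0 x =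
        nlab B I0 (coU u κ F) monW 67 n (YI n) x := fun x => by
      show nlab B I0 (coU u κ F) monW 67 n (YI n + w n • (0 : Fin 18 → ℝ)) x = _
      rw [smul_zero, add_zero]
    have h1 := hn i (hsub n hi) i' (hsub n hi') (by rw [hz, hz]; exact hl) p (hQp p hp)
    rw [erQ_eq hnat] at h1
    refine h1.trans (unit_rec hB hpos (hJs p hp) ?_)
    have := hK _ (hJs p hp)
    linarith

end law

end Crest.Agent.R136.QG312
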