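import Crest.Agent.R136.Qo1_289
import Crest.Agent.R136.Qgn3_887

/-!
# R136, thin branch, quad / lin (helper289): natural size of the correction at `t = 0`

* `far_alg` : slots `14, 15` on one far pair (`A` not narrow) ⊢ `AB, AA` of the correction natural.
* `far_algL` : slot `16` on one far pair (`c` not narrow) ⊢ `A` of the correction natural.
* `size_quad`, `size_lin` : over windows, from far pairs.
-/

set_option autoImplicit false
set_option linter.unusedVariables false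

open Finset Filter Topology

namespace Crest.Agent.R136.Qj289

open Crest.Agent.R136.Net191
open Crest.Agent.R136.NetW191
open Crest.Agent.R136.PrW464
open Crest.Agent.R136.NatW697
open Crest.Agent.R136.LadW697
open Crest.Agent.R136.LadG697
open Crest.Agent.R136.EvW938
open Crest.Agent.R136.GauW619
open Crest.Agent.R136.AwJ774
open Crest.Agent.R136.K2S774
open Crest.Agent.R136.Qg926
open Crest.Agent.R136.QdH887
open Crest.Agent.R138.Ex926

/-! ### algebra on one pair -/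

theorem u14a {u : Fin 18 → ℝ} (hu : GrU u) : u 14 = u 3 * u 7 := by
  have := hu.mul 14 [3, 7] (by decide)
  simpa using this.symm
theorem u14b {u : Fin 18 → ℝ} (hu : GrU u) : u 14 = u 2 * u 9 := by
  have := hu.mul 14 [2, 9] (by decide)
  simpa using this.symm
theorem u15a {u : Fin 18 → ℝ} (hu : GrU u) : u 15 = u 3 * u 9 := by
  have := hu.mul 15 [3, 9] (by decide)
  simpa using this.symm
theorem u15b {u : Fin 18 → ℝ} (hu : GrU u) : u 15 = u 2 * u 10 := by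
  have := hu.mul 15 [2, 10] (by decide)
  simpa using this.symm
theorem u15c {u : Fin 18 → ℝ} (hu : GrU u) : u 15 = u 1 * u 14 := by
  have := hu.mul 15 [1, 14] (by decide)
  simpa using this.symm
theorem u16a {u : Fin 18 → ℝ} (hu : GrU u) : u 16 = u 1 * u 15 := by
  have := hu.mul 16 [1, 15] (by decide)
  simpa using this.symm

theorem tr10_S {κ : ℝ} {h : Fin 4 → ℝ} {e : Fin 14 → ℝ}
    (he : ∀ p, p ∉ ({3, 5, 6} : Finset (Fin 14)) → e p = 0) :
    tr κ h e 10 = 2 * h 3 * e 3 + h 2 * e 5 := by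
  rw [tr10, he 0 (by decide), he 1 (by decide), he 2 (by decide), he 4 (by decide),
    he 7 (by decide), he 10 (by decide)]
  ring

theorem tr11_S {κ : ℝ} {h : Fin 4 → ℝ} {e : Fin 14 → ℝ}
    (he : ∀ p, p ∉ ({3, 5, 6} : Finset (Fin 14)) → e p = 0) :
    tr κ h e 11 = h 3 * e 5 + 2 * h 2 * e 6 - 2 * κ * h 1 * (2 * h 3 * e 3 + h 2 * e 5) := by
  rw [tr11, he 0 (by decide), he 1 (by decide), he 2 (by decide), he 4 (by decide),
    he 7 (by decide), he 8 (by decide), he 10 (by decide), he 11 (by decide)]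
  ring

theorem tr12_L {κ : ℝ} {h : Fin 4 → ℝ} {e : Fin 14 → ℝ}
    (he : ∀ p, p ∉ ({10, 11} : Finset (Fin 14)) → e p = 0) :
    tr κ h e 12 = h 1 * e 11 - κ * h 1 ^ 2 * e 10 := by
  rw [tr12, he 0 (by decide), he 1 (by decide), he 2 (by decide), he 3 (by decide),
    he 4 (by decide), he 5 (by decide), he 6 (by decide), he 7 (by decide), he 8 (by decide),
    he 9 (by decide), he 12 (by decide)]
  ring

/-- **one far pair, quad** -/
theorem far_alg {u : Fin 18 → ℝ} (hu : GrU u) {κ : ℝ} (hκ : |κ| ≤ 1) {P : Fin 18 → ℝ}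
    (hP : ∀ k, 0 < P k) (p14a : P 14 = P 3 * P 7) (p14b : P 14 = P 2 * P 9)
    (p15a : P 15 = P 3 * P 9) (p15b : P 15 = P 2 * P 10) (p15c : P 15 = P 1 * P 14)
    {C0 M t : ℝ} (hC : 1 ≤ C0) (hM : 1 ≤ M) (ht : 0 < t) (ht1 : t ≤ 1)
    {e : Fin 14 → ℝ} (he : ∀ p, p ∉ ({3, 5, 6} : Finset (Fin 14)) → e p = 0) {h : Fin 4 → ℝ}
    {c14 c15 : ℝ} (h1 : u 1 * |h 1| ≤ C0 * P 1) (h2 : C0 * P 2 * t ≤ u 2 * |h 2|)
    (h3 : u 3 * |h 3| ≤ C0 * P 3) (e3 : u 7 * |e 3| ≤ P 7 * M)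
    (hc14 : u 14 * |c14| ≤ C0 * P 14) (hc15 : u 15 * |c15| ≤ C0 * P 15)
    (r14 : u 14 * |c14 + tr κ h e 10| ≤ P 14 * M) (r15 : u 15 * |c15 + tr κ h e 11| ≤ P 15 * M) :
    u 9 * |e 5| ≤ P 9 * (4 * M / t) ∧ u 10 * |e 6| ≤ P 10 * (10 * C0 * M / t ^ 2) := by
  have up := hu.pos
  have a0 : ∀ x : ℝ, 0 ≤ |x| := abs_nonneg
  rw [tr10_S he] at r14
  rw [tr11_S he] at r15
  set g : ℝ := 2 * h 3 * e 3 + h 2 * e 5 with hg
  -- the slot 14
  have s14 : u 14 * |g| ≤ (C0 + M) * P 14 := by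
    have : |g| ≤ |c14 + g| + |c14| := by
      have := abs_sub (c14 + g) c14
      rwa [add_sub_cancel_left] at this
    have h9 := mul_le_mul_of_nonneg_left this (up 14).le
    rw [mul_add] at h9
    have e9 : (C0 + M) * P 14 = P 14 * M + C0 * P 14 := by ring
    rw [e9]
    linarith
  have s37 : u 14 * |2 * h 3 * e 3| ≤ 2 * (C0 * M) * P 14 := by
    have e1 : u 14 * |2 * h 3 * e 3| = 2 * ((u 3 * |h 3|) * (u 7 * |e 3|)) := by
      rw [u14a hu, abs_mul, abs_mul, abs_two]; ring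
    rw [e1, p14a]
    have h9 := mul_le_mul h3 e3 (mul_nonneg (up 7).le (a0 _)) (mul_nonneg (by linarith) (hP 3).le)
    have e9 : 2 * (C0 * M) * (P 3 * P 7) = 2 * (C0 * P 3 * (P 7 * M)) := by ring
    rw [e9]
    linarith
  have s29 : (u 2 * |h 2|) * (u 9 * |e 5|) ≤ 4 * (C0 * M) * P 14 := by
    have e1 : (u 2 * |h 2|) * (u 9 * |e 5|) = u 14 * |h 2 * e 5| := by
      rw [u14b hu, abs_mul]; ring
    have e2 : h 2 * e 5 = g - 2 * h 3 * e 3 := by rw [hg]; ring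
    have e3' := mul_le_mul_of_nonneg_left (abs_sub g (2 * h 3 * e 3)) (up 14).le
    rw [e1, e2]
    have hM0 : (0:ℝ) ≤ M := by linarith
    have hCM : C0 + M ≤ 2 * (C0 * M) := by
      have b1 : C0 ≤ C0 * M := le_mul_of_one_le_right (by linarith) hM
      have b2 : M ≤ C0 * M := le_mul_of_one_le_left hM0 hC
      linarith
    have := mul_le_mul_of_nonneg_right hCM (hP 14).le
    rw [mul_add] at e3'
    linarith
  have k9 : u 9 * |e 5| ≤ P 9 * (4 * M / t) := by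
    have hy : 0 ≤ u 9 * |e 5| := mul_nonneg (up 9).le (a0 _)
    have h4 := (mul_le_mul_of_nonneg_right h2 hy).trans s29
    rw [p14b] at h4
    have hpos : 0 < C0 * P 2 * t := by have := hP 2; positivity
    have h5 : (C0 * P 2 * t) * (u 9 * |e 5|) ≤ (C0 * P 2 * t) * (P 9 * (4 * M / t)) := by
      refine h4.trans (le_of_eq ?_)
      field_simp
    exact le_of_mul_le_mul_left h5 hpos
  refine ⟨k9, ?_⟩
  -- the slot 15
  have hκg : u 15 * |2 * κ * h 1 * g| ≤ 2 * (C0 * (C0 + M)) * P 15 := by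
    have e1 : u 15 * |2 * κ * h 1 * g| = 2 * |κ| * ((u 1 * |h 1|) * (u 14 * |g|)) := by
      rw [u15c hu, abs_mul, abs_mul, abs_mul, abs_two]; ring
    rw [e1, p15c]
    have m1 := mul_le_mul h1 s14 (mul_nonneg (up 14).le (a0 _))
      (mul_nonneg (by linarith) (hP 1).le)
    have m2 : (0:ℝ) ≤ (u 1 * |h 1|) * (u 14 * |g|) :=
      mul_nonneg (mul_nonneg (up 1).le (a0 _)) (mul_nonneg (up 14).le (a0 _))
    calc 2 * |κ| * ((u 1 * |h 1|) * (u 14 * |g|)) ≤ 2 * 1 * ((u 1 * |h 1|) * (u 14 * |g|)) := by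
          gcongr
      _ ≤ 2 * 1 * (C0 * P 1 * ((C0 + M) * P 14)) := by gcongr
      _ = _ := by ring
  have h39 : u 15 * |h 3 * e 5| ≤ (4 * C0 * M / t) * P 15 := by
    have e1 : u 15 * |h 3 * e 5| = (u 3 * |h 3|) * (u 9 * |e 5|) := by
      rw [u15a hu, abs_mul]; ring
    rw [e1, p15a]
    refine (mul_le_mul h3 k9 (mul_nonneg (up 9).le (a0 _))
      (mul_nonneg (by linarith) (hP 3).le)).trans (le_of_eq ?_)
    ring
  have s210 : (u 2 * |h 2|) * (2 * (u 10 * |e 6|)) ≤ (10 * C0 ^ 2 * M / t) * P 15 := by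
    have e1 : (u 2 * |h 2|) * (2 * (u 10 * |e 6|)) = u 15 * |2 * h 2 * e 6| := by
      rw [u15b hu, abs_mul, abs_mul, abs_two]; ring
    have e2 : 2 * h 2 * e 6 = (c15 + (h 3 * e 5 + 2 * h 2 * e 6 - 2 * κ * h 1 * g)) - c15 -
        h 3 * e 5 + 2 * κ * h 1 * g := by ring
    rw [e1, e2]
    set G : ℝ := c15 + (h 3 * e 5 + 2 * h 2 * e 6 - 2 * κ * h 1 * g) with hG
    have t1 : |G - c15 - h 3 * e 5 + 2 * κ * h 1 * g| ≤
        |G| + |c15| + |h 3 * e 5| + |2 * κ * h 1 * g| := by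
      have b1 := abs_add_le (G - c15 - h 3 * e 5) (2 * κ * h 1 * g)
      have b2 := abs_sub (G - c15) (h 3 * e 5)
      have b3 := abs_sub G c15
      linarith
    have t2 := mul_le_mul_of_nonneg_left t1 (up 15).le
    refine t2.trans ?_
    have t3 : u 15 * (|G| + |c15| + |h 3 * e 5| + |2 * κ * h 1 * g|) =
        u 15 * |G| + u 15 * |c15| + u 15 * |h 3 * e 5| + u 15 * |2 * κ * h 1 * g| := by ring
    rw [t3]
    have hP15 := hP 15
    have hsum : u 15 * |G| + u 15 * |c15| + u 15 * |h 3 * e 5| + u 15 * |2 * κ * h 1 * g| ≤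
        (M + C0 + 4 * C0 * M / t + 2 * (C0 * (C0 + M))) * P 15 := by
      have : (M + C0 + 4 * C0 * M / t + 2 * (C0 * (C0 + M))) * P 15 = P 15 * M + C0 * P 15 +
        (4 * C0 * M / t) * P 15 + 2 * (C0 * (C0 + M)) * P 15 := by ring
      rw [this]
      linarith
    refine hsum.trans (mul_le_mul_of_nonneg_right ?_ hP15.le)
    have hM0 : (0:ℝ) ≤ M := by linarith
    have hCC : C0 ≤ C0 ^ 2 := le_self_pow₀ hC (by norm_num)
    have hM2 : M ≤ C0 ^ 2 * M := le_mul_of_one_le_left hM0 (one_le_pow₀ hC)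
    have hC2 : C0 ≤ C0 ^ 2 * M := hCC.trans (le_mul_of_one_le_right (by positivity) hM)
    have hCM2 : C0 * M ≤ C0 ^ 2 * M := mul_le_mul_of_nonneg_right hCC hM0
    have hCC2 : C0 ^ 2 ≤ C0 ^ 2 * M := le_mul_of_one_le_right (by positivity) hM
    have hX : 0 ≤ C0 ^ 2 * M := by positivity
    have hXt : C0 ^ 2 * M ≤ C0 ^ 2 * M / t := by
      rw [le_div_iff₀ ht]
      exact mul_le_of_le_one_right hX ht1
    have h4t : 4 * C0 * M / t ≤ 4 * (C0 ^ 2 * M / t) := by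
      rw [← mul_div_assoc]
      exact div_le_div_of_nonneg_right (by linarith) ht.le
    have e10 : 10 * C0 ^ 2 * M / t = 10 * (C0 ^ 2 * M / t) := by rw [← mul_div_assoc]; ring
    have e11 : 2 * (C0 * (C0 + M)) = 2 * C0 ^ 2 + 2 * (C0 * M) := by ring
    rw [e10, e11]
    linarith
  have hy : 0 ≤ 2 * (u 10 * |e 6|) := mul_nonneg two_pos.le (mul_nonneg (up 10).le (a0 _))
  have h4 := (mul_le_mul_of_nonneg_right h2 hy).trans s210
  rw [p15b] at h4
  have hpos : 0 < C0 * P 2 * t * 2 := by have := hP 2; positivity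
  have hP10 := hP 10
  have h5 : (C0 * P 2 * t * 2) * (u 10 * |e 6|) ≤
      (C0 * P 2 * t * 2) * (P 10 * (10 * C0 * M / t ^ 2)) := by
    have e1 : (C0 * P 2 * t * 2) * (u 10 * |e 6|) = C0 * P 2 * t * (2 * (u 10 * |e 6|)) := by ring
    rw [e1]
    refine h4.trans ?_
    have e2 : C0 * P 2 * t * 2 * (P 10 * (10 * C0 * M / t ^ 2)) =
        2 * (10 * C0 ^ 2 * M / t * (P 2 * P 10)) := by
      field_simp
    rw [e2]
    have : 0 ≤ 10 * C0 ^ 2 * M / t * (P 2 * P 10) := by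
      have := hP 2
      positivity
    linarith
  exact le_of_mul_le_mul_left h5 hpos

/-- **one far pair, lin** -/
theorem far_algL {u : Fin 18 → ℝ} (hu : GrU u) {κ : ℝ} (hκ : |κ| ≤ 1) {P : Fin 18 → ℝ}
    (hP : ∀ k, 0 < P k) (p15c : P 15 = P 1 * P 14) (p16a : P 16 = P 1 * P 15)
    {C0 M t : ℝ} (hC : 1 ≤ C0) (hM : 1 ≤ M) (ht : 0 < t) (ht1 : t ≤ 1)
    {e : Fin 14 → ℝ} (he : ∀ p, p ∉ ({10, 11} : Finset (Fin 14)) → e p = 0) {h : Fin 4 → ℝ}
    {c16 : ℝ} (h1 : u 1 * |h 1| ≤ C0 * P 1) (h1' : C0 * P 1 * t ≤ u 1 * |h 1|)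
    (e10 : u 14 * |e 10| ≤ P 14 * M) (hc16 : u 16 * |c16| ≤ C0 * P 16)
    (r16 : u 16 * |c16 + tr κ h e 12| ≤ P 16 * M) :
    u 15 * |e 11| ≤ P 15 * (3 * C0 * M / t) := by
  have up := hu.pos
  have a0 : ∀ x : ℝ, 0 ≤ |x| := abs_nonneg
  rw [tr12_L he] at r16
  have hκg : u 16 * |κ * h 1 ^ 2 * e 10| ≤ C0 ^ 2 * M * P 16 := by
    have e1 : u 16 * |κ * h 1 ^ 2 * e 10| = |κ| * ((u 1 * |h 1|) * ((u 1 * |h 1|) *
        (u 14 * |e 10|))) := by
      rw [u16a hu, u15c hu, abs_mul, abs_mul, abs_pow]; ring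
    rw [e1, p16a, p15c]
    have z1 : (0:ℝ) ≤ u 1 * |h 1| := mul_nonneg (up 1).le (a0 _)
    have z2 : (0:ℝ) ≤ u 14 * |e 10| := mul_nonneg (up 14).le (a0 _)
    have z3 : (0:ℝ) ≤ C0 * P 1 := mul_nonneg (by linarith) (hP 1).le
    calc |κ| * ((u 1 * |h 1|) * ((u 1 * |h 1|) * (u 14 * |e 10|)))
        ≤ 1 * ((C0 * P 1) * ((C0 * P 1) * (P 14 * M))) := by
          gcongr
      _ = _ := by ring
  have s : (u 1 * |h 1|) * (u 15 * |e 11|) ≤ (3 * C0 ^ 2 * M) * P 16 := by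
    have e1 : (u 1 * |h 1|) * (u 15 * |e 11|) = u 16 * |h 1 * e 11| := by
      rw [u16a hu, abs_mul]; ring
    have e2 : h 1 * e 11 = (c16 + (h 1 * e 11 - κ * h 1 ^ 2 * e 10)) - c16 +
        κ * h 1 ^ 2 * e 10 := by ring
    rw [e1, e2]
    set G : ℝ := c16 + (h 1 * e 11 - κ * h 1 ^ 2 * e 10) with hG
    have t1 : |G - c16 + κ * h 1 ^ 2 * e 10| ≤ |G| + |c16| + |κ * h 1 ^ 2 * e 10| := by
      have b1 := abs_add_le (G - c16) (κ * h 1 ^ 2 * e 10)
      have b3 := abs_sub G c16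
      linarith
    have t2 := mul_le_mul_of_nonneg_left t1 (up 16).le
    refine t2.trans ?_
    have hP16 := hP 16
    have hsum : u 16 * (|G| + |c16| + |κ * h 1 ^ 2 * e 10|) ≤ (M + C0 + C0 ^ 2 * M) * P 16 := by
      have : (M + C0 + C0 ^ 2 * M) * P 16 = P 16 * M + C0 * P 16 + C0 ^ 2 * M * P 16 := by ring
      rw [this, mul_add, mul_add]
      linarith
    refine hsum.trans (mul_le_mul_of_nonneg_right ?_ hP16.le)
    have hM0 : (0:ℝ) ≤ M := by linarith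
    have hM2 : M ≤ C0 ^ 2 * M := le_mul_of_one_le_left hM0 (one_le_pow₀ hC)
    have hC2 : C0 ≤ C0 ^ 2 * M :=
      (le_self_pow₀ hC (by norm_num)).trans (le_mul_of_one_le_right (by positivity) hM)
    linarith
  have hy : 0 ≤ u 15 * |e 11| := mul_nonneg (up 15).le (a0 _)
  have h4 := (mul_le_mul_of_nonneg_right h1' hy).trans s
  rw [p16a] at h4
  have hpos : 0 < C0 * P 1 * t := by have := hP 1; positivity
  have h5 : (C0 * P 1 * t) * (u 15 * |e 11|) ≤ (C0 * P 1 * t) * (P 15 * (3 * C0 * M / t)) := by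
    refine h4.trans (le_of_eq ?_)
    field_simp
  exact le_of_mul_le_mul_left h5 hpos

/-! ### windows -/

/-- boxes with two values -/
theorem bvm {Q : Finset (Fin 18)} (h : ∀ k ∈ Q, ∀ l ∈ mlW k, ∃ s ∈ l, s ∈ Q) {x : ℝ} (hx : 0 ≤ x)
    (Dr : Set (Fin 18)) : bv x Q ∈ cn QW (actW Dr) := by
  rw [mem_cnW]
  intro k _ l hl _
  have h0 : ∀ s, 0 ≤ bv x Q s := fun s => by
    unfold bv
    split_ifs <;> [exact hx; exact le_rfl]
  have hs : 0 ≤ (l.map (bv x Q)).sum := by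
    refine List.sum_nonneg fun y hy => ?_
    obtain ⟨t, -, rfl⟩ := List.mem_map.1 hy
    exact h0 t
  by_cases hk : k ∈ Q
  · obtain ⟨s, hsl, hsQ⟩ := h k hk l hl
    rw [bv_in hk]
    have h2 : bv x Q s ≤ (l.map (bv x Q)).sum :=
      List.single_le_sum (fun y hy => by
        obtain ⟨t, -, rfl⟩ := List.mem_map.1 hy
        exact h0 t) _ (List.mem_map_of_mem hsl)
    rwa [bv_in hsQ] at h2
  · rw [bv_out hk]; exact hs

theorem bvm0 {x : ℝ} (hx : 0 ≤ x) (Dr : Set (Fin 18)) : bv x {0} ∈ cn QW (actW Dr) :=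
  bvm (by decide) hx Dr
theorem bvm02 {x : ℝ} (hx : 0 ≤ x) (Dr : Set (Fin 18)) : bv x {0, 2} ∈ cn QW (actW Dr) :=
  bvm (by decide) hx Dr
theorem bvm1 {x : ℝ} (hx : 0 ≤ x) (Dr : Set (Fin 18)) : bv x {1} ∈ cn QW (actW Dr) :=
  bvm (by decide) hx Dr

/-- **the number for quad** : `A` costs given `z` -/
theorem num_quad {Dr : Set (Fin 18)} {lam : (Fin 18 → ℝ) → ℝ} {mm : ℝ}
    (h : Qgn887.QdN Dr lam mm) {x : ℝ} (hx : 0 < x) : lam (bv x {0, 2}) ≤ lam (bv x {0}) - x := by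
  have h4 := (h.num x hx).h4
  have m3 : bv x {0, 2, 3} ∈ cn QW (actW Dr) := bvm (by decide) hx.le Dr
  have h5 := h.sharp _ (bvm02 hx.le Dr) _ m3 (fun k => by
    unfold bv
    by_cases hk : k ∈ ({0, 2} : Finset (Fin 18))
    · have : k ∈ ({0, 2, 3} : Finset (Fin 18)) := by
        simp only [mem_insert, mem_singleton] at hk ⊢
        tauto
      rw [if_pos hk, if_pos this]
    · rw [if_neg hk]
      split_ifs <;> [exact hx.le; exact le_rfl])
  have e : ∑ s, (bv x ({0, 2, 3} : Finset (Fin 18)) s - bv x ({0, 2} : Finset (Fin 18)) s) = x := by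
    rw [Finset.sum_eq_single (3 : Fin 18)]
    · rw [bv_in (by decide), bv_out (by decide), sub_zero]
    · intro b _ hb
      by_cases hk : b ∈ ({0, 2} : Finset (Fin 18))
      · have : b ∈ ({0, 2, 3} : Finset (Fin 18)) := by
          simp only [mem_insert, mem_singleton] at hk ⊢
          tauto
        rw [bv_in hk, bv_in this, sub_self]
      · have : b ∉ ({0, 2, 3} : Finset (Fin 18)) := by
          simp only [mem_insert, mem_singleton] at hk ⊢
          tauto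
        rw [bv_out hk, bv_out this, sub_self]
    · intro h
      exact absurd (mem_univ _) h
  rw [e] at h5
  linarith

section

variable {Dr : Set (Fin 18)} {B B' : Base} {I0 J1 J2 : ℕ → Finset (ℕ × ℝ)} {κ : ℕ → ℝ}
  {u : ℕ → Fin 18 → ℝ} {F : ℕ → ℕ × ℝ → FW} {X : ℕ → Fin 18 → ℝ} {w : ℕ → ℝ}
  {a : Fin 18 → ℝ} {j : ℕ → ℕ × ℝ → Fin 14 → ℝ}

theorem powX (hb : ∀ n, B'.d n = B.d n ^ w n) (n : ℕ) (k : Fin 18) (l : List (Fin 18))
    (hl : l ∈ mlW k) : B.d n ^ natX X n k = (l.map fun s => B.d n ^ natX X n s).prod := by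
  have h1 : natX X n k = (l.map (natX X n)).sum := (grW_list _ _ _ k l hl).symm
  rw [h1]
  clear h1 hl
  induction l with
  | nil => simp
  | cons s l ih =>
    simp only [List.map_cons, List.sum_cons, List.prod_cons]
    rw [Real.rpow_add (B.pos n), ih]

/-- far pair: a box narrow in the slot `s₀` fails only in the slot `s₀` -/
theorem far_slot {n : ℕ} {i i' : ℕ × ℝ} {Q Q' : Finset (Fin 18)} {s₀ : Fin 18} {x : ℝ}
    (hQ : ∀ k, k ≠ s₀ → (k ∈ Q' ↔ k ∈ Q)) (h0 : s₀ ∈ Q') {C0 : ℝ}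
    (h1 : wbox B B' (coU u κ F) X n (bv x Q) C0 i i')
    (h2 : ¬ wbox B B' (coU u κ F) X n (bv x Q') C0 i i') :
    C0 * (B.d n ^ X n s₀ * B'.d n ^ x) ≤ |coU u κ F n i i' s₀| := by
  unfold wbox at h2
  push Not at h2
  obtain ⟨s, hs⟩ := h2
  by_cases h : s = s₀
  · subst h
    rw [bv_in h0] at hs
    exact hs.le
  · exfalso
    have h3 := h1 s
    have e : bv x Q' s = bv x Q s := by
      unfold bv
      simp only [hQ s h]
    rw [e] at hs
    exact absurd h3 (not_le.2 hs)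

/-- **natural size at `t = 0`, quad**, from far pairs -/
theorem size_quad (hb : ∀ n, B'.d n = B.d n ^ w n) (u0 : ∀ n, GrU (u n))
    (κ1 : ∀ n, |κ n| ≤ 1) (hDr : ∀ k ∈ Dr, 4 ≤ k ∧ k ≤ 13)
    (nat : ∀ n k, k ∉ Dr → X n k = natX X n k)
    (hsub : ∀ n, J2 n ⊆ J1 n)
    (supp : ∀ n i p, p ∉ ({3, 5, 6} : Finset (Fin 14)) → j n i p = 0)
    (s7 : ∀ ε : ℝ, 0 < ε → ∀ᶠ n in (U : Filter ℕ), ∀ i ∈ J1 n,
      u n 7 * |j n i 3| ≤ B.d n ^ natX X n 7 * B'.d n ^ (-ε))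
    (pair : ∀ ε : ℝ, 0 < ε → ∀ᶠ n in (U : Filter ℕ), ∀ i ∈ J1 n, ∀ i' ∈ J1 n,
      zlab B I0 (coU u κ F) monW 67 X w n a i' = zlab B I0 (coU u κ F) monW 67 X w n a i →
      ∀ p : Fin 14, p = 10 ∨ p = 11 → u n (Fin.natAdd 4 p) *
        |coW (κ n) (F n i) (F n i') (Fin.natAdd 4 p) - (j n i' p -
          tr (κ n) (rel (κ n) (F n i).g (F n i').g) (j n i) p)| ≤
            B.d n ^ natX X n (Fin.natAdd 4 p) * B'.d n ^ (-ε))
    (far : ∀ k : ℕ, ∀ᶠ n in (U : Filter ℕ), ∀ i ∈ J2 n, ∃ i' ∈ J1 n,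
      zlab B I0 (coU u κ F) monW 67 X w n a i' = zlab B I0 (coU u κ F) monW 67 X w n a i ∧
      wbox B B' (coU u κ F) X n (bv (1 / ((k : ℝ) + 1)) {0}) (cK0 monW 67) i i' ∧
      ¬ wbox B B' (coU u κ F) X n (bv (1 / ((k : ℝ) + 1)) {0, 2}) (cK0 monW 67) i i') :
    ∀ ε : ℝ, 0 < ε → ∀ᶠ n in (U : Filter ℕ), ∀ i ∈ J2 n, ∀ p : Fin 14, p = 5 ∨ p = 6 →
      u n (Fin.natAdd 4 p) * |j n i p| ≤ B.d n ^ natX X n (Fin.natAdd 4 p) * B'.d n ^ (-ε) := by
  intro ε hε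
  obtain ⟨k, hk⟩ := exists_nat_one_div_lt (show 0 < ε / 8 by positivity)
  set δ : ℝ := 1 / ((k : ℝ) + 1) with hδ
  have hδ0 : 0 < δ := by positivity
  have hC0 : (1 : ℝ) ≤ cK0 monW 67 := cK0_one (by norm_num)
  set C0 : ℝ := cK0 monW 67 with hC0e
  have nD : ∀ s : Fin 18, (s < 4 ∨ 13 < s) → s ∉ Dr := by
    intro s hs hsD
    obtain ⟨h4, h13⟩ := hDr s hsD
    rcases hs with h | h
    · exact absurd h4 (not_le.2 h)
    · exact absurd h13 (not_le.2 h)
  filter_upwards [far k, s7 (ε / 4) (by positivity), pair (ε / 4) (by positivity),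
    Crest.Agent.R136.Gf356.ev_const_le B' (t := ε / 2) (by positivity) (10 * C0)]
    with n hfar h7 hpair hc i hi p hp
  obtain ⟨i', hi', hlab, hw1, hw2⟩ := hfar i hi
  have hiJ := hsub n hi
  have hdp : ∀ v : ℝ, 0 < B'.d n ^ v := fun v => Real.rpow_pos_of_pos (B'.pos n) _
  have hBp : ∀ v : ℝ, 0 < B.d n ^ v := fun v => Real.rpow_pos_of_pos (B.pos n) _
  have hmono : ∀ {v v' : ℝ}, v ≤ v' → B'.d n ^ v' ≤ B'.d n ^ v := fun {v v'} h =>
    Real.rpow_le_rpow_of_exponent_ge (B'.pos n) (B'.lt n).le h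
  have hM : 1 ≤ B'.d n ^ (-(ε / 4)) := by
    have := hmono (v := -(ε / 4)) (v' := 0) (by linarith)
    rwa [Real.rpow_zero] at this
  have ht1 : B'.d n ^ δ ≤ 1 := by
    have := hmono (v := 0) (v' := δ) hδ0.le
    rwa [Real.rpow_zero] at this
  set P : Fin 18 → ℝ := fun s => B.d n ^ natX X n s with hP
  have hPX : ∀ s : Fin 18, (s < 4 ∨ 13 < s) → B.d n ^ X n s = P s := fun s hs => by
    rw [nat n s (nD s hs)]
  -- sizes in the fine box
  have hbox : ∀ s : Fin 18, s ≠ 0 → (s < 4 ∨ 13 < s) →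
      u n s * |coW (κ n) (F n i) (F n i') s| ≤ C0 * P s := by
    intro s hs0 hs
    have h1 := hw1 s
    rw [bv_out (by simpa using hs0), Real.rpow_zero, mul_one, hPX s hs] at h1
    have e : |coU u κ F n i i' s| = u n s * |coW (κ n) (F n i) (F n i') s| := by
      unfold coU
      rw [abs_mul, abs_of_pos ((u0 n).pos s)]
    rwa [e] at h1
  have hfr : ∀ q : Fin 4, coW (κ n) (F n i) (F n i') (Fin.castAdd 14 q) =
      rel (κ n) (F n i).g (F n i').g q := fun q => coW_left _ _ _ _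
  have h2 : C0 * P 2 * B'.d n ^ δ ≤ u n 2 * |rel (κ n) (F n i).g (F n i').g 2| := by
    have h1 := far_slot (s₀ := 2) (by decide) (by decide) hw1 hw2
    rw [hPX 2 (by decide)] at h1
    have e : |coU u κ F n i i' 2| = u n 2 * |rel (κ n) (F n i).g (F n i').g 2| := by
      unfold coU
      rw [abs_mul, abs_of_pos ((u0 n).pos 2)]
      congr 2
    rw [e] at h1
    rwa [← mul_assoc] at h1
  have e14 : (Fin.natAdd 4 (10 : Fin 14) : Fin 18) = 14 := rfl
  have e15 : (Fin.natAdd 4 (11 : Fin 14) : Fin 18) = 15 := rfl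
  have z10 : j n i' 10 = 0 := supp n i' 10 (by decide)
  have z11 : j n i' 11 = 0 := supp n i' 11 (by decide)
  have r14 := hpair i hiJ i' hi' hlab 10 (Or.inl rfl)
  have r15 := hpair i hiJ i' hi' hlab 11 (Or.inr rfl)
  rw [z10, zero_sub, sub_neg_eq_add, e14] at r14
  rw [z11, zero_sub, sub_neg_eq_add, e15] at r15
  have pw := powX (B := B) (X := X) hb n
  have key := far_alg (u := u n) (u0 n) (κ1 n) (P := P) (fun s => hBp _)
    (by have := pw 14 [3, 7] (by decide); simpa using this)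
    (by have := pw 14 [2, 9] (by decide); simpa using this)
    (by have := pw 15 [3, 9] (by decide); simpa using this)
    (by have := pw 15 [2, 10] (by decide); simpa using this)
    (by have := pw 15 [1, 14] (by decide); simpa using this)
    hC0 hM (hdp δ) ht1 (e := j n i) (fun p hp => supp n i p hp)
    (h := rel (κ n) (F n i).g (F n i').g)
    (c14 := coW (κ n) (F n i) (F n i') 14) (c15 := coW (κ n) (F n i) (F n i') 15)
    (by have := hbox 1 (by decide) (by decide); rwa [show (1 : Fin 18) = Fin.castAdd 14 1 from rfl, hfr] at this)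
    h2
    (by have := hbox 3 (by decide) (by decide); rwa [show (3 : Fin 18) = Fin.castAdd 14 3 from rfl, hfr] at this)
    (h7 i hiJ) (hbox 14 (by decide) (by decide)) (hbox 15 (by decide) (by decide)) r14 r15
  have hfin : 10 * C0 * B'.d n ^ (-(ε / 4)) / (B'.d n ^ δ) ^ 2 ≤ B'.d n ^ (-ε) := by
    rw [div_le_iff₀ (pow_pos (hdp δ) 2), ← Real.rpow_natCast, ← Real.rpow_mul (B'.pos n).le,
      ← Real.rpow_add (B'.pos n)]
    calc 10 * C0 * B'.d n ^ (-(ε / 4)) ≤ B'.d n ^ (-(ε / 2)) * B'.d n ^ (-(ε / 4)) :=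
          mul_le_mul_of_nonneg_right hc (hdp _).le
      _ = B'.d n ^ (-(ε / 2) + -(ε / 4)) := (Real.rpow_add (B'.pos n) _ _).symm
      _ ≤ _ := hmono (by push_cast; linarith)
  have hfin4 : 4 * B'.d n ^ (-(ε / 4)) / B'.d n ^ δ ≤ B'.d n ^ (-ε) := by
    rw [div_le_iff₀ (hdp δ), ← Real.rpow_add (B'.pos n)]
    have h4 : (4 : ℝ) ≤ B'.d n ^ (-(ε / 2)) := le_trans (by linarith) hc
    calc 4 * B'.d n ^ (-(ε / 4)) ≤ B'.d n ^ (-(ε / 2)) * B'.d n ^ (-(ε / 4)) :=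
          mul_le_mul_of_nonneg_right h4 (hdp _).le
      _ = B'.d n ^ (-(ε / 2) + -(ε / 4)) := (Real.rpow_add (B'.pos n) _ _).symm
      _ ≤ _ := hmono (by linarith)
  rcases hp with rfl | rfl
  · exact key.1.trans (mul_le_mul_of_nonneg_left hfin4 (hBp _).le)
  · exact key.2.trans (mul_le_mul_of_nonneg_left hfin (hBp _).le)

/-- **natural size at `t = 0`, lin**, from far pairs -/
theorem size_lin (hb : ∀ n, B'.d n = B.d n ^ w n) (u0 : ∀ n, GrU (u n))
    (κ1 : ∀ n, |κ n| ≤ 1) (hDr : ∀ k ∈ Dr, 4 ≤ k ∧ k ≤ 14)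
    (nat : ∀ n k, k ∉ Dr → X n k = natX X n k)
    (hsub : ∀ n, J2 n ⊆ J1 n)
    (supp : ∀ n i p, p ∉ ({10, 11} : Finset (Fin 14)) → j n i p = 0)
    (s14 : ∀ ε : ℝ, 0 < ε → ∀ᶠ n in (U : Filter ℕ), ∀ i ∈ J1 n,
      u n 14 * |j n i 10| ≤ B.d n ^ natX X n 14 * B'.d n ^ (-ε))
    (pair : ∀ ε : ℝ, 0 < ε → ∀ᶠ n in (U : Filter ℕ), ∀ i ∈ J1 n, ∀ i' ∈ J1 n,
      zlab B I0 (coU u κ F) monW 67 X w n a i' = zlab B I0 (coU u κ F) monW 67 X w n a i →
      u n 16 * |coW (κ n) (F n i) (F n i') 16 - (j n i' 12 -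
          tr (κ n) (rel (κ n) (F n i).g (F n i').g) (j n i) 12)| ≤
            B.d n ^ natX X n 16 * B'.d n ^ (-ε))
    (far : ∀ k : ℕ, ∀ᶠ n in (U : Filter ℕ), ∀ i ∈ J2 n, ∃ i' ∈ J1 n,
      zlab B I0 (coU u κ F) monW 67 X w n a i' = zlab B I0 (coU u κ F) monW 67 X w n a i ∧
      wbox B B' (coU u κ F) X n (bv (1 / ((k : ℝ) + 1)) ∅) (cK0 monW 67) i i' ∧
      ¬ wbox B B' (coU u κ F) X n (bv (1 / ((k : ℝ) + 1)) {1}) (cK0 monW 67) i i') :
    ∀ ε : ℝ, 0 < ε → ∀ᶠ n in (U : Filter ℕ), ∀ i ∈ J2 n,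
      u n 15 * |j n i 11| ≤ B.d n ^ natX X n 15 * B'.d n ^ (-ε) := by
  intro ε hε
  obtain ⟨k, hk⟩ := exists_nat_one_div_lt (show 0 < ε / 8 by positivity)
  set δ : ℝ := 1 / ((k : ℝ) + 1) with hδ
  have hδ0 : 0 < δ := by positivity
  have hC0 : (1 : ℝ) ≤ cK0 monW 67 := cK0_one (by norm_num)
  set C0 : ℝ := cK0 monW 67 with hC0e
  have nD : ∀ s : Fin 18, (s < 4 ∨ 14 < s) → s ∉ Dr := by
    intro s hs hsD
    obtain ⟨h4, h13⟩ := hDr s hsD
    rcases hs with h | h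
    · exact absurd h4 (not_le.2 h)
    · exact absurd h13 (not_le.2 h)
  filter_upwards [far k, s14 (ε / 4) (by positivity), pair (ε / 4) (by positivity),
    Crest.Agent.R136.Gf356.ev_const_le B' (t := ε / 2) (by positivity) (3 * C0)]
    with n hfar h14 hpair hc i hi
  obtain ⟨i', hi', hlab, hw1, hw2⟩ := hfar i hi
  have hiJ := hsub n hi
  have hdp : ∀ v : ℝ, 0 < B'.d n ^ v := fun v => Real.rpow_pos_of_pos (B'.pos n) _
  have hBp : ∀ v : ℝ, 0 < B.d n ^ v := fun v => Real.rpow_pos_of_pos (B.pos n) _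
  have hmono : ∀ {v v' : ℝ}, v ≤ v' → B'.d n ^ v' ≤ B'.d n ^ v := fun {v v'} h =>
    Real.rpow_le_rpow_of_exponent_ge (B'.pos n) (B'.lt n).le h
  have hM : 1 ≤ B'.d n ^ (-(ε / 4)) := by
    have := hmono (v := -(ε / 4)) (v' := 0) (by linarith)
    rwa [Real.rpow_zero] at this
  have ht1 : B'.d n ^ δ ≤ 1 := by
    have := hmono (v := 0) (v' := δ) hδ0.le
    rwa [Real.rpow_zero] at this
  set P : Fin 18 → ℝ := fun s => B.d n ^ natX X n s with hP
  have hPX : ∀ s : Fin 18, (s < 4 ∨ 14 < s) → B.d n ^ X n s = P s := fun s hs => by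
    rw [nat n s (nD s hs)]
  have hbox : ∀ s : Fin 18, (s < 4 ∨ 14 < s) →
      u n s * |coW (κ n) (F n i) (F n i') s| ≤ C0 * P s := by
    intro s hs
    have h1 := hw1 s
    rw [bv_out (by simp), Real.rpow_zero, mul_one, hPX s hs] at h1
    have e : |coU u κ F n i i' s| = u n s * |coW (κ n) (F n i) (F n i') s| := by
      unfold coU
      rw [abs_mul, abs_of_pos ((u0 n).pos s)]
    rwa [e] at h1
  have hfr : ∀ q : Fin 4, coW (κ n) (F n i) (F n i') (Fin.castAdd 14 q) =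
      rel (κ n) (F n i).g (F n i').g q := fun q => coW_left _ _ _ _
  have h1' : C0 * P 1 * B'.d n ^ δ ≤ u n 1 * |rel (κ n) (F n i).g (F n i').g 1| := by
    have h1 := far_slot (s₀ := 1) (by decide) (by decide) hw1 hw2
    rw [hPX 1 (by decide)] at h1
    have e : |coU u κ F n i i' 1| = u n 1 * |rel (κ n) (F n i).g (F n i').g 1| := by
      unfold coU
      rw [abs_mul, abs_of_pos ((u0 n).pos 1)]
      congr 2
    rw [e] at h1
    rwa [← mul_assoc] at h1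
  have z12 : j n i' 12 = 0 := supp n i' 12 (by decide)
  have r16 := hpair i hiJ i' hi' hlab
  rw [z12, zero_sub, sub_neg_eq_add] at r16
  have pw := powX (B := B) (X := X) hb n
  have key := far_algL (u := u n) (u0 n) (κ1 n) (P := P) (fun s => hBp _)
    (by have := pw 15 [1, 14] (by decide); simpa using this)
    (by have := pw 16 [1, 15] (by decide); simpa using this)
    hC0 hM (hdp δ) ht1 (e := j n i) (fun p hp => supp n i p hp)
    (h := rel (κ n) (F n i).g (F n i').g)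
    (c16 := coW (κ n) (F n i) (F n i') 16)
    (by have := hbox 1 (by decide); rwa [show (1 : Fin 18) = Fin.castAdd 14 1 from rfl, hfr] at this)
    h1' (h14 i hiJ) (hbox 16 (by decide)) r16
  have hfin : 3 * C0 * B'.d n ^ (-(ε / 4)) / B'.d n ^ δ ≤ B'.d n ^ (-ε) := by
    rw [div_le_iff₀ (hdp δ), ← Real.rpow_add (B'.pos n)]
    calc 3 * C0 * B'.d n ^ (-(ε / 4)) ≤ B'.d n ^ (-(ε / 2)) * B'.d n ^ (-(ε / 4)) :=
          mul_le_mul_of_nonneg_right hc (hdp _).le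
      _ = B'.d n ^ (-(ε / 2) + -(ε / 4)) := (Real.rpow_add (B'.pos n) _ _).symm
      _ ≤ _ := hmono (by linarith)
  exact key.trans (mul_le_mul_of_nonneg_left hfin (hBp _).le)

end

end Crest.Agent.R136.Qj289
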