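import Crest.Agent.R136.SZ2_480
import Crest.Agent.R136.Qgn6_887

/-!
# R136, thin branch (helper480): 887's `hasQuadA` at the closed stage of `quad`

* **`quad_A`** : interior point of `quad` (structure `OutA`, own profile, numbers at every base) at
  every stage over a context
* **`ob_quadA`** : the same from an object
-/

set_option autoImplicit false
set_option linter.unusedVariables false

open Finset Filter Topology

namespace Crest.Agent.R136.SZ480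

open Crest.Agent.R138.Ex926
open Crest.Agent.R136.Net191
open Crest.Agent.R136.NetW191
open Crest.Agent.R136.PrW464
open Crest.Agent.R136.NatW697
open Crest.Agent.R136.LadW697
open Crest.Agent.R136.LadT830
open Crest.Agent.R136.LadG697
open Crest.Agent.R136.EvW938
open Crest.Agent.R136.AwJ774
open Crest.Agent.R136.K2S774
open Crest.Agent.R136.K2A146
open Crest.Agent.R136.Qgn887
open Crest.Agent.R136.QdH887
open Crest.Agent.R136.ThS830
open Crest.Agent.R136.Ht887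
open Crest.Agent.R136.Win887
open Crest.Agent.R136.ThB830
open Crest.Agent.R136.Top484
open Crest.Agent.R136.Bas938
open Crest.Agent.R136.Qg926
open Crest.Agent.R136.Lq196
open Crest.Agent.R136.Dg219
open Crest.Agent.R136.Dg262 (X)
open Crest.Agent.R136.Rc146 (OutA)

variable {P : Set (Fin 18 → ℝ)} {ν own : (Fin 18 → ℝ) → ℝ} {K : ℝ} {r0 : Fin 18 → ℝ}
  {θ : Fin 3 → ℝ} {g : ℝ} {q : Fin 3 → ℝ} {V T Zs : Set (Fin 18)}
  {lam lo : (Fin 18 → ℝ) → ℝ}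

/-- **stage + interior point of `quad`** with its structure (887's `hasQuadA`) -/
theorem ob_quadA (hR : RowsC) {w0 R T0 : ℝ} {B B' : Base} {I0 I : ℕ → Finset (ℕ × ℝ)} {κ : ℕ → ℝ}
    {u : ℕ → Fin 18 → ℝ} {F : ℕ → ℕ × ℝ → FW} {X' : ℕ → Fin 18 → ℝ} {w Tn To : ℕ → ℝ}
    {PD : Set (Fin 18 → ℝ)} {c₀ : ℝ}
    (H : ZW θ g q V T w0 R T0 B B' I0 I κ u F X' w Tn To PD ν own c₀)
    (hS : SlotOkW θ (fun k => k ∈ V) (fun k => k ∈ T)) (hs : ∀ k ∈ V, KW θ k < 2)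
    (hres : Res2 θ) {v1 : ℝ} (h0 : 0 < v1) (h1 : v1 < 1) :
    CtxW (Leg monW R) ν own 18 (pathW θ w0 v1) θ g q V T ∧
    ∃ lam lo, Stage QW (Leg monW R) ν own 18 (pathW θ w0 v1) (btW θ) (DlW g q) (QdW θ) (ZR θ 2)
      V 0 (btW θ) 1 (actW (DrR θ 2)) (DrR θ 2) lam lo ∧
    ∃ z : ℝ × ℝ, z.1 < 0 ∧ ∃ k : ℕ → ℝ, (∀ l, 0 < k l) ∧ Tendsto k atTop (𝓝 0) ∧
      ∃ (lamI loI : (Fin 18 → ℝ) → ℝ) (mm : ℝ) (A : ℝ × ℝ) (φ : ℕ → (Fin 18 → ℝ) → ℝ)
        (r : ℕ → ℝ),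
        IsTan (cn QW (actW (DrR θ 2))) (cn QW (actW (DrR θ 2))) lam
          (fun _ => X 0 (TD (DrR θ 2)) (btW θ) z) k lamI ∧
        IsTan (cn QW (actW (DrR θ 2))) (cn QW (actW (DrR θ 2))) lo
          (fun _ => X 0 (TD (DrR θ 2)) (btW θ) z) k loI ∧
        OutA (gC (TD (DrR θ 2)) (btW θ)) (cn QW (actW (DrR θ 2))) (TD (DrR θ 2)) (btW θ)
          (dhC (TD (DrR θ 2)) (btW θ)) (nC (TD (DrR θ 2)) (btW θ)) lamI A φ r ∧
        -A.1 < 5 ∧ (∀ c ∈ cn QW (actW (DrR θ 2)), loI c = -(c 0)) ∧ QdN (DrR θ 2) lamI mm ∧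
        ∀ v : ℝ × ℝ, QdN (DrR θ 2) (fun p => lamI (X 0 (TD (DrR θ 2)) (btW θ) v + p) -
          lamI (X 0 (TD (DrR θ 2)) (btW θ) v)) mm := by
  obtain ⟨C, lam, lo, hst⟩ := ob_quad hR H hS hs hres h0 h1
  exact ⟨C, lam, lo, hst, hasQuadA C hs hres (drR2_ok C.θ1 hres) drR2_7 drR2_9 rfl hst⟩

end Crest.Agent.R136.SZ480
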