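import Crest.Agent.R136.LadG5_697
import Crest.Agent.R136.Qi2_599
import Crest.Agent.R136.Qj1_289
import Crest.Agent.R136.Js_893
import Crest.Agent.R136.SZ3_480
import Crest.Agent.R136.QGb_312
import Crest.Agent.R136.QGd_312

/-!
# R136, thin branch (helper312): the quadratic resonance, assembly

* `size_upQ` : natural sizes at `t = 0` from the law at the interior base and far partners.
* **`seamQuadG`** : `RowsC` ⊢ `SeamQuadG`.
-/

set_option autoImplicit false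
set_option linter.unusedVariables false

open Finset Filter Topology

namespace Crest.Agent.R136.QG312

open Crest.Agent.R136.Net191
open Crest.Agent.R136.NetW191
open Crest.Agent.R136.PrW464
open Crest.Agent.R136.NatW697
open Crest.Agent.R136.LadW697
open Crest.Agent.R136.LadG697
open Crest.Agent.R136.LadT830
open Crest.Agent.R136.Zpr779
open Crest.Agent.R136.Qg926
open Crest.Agent.R136.EvW938
open Crest.Agent.R136.Bas938
open Crest.Agent.R136.AwJ774
open Crest.Agent.R136.K2S774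
open Crest.Agent.R136.RL478
open Crest.Agent.R136.ThS830
open Crest.Agent.R136.GauW619
open Crest.Agent.R136.Qgn887
open Crest.Agent.R136.QdH887
open Crest.Agent.R136.SZ480
open Crest.Agent.R136.Qh831
open Crest.Agent.R136.Qj289
open Crest.Agent.R138.Ex926
open Crest.Agent.R138.Dp76 (Dense)

section size

variable {θ : Fin 3 → ℝ} {Dr : Set (Fin 18)} {B B' : Base}
  {I0 I J1 : ℕ → Finset (ℕ × ℝ)} {κ : ℕ → ℝ} {u : ℕ → Fin 18 → ℝ} {F : ℕ → ℕ × ℝ → FW}
  {Y : ℕ → Fin 18 → ℝ} {w TI : ℕ → ℝ} {lam : (Fin 18 → ℝ) → ℝ} {x mm : ℝ} {a : Fin 18 → ℝ}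
  {j : ℕ → ℕ × ℝ → Fin 14 → ℝ}

theorem natX_add (n : ℕ) (k : Fin 18) : natX (fun n => Y n + w n • a) n k =
    natX Y n k + w n * grW (a 0) (a 1) (a 17) k := by
  show grW (Y n 0 + w n * a 0) (Y n 1 + w n * a 1) (Y n 17 + w n * a 17) k = _
  rw [grW_add, grW_smul]
  rfl

theorem cn_add (ha : NatG Dr a) {c : Fin 18 → ℝ} (hc : c ∈ cn QW (actW Dr)) :
    a + c ∈ cn QW (actW Dr) := by
  rw [mem_cnW] at hc ⊢
  intro k hk l hl hs
  have h1 := hc k hk l hl hs
  have h2 := ha.list hk hl hs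
  have e : (l.map (a + c)).sum = (l.map a).sum + (l.map c).sum := by
    rw [← List.sum_map_add]; rfl
  rw [e, Pi.add_apply, h2]
  linarith

theorem zero_cn : (0 : Fin 18 → ℝ) ∈ cn QW (actW Dr) := by
  rw [mem_cnW]
  intro k hk l hl hs
  have e : l.map (0 : Fin 18 → ℝ) = List.replicate l.length 0 := by
    refine List.eq_replicate_iff.2 ⟨by simp, ?_⟩
    intro b hb
    obtain ⟨t, -, rfl⟩ := List.mem_map.1 hb
    rfl
  rw [e, List.sum_replicate, smul_zero]
  exact le_rfl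

/-- **natural sizes at `t = 0`**, from the law at the interior base -/
theorem size_upQ (hZ : ZWin B B' I0 I (coU u κ F) monW 67 Y w (cn QW (actW Dr)) TI lam)
    (u0 : ∀ n, GrU (u n)) (κ1 : ∀ n, |κ n| ≤ 1) (hDr : ∀ k ∈ Dr, 4 ≤ k ∧ k ≤ 13)
    (hY : ∀ n, NatG Dr (Y n)) (ha : NatG Dr a) (ha0 : ∀ k, 0 ≤ a k)
    (hN : QdN Dr (fun p => lam (a + p) - lam a) mm) (hJ1 : Dense B' J1 I)
    (hsup : ∀ n i p, p ∉ ({3, 5, 6} : Set (Fin 14)) → j n i p = 0)
    (hsz : ∀ ε : ℝ, 0 < ε → ∀ᶠ n in (U : Filter ℕ), ∀ i ∈ J1 n, ∀ p,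
      u n (Fin.natAdd 4 p) * |j n i p| ≤ Qi599.SzQ B B' Y Dr x n ε p)
    (hpr : ∀ ε : ℝ, 0 < ε → ∀ᶠ n in (U : Filter ℕ), ∀ i ∈ J1 n, ∀ i' ∈ J1 n,
      zlab B I0 (coU u κ F) monW 67 Y w n 0 i = zlab B I0 (coU u κ F) monW 67 Y w n 0 i' →
      ∀ p ∈ ({3, 5, 6, 7, 8, 9, 10, 11, 12} : Set (Fin 14)), u n (Fin.natAdd 4 p) *
        |coW (κ n) (F n i) (F n i') (Fin.natAdd 4 p) -
          (j n i' p - tr (κ n) (rel (κ n) (F n i).g (F n i').g) (j n i) p)| ≤
        Qi599.ErQ B B' Y Dr x n ε p)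
    (g7 : (7 : Fin 18) ∈ Dr → grW (a 0) (a 1) (a 17) 7 ≤ x)
    (g7' : (7 : Fin 18) ∉ Dr → grW (a 0) (a 1) (a 17) 7 ≤ 0)
    (g14 : grW (a 0) (a 1) (a 17) 14 ≤ x) (g15 : grW (a 0) (a 1) (a 17) 15 ≤ x) :
    ∃ J2 : ℕ → Finset (ℕ × ℝ), (∀ n, J2 n ⊆ J1 n) ∧ Dense B' J2 I ∧
      ∀ ε : ℝ, 0 < ε → ∀ᶠ n in (U : Filter ℕ), ∀ i ∈ J2 n, ∀ p : Fin 14, p = 5 ∨ p = 6 →
        u n (Fin.natAdd 4 p) * |j n i p| ≤
          B.d n ^ natX (fun n => Y n + w n • a) n (Fin.natAdd 4 p) * B'.d n ^ (-ε) := by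
  have haD : a ∈ cn QW (actW Dr) := by simpa using cn_add ha (zero_cn (Dr := Dr))
  have hb := hZ.base
  have hS := hZ.shift haD
  have hmem : ∀ {c : Fin 18 → ℝ}, c ∈ cn QW (actW Dr) → c ∈ {c | a + c ∈ cn QW (actW Dr)} :=
    fun hc => cn_add ha hc
  have hδ : ∀ k : ℕ, 0 < 1 / ((k : ℝ) + 1) := fun k => by positivity
  obtain ⟨J2, h1, h2, h3⟩ := Js893.far_dense hS hJ1 (a := -a)
    (by show a + -a ∈ cn QW (actW Dr); rw [add_neg_cancel]; exact zero_cn)
    (fun k => bv (1 / ((k : ℝ) + 1)) {0}) (fun k => bv (1 / ((k : ℝ) + 1)) {0, 2})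
    (fun k => hmem (bvm0 (hδ k).le Dr)) (fun k => hmem (bvm02 (hδ k).le Dr))
    (fun k s => by
      have h0 : 0 ≤ bv (1 / ((k : ℝ) + 1)) {0} s := by
        unfold bv
        split_ifs <;> [exact (hδ k).le; exact le_rfl]
      have := ha0 s
      simp only [Pi.neg_apply]
      linarith)
    (fun k => by
      have := num_quad hN (hδ k)
      have := hδ k
      linarith)
  have hlab : ∀ n i, zlab B I0 (coU u κ F) monW 67 (fun n => Y n + w n • a) w n (-a) i =
      zlab B I0 (coU u κ F) monW 67 Y w n 0 i := fun n i => by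
    show nlab B I0 (coU u κ F) monW 67 n ((Y n + w n • a) + w n • (-a)) i =
      nlab B I0 (coU u κ F) monW 67 n (Y n + w n • (0 : Fin 18 → ℝ)) i
    congr 1
    rw [smul_neg, smul_zero, add_zero]
    abel
  have hunit : ∀ n (k : Fin 18) (t : ℝ), B.d n ^ natX Y n k * B'.d n ^ t =
      B.d n ^ natX (fun n => Y n + w n • a) n k * B'.d n ^ (t - grW (a 0) (a 1) (a 17) k) := by
    intro n k t
    rw [natX_add, Real.rpow_add (B.pos n), Real.rpow_mul (B.pos n).le, ← hb n, mul_assoc,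
      ← Real.rpow_add (B'.pos n)]
    congr 2
    ring
  have hmono : ∀ {n : ℕ} {v v' : ℝ}, v ≤ v' → B'.d n ^ v' ≤ B'.d n ^ v := fun {n v v'} h =>
    Real.rpow_le_rpow_of_exponent_ge (B'.pos n) (B'.lt n).le h
  have hBp : ∀ n (v : ℝ), 0 < B.d n ^ v := fun n v => Real.rpow_pos_of_pos (B.pos n) _
  have hYn : ∀ n k, k ∉ Dr → Y n k = natX Y n k := fun n k hk => hY n k hk
  refine ⟨J2, h1, h2, ?_⟩
  refine size_quad (Dr := Dr) (B := B) (B' := B') (I0 := I0) (J1 := J1) (J2 := J2) (κ := κ) (u := u)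
    (F := F) (X := fun n => Y n + w n • a) (w := w) (a := -a) (j := j) hb u0 κ1 hDr ?_ h1
    (fun n i p hp => hsup n i p (by simpa using hp)) ?_ ?_ h3
  · intro n k hk
    exact ((hY n).add (ha.smul (w n))) k hk
  · intro ε hε
    filter_upwards [hsz ε hε] with n hn i hi
    have h4 := hn i hi 3
    have e : (Fin.natAdd 4 (3 : Fin 14) : Fin 18) = 7 := rfl
    refine le_trans (by simpa only [e] using h4) ?_
    by_cases h7 : (7 : Fin 18) ∈ Dr
    · rw [(szQ_le (p := 3) hYn).1 h7, e, hunit]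
      exact mul_le_mul_of_nonneg_left (hmono (by have := g7 h7; linarith)) (hBp _ _).le
    · rw [(szQ_le (p := 3) hYn).2 h7, e, hunit]
      exact mul_le_mul_of_nonneg_left (hmono (by have := g7' h7; linarith)) (hBp _ _).le
  · intro ε hε
    filter_upwards [hpr ε hε] with n hn i hi i' hi' hl p hp
    have hl' : zlab B I0 (coU u κ F) monW 67 Y w n 0 i = zlab B I0 (coU u κ F) monW 67 Y w n 0 i' := by
      rw [hlab, hlab] at hl
      exact hl.symm
    have hpQ : p ∈ ({3, 5, 6, 7, 8, 9, 10, 11, 12} : Set (Fin 14)) := by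
      rcases hp with rfl | rfl <;> simp
    refine (hn i hi i' hi' hl' p hpQ).trans ?_
    rw [erQ_eq hYn, hunit]
    refine mul_le_mul_of_nonneg_left (hmono ?_) (hBp _ _).le
    rcases hp with rfl | rfl
    · have e : (Fin.natAdd 4 (10 : Fin 14) : Fin 18) = 14 := rfl
      rw [e]; linarith
    · have e : (Fin.natAdd 4 (11 : Fin 14) : Fin 18) = 15 := rfl
      rw [e]; linarith

end size

/-- **the quadratic resonance** -/
theorem seamQuadG (hR : RowsC) : SeamQuadG := by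
  intro θ g q V T capV hOb hS hs hres
  obtain ⟨w0, R, T0, B, B', I0, I, κ, u, F, X, w, Tn, To, PD, ν, own, c₀, H, -⟩ := hOb
  have h1 := H.th1
  obtain ⟨b, D, hb, hDD, hbD⟩ := quad_b h1 hres
  obtain ⟨C, lam, lo, hst, z, hz, k, kpos, k0, lamI, loI, mm, A, φ, r, tI, tIo, hA, hA5, hlo,
    hQ, hQv⟩ := ob_quadA hR H hS hs hres (v1 := 1 / 2) (by norm_num) (by norm_num)
  have hD3 := quad_D3 hDD hbD
  obtain ⟨T1, wC, R1, big⟩ := exists_bigW θ
  have hwC : 0 ≤ wC := by have := big.T0; have := big.w0T; linarith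
  set c : ℝ := wC / θ 1 with hc
  have hc0 : 0 ≤ c := div_nonneg hwC h1.le
  set M : ℝ := c * (1 + ‖btW θ‖) with hM
  have hcM : c ≤ M := by
    have := mul_nonneg hc0 (norm_nonneg (btW θ))
    rw [hM]; linarith
  have hM0 : 0 ≤ M := hc0.trans hcM
  have hbM : ∀ k, c * btW θ k ≤ M := fun k => by
    have h2 := norm_le_pi_norm (btW θ) k
    rw [Real.norm_eq_abs] at h2
    have h3 := mul_le_mul_of_nonneg_left ((le_abs_self _).trans h2) hc0
    rw [hM]; linarith
  obtain ⟨x, hx1, hxK, hx0⟩ := exists_prec θ c (R1 + M)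
  have natT : NatG (DrR θ 2) (TD (DrR θ 2)) := by
    rw [← TDs_two]; exact natG_TDs hD3 (DrR2_lo θ)
  have naty : NatG (DrR θ 2) (Dg262.X 0 (TD (DrR θ 2)) (btW θ) z) := by
    rw [← TDs_two]; exact natG_yD hD3 (DrR2_lo θ) θ z
  obtain ⟨B2, X1, w1, h, TI, ToI, TR, ToR, lamR, loR, w1p, hp, hh, hB2, natX1, bas, ZI, ZIo, ToI0, WR,
    stR⟩ := front_winM H (v1 := 1 / 2) (by norm_num) (by norm_num) hD3 hst z.2 c naty kpos k0 tI tIo
  set y : Fin 18 → ℝ := Dg262.X 0 (TD (DrR θ 2)) (btW θ) z with hy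
  set YI : ℕ → Fin 18 → ℝ := fun n => X1 n + w1 n • y with hYI
  set XR : ℕ → Fin 18 → ℝ := fun n => X1 n + w1 n • ((z.2 - c * h n) • btW θ) with hXR
  set wu : ℕ → ℝ := fun n => w1 n * h n with hwu
  have u0 := H.u0
  have κ1 := H.κ1
  have hDok : DrOk (DrR θ 2) := drR2_ok h1 hres
  have side := quad_side hbD
  have D9 : ∀ k ∈ DrR θ 2, 4 ≤ k ∧ k ≤ 9 := fun k hk => by
    rw [← hDD, mem_coe] at hk
    exact side.2.2.2.1 k hk
  have hle : ∀ k : Fin 18, k ≤ 9 → k ≤ 13 := by decide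
  -- the relation
  obtain ⟨J1, J1s, J1d, j, jsup, jsz, jpr⟩ := Qi599.quad_one (Dr := D) (x := x) (mm := mm)
    (by rw [hDD]; exact ZI) (by rw [hDD]; exact bas) u0 κ1 WR.iw.kap (by rw [hDD]; exact hDok)
    (by rcases hbD with ⟨-, rfl⟩ | ⟨-, rfl⟩ | ⟨-, rfl⟩ <;> decide)
    (by rw [hDD]; exact hQ) (by linarith)
  rw [hDD] at jsz jpr
  have natYI : ∀ n, NatG (DrR θ 2) (YI n) := fun n => (natX1 n).add (naty.smul (w1 n))
  -- the shift
  set a : Fin 18 → ℝ := Dg262.X 0 (TD (DrR θ 2)) (btW θ) (M, -c) with ha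
  have hak : ∀ k, a k = M * TD (DrR θ 2) k - c * btW θ k := fun k => by
    rw [ha, X_zero]
    simp only [Pi.add_apply, Pi.smul_apply, smul_eq_mul]
    ring
  have nata : NatG (DrR θ 2) a := by
    rw [ha, X_zero]
    exact (natT.smul _).add ((natG_btW hD3 θ).smul _)
  have gT : ∀ k, grW (TD (DrR θ 2) 0) (TD (DrR θ 2) 1) (TD (DrR θ 2) 17) k = wz k + 2 * wn k := by
    intro k
    have e0 : TD (DrR θ 2) 0 = 1 := by
      rw [TD_not hD3.h0, TW_of_not fun h => hD3.h0 (DrR2_lo θ _ h), saW_grW, grW_0]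
    have e1 : TD (DrR θ 2) 1 = 0 := by
      rw [TD_not hD3.h1, TW_of_not fun h => hD3.h1 (DrR2_lo θ _ h), saW_grW, grW_1]
    have e17 : TD (DrR θ 2) 17 = 2 := by
      rw [TD_not hD3.h17, TW_of_not fun h => hD3.h17 (DrR2_lo θ _ h), saW_grW, grW_17]
    rw [e0, e1, e17]
    simp only [grW]
    ring
  have ga : ∀ k, grW (a 0) (a 1) (a 17) k = M * (wz k + 2 * wn k) - c * btW θ k := fun k => by
    have e : grW (a 0) (a 1) (a 17) k = M * grW (TD (DrR θ 2) 0) (TD (DrR θ 2) 1)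
        (TD (DrR θ 2) 17) k - c * grW (btW θ 0) (btW θ 1) (btW θ 17) k := by
      rw [hak, hak, hak]
      simp only [grW]
      ring
    have e2 : grW (btW θ 0) (btW θ 1) (btW θ 17) k = btW θ k := by
      simp only [btW, grW_0, grW_1, grW_17]
    rw [e, gT, e2]
  have hlo' : ∀ k, 4 ≤ k → k ∉ DrR θ 2 → 0 ≤ wc k + b := fun k h4 hk =>
    side.2.2.1 k h4 (by rwa [← hDD, mem_coe] at hk)
  have ha0 : ∀ k, 0 ≤ a k := by
    intro k
    rw [hak]
    by_cases hk : k ∈ DrR θ 2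
    · rw [TD_mem hk, mul_one]
      have := hbM k
      linarith
    · have t0 := TD_nonneg (DrR θ 2) k
      have t1 : TD (DrR θ 2) k = wz k + 2 * wn k := by
        rw [TD_not hk, TW_of_not fun h => hk (DrR2_lo θ _ h)]
        simp only [saW]
      have t2 : 0 ≤ wc k + b * wn k := by
        by_cases h4 : 4 ≤ k
        · have hn : wn k = 1 := (by decide : ∀ k : Fin 18, 4 ≤ k → wn k = 1) k h4
          rw [hn, mul_one]
          exact hlo' k h4 hk
        · have h5 : ∀ k : Fin 18, ¬ 4 ≤ k → wn k = 0 ∧ 0 ≤ wc k := by decide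
          rw [(h5 k h4).1, mul_zero, add_zero]
          exact (h5 k h4).2
      have t3 : (0 : ℝ) ≤ (wc k : ℝ) + b * wn k := by exact_mod_cast t2
      have t4 : btW θ k = TD (DrR θ 2) k - ((wc k : ℝ) + b * wn k) * θ 1 := by
        have e : (1 - θ 0) = 2 - b * θ 1 := by linarith
        rw [t1]
        simp only [btW, grW]
        rw [e]
        ring
      have t5 : M * TD (DrR θ 2) k - c * btW θ k = (M - c) * TD (DrR θ 2) k +
          c * (((wc k : ℝ) + b * wn k) * θ 1) := by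
        rw [t4]; ring
      rw [t5]
      have := mul_nonneg (sub_nonneg.2 hcM) t0
      have := mul_nonneg hc0 (mul_nonneg t3 h1.le)
      linarith
  have h70 : (7 : Fin 18) ∉ DrR θ 2 → btW θ 7 = 0 := fun h7 => by
    rw [← hDD, mem_coe] at h7
    rcases hbD with ⟨rfl, -⟩ | ⟨-, rfl⟩ | ⟨-, rfl⟩
    · rw [btW_JW2 hb (by decide)]
      have : wc 7 + 4 = 0 := by decide
      rw [this]; simp
    · exact absurd (by decide) h7
    · exact absurd (by decide) h7
  have hR1 : 0 ≤ R1 := by have := big.T0; have := big.R0; linarith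
  have w7 : (wz 7 : ℝ) + 2 * wn 7 = 0 := by
    have : wz 7 + 2 * wn 7 = 0 := by decide
    exact_mod_cast this
  have w14 : (wz 14 : ℝ) + 2 * wn 14 = 1 := by
    have : wz 14 + 2 * wn 14 = 1 := by decide
    exact_mod_cast this
  have w15 : (wz 15 : ℝ) + 2 * wn 15 = 1 := by
    have : wz 15 + 2 * wn 15 = 1 := by decide
    exact_mod_cast this
  obtain ⟨J2, J2s, J2d, J2z⟩ := size_upQ (a := a) (x := x) ZI u0 κ1
    (fun k hk => ⟨(D9 k hk).1, hle k (D9 k hk).2⟩) natYI nata ha0 (hQv (M, -c)) J1d jsup jsz jpr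
    (fun _ => by
      rw [ga, w7]
      have := (le_max_left 0 (btW θ 7)).trans (hx0 7)
      linarith)
    (fun h7 => by rw [ga, w7, h70 h7]; simp)
    (by rw [ga, w14]; have := hxK 14; linarith)
    (by rw [ga, w15]; have := hxK 15; linarith)
  have wJ : ∀ k ∈ JW 2, (wz k : ℝ) + 2 * wn k = 0 := fun k hk => by
    have : ∀ k ∈ JW 2, wz k + 2 * wn k = 0 := by decide
    exact_mod_cast this k hk
  have hpos : ∀ n, ∀ k ∈ JW 2, natX YI n k = natX XR n k + wu n * (c * btW θ k) := by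
    intro n k hk
    rw [hYI, hy, natX_posM (c := c) (h := h), gT, wJ k hk]
    simp only [mul_zero, add_zero]
    rfl
  have hbt : ∀ k ∈ JW 2, k ∉ DrR θ 2 → btW θ k ≤ 0 := fun k hk hkD => by
    have t : (0 : ℝ) ≤ ((wc k + b : ℤ) : ℝ) := by exact_mod_cast hlo' k (mem_JW.1 hk).1 hkD
    have := mul_nonneg t h1.le
    rw [btW_JW2 hb hk]
    linarith
  have hnat2 : ∀ n, ∀ k ∈ JW 2, natX (fun n => YI n + wu n • a) n k = natX XR n k := by
    intro n k hk
    rw [natX_add, hpos n k hk, ga, wJ k hk]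
    ring
  have L : JLaw θ B B2 I0 J2 κ u F XR YI {3, 5, 6} {3, 5, 6, 7, 8, 9} R1 j := by
    refine jlaw_of (s := 2) (Dr := DrR θ 2) (x := x) (c := c) hB2 hpos (fun n k hk => natYI n k hk)
      (by decide) (by decide) (Qp := {3, 5, 6, 7, 8, 9, 10, 11, 12}) ?_ hbt
      (fun k _ => by have := hxK k; linarith) (fun k _ => hx0 k)
      (fun n i p hp => jsup n i p (by simpa using hp)) jsz jpr J2s ?_
    · intro p hp
      have : ∀ p ∈ ({3, 5, 6, 7, 8, 9} : Finset (Fin 14)),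
          p ∈ ({3, 5, 6, 7, 8, 9, 10, 11, 12} : Finset (Fin 14)) := by decide
      have h5 := this p hp
      simpa using h5
    · intro p hp hpD hp0 ε hε
      have h5 : p = 3 ∨ p = 5 ∨ p = 6 := by simpa using hp
      rcases h5 with rfl | rfl | rfl
      · exact absurd (h70 hpD) hp0.ne
      · filter_upwards [J2z ε hε] with n hn i hi
        have h6 := hn i hi 5 (Or.inl rfl)
        rwa [hnat2 n _ (by decide)] at h6
      · filter_upwards [J2z ε hε] with n hn i hi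
        have h6 := hn i hi 6 (Or.inr rfl)
        rwa [hnat2 n _ (by decide)] at h6
  obtain ⟨Sd, hSd, hd⟩ := dense_sub J2d
  exact hasGau_of_law h1 H.q1 H.q2 H.q0 H.qg H.qθ H.vis (dr4_quad H.vis hs hDD hbD) capV u0 κ1 WR stR
    big side.1 side.2.1 hlo'
    (hlo0_quad hb hDD hbD) (fun n => (J2s n).trans (J1s n)) hSd hd
    (by
      filter_upwards [ZI.legal 0] with n hn
      have h5 := hn 0 ZI.zero (by simp)
      rwa [smul_zero, add_zero] at h5)
    (by
      filter_upwards [posM_le (c := c) w1p hp hh hz (TD_nonneg (DrR θ 2))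
        (ha_quad h1 hb hDok wC)] with n hn k
      exact hn k)
    (by decide) (by decide)
    (fun p hpJ hpV => by
      have h5 := vis_quad H.vis hs _ hpV
      have h6 : ∀ p ∈ ({3, 5, 6, 7, 8, 9} : Finset (Fin 14)),
          (Fin.natAdd 4 p : Fin 18) ≠ 14 ∧ (Fin.natAdd 4 p : Fin 18) ≠ 15 := by decide
      exact h5.elim (h6 p hpJ).1 (h6 p hpJ).2)
    le_rfl L
    (fun k hk => Or.inl (by
      have h5 : ∀ k ∈ JW 2, ∃ p ∈ ({3, 5, 6, 7, 8, 9} : Finset (Fin 14)), k = Fin.natAdd 4 p := by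
        decide
      exact h5 k (mem_coe.1 hk)))

theorem seamQuadG_of (hR : RowsC) (_ : RelQ) : SeamQuadG := seamQuadG hR

end Crest.Agent.R136.QG312
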