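import Crest.Agent.R136.Fin_484
import Crest.Agent.R136.Alr_877
import Crest.Agent.R136.Alz_500
import Crest.Agent.R136.Wr1_774
import Crest.Agent.R136.Kcl4_44
import Crest.Agent.R136.BtrF_879
import Crest.Agent.R136.Plw_571
import Crest.Agent.R136.Clb_208
import Crest.Agent.R136.Hmx_104
import Crest.Agent.R136.Shy_410
import Crest.Agent.R136.Lks_140
import Crest.Agent.R136.CubY_851
import Crest.Agent.R136.CubH_938
import Crest.Agent.R136.Ndx_325
import Crest.Agent.R136.Lnd_57
import Crest.Agent.R136.Nmz_140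
import Crest.Agent.R136.Nptb_615
import Crest.Agent.R136.Crh_544
import Crest.Agent.R136.Hul5_412
import Crest.Agent.R136.LinF4_403
import Crest.Agent.R136.QGe_312

/-!
# R136 (S0187): final wiring over the leaves of PLAN 2 and of the rows (helper484)

`Leaves` = exactly the statements which are open; a field is removed when it is proved.
-/

set_option autoImplicit false
set_option linter.unusedVariables false

namespace Crest.Agent.R136.Fin484

open Crest.Agent.R136.Top484
open Crest.Agent.R136.LadG697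

/-- **the open leaves** -/
structure Leaves : Prop where
  /-- 601, 862, 467, 818, 455 -/
  leafV6 : Al500.LeafV6

/-- **(BT)** -/
theorem btr : Pl2.BTR Pl2.Al1 := Btr879.btr_of1 (Shv410.shareL_of1 Lks140.lnkSh)

theorem nd : Amx325.NdMx := Ndw325.ndMx_of Nmz140.chartMx Mxc615.ndPt

theorem alr (O : Leaves) : Pl2.ALR Pl2.Al1 :=
  Alr877.alr_of (Kcl44.ubalA_of Plx571.plMx Hmx104.hullMx nd) Clb208.close_back
    (Al500.alCore_of3 Hul412.leafHull Cuu57.leafNd O.leafV6)

/-- **tilt** -/
theorem tilt (O : Leaves) : ∃ η : ℝ, 0 < η ∧ ∀ (p : Par4) (D : Dat4), J1c η p D → SmT163.TiltB D :=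
  Wr774.tiltB_of btr (alr O)

theorem rows34 : Pin851.Rows34 := fun W E κ u f lam x hW hx => Cr544.rows34 hW hx

theorem spec34 : Pin851.Spec34 := Pin851.spec34_of rows34

theorem spec35 : Pin851.Spec35 := Pin851.spec35_of
  (Pin851.rows35_of fun W E κ u f lam x h hx => ⟨_, _, Cub938.sevo35 h le_rfl le_rfl⟩)

theorem rowsC' : RowsC :=
  Rws938.rowsC_of (Pin851.pin3_of spec35 spec34)
    Vw848.deadhi2

/-- **KS4 from the leaves** -/
theorem ks4_of (O : Leaves) : KS879.KS4 :=
  ks4_of_leaves (tilt O) spec35 spec34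
    (QG312.seamQuadG rowsC') (LinF403.seamLinG_rows rowsC')

/-- **S0187 from the leaves** -/
theorem s0187_of (O : Leaves) (K : Set (EuclideanSpace ℝ (Fin 4)))
    (hK : ∀ e : EuclideanSpace ℝ (Fin 4), ‖e‖ = 1 →
      ∃ a : EuclideanSpace ℝ (Fin 4), segment ℝ a (a + e) ⊆ K) : dimH K = 4 :=
  KS879.s0187_of_KS4 (ks4_of O) K hK

end Crest.Agent.R136.Fin484
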