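import Crest.Agent.R136.Fin2_484
import Crest.Agent.R136.Lv6_778

/-!
# R136 (S0187): the theorem (helper484)
-/

set_option autoImplicit false

namespace Crest.Agent.R136.Fin484

/-- all the leaves -/
theorem leaves : Leaves := ⟨Crest.Agent.R136.Lv6778.leafV6⟩

/-- the box statement -/
theorem ks4 : KS879.KS4 := ks4_of leaves

/-- **dimension four** -/
theorem s0187 (K : Set (EuclideanSpace ℝ (Fin 4)))
    (hK : ∀ e : EuclideanSpace ℝ (Fin 4), ‖e‖ = 1 →
      ∃ a : EuclideanSpace ℝ (Fin 4), segment ℝ a (a + e) ⊆ K) : dimH K = 4 :=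
  s0187_of leaves K hK

end Crest.Agent.R136.Fin484
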