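import Crest.Agent.R136.Top_484

/-!
# R136 (S0187): final wiring, last step (helper484)
-/

set_option autoImplicit false
set_option linter.unusedVariables false

namespace Crest.Agent.R136.Fin484

open Crest.Agent.R136.Top484
open Crest.Agent.R136.LadG697

/-- **KS4 from the five last leaves**; `η` is chosen here -/
theorem ks4_of_leaves (tilt : ∃ η : ℝ, 0 < η ∧ ∀ (p : Par4) (D : Dat4), J1c η p D → SmT163.TiltB D)
    (s35 : Pin851.Spec35) (s34 : Pin851.Spec34) (quad : SeamQuadG) (lin : SeamLinG) :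
    KS879.KS4 := by
  obtain ⟨η0, h0, hT⟩ := tilt
  have hη : 0 < min (1 / 8) η0 := lt_min (by norm_num) h0
  exact ks4_of_open hη (min_le_left _ _)
    ⟨fun p D h => hT p D (J1c.mono h (min_le_right _ _)), s35, s34, quad, lin⟩

/-- **S0187 from the five last leaves** -/
theorem s0187_of_leaves
    (tilt : ∃ η : ℝ, 0 < η ∧ ∀ (p : Par4) (D : Dat4), J1c η p D → SmT163.TiltB D)
    (s35 : Pin851.Spec35) (s34 : Pin851.Spec34) (quad : SeamQuadG) (lin : SeamLinG)
    (K : Set (EuclideanSpace ℝ (Fin 4)))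
    (hK : ∀ e : EuclideanSpace ℝ (Fin 4), ‖e‖ = 1 →
      ∃ a : EuclideanSpace ℝ (Fin 4), segment ℝ a (a + e) ⊆ K) : dimH K = 4 :=
  KS879.s0187_of_KS4 (ks4_of_leaves tilt s35 s34 quad lin) K hK

end Crest.Agent.R136.Fin484
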