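import Crest.Agent.R136.Ndx_325
import Crest.Agent.R136.Nmy_296
import Crest.Agent.R136.Nmx3_501
import Crest.Agent.R136.Nptb_615

/-!
# R136 (S0187), PLAN 2, mixed curvatures: `ndMx` without hypotheses (helper325)

501's `ubox`, 296's `chartMx_of`, 615's `ndPt`.
-/

set_option autoImplicit false
set_option linter.unusedVariables false

namespace Crest.Agent.R136.Ndw325

open Crest.Agent.R136.Sh605
open Crest.Agent.R136.Pl2 (kp)
open Crest.Agent.R136.Bl5667 (shp_pos kp_nonneg)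

theorem uBx : Nmy296.UBx := by
  intro W Y a w1 w2 z0 ρ r U V T0 hW hr hρ hrρ ha hSU hSV hTU hTV hDU hDV hAl hDet hYk hkV haY
    z hz hz' p u v hp hu hv
  obtain ⟨-, uw0, -, -⟩ := shp_pos hr hSU
  obtain ⟨-, vw0, -, -⟩ := shp_pos hr hSV
  have hk0 : 0 ≤ kp V z0 ρ T0 := kp_nonneg vw0.le z0 ρ T0
  have hkU0 : 0 ≤ kp U z0 ρ T0 := kp_nonneg uw0.le z0 ρ T0
  have hk : kp V z0 ρ T0 ≤ kp U z0 ρ T0 := by
    have h1 : 1 ≤ W ^ 8 := one_le_pow₀ hW
    have h2 := hYk.1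
    have h3 : (10:ℝ) ^ 8 * 1 * kp V z0 ρ T0 ≤ 10 ^ 8 * W ^ 8 * kp V z0 ρ T0 :=
      mul_le_mul_of_nonneg_right (mul_le_mul_of_nonneg_left h1 (by norm_num)) hk0
    linarith
  have h := Nmx501.ubox (m := 1) hW hr hρ hSU hSV hTU hTV hDU hDV hAl hYk hk le_rfl hz hz' hp hu hv
  rw [one_pow, mul_one] at h
  exact h

theorem chartMx : ChartMx := Nmy296.chartMx_of uBx

/-- **`NdMx`** (Amx3_325) -/
theorem ndMx : Amx325.NdMx := ndMx_of chartMx Mxc615.ndPt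

/-- **`NdMx`** (Amd_84) -/
theorem ndMx84 : Amx84.NdMx := ndMx_of_chart chartMx Mxc615.ndPt

end Crest.Agent.R136.Ndw325
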