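import Crest.Agent.R136.Rt4_478
import Crest.Agent.R136.Gau3_66

/-!
# R136: walls `(2,1)`, `(2,2)` of the W-chart: the gauge law on the classes of an interior window
(helper478)

* `PLaw` : on pairs, the slot `q` is `mu` times the height, error `r Dq`.
* **`strip_intW`** : [RIG-0] on all classes of a dense part, exponent loss `3 η y₀`.
-/

set_option autoImplicit false
set_option linter.unusedVariables false
set_option linter.unusedSectionVars false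

open Filter Topology

namespace Crest.Agent.R136.Rt478

open Finset Crest.Agent.R136.NetW191 Crest.Agent.R136.Net191 Crest.Agent.R136.Qg926
open Crest.Agent.R136.EvW938 Crest.Agent.R136.Bas938 Crest.Agent.R136.RowW619
open Crest.Agent.R136.Gf356 Crest.Agent.R136.Aw413 Crest.Agent.R136.Dg219
open Crest.Agent.R136.Gau66 (strip_to_global')
open Crest.Agent.R138.Ex926 (Base U cls)

/-- **pair law** of the slot `q` on a set of incidences; `D0, Dq` = sides of the slots `z, q`; slope at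
most `s Dq/D0`, error `r Dq` -/
def PLaw {α : Type*} (co : α → α → Fin 18 → ℝ) (q : Fin 18) (D0 Dq s r : ℝ) (G : Finset α) : Prop :=
  ∃ mu : ℝ, |mu| * D0 ≤ s * Dq ∧ ∀ i ∈ G, ∀ j ∈ G, |co i j q - mu * co i j 0| ≤ r * Dq

theorem PLaw.mono {α : Type*} {co : α → α → Fin 18 → ℝ} {q : Fin 18} {D0 Dq s r : ℝ}
    {G G' : Finset α} (h : G' ⊆ G) (H : PLaw co q D0 Dq s r G) : PLaw co q D0 Dq s r G' := by
  obtain ⟨mu, h1, h2⟩ := H
  exact ⟨mu, h1, fun i hi j hj => h2 i (h hi) j (h hj)⟩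

theorem PLaw.weak {α : Type*} {co : α → α → Fin 18 → ℝ} {q : Fin 18} {D0 Dq s r s' r' : ℝ}
    {G : Finset α} (hD : 0 ≤ Dq) (hs : s ≤ s') (hr : r ≤ r') (H : PLaw co q D0 Dq s r G) :
    PLaw co q D0 Dq s' r' G := by
  obtain ⟨mu, h1, h2⟩ := H
  exact ⟨mu, h1.trans (mul_le_mul_of_nonneg_right hs hD), fun i hi j hj =>
    (h2 i hi j hj).trans (mul_le_mul_of_nonneg_right hr hD)⟩

/-- **the slot `q` is additive** up to `dT ρ^x` (`comp_q` without a model) -/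
theorem comp_q0 {ι : ℕ → Type*} [∀ n, DecidableEq (ι n)] {W : Wnd 18 ι} {κ : ℕ → ℝ}
    {lam : ℕ → Fin 18 → ℝ} {f : ∀ n, ι n → FW} (h : WWnd W κ lam f) {q : Fin 14} {x : ℝ} {n : ℕ}
    (g : W.Good n)
    (small : ∀ t ∈ tms q, cfl W lam n t.idx (Fin.natAdd 4 q) ≤ CfW W * W.B'.d n ^ x)
    {y₁ y₂ y₃ : ι n} (h1 : y₁ ∈ W.Cl n) (h2 : y₂ ∈ W.Cl n) (h3 : y₃ ∈ W.Cl n) :
    |W.crd n y₁ y₃ (Fin.natAdd 4 q) - (W.crd n y₁ y₂ (Fin.natAdd 4 q) +
      W.crd n y₂ y₃ (Fin.natAdd 4 q))| ≤ dT W * W.B'.d n ^ x := by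
  have e := comp_flag h g h1 h2 h3 q
  have hM := (MW_le h).1
  have hC := (CfW_le h).1
  have hρ : 0 ≤ W.B'.d n ^ x := Real.rpow_nonneg (W.B'.pos n).le _
  have hmix : ∀ s, |mix (W.crd n y₁ y₂) (W.crd n y₂ y₃) s| ≤ MW W := by
    intro s
    refine Fin.addCases (m := 4) (n := 14) (fun i => ?_) (fun q' => ?_) s
    · rw [mix_left]; exact crd_MW h g h2 h3 _
    · rw [mix_right]; exact crd_MW h g h1 h2 _
  have hD : 0 ≤ CfW W * W.B'.d n ^ x * MW W ^ 7 := by positivity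
  have key := abs_sum_le (tmN W κ lam n q (W.crd n y₁ y₂) (W.crd n y₂ y₃)) (fun t => t.n) _ hD
    (tms q) (fun _ => true) (fun t ht _ => by
      refine tmN_le h.hκ (h.cfl_pos n _ _).le (small t ht) ?_
      refine (prod_le_pow hM hmix t.idx).trans ?_
      exact pow_le_pow_right₀ hM (idx_len q t ht))
  rw [List.filter_true] at key
  have g2 : ((((tms q).map fun t => t.n.natAbs).sum : ℕ) : ℝ) ≤ 67 := by
    exact_mod_cast tms_sum q
  have e2 : W.crd n y₁ y₃ (Fin.natAdd 4 q) - (W.crd n y₁ y₂ (Fin.natAdd 4 q) +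
      W.crd n y₂ y₃ (Fin.natAdd 4 q)) =
      ((tms q).map (tmN W κ lam n q (W.crd n y₁ y₂) (W.crd n y₂ y₃))).sum := by
    rw [e]; ring
  rw [e2]
  refine key.trans ((mul_le_mul_of_nonneg_right g2 hD).trans (le_of_eq ?_))
  unfold dT
  ring

section

variable {B B' : Base} {I J : ℕ → Finset (ℕ × ℝ)} {co : ∀ n : ℕ, ℕ × ℝ → ℕ × ℝ → Fin 18 → ℝ}
  {kp : ℕ → ℝ} {u : ℕ → Fin 18 → ℝ} {f : ∀ n : ℕ, ℕ × ℝ → FW} {C : ℝ} {Y : ℕ → Fin 18 → ℝ}
  {w : ℕ → ℝ} {T : ℕ → ℝ} {Ma : Mons 18} {Dr : Set (Fin 18)} {lam : (Fin 18 → ℝ) → ℝ}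
  {q : Fin 14} {V : Fin 4} {a x : ℝ}

/-- the law on one class of one dense part -/
theorem strip_loc (hZ : ZWin B B' I J co monW C Y w (coneM Ma) T lam) (hA : ActM Ma Dr)
    (hco : ∀ n, ∀ i ∈ I n, ∀ j ∈ I n, ∀ k, co n i j k = u n k * coW (kp n) (f n i) (f n j) k)
    (hgr : ∀ n, GrU (u n)) (hk1 : ∀ n, |kp n| ≤ 1) (H : ThinF Ma lam q V a)
    (hq : (q = 10 ∧ V = 3) ∨ (q = 11 ∧ V = 2)) (hx : 0 < x)
    (tP : ∀ᶠ n in (U : Filter ℕ), Y n 17 = Y n 0 + Y n 16)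
    (tV : ∀ᶠ n in (U : Filter ℕ),
      Y n 17 = Y n (Fin.castAdd 14 V) + Y n (Fin.natAdd 4 q)) {η : ℝ} (hη : 0 < η)
    (hη1 : η ≤ 1) {θ : ℝ} (hθ : 0 < θ) (hrig : ∀ {ι : ℕ → Type} [∀ n, DecidableEq (ι n)]
      {W : Wnd 18 ι} {κ : ℕ → ℝ} {lam : ℕ → Fin 18 → ℝ} {f : ∀ n, ι n → FW}
      (h : WWnd W κ lam f) {q : Fin 14} {V : Fin 4} {x : ℝ} (L : ThinW W q V x 1 ((a + 1) / 2) a),
      ∀ᶠ n in (U : Filter ℕ), ∃ y : ℝ, θ * x ≤ y ∧ y ≤ x ∧ ∃ (G' : Finset (ι n)) (μ β : ℝ),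
        G' ⊆ W.Cl n ∧ W.T n * W.B'.d n ^ (η * y) ≤ (G'.card : ℝ) ∧
        |μ| ≤ W.B'.d n ^ (-(η * y)) ∧ ∀ i ∈ G',
          |W.crd n (W.s₀ n) i (Fin.natAdd 4 q) - β - μ * W.crd n (W.s₀ n) i 0| ≤
            W.B'.d n ^ y) (Gd : ℕ → Finset (ℕ × ℝ)) (hGd : ∀ n, Gd n ⊆ J n)
    (hdens : ∀ᶠ n in (U : Filter ℕ), ((J n).card : ℝ) ≤ 2 * ((Gd n).card : ℝ)) :
    ∀ᶠ n in (U : Filter ℕ), ∃ s : ℕ × ℝ, ∃ G' ⊆ cls (Gd n)
      (zlab B I co monW C (fun n => Y n + w n • scV x (n0T q)) w n 0) s, ∃ y, θ * x ≤ y ∧ y ≤ x ∧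
        T n * B'.d n ^ (-lam (scV x (n0T q))) * B'.d n ^ (η * y) ≤ (G'.card : ℝ) ∧
        0 < (G'.card : ℝ) ∧
        PLaw (co n) (Fin.natAdd 4 q) (B.d n ^ (Y n + w n • scV x (n0T q)) 0)
          (B.d n ^ (Y n + w n • scV x (n0T q)) (Fin.natAdd 4 q)) (B'.d n ^ (-(η * y)))
          (B'.d n ^ (y / 2)) G' := by
  have hq' : q = 10 ∨ q = 11 := hq.imp (fun e => e.1) fun e => e.1
  have hd := wdT hq'
  have h0 : scV x (n0T q) ∈ coneM Ma := by
    rw [hA.cone]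
    intro k _ l hl _
    rw [sum_scV]
    exact mul_le_mul_of_nonneg_left (by exact_mod_cast hd.off k l hl) hx.le
  have hZ' := hZ.shift h0
  have hst := wst_ok hA hd hx.le
  obtain ⟨s₀, hs₀, hok⟩ := hZ'.exists_wnd hst (fun _ => (0, 0)) (Gd := Gd) (E := Gd)
    (Eventually.of_forall hGd) (Eventually.of_forall fun n => Subset.refl _)
    (Sd := fun _ => 2) (Base.Sub.const two_pos) hdens
  set W := (wst Ma (n0T q) ntT 1 (ST q) x).wnd B B' I J co monW C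
    (fun n => Y n + w n • scV x (n0T q)) w {c | scV x (n0T q) + c ∈ coneM Ma}
    (fun n => T n * B'.d n ^ (-lam (scV x (n0T q))))
    (fun c => lam (scV x (n0T q) + c) - lam (scV x (n0T q)))
    (fun n => cls (Gd n) (zlab B I co monW C (fun n => Y n + w n • scV x (n0T q)) w n 0) (s₀ n))
    s₀ with hW
  have hww : WWnd W kp u f :=
    { ok := hok
      hκ := hk1
      hl := hgr
      hM := rfl
      hco := hco
      kz := rfl
      h0 := hd.zS
      hS := hd.hS }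
  have hn00 : n0T q 0 = 0 := hd.z0
  have n0q : n0T q (Fin.natAdd 4 q) = 0 := by rcases hq' with rfl | rfl <;> decide
  have n0V : n0T q (Fin.castAdd 14 V) = 0 ∧ n0T q 16 = 0 ∧ n0T q 17 = 0 := by
    rcases hq with ⟨rfl, rfl⟩ | ⟨rfl, rfl⟩ <;> decide
  have hrow : ∀ l ∈ mlW (Fin.natAdd 4 q), 1 ≤ (l.map (n0T q)).sum := by
    rcases hq' with rfl | rfl <;> decide
  have eY : ∀ n k, n0T q k = 0 → (Y n + w n • scV x (n0T q)) k = Y n k := by
    intro n k hk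
    simp [scV, hk]
  have hL : ThinW W q V x 1 ((a + 1) / 2) a := by
    refine thinW_of_F hA H hq hx (s := (a + 1) / 2) (by linarith [H.a1]) rfl rfl rfl rfl rfl ?_ ?_
      ?_
    · filter_upwards [hZ.legal 0] with n hn l hl
      have hleg : Legal monW (Y n + w n • (0 : Fin 18 → ℝ)) := hn 0 hZ.zero (by simp)
      rw [smul_zero, add_zero] at hleg
      have h1 := hleg.wall (Fin.natAdd 4 q) _ (mem_monW.2 ⟨l, hl, rfl⟩)
      rw [← sum_count] at h1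
      show (Y n + w n • scV x (n0T q)) (Fin.natAdd 4 q) + x * w n ≤
        (l.map (Y n + w n • scV x (n0T q))).sum
      rw [eY n _ n0q, sum_add']
      have e1 : (l.map (w n • scV x (n0T q))).sum = w n * (x * ((l.map (n0T q)).sum : ℕ)) := by
        have : (w n • scV x (n0T q) : Fin 18 → ℝ) = scV (w n * x) (n0T q) := by
          funext k; simp [scV, mul_assoc]
        rw [this, sum_scV]; ring
      rw [e1]
      have h2 : (1 : ℝ) ≤ ((l.map (n0T q)).sum : ℕ) := by exact_mod_cast hrow l hl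
      have h3 : 0 ≤ w n * x := mul_nonneg (hZ.w0 n).le hx.le
      nlinarith
    · filter_upwards [tP] with n hn
      show (Y n + w n • scV x (n0T q)) 17 = (Y n + w n • scV x (n0T q)) 0 +
        (Y n + w n • scV x (n0T q)) 16
      rw [eY n _ n0V.2.2, eY n _ hn00, eY n _ n0V.2.1, hn]
    · filter_upwards [tV] with n hn
      show (Y n + w n • scV x (n0T q)) 17 = (Y n + w n • scV x (n0T q)) (Fin.castAdd 14 V) +
        (Y n + w n • scV x (n0T q)) (Fin.natAdd 4 q)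
      rw [eY n _ n0V.2.2, eY n _ n0V.1, eY n _ n0q, hn]
  have hθx : 0 < θ * x / 2 := by positivity
  have hdp : ∀ n (v : ℝ), 0 < B'.d n ^ v := fun n v => Real.rpow_pos_of_pos (B'.pos n) v
  have hDp : ∀ n (v : ℝ), 0 < B.d n ^ v := fun n v => Real.rpow_pos_of_pos (B.pos n) v
  have hdn : ∀ n {v v' : ℝ}, v ≤ v' → B'.d n ^ v' ≤ B'.d n ^ v := fun n {v v'} h' =>
    Real.rpow_le_rpow_of_exponent_ge (B'.pos n) (B'.lt n).le h'
  filter_upwards [hrig hww hL, hok.ev_good, hL.slack,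
    Gf356.ev_const_le B' hθx (2 + dT W)] with n hn g hsl hc
  obtain ⟨y, hy1, hy2, G', μ, β, g1, g2, g3, g4⟩ := hn
  have hdT := dT_nonneg hww
  refine ⟨s₀ n, G', g1, y, hy1, hy2, g2,
    lt_of_lt_of_le (mul_pos (mul_pos (hZ.T0 n) (hdp n _)) (hdp n _)) g2, ?_⟩
  set D0 := B.d n ^ (Y n + w n • scV x (n0T q)) 0 with hD0
  set Dq := B.d n ^ (Y n + w n • scV x (n0T q)) (Fin.natAdd 4 q) with hDq
  have D00 : 0 < D0 := hDp n _
  have Dq0 : 0 < Dq := hDp n _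
  have small : ∀ t ∈ tms q, cfl W u n t.idx (Fin.natAdd 4 q) ≤ CfW W * W.B'.d n ^ x := by
    intro t ht
    have hm : t.idx ∈ mlW (Fin.natAdd 4 q) := by
      rw [mlW_right]; exact List.mem_map_of_mem ht
    refine (cfl_small hww hm (hsl _ hm)).trans ?_
    exact mul_le_mul_of_nonneg_right ((CfW_le hww).2.1 q t ht)
      (Real.rpow_nonneg (W.B'.pos n).le _)
  refine ⟨μ * Dq / D0, ?_, fun i hi j hj => ?_⟩
  · rw [abs_div, abs_mul, abs_of_pos D00, abs_of_pos Dq0, div_mul_cancel₀ _ D00.ne']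
    exact mul_le_mul_of_nonneg_right g3 Dq0.le
  · have ci := g1 hi
    have cj := g1 hj
    have k1 := comp_q0 hww g small g.s0 ci cj
    have k2 := comp0 hww g g.s0 ci cj
    have k3 := g4 i hi
    have k4 := g4 j hj
    have e1 : W.crd n i j (Fin.natAdd 4 q) = co n i j (Fin.natAdd 4 q) / Dq := by
      show co n i j (Fin.natAdd 4 q) / (1 * Dq) = _
      rw [one_mul]
    have e2 : W.crd n i j 0 = co n i j 0 / D0 := by
      show co n i j 0 / (1 * D0) = _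
      rw [one_mul]
    have hs : W.s₀ n = s₀ n := rfl
    have hB : W.B'.d n = B'.d n := rfl
    rw [hB] at k1 k3 k4
    have hxy : B'.d n ^ x ≤ B'.d n ^ y := hdn n hy2
    have key : |W.crd n i j (Fin.natAdd 4 q) - μ * W.crd n i j 0| ≤ (2 + dT W) * B'.d n ^ y := by
      have e : W.crd n i j (Fin.natAdd 4 q) - μ * W.crd n i j 0 =
          (W.crd n (W.s₀ n) j (Fin.natAdd 4 q) - β - μ * W.crd n (W.s₀ n) j 0) -
          (W.crd n (W.s₀ n) i (Fin.natAdd 4 q) - β - μ * W.crd n (W.s₀ n) i 0) -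
          (W.crd n (W.s₀ n) j (Fin.natAdd 4 q) - (W.crd n (W.s₀ n) i (Fin.natAdd 4 q) +
            W.crd n i j (Fin.natAdd 4 q))) := by
        rw [k2]; ring
      rw [e]
      have h5 : dT W * B'.d n ^ x ≤ dT W * B'.d n ^ y := mul_le_mul_of_nonneg_left hxy hdT
      rw [abs_le] at k1 k3 k4 ⊢
      constructor
      · linarith [k1.1, k1.2, k3.1, k3.2, k4.1, k4.2]
      · linarith [k1.1, k1.2, k3.1, k3.2, k4.1, k4.2]
    have e3 : co n i j (Fin.natAdd 4 q) - μ * Dq / D0 * co n i j 0 =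
        (W.crd n i j (Fin.natAdd 4 q) - μ * W.crd n i j 0) * Dq := by
      rw [e1, e2]
      field_simp
    rw [e3, abs_mul, abs_of_pos Dq0]
    refine mul_le_mul_of_nonneg_right (key.trans ?_) Dq0.le
    have hc' : 2 + dT W ≤ B'.d n ^ (-(y / 2)) := hc.trans (hdn n (by linarith))
    calc (2 + dT W) * B'.d n ^ y ≤ B'.d n ^ (-(y / 2)) * B'.d n ^ y :=
          mul_le_mul_of_nonneg_right hc' (hdp n _).le
      _ = B'.d n ^ (y / 2) := by
          rw [← Real.rpow_add (B'.pos n)]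
          congr 1
          ring

/-- **[RIG-0] on all classes of a dense part of an interior window, W-chart** -/
theorem strip_intW (hZ : ZWin B B' I J co monW C Y w (coneM Ma) T lam) (hA : ActM Ma Dr)
    (hco : ∀ n, ∀ i ∈ I n, ∀ j ∈ I n, ∀ k, co n i j k = u n k * coW (kp n) (f n i) (f n j) k)
    (hgr : ∀ n, GrU (u n)) (hk1 : ∀ n, |kp n| ≤ 1) (H : ThinF Ma lam q V a)
    (hq : (q = 10 ∧ V = 3) ∨ (q = 11 ∧ V = 2)) (hx : 0 < x)
    (tP : ∀ᶠ n in (U : Filter ℕ), Y n 17 = Y n 0 + Y n 16)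
    (tV : ∀ᶠ n in (U : Filter ℕ),
      Y n 17 = Y n (Fin.castAdd 14 V) + Y n (Fin.natAdd 4 q)) {η : ℝ} (hη : 0 < η)
    (hη1 : η ≤ 1) :
    ∃ y₀ : ℝ, 0 < y₀ ∧ y₀ ≤ x ∧ ∃ J1 : ℕ → Finset (ℕ × ℝ), (∀ n, J1 n ⊆ J n) ∧
      ∀ᶠ n in (U : Filter ℕ), B'.d n ^ (3 * η * y₀) * ((J n).card : ℝ) ≤ ((J1 n).card : ℝ) ∧
        ∀ s ∈ J1 n, PLaw (co n) (Fin.natAdd 4 q) (B.d n ^ (Y n + w n • scV x (n0T q)) 0)
          (B.d n ^ (Y n + w n • scV x (n0T q)) (Fin.natAdd 4 q)) (B'.d n ^ (-(2 * η * y₀)))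
          (B'.d n ^ (y₀ / 2))
          (cls (J1 n) (zlab B I co monW C (fun n => Y n + w n • scV x (n0T q)) w n 0) s) := by
  obtain ⟨θ, hθ, hθ1, hrig⟩ := rig0_thin (σ := 1) (s := (a + 1) / 2) (a := a) (η := η) H.a0
    (by linarith [H.a1]) (by linarith [H.a1]) le_rfl hη hη1
  have hq' : q = 10 ∨ q = 11 := hq.imp (fun e => e.1) fun e => e.1
  have hd := wdT hq'
  have h0 : scV x (n0T q) ∈ coneM Ma := by
    rw [hA.cone]
    intro k _ l hl _
    rw [sum_scV]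
    exact mul_le_mul_of_nonneg_left (by exact_mod_cast hd.off k l hl) hx.le
  have hZ' := hZ.shift h0
  have hDp : ∀ n (v : ℝ), 0 < B.d n ^ v := fun n v => Real.rpow_pos_of_pos (B.pos n) v
  have hdn : ∀ n {v v' : ℝ}, v ≤ v' → B'.d n ^ v' ≤ B'.d n ^ v := fun n {v v'} h' =>
    Real.rpow_le_rpow_of_exponent_ge (B'.pos n) (B'.lt n).le h'
  have hθx : θ * x ≤ x := by nlinarith
  obtain ⟨y₀, h1, h2, J1, h3, h4⟩ := strip_to_global' (B := B') (J := J)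
    (fun n => zlab B I co monW C (fun n => Y n + w n • scV x (n0T q)) w n 0) hZ'.T0
    (fun ε hε => by
      filter_upwards [hZ'.prof.up 0 ε hε] with n hn s hs
      have := hn 0 hZ'.zero (by rw [norm_zero]) s hs
      rwa [hZ'.lam0, zero_add] at this) (a := θ * x) (b := x) (mul_pos hθ hx) hθx hη hη1
    (fun n y G => PLaw (co n) (Fin.natAdd 4 q) (B.d n ^ (Y n + w n • scV x (n0T q)) 0)
          (B.d n ^ (Y n + w n • scV x (n0T q)) (Fin.natAdd 4 q)) (B'.d n ^ (-(η * y)))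
          (B'.d n ^ (y / 2)) G)
    (fun n y G => PLaw (co n) (Fin.natAdd 4 q) (B.d n ^ (Y n + w n • scV x (n0T q)) 0)
          (B.d n ^ (Y n + w n • scV x (n0T q)) (Fin.natAdd 4 q)) (B'.d n ^ (-(2 * η * y)))
          (B'.d n ^ (y / 2)) G)
    (fun n y G G' hG h => h.mono hG)
    (fun n y y' G hy1 hy2 hy3 h => h.weak (hDp n _).le (hdn n (by
      have h5 : η * y ≤ η * ((1 + η) * y') := mul_le_mul_of_nonneg_left hy3 hη.le
      have h6 : 0 ≤ y' := le_trans (mul_pos hθ hx).le hy1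
      have h7 : η * (η * y') ≤ η * (1 * y') := mul_le_mul_of_nonneg_left
        (mul_le_mul_of_nonneg_right hη1 h6) hη.le
      linarith)) (hdn n (by linarith)))
    (fun Gd hGd _ hdens => strip_loc hZ hA hco hgr hk1 H hq hx tP tV hη hη1 hθ
      (fun h _ _ _ L => hrig h L) Gd hGd hdens)
  exact ⟨y₀, lt_of_lt_of_le (mul_pos hθ hx) h1, h2, J1, h3, h4⟩

end

end Crest.Agent.R136.Rt478
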