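import Crest.Agent.R136.LadG2_697
import Crest.Agent.R136.Rt6_478

/-!
# R136 (helper478): walls of the W-chart, interfaces of the window chain

* `OLaw` : the own motion in the slots `Vs` is the gauge `e i` of the slot `j`, on a set of incidences.
* `OwC` : exponents which do not cost on the lines.
* `IntLaw` : the law on a part (power loss `3 η y₀`) of every window of an interior tangent.
* `RecLaw` : record window with the law up to `B'^K` for every `K`; few labels `gl` on own classes.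
-/

set_option autoImplicit false
set_option linter.unusedVariables false

open Finset Filter Topology

namespace Crest.Agent.R136.RL478

open Crest.Agent.R136.Net191
open Crest.Agent.R136.NetW191
open Crest.Agent.R136.PrW464
open Crest.Agent.R136.NatW697
open Crest.Agent.R136.LadW697
open Crest.Agent.R136.LadG697
open Crest.Agent.R136.Zpr779
open Crest.Agent.R136.Qg926
open Crest.Agent.R136.EvW938
open Crest.Agent.R136.AwJ774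
open Crest.Agent.R136.K2S774
open Crest.Agent.R138.Ex926

/-- **the own motion in the slots `Vs` is a gauge of the slot `j`**; `D` = sides (`B.d ^ exponent`),
size `s`, precision `r` -/
def OLaw (κ : ℝ) (f : ℕ × ℝ → FW) (u D : Fin 18 → ℝ) (j : Fin 14) (Vs : Finset (Fin 14))
    (s r : ℝ) (e : ℕ × ℝ → ℝ) (G : Finset (ℕ × ℝ)) : Prop :=
  ∀ i ∈ G, u (Fin.natAdd 4 j) * |e i| ≤ s * D (Fin.natAdd 4 j) ∧
    ∀ i' ∈ G, i.1 = i'.1 → u (Fin.natAdd 4 j) * |e i' - e i| ≤ r * D (Fin.natAdd 4 j) ∧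
      ∀ q ∈ Vs, u (Fin.natAdd 4 q) * |coW κ (f i) (f i') (Fin.natAdd 4 q) -
        e i * (tr κ (sh (coW κ (f i) (f i') 0)) (Pi.single j 1) q -
          (Pi.single j 1 : Fin 14 → ℝ) q)| ≤ r * D (Fin.natAdd 4 q)

/-- exponents which do not cost on the lines (at an interior base of the rung `s`) -/
def OwC (θ : Fin 3 → ℝ) (s : ℝ) (V : Set (Fin 18)) (c : Fin 18 → ℝ) : Prop :=
  c 0 ≤ 0 ∧ ∀ k ∈ V, KW θ k = s → c k ≤ 0

/-- **law of a wall at the interior tangent `lamI`** (inputs: 478's `strip_intW`, 599's `int_*`) -/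
def IntLaw (θ : Fin 3 → ℝ) (s : ℝ) (V Dr : Set (Fin 18)) (lamI : (Fin 18 → ℝ) → ℝ) (j : Fin 14)
    (Vs : Finset (Fin 14)) : Prop :=
  ∀ (B B' : Base) (I0 J : ℕ → Finset (ℕ × ℝ)) (κ : ℕ → ℝ) (u : ℕ → Fin 18 → ℝ)
    (F : ℕ → ℕ × ℝ → FW) (Y : ℕ → Fin 18 → ℝ) (w T : ℕ → ℝ),
    (∀ n, GrU (u n)) → (∀ n, |κ n| ≤ 1) → (B'.Sub fun n => |κ n|⁻¹) →
    AwZ146.BasX monW (mA monW (actW Dr)) (mA monW (actW Dr)) Y w →
    ZWin B B' I0 J (coU u κ F) monW 67 Y w (cn QW (actW Dr)) T lamI →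
    ∀ η : ℝ, 0 < η → η ≤ 1 → ∃ y₀ : ℝ, 0 < y₀ ∧ y₀ ≤ 1 ∧ ∃ c₀ ∈ cn QW (actW Dr),
      ∃ c₁ ∈ cn QW (actW Dr), OwC θ s V c₀ ∧ OwC θ s V c₁ ∧ ‖c₀‖ ≤ 1 ∧ ‖c₁‖ ≤ 1 ∧
        ∃ J1 : ℕ → Finset (ℕ × ℝ), (∀ n, J1 n ⊆ J n) ∧ ∀ᶠ n in (U : Filter ℕ),
          B'.d n ^ (3 * η * y₀) * ((J n).card : ℝ) ≤ ((J1 n).card : ℝ) ∧
          ∀ i ∈ J1 n, ∃ e : ℕ × ℝ → ℝ, OLaw (κ n) (F n) (u n) (fun k => B.d n ^ Y n k) j Vs
            (B'.d n ^ (-(2 * η * y₀))) (B'.d n ^ (y₀ / 2)) e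
            (cls (J1 n) (fun x => (zlab B I0 (coU u κ F) monW 67 Y w n c₀ x,
              zlab B I0 (coU u κ F) monW 67 Y w n c₁ x)) i)

/-- **record window with the law of a wall** (output of the window chain): `gl` = label, `e` = gauge per
incidence -/
structure RecLaw (θ : Fin 3 → ℝ) (g : ℝ) (q : Fin 3 → ℝ) (V Dr : Set (Fin 18))
    (P : Set (Fin 18 → ℝ)) (ν own : (Fin 18 → ℝ) → ℝ) (r0 : Fin 18 → ℝ)
    (B B' : Base) (I0 J : ℕ → Finset (ℕ × ℝ)) (κ : ℕ → ℝ) (u : ℕ → Fin 18 → ℝ)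
    (F : ℕ → ℕ × ℝ → FW) (X : ℕ → Fin 18 → ℝ) (w Tn To : ℕ → ℝ)
    (lam lo : (Fin 18 → ℝ) → ℝ) (j : Fin 14) (Vs : Finset (Fin 14))
    (gl : ℕ → ℕ × ℝ → (ℕ × ℝ) × (ℕ × ℝ)) (e : ℕ → ℕ × ℝ → ℝ) : Prop where
  u0 : ∀ n, GrU (u n)
  κ1 : ∀ n, |κ n| ≤ 1
  /-- the record window -/
  iw : IW B B' I0 J κ u F X w Dr Tn To lam lo
  st : StD P ν own r0 θ g q V Dr lam lo
  /-- own classes (own-wide) meet few labels -/
  few : ∀ K : ℝ, ∃ S : ℕ → ℝ, B'.Sub S ∧ ∀ᶠ n in (U : Filter ℕ), ∀ a ∈ cn QW (actW Dr), ‖a‖ ≤ K →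
    (∀ k ∈ V, a k ≤ btW θ k * a 0) → ∀ i ∈ J n,
    (((cls (J n) (zolb B I0 (coU u κ F) monW 67 X w n a) i).image (gl n)).card : ℝ) ≤ S n
  /-- natural size of the gauge -/
  size : ∀ ε : ℝ, 0 < ε → ∀ᶠ n in (U : Filter ℕ), ∀ i ∈ J n,
    u n (Fin.natAdd 4 j) * |e n i| ≤ B'.d n ^ (-ε) * B.d n ^ X n (Fin.natAdd 4 j)
  /-- pairs of one line with one label, every precision -/
  law : ∀ K : ℝ, ∀ᶠ n in (U : Filter ℕ), ∀ i ∈ J n, ∀ i' ∈ J n, i.1 = i'.1 → gl n i = gl n i' →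
    u n (Fin.natAdd 4 j) * |e n i' - e n i| ≤ B'.d n ^ K * B.d n ^ X n (Fin.natAdd 4 j) ∧
    ∀ q' ∈ Vs, u n (Fin.natAdd 4 q') * |coW (κ n) (F n i) (F n i') (Fin.natAdd 4 q') -
      e n i * (tr (κ n) (sh (coW (κ n) (F n i) (F n i') 0)) (Pi.single j 1) q' -
        (Pi.single j 1 : Fin 14 → ℝ) q')| ≤ B'.d n ^ K * B.d n ^ X n (Fin.natAdd 4 q')

end Crest.Agent.R136.RL478
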