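import Crest.Agent.R136.Int3_599
import Crest.Agent.R136.RL0_478

/-!
# R136 (helper599): the wall resonances in an interior window, part 4: 478's `IntLaw`

* `own_e` : own change of the gauge `e i = ψ - coW(x0, i)_j` (cocycle + `tr_lip`).
* `olaw_of` : from `ResAy` (labels at `1`, precision `y`) to `OLaw`.
* **`intLaw_AY`, `intLaw_YY`, `intLaw_zY`, `intLaw_BY`** : `IntLaw` from the numbers of the tangent.
-/

set_option autoImplicit false
set_option linter.unusedVariables false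
set_option linter.unusedSectionVars false

open Filter Topology

namespace Crest.Agent.R136.Int599

open Finset Crest.Agent.R136.NetW191 Crest.Agent.R136.Net191 Crest.Agent.R136.Qg926
open Crest.Agent.R136.EvW938 Crest.Agent.R136.Bas938 Crest.Agent.R136.Gf356
open Crest.Agent.R136.Aw413 Crest.Agent.R136.Dg219
open Crest.Agent.R136.Res2648 Crest.Agent.R136.Inv599
open Crest.Agent.R136.Rnl648 (S0 NumW NumR NumB ResA)
open Crest.Agent.R136.LadG697 (coU)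
open Crest.Agent.R136.LadW697 (QW WW actW)
open Crest.Agent.R136.NatW697 (KW)
open Crest.Agent.R136.AwJ774 (mA mem_mA coneM_mA)
open Crest.Agent.R136.K2S774 (cn)
open Crest.Agent.R136.RL478 (OLaw OwC IntLaw)
open Crest.Agent.R136.AwZ146 (BasX)
open Crest.Agent.R138.Ex926 (Base U cls)
open Crest.Agent.R138.Dp76 (Dense)

/-- **own change of the gauge** -/
theorem own_e {κ : ℝ} (hκ : |κ| ≤ 1) {X : Fin 18 → ℝ} (hX : SidesW X) {K τ : ℝ} (hK : 1 ≤ K)
    (hτ : 0 ≤ τ) (hτ1 : τ ≤ 1) {r x x' : FW} {j : Fin 14} {R0 : ℝ}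
    (h1 : ∀ s, |coW κ r x s| ≤ K * X s) (h2 : ∀ s, |coW κ x x' s| ≤ K * X s)
    (h3 : ∀ i : Fin 4, i ≠ 0 → |coW κ x x' (Fin.castAdd 14 i)| ≤ K * τ * X (Fin.castAdd 14 i))
    (h4 : |coW κ x x' (Fin.natAdd 4 j)| ≤ K * τ * X (Fin.natAdd 4 j))
    (h5 : |tr κ (sh (coW κ x x' 0)) (flg (coW κ r x)) j - flg (coW κ r x) j| ≤ R0) :
    |coW κ r x' (Fin.natAdd 4 j) - coW κ r x (Fin.natAdd 4 j)| ≤
      (K + 470 * K ^ 7) * τ * X (Fin.natAdd 4 j) + R0 := by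
  have hK0 : 0 ≤ K := by linarith
  have e1 := congrFun (cocycle κ r x x') j
  rw [Pi.add_apply] at e1
  rw [← coW_right, ← coW_right, ← frm_coW, ← flg_coW] at e1
  have k1 := tr_lip (q := j) (h := frm (coW κ x x')) (h' := sh (coW κ x x' 0))
    (w := flg (coW κ r x)) (w' := flg (coW κ r x)) hκ hX hK hτ (fun i => h2 _)
    (fun i => by
      by_cases hi : i = 0
      · subst hi; exact h2 0
      · have : sh (coW κ x x' 0) i = 0 := by fin_cases i <;> first | exact absurd rfl hi | rfl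
        rw [this, abs_zero]
        exact mul_nonneg hK0 (hX.pos _))
    (fun i => by
      by_cases hi : i = 0
      · subst hi
        have : frm (coW κ x x') 0 - sh (coW κ x x' 0) 0 = 0 := sub_self _
        rw [this, abs_zero]
        exact mul_nonneg (mul_nonneg hK0 hτ) (hX.pos _)
      · have : sh (coW κ x x' 0) i = 0 := by fin_cases i <;> first | exact absurd rfl hi | rfl
        rw [this, sub_zero]
        exact h3 i hi)
    (fun q => h1 _)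
    (fun q => by rw [sub_self, abs_zero]; exact mul_nonneg (mul_nonneg hK0 hτ) (hX.pos _))
  have e2 : coW κ r x' (Fin.natAdd 4 j) - coW κ r x (Fin.natAdd 4 j) =
      coW κ x x' (Fin.natAdd 4 j) + (tr κ (frm (coW κ x x')) (flg (coW κ r x)) j -
        tr κ (sh (coW κ x x' 0)) (flg (coW κ r x)) j) +
      (tr κ (sh (coW κ x x' 0)) (flg (coW κ r x)) j - flg (coW κ r x) j) := by
    have e3 : flg (coW κ r x) j = coW κ r x (Fin.natAdd 4 j) := rfl
    rw [e3]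
    linarith
  rw [e2]
  have e4 : (K + 470 * K ^ 7) * τ * X (Fin.natAdd 4 j) + R0 =
      K * τ * X (Fin.natAdd 4 j) + 470 * K ^ 7 * τ * X (Fin.natAdd 4 j) + R0 := by ring
  rw [e4]
  exact (abs_add_le _ _).trans (add_le_add ((abs_add_le _ _).trans (add_le_add h4 k1)) h5)

section

variable {B B' : Base} {I0 J : ℕ → Finset (ℕ × ℝ)}
  {kp : ℕ → ℝ} {u : ℕ → Fin 18 → ℝ} {f : ℕ → ℕ × ℝ → FW} {Y : ℕ → Fin 18 → ℝ}
  {w : ℕ → ℝ} {Tz : ℕ → ℝ} {D : Set (Fin 18 → ℝ)} {lam : (Fin 18 → ℝ) → ℝ}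
  {S : Finset (Fin 18)} {Vs : Finset (Fin 14)} {j : Fin 14}

/-- the shift alone does not see the slot `j` -/
def ZOnly (B B' : Base) (u : ℕ → Fin 18 → ℝ) (Y : ℕ → Fin 18 → ℝ) (j : Fin 14) (n : ℕ)
    (ε : ℝ) : Prop :=
  ∀ (κ t : ℝ) (v : Fin 14 → ℝ),
    (∀ q, |v q| ≤ B'.d n ^ (-ε) * (B.d n ^ Y n (Fin.natAdd 4 q) / u n (Fin.natAdd 4 q))) →
    |t| ≤ B'.d n ^ (-ε) * (B.d n ^ Y n 0 / u n 0) →
    |tr κ (sh t) v j - v j| ≤ 2 * B'.d n ^ (1 - 2 * ε) *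
      (B.d n ^ Y n (Fin.natAdd 4 j) / u n (Fin.natAdd 4 j))

/-- **from `ResAy` to `OLaw`**, at one `n` -/
theorem olaw_of (hZ : ZWin B B' I0 J (coU u kp f) monW 67 Y w D Tz lam) {n : ℕ}
    (hgr : GrU (u n)) (hk1 : |kp n| ≤ 1) (l0 : Legal monW (Y n + w n • (0 : Fin 18 → ℝ)))
    (l1 : Legal monW (Y n + w n • cut S (fun _ => (1 : ℝ)) 0))
    (h123 : (1 : Fin 18) ∉ S ∧ (2 : Fin 18) ∉ S ∧ (3 : Fin 18) ∉ S)
    (hj : Fin.natAdd 4 j ∉ S) {y ε s r : ℝ} (hε : 0 < ε) (hz : ZOnly B B' u Y j n ε)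
    (hK : cK0 monW 67 ≤ B'.d n ^ (-ε)) {G : Finset (ℕ × ℝ)} (hGI : G ⊆ I0 n)
    (hG0 : ∀ i ∈ G, ∀ i' ∈ G, zlab B I0 (coU u kp f) monW 67 Y w n 0 i =
      zlab B I0 (coU u kp f) monW 67 Y w n 0 i')
    (hG1 : ∀ i ∈ G, ∀ i' ∈ G,
      zlab B I0 (coU u kp f) monW 67 Y w n (cut S (fun _ => (1 : ℝ)) 0) i =
      zlab B I0 (coU u kp f) monW 67 Y w n (cut S (fun _ => (1 : ℝ)) 0) i')
    (H : ResAy B B' I0 u kp f Y w S j Vs 1 y n ε G)
    (hs : 2 * B'.d n ^ (-ε) ≤ s) (hr : 473 * B'.d n ^ (1 - 7 * ε) ≤ r)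
    (hr' : B'.d n ^ (y - ε) ≤ r) :
    ∃ e : ℕ × ℝ → ℝ, OLaw (kp n) (f n) (u n) (fun k => B.d n ^ Y n k) j Vs s r e G := by
  obtain ⟨x0, hx0, ψ, h1, h2, h3⟩ := H
  set ρ := B'.d n with hρ
  have hd : ∀ v : ℝ, 0 < ρ ^ v := fun v => Real.rpow_pos_of_pos (B'.pos n) v
  have hD : ∀ k, 0 < B.d n ^ Y n k := fun k => Real.rpow_pos_of_pos (B.pos n) _
  have hu : ∀ k, 0 < u n k := hgr.pos
  set X : Fin 18 → ℝ := fun k => B.d n ^ Y n k / u n k with hXdef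
  have hX0 : ∀ k, 0 < X k := fun k => div_pos (hD k) (hu k)
  have hX : SidesW X := by
    rw [smul_zero, add_zero] at l0
    exact sidesW_of_legalG (B.pos n) (B.lt n).le hgr l0
  have toX : ∀ (k : Fin 18) (a A : ℝ), u n k * |a| ≤ A * B.d n ^ Y n k → |a| ≤ A * X k := by
    intro k a A h
    have e : A * X k = A * B.d n ^ Y n k / u n k := by rw [hXdef]; ring
    rw [e, le_div_iff₀ (hu k)]
    linarith
  have ofX : ∀ (k : Fin 18) (a A : ℝ), |a| ≤ A * X k → u n k * |a| ≤ A * B.d n ^ Y n k := by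
    intro k a A h
    have h5 := mul_le_mul_of_nonneg_left h (hu k).le
    refine h5.trans (le_of_eq ?_)
    show u n k * (A * (B.d n ^ Y n k / u n k)) = _
    have := (hu k).ne'
    field_simp
  -- boxes of equal labels
  have hbox : ∀ (c : Fin 18 → ℝ), Legal monW (Y n + w n • c) → ∀ i ∈ G, ∀ i' ∈ G,
      zlab B I0 (coU u kp f) monW 67 Y w n c i = zlab B I0 (coU u kp f) monW 67 Y w n c i' →
      ∀ k, |coW (kp n) (f n i) (f n i') k| ≤ ρ ^ (-ε) * ρ ^ c k * X k := by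
    intro c hc i hi i' hi' hl k
    have h5 := hZ.near_of_zlab hc (hGI hi) (hGI hi') hl k
    have h6 : u n k * |coW (kp n) (f n i) (f n i') k| ≤ (ρ ^ (-ε) * ρ ^ c k) * B.d n ^ Y n k := by
      have e : |coU u kp f n i i' k| = u n k * |coW (kp n) (f n i) (f n i') k| := by
        show |u n k * _| = _
        rw [abs_mul, abs_of_pos (hu k)]
      rw [← e]
      refine h5.trans ?_
      have h7 : 0 ≤ B.d n ^ Y n k * ρ ^ c k := mul_nonneg (hD k).le (hd _).le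
      refine (mul_le_mul_of_nonneg_right hK h7).trans (le_of_eq ?_)
      ring
    exact toX k _ _ h6
  have hK1 : 1 ≤ ρ ^ (-ε) := Real.one_le_rpow_of_pos_of_le_one_of_nonpos (B'.pos n) (B'.lt n).le
    (by linarith)
  have hτ1 : ρ ^ (1 : ℝ) ≤ 1 := Real.rpow_le_one (B'.pos n).le (B'.lt n).le zero_le_one
  refine ⟨fun i => ψ - coW (kp n) (f n x0) (f n i) (Fin.natAdd 4 j), fun i hi => ⟨?_,
    fun i' hi' _ => ⟨?_, fun q hq => ?_⟩⟩⟩
  · have h5 : |ψ - coW (kp n) (f n x0) (f n i) (Fin.natAdd 4 j)| ≤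
        |ψ| + |coW (kp n) (f n x0) (f n i) (Fin.natAdd 4 j)| := abs_sub _ _
    have h6 := mul_le_mul_of_nonneg_left h5 (hu (Fin.natAdd 4 j)).le
    rw [mul_add] at h6
    have h7 := h2 i hi (Fin.natAdd 4 j)
    have h8 := mul_le_mul_of_nonneg_right hs (hD (Fin.natAdd 4 j)).le
    show _ ≤ s * B.d n ^ Y n (Fin.natAdd 4 j)
    linarith
  · have hb0 := hbox 0 l0 i hi i' hi' (hG0 i hi i' hi')
    have hb1 := hbox _ l1 i hi i' hi' (hG1 i hi i' hi')
    have hb1' : ∀ k, k ∉ S → |coW (kp n) (f n i) (f n i') k| ≤ ρ ^ (-ε) * ρ ^ (1 : ℝ) * X k := by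
      intro k hk
      have := hb1 k
      rwa [cut_of_notMem hk] at this
    have k1 := own_e (R0 := 2 * ρ ^ (1 - 2 * ε) * X (Fin.natAdd 4 j)) hk1 hX hK1 (hd 1).le hτ1
      (r := f n x0) (x := f n i) (x' := f n i') (j := j)
      (fun k => toX k _ _ (h2 i hi k))
      (fun k => by
        have := hb0 k
        rwa [Pi.zero_apply, Real.rpow_zero, mul_one] at this)
      (fun p hp => by
        refine hb1' _ ?_
        fin_cases p
        · exact absurd rfl hp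
        · exact h123.1
        · exact h123.2.1
        · exact h123.2.2)
      (hb1' _ hj)
      (hz _ _ _ (fun q => toX _ _ _ (h2 i hi _)) (by
        have := hb0 0
        rwa [Pi.zero_apply, Real.rpow_zero, mul_one] at this))
    have e1 : (ψ - coW (kp n) (f n x0) (f n i') (Fin.natAdd 4 j)) -
        (ψ - coW (kp n) (f n x0) (f n i) (Fin.natAdd 4 j)) =
        -(coW (kp n) (f n x0) (f n i') (Fin.natAdd 4 j) -
          coW (kp n) (f n x0) (f n i) (Fin.natAdd 4 j)) := by ring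
    show u n (Fin.natAdd 4 j) * |(ψ - coW (kp n) (f n x0) (f n i') (Fin.natAdd 4 j)) -
        (ψ - coW (kp n) (f n x0) (f n i) (Fin.natAdd 4 j))| ≤ r * B.d n ^ Y n (Fin.natAdd 4 j)
    rw [e1, abs_neg]
    refine ofX _ _ _ (k1.trans ?_)
    have e2 : (ρ ^ (-ε)) ^ 7 = ρ ^ (-(7 * ε)) := by
      rw [← Real.rpow_natCast, ← Real.rpow_mul (B'.pos n).le]
      congr 1
      push_cast
      ring
    have e3 : ρ ^ (-ε) ≤ ρ ^ (-(7 * ε)) :=
      Real.rpow_le_rpow_of_exponent_ge (B'.pos n) (B'.lt n).le (by linarith)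
    have e4 : ρ ^ (-(7 * ε)) * ρ ^ (1 : ℝ) = ρ ^ (1 - 7 * ε) := by
      rw [← Real.rpow_add (B'.pos n)]; congr 1; ring
    have e5 : ρ ^ (1 - 2 * ε) ≤ ρ ^ (1 - 7 * ε) :=
      Real.rpow_le_rpow_of_exponent_ge (B'.pos n) (B'.lt n).le (by linarith)
    have e6 : (ρ ^ (-ε) + 470 * (ρ ^ (-ε)) ^ 7) * ρ ^ (1 : ℝ) + 2 * ρ ^ (1 - 2 * ε) ≤ r := by
      rw [e2]
      have e7 : (ρ ^ (-ε) + 470 * ρ ^ (-(7 * ε))) * ρ ^ (1 : ℝ) ≤
          471 * (ρ ^ (-(7 * ε)) * ρ ^ (1 : ℝ)) := by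
        have := (hd (1 : ℝ)).le
        nlinarith [mul_le_mul_of_nonneg_right e3 this]
      rw [e4] at e7
      linarith
    have e8 := mul_le_mul_of_nonneg_right e6 (hX0 (Fin.natAdd 4 j)).le
    linarith
  · refine (h3 i hi i' hi' (hG1 i hi i' hi') q hq).trans ?_
    exact mul_le_mul_of_nonneg_right hr' (hD _).le

/-- from a wall list to the monomials of the stage -/
theorem gap_list {Dr : Set (Fin 18)} (hX : BasX monW (mA monW (actW Dr)) (mA monW (actW Dr)) Y w)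
    {k : Fin 18} {l : List (Fin 18)} (hl : l ∈ mlW k) {d : Fin 18} (hd : d ∈ l) (hdD : d ∈ Dr)
    (R : ℝ) : ∀ᶠ n in (U : Filter ℕ), Y n k + R * w n ≤ (l.map (Y n)).sum := by
  have h1 : (fun s => l.count s) ∉ (mA monW (actW Dr)).mon k := by
    intro hm
    obtain ⟨hk, l', hl', hls, he⟩ := ((actM_mA Dr).iff k _).1 hm
    have h2 : l.count d = l'.count d := congrFun he d
    have h3 : 0 < l'.count d := by rw [← h2]; exact List.count_pos_iff.2 hd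
    exact hls d (List.count_pos_iff.1 h3) hdD
  filter_upwards [hX.gap k _ (mem_monW.2 ⟨l, hl, rfl⟩) h1 R] with n hn
  rw [sum_count]
  exact hn

theorem tight_of_basX {Dr : Set (Fin 18)}
    (hX : BasX monW (mA monW (actW Dr)) (mA monW (actW Dr)) Y w) :
    TightM (mA monW (actW Dr)) Y := fun k e he => Eventually.of_forall fun n => hX.act k e he n

/-- the shift alone does not see the slots `YY, AY, zY` -/
theorem zonly_of {B B' : Base} {u : ℕ → Fin 18 → ℝ} {n : ℕ} {ε : ℝ} (hu : ∀ k, 0 < u n k)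
    (hj : j = 0 ∨ j = 2 ∨ j = 4) : ZOnly B B' u Y j n ε := by
  intro κ t v _ _
  have h0 : tr κ (sh t) v j - v j = 0 := by
    rcases hj with rfl | rfl | rfl
    · rw [tr_sh0, sub_self]
    · rw [tr_sh2, sub_self]
    · rw [tr_sh4, sub_self]
  rw [h0, abs_zero]
  have h1 : 0 < B'.d n ^ (1 - 2 * ε) := Real.rpow_pos_of_pos (B'.pos n) _
  have h2 : 0 < B.d n ^ Y n (Fin.natAdd 4 j) := Real.rpow_pos_of_pos (B.pos n) _
  have h3 := hu (Fin.natAdd 4 j)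
  positivity

/-- the shift alone does not see the slot `BY` if `YY` is dropped -/
theorem zonly_BY {B B' : Base} {u : ℕ → Fin 18 → ℝ} {n : ℕ} {ε : ℝ} (hgr : GrU (u n))
    (hb : B'.d n = B.d n ^ w n) (hg : Y n 5 + 1 * w n ≤ Y n 0 + Y n 4) :
    ZOnly B B' u Y 1 n ε := by
  intro κ t v hv ht
  have e0 : tr κ (sh t) v 1 - v 1 = 2 * t * v 0 := by rw [tr_sh1]; ring
  rw [e0]
  have hu := hgr.pos
  have hK : 0 < B'.d n ^ (-ε) := Real.rpow_pos_of_pos (B'.pos n) _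
  have hD : ∀ k, 0 < B.d n ^ Y n k := fun k => Real.rpow_pos_of_pos (B.pos n) _
  have h0 : |v 0| ≤ B'.d n ^ (-ε) * (B.d n ^ Y n 4 / u n 4) := hv 0
  have h1 : |2 * t * v 0| = 2 * (|t| * |v 0|) := by
    rw [abs_mul, abs_mul, abs_two]; ring
  have h2 := mul_le_mul ht h0 (abs_nonneg _) (mul_nonneg hK.le (div_pos (hD 0) (hu 0)).le)
  have h3 : u n 0 * u n 4 = u n 5 := by
    have := hgr.mul 5 [0, 4] (by decide)
    simpa using this
  have h4 : B.d n ^ Y n 0 * B.d n ^ Y n 4 ≤ B'.d n ^ (1 : ℝ) * B.d n ^ Y n 5 := by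
    rw [Real.rpow_one, hb, ← Real.rpow_add (B.pos n), ← Real.rpow_add (B.pos n)]
    exact Real.rpow_le_rpow_of_exponent_ge (B.pos n) (B.lt n).le (by linarith)
  rw [h1]
  show 2 * (|t| * |v 0|) ≤ 2 * B'.d n ^ (1 - 2 * ε) * (B.d n ^ Y n 5 / u n 5)
  have h5 : B'.d n ^ (-ε) * (B.d n ^ Y n 0 / u n 0) * (B'.d n ^ (-ε) * (B.d n ^ Y n 4 / u n 4)) =
      (B'.d n ^ (-ε) * B'.d n ^ (-ε)) * (B.d n ^ Y n 0 * B.d n ^ Y n 4) / u n 5 := by
    rw [← h3]
    have := (hu 0).ne'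
    have := (hu 4).ne'
    field_simp
  have h6 : B'.d n ^ (-ε) * B'.d n ^ (-ε) * B'.d n ^ (1 : ℝ) = B'.d n ^ (1 - 2 * ε) := by
    rw [← Real.rpow_add (B'.pos n), ← Real.rpow_add (B'.pos n)]
    congr 1
    ring
  have h7 : B'.d n ^ (-ε) * (B.d n ^ Y n 0 / u n 0) * (B'.d n ^ (-ε) * (B.d n ^ Y n 4 / u n 4)) ≤
      B'.d n ^ (1 - 2 * ε) * (B.d n ^ Y n 5 / u n 5) := by
    rw [h5, ← h6, mul_div_assoc, mul_div_assoc', mul_div_assoc']
    refine div_le_div_of_nonneg_right ?_ (hu 5).le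
    have := mul_le_mul_of_nonneg_left h4 (mul_pos hK hK).le
    linarith
  linarith [h2.trans h7]

/-- **from the interior theorems to `IntLaw`** -/
theorem intLaw_of {θ : Fin 3 → ℝ} {s : ℝ} {V Dr : Set (Fin 18)} {lamI : (Fin 18 → ℝ) → ℝ}
    {y : ℝ} (hy : 0 < y) (hy1 : y ≤ 1) (hS : WDat (fun _ => 0) (fun _ => 1) 1 S)
    (hj : Fin.natAdd 4 j ∉ S) (hVS : ∀ k ∈ V, KW θ k = s → k ∈ S)
    (hzo : ∀ (B B' : Base) (u : ℕ → Fin 18 → ℝ) (Y : ℕ → Fin 18 → ℝ) (w : ℕ → ℝ),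
      (∀ n, GrU (u n)) → (∀ n, B'.d n = B.d n ^ w n) →
      BasX monW (mA monW (actW Dr)) (mA monW (actW Dr)) Y w →
      ∀ᶠ n in (U : Filter ℕ), ∀ ε : ℝ, ZOnly B B' u Y j n ε)
    (hint : ∀ (B B' : Base) (I0 J : ℕ → Finset (ℕ × ℝ)) (κ : ℕ → ℝ) (u : ℕ → Fin 18 → ℝ)
      (F : ℕ → ℕ × ℝ → FW) (Y : ℕ → Fin 18 → ℝ) (w T : ℕ → ℝ),
      (∀ n, GrU (u n)) → (∀ n, |κ n| ≤ 1) → (B'.Sub fun n => |κ n|⁻¹) →
      BasX monW (mA monW (actW Dr)) (mA monW (actW Dr)) Y w →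
      ZWin B B' I0 J (coU u κ F) monW 67 Y w (coneM (mA monW (actW Dr))) T lamI →
      ∃ J1 : ℕ → Finset (ℕ × ℝ), (∀ n, J1 n ⊆ J n) ∧ Dense B' J1 J ∧
        ∀ ε : ℝ, 0 < ε → ∀ᶠ n in (U : Filter ℕ), ∀ i ∈ J1 n,
          ResAy B B' I0 u κ F Y w S j Vs 1 y n ε
            (cls (J1 n) (zlab B I0 (coU u κ F) monW 67 Y w n 0) i)) :
    IntLaw θ s V Dr lamI j Vs := by
  intro B B' I0 J κ u F Y w T hgr hk1 hkp hX hZ η hη hη1
  have hZ' : ZWin B B' I0 J (coU u κ F) monW 67 Y w (coneM (mA monW (actW Dr))) T lamI := by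
    have e : coneM (mA monW (actW Dr)) = cn QW (actW Dr) := coneM_mA
    rw [e]; exact hZ
  obtain ⟨J1, hJ1, hden, hres⟩ := hint B B' I0 J κ u F Y w T hgr hk1 hkp hX hZ'
  have hst := iw_st_ok (actM_mA Dr) hS zero_le_one
  have hc1 : cut S (fun _ => (1 : ℝ)) 0 ∈ coneM (mA monW (actW Dr)) := by
    have := hst.leg hst.lin_leg
    have e : (wst (mA monW (actW Dr)) (fun _ => 0) (fun _ => 1) 1 S 1).top = fun _ => (1 : ℝ) :=
      scV_one 1
    rw [e] at this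
    exact this
  have hn1 : ‖cut S (fun _ => (1 : ℝ)) (0 : Fin 18 → ℝ)‖ ≤ 1 := by
    refine (pi_norm_le_iff_of_nonneg zero_le_one).2 fun k => ?_
    by_cases hk : k ∈ S
    · rw [cut_of_mem hk]; simp
    · rw [cut_of_notMem hk]; simp
  have hη0 : 0 < η * y := mul_pos hη hy
  have hηy : η * y ≤ y := by nlinarith
  have h5 : 0 < η * y / 28 := by positivity
  refine ⟨y, hy, hy1, 0, ?_, cut S (fun _ => (1 : ℝ)) 0, ?_, ⟨le_rfl, fun _ _ _ => le_rfl⟩,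
    ⟨?_, fun k hk hks => ?_⟩, by simp, hn1, J1, hJ1, ?_⟩
  · have : (0 : Fin 18 → ℝ) ∈ coneM (mA monW (actW Dr)) := hZ'.zero
    rwa [coneM_mA] at this
  · have h6 := hc1
    rwa [coneM_mA] at h6
  · rw [cut_of_mem hS.zS]; rfl
  · rw [cut_of_mem (hVS k hk hks)]; rfl
  · have hl1 : ∀ᶠ n in (U : Filter ℕ), Legal monW (Y n + w n • cut S (fun _ => (1 : ℝ)) 0) :=
      (hZ'.legal 1).mono fun n hn => hn _ hc1 hn1
    have hl0 : ∀ᶠ n in (U : Filter ℕ), Legal monW (Y n + w n • (0 : Fin 18 → ℝ)) :=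
      (hZ'.legal 1).mono fun n hn => hn _ hZ'.zero (by simp)
    filter_upwards [hden.2 (3 * η * y) (by positivity), hres (η * y / 28) h5, hl0, hl1,
      hZ'.sub, hzo B B' u Y w hgr hZ'.base hX,
      Gf356.ev_const_le B' h5 (cK0 monW 67), Gf356.ev_const_le B' h5 2,
      Gf356.ev_const_le B' (show (0 : ℝ) < 1 / 4 by norm_num) 473]
      with n g1 g2 g3 g4 g5 g6 g7 g8 g9
    refine ⟨g1, fun i hi => ?_⟩
    have hd : ∀ v : ℝ, 0 < B'.d n ^ v := fun v => Real.rpow_pos_of_pos (B'.pos n) v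
    have hdn : ∀ {v v' : ℝ}, v ≤ v' → B'.d n ^ v' ≤ B'.d n ^ v := fun {v v'} h' =>
      Real.rpow_le_rpow_of_exponent_ge (B'.pos n) (B'.lt n).le h'
    set G := cls (J1 n) (fun x => (zlab B I0 (coU u κ F) monW 67 Y w n 0 x,
      zlab B I0 (coU u κ F) monW 67 Y w n (cut S (fun _ => (1 : ℝ)) 0) x)) i with hG
    have hGm : ∀ a ∈ G, a ∈ J1 n ∧ zlab B I0 (coU u κ F) monW 67 Y w n 0 a =
        zlab B I0 (coU u κ F) monW 67 Y w n 0 i ∧
        zlab B I0 (coU u κ F) monW 67 Y w n (cut S (fun _ => (1 : ℝ)) 0) a =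
        zlab B I0 (coU u κ F) monW 67 Y w n (cut S (fun _ => (1 : ℝ)) 0) i := by
      intro a ha
      obtain ⟨h7, h8⟩ := mem_filter.1 ha
      exact ⟨h7, congrArg Prod.fst h8, congrArg Prod.snd h8⟩
    have hGs : G ⊆ cls (J1 n) (zlab B I0 (coU u κ F) monW 67 Y w n 0) i := by
      intro a ha
      exact mem_filter.2 ⟨(hGm a ha).1, (hGm a ha).2.1⟩
    refine olaw_of hZ' (hgr n) (hk1 n) g3 g4 ⟨?_, ?_, ?_⟩ hj h5 (g6 _) g7
      (fun a ha => g5 (hJ1 n (hGm a ha).1))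
      (fun a ha a' ha' => (hGm a ha).2.1.trans (hGm a' ha').2.1.symm)
      (fun a ha a' ha' => (hGm a ha).2.2.trans (hGm a' ha').2.2.symm) ((g2 i hi).mono hGs)
      ?_ ?_ ?_
    · exact fun hm => (hS.hS 1 hm).1 rfl
    · exact fun hm => (hS.hS 2 hm).2.1 rfl
    · exact fun hm => (hS.hS 3 hm).2.2.1 rfl
    · calc 2 * B'.d n ^ (-(η * y / 28)) ≤ B'.d n ^ (-(η * y / 28)) * B'.d n ^ (-(η * y / 28)) :=
          mul_le_mul_of_nonneg_right g8 (hd _).le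
        _ = B'.d n ^ (-(η * y / 28) + -(η * y / 28)) := (Real.rpow_add (B'.pos n) _ _).symm
        _ ≤ B'.d n ^ (-(2 * η * y)) := hdn (by nlinarith)
    · calc 473 * B'.d n ^ (1 - 7 * (η * y / 28)) ≤
            B'.d n ^ (-(1 / 4 : ℝ)) * B'.d n ^ (1 - 7 * (η * y / 28)) :=
          mul_le_mul_of_nonneg_right g9 (hd _).le
        _ = B'.d n ^ (-(1 / 4 : ℝ) + (1 - 7 * (η * y / 28))) :=
          (Real.rpow_add (B'.pos n) _ _).symm
        _ ≤ B'.d n ^ (y / 2) := hdn (by nlinarith)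
    · exact hdn (by nlinarith)

end

/-! ### the four walls -/

section

variable {θ : Fin 3 → ℝ} {s : ℝ} {V Dr : Set (Fin 18)} {lamI : (Fin 18 → ℝ) → ℝ}

/-- **`AY`** -/
theorem intLaw_AY (h4 : (4 : Fin 18) ∈ Dr)
    (hDr : ∀ k ∈ ({2, 6, 9, 11, 14} : Finset (Fin 18)), k ∉ Dr)
    (hVS : ∀ k ∈ V, KW θ k = s → k ∈ SAY) (hN : NumW SAY {5} lamI) {r : ℝ}
    (hR : NumR SAY {1, 8} 2 r lamI) : IntLaw θ s V Dr lamI 2 {5} := by
  refine intLaw_of (S := SAY) one_pos le_rfl sdat_AY.wd (by decide) hVS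
    (fun B B' u Y w hgr hb hX => Eventually.of_forall fun n ε =>
      zonly_of (hgr n).pos (Or.inr (Or.inl rfl))) ?_
  intro B B' I0 J κ u F Y w T hgr hk1 hkp hX hZ
  have hA := actM_mA Dr
  have ht := tight_of_basX hX
  exact int_AY hZ hA h4 hgr hk1 hkp
    (ht.eq2 hA (hDr 14 (by decide)) (hDr 2 (by decide)) (hDr 9 (by decide)) (by decide))
    (ht.eq2 hA (hDr 11 (by decide)) (hDr 2 (by decide)) (hDr 6 (by decide)) (by decide))
    hN hR one_pos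

/-- **`YY`** -/
theorem intLaw_YY (hDr : ∀ k ∈ ({1, 2, 4, 5, 6, 7, 9} : Finset (Fin 18)), k ∉ Dr)
    (hVS : ∀ k ∈ V, KW θ k = s → k ∈ SYY) (hN : NumW SYY {1, 3} lamI) {r r' : ℝ}
    (hR : NumR SYY {1} 2 r lamI) (hR' : NumR SYY {2, 6} 1 r' lamI) :
    IntLaw θ s V Dr lamI 0 {1, 3} := by
  refine intLaw_of (S := SYY) one_pos le_rfl sdat_YY.wd (by decide) hVS
    (fun B B' u Y w hgr hb hX => Eventually.of_forall fun n ε =>
      zonly_of (hgr n).pos (Or.inl rfl)) ?_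
  intro B B' I0 J κ u F Y w T hgr hk1 hkp hX hZ
  have hA := actM_mA Dr
  have ht := tight_of_basX hX
  exact int_YY hZ hA hgr hk1 hkp
    (ht.eq2 hA (hDr 9 (by decide)) (hDr 2 (by decide)) (hDr 5 (by decide)) (by decide))
    (ht.eq2 hA (hDr 9 (by decide)) (hDr 1 (by decide)) (hDr 7 (by decide)) (by decide))
    (ht.eq2 hA (hDr 6 (by decide)) (hDr 2 (by decide)) (hDr 4 (by decide)) (by decide))
    hN hR hR' one_pos

/-- **`zY`** -/
theorem intLaw_zY (hDr : ∀ k ∈ ({0, 1, 2, 8, 10, 11, 12, 14, 15} : Finset (Fin 18)), k ∉ Dr)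
    (hVS : ∀ k ∈ V, KW θ k = s → k ∈ SzY) (hN : NumW SzY {6, 7, 10} lamI) {r r' : ℝ}
    (hR : NumR SzY {1} 2 r lamI) (hR' : NumR SzY {2, 12} 1 r' lamI) :
    IntLaw θ s V Dr lamI 4 {6, 7, 10} := by
  refine intLaw_of (S := SzY) one_pos le_rfl sdat_zY.wd (by decide) hVS
    (fun B B' u Y w hgr hb hX => Eventually.of_forall fun n ε =>
      zonly_of (hgr n).pos (Or.inr (Or.inr rfl))) ?_
  intro B B' I0 J κ u F Y w T hgr hk1 hkp hX hZ
  have hA := actM_mA Dr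
  have ht := tight_of_basX hX
  exact int_zY hZ hA hgr hk1 hkp
    (ht.eq2 hA (hDr 10 (by decide)) (hDr 0 (by decide)) (hDr 8 (by decide)) (by decide))
    (ht.eq2 hA (hDr 11 (by decide)) (hDr 0 (by decide)) (hDr 8 (by decide)) (by decide))
    (ht.eq2 hA (hDr 14 (by decide)) (hDr 0 (by decide)) (hDr 11 (by decide)) (by decide))
    (ht.eq2 hA (hDr 12 (by decide)) (hDr 2 (by decide)) (hDr 8 (by decide)) (by decide))
    (ht.eq2 hA (hDr 15 (by decide)) (hDr 2 (by decide)) (hDr 10 (by decide)) (by decide))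
    (ht.eq2 hA (hDr 15 (by decide)) (hDr 1 (by decide)) (hDr 14 (by decide)) (by decide))
    hN hR hR' one_pos

/-- **`BY`** -/
theorem intLaw_BY (h4 : (4 : Fin 18) ∈ Dr)
    (hDr : ∀ k ∈ ({3, 5, 7, 11, 14} : Finset (Fin 18)), k ∉ Dr)
    (hVS : ∀ k ∈ V, KW θ k = s → k ∈ SBY) (hN : NumW SBY {3} lamI) {c r : ℝ}
    (hB : NumB SBY c r lamI) : IntLaw θ s V Dr lamI 1 {3} := by
  refine intLaw_of (S := SBY) hB.c0 hB.c1 sdat_BY.wd (by decide) hVS
    (fun B B' u Y w hgr hb hX => ?_) ?_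
  · filter_upwards [gap_list hX (k := 5) (l := [0, 4]) (by decide) (d := 4) (by simp) h4 1]
      with n hn ε
    refine zonly_BY (hgr n) (hb n) ?_
    simpa using hn
  · intro B B' I0 J κ u F Y w T hgr hk1 hkp hX hZ
    have hA := actM_mA Dr
    have ht := tight_of_basX hX
    have := int_BY hZ hA h4 hgr hk1 hkp (fun R => by
        filter_upwards [gap_list hX (k := 7) (l := [0, 0, 4]) (by decide) (d := 4) (by simp) h4 R]
          with n hn
        have e : (([0, 0, 4] : List (Fin 18)).map (Y n)).sum = Y n 0 + Y n 0 + Y n 4 := by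
          simp; ring
        rw [e] at hn
        exact hn)
      (ht.eq2 hA (hDr 14 (by decide)) (hDr 3 (by decide)) (hDr 7 (by decide)) (by decide))
      (ht.eq2 hA (hDr 11 (by decide)) (hDr 3 (by decide)) (hDr 5 (by decide)) (by decide))
      hN hB one_pos
    rwa [mul_one] at this

end

end Crest.Agent.R136.Int599
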