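import Crest.Agent.R136.RL3_626
import Crest.Agent.R136.RL3_478

/-!
# R136, thin branch, resonant walls (helper626): `WallS` from the case list

* **`WallJ.wallS`** : 478's `WallS` from `WallJ`.
* **`wall_casesS`** : the six resonant walls with both structures.
-/

set_option autoImplicit false
set_option linter.unusedVariables false

open Finset Filter Topology

namespace Crest.Agent.R136.RL626

open Crest.Agent.R136.Net191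
open Crest.Agent.R136.NetW191
open Crest.Agent.R136.PrW464
open Crest.Agent.R136.NatW697
open Crest.Agent.R136.LadW697
open Crest.Agent.R136.LadG697
open Crest.Agent.R136.LadT830
open Crest.Agent.R136.AwJ774
open Crest.Agent.R136.K2S774
open Crest.Agent.R138.Ex926

/-- **`WallS` from `WallJ`** -/
theorem WallJ.wallS {θ : Fin 3 → ℝ} {s : ℝ} {j : Fin 14} {Vs : Finset (Fin 14)}
    {V : Set (Fin 18)} (W : WallJ θ s j Vs) (h2 : 2 ≤ s) (h4 : s ≤ 4)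
    (vis : ∀ k ∈ V, (4 ≤ k ∧ k ≠ 13 ∧ k ≠ 16 ∧ k ≠ 17) ∧ 0 < btW θ k)
    (ht : ∀ k ∈ V, KW θ k ≤ s) : RL478.WallS θ s V j Vs := by
  have dr4 := dr4_of h2 vis ht
  have key : ∀ q : Fin 14, KW θ (Fin.natAdd 4 q) = s → Fin.natAdd 4 q ∉ DrW s →
      TW s (Fin.natAdd 4 q) = btW θ (Fin.natAdd 4 q) := by
    intro q hq hD
    rw [TW_flag (four_le_natAdd q) hD, btW_KW θ (four_le_natAdd q), hq]
  refine ⟨?_, ?_, ?_, W.bj, ?_, ?_⟩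
  · refine ⟨fun h => ?_, fun h => ?_, fun h => ?_⟩
    · exact absurd (dr4 _ h).1 (by decide)
    · exact absurd (dr4 _ h).1 (by decide)
    · exact absurd rfl (dr4 _ h).2.1
  · intro k hk
    exact ⟨(vis k hk).1.1, fun h => (dr4 k h).2.2 hk, ht k hk, (vis k hk).2.le⟩
  · rw [key j W.kj W.not_Dr.1, W.bj]
  · exact fun q hq => key q (W.pos q hq).1 (W.not_Dr.2 q hq)
  · intro q hq
    obtain ⟨h5, h6⟩ := W.pos q hq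
    rw [btW_KW θ (four_le_natAdd q), h5]
    have h7 : Fin.natAdd 4 q ≠ 17 := by
      have key : ∀ q : Fin 14, q ≠ 13 → (Fin.natAdd 4 q : Fin 18) ≠ 17 := by decide
      exact key q (W.vne q hq).2.2
    have h8 := alW_pos _ (four_le_natAdd q) h7
    have h9 : (1 : ℝ) ≤ ((alW (Fin.natAdd 4 q) : ℤ) : ℝ) := by exact_mod_cast h8
    linarith

/-- **the six resonant walls, complete data** -/
theorem wall_data {θ : Fin 3 → ℝ} (h1 : 0 < θ 1) {V : Set (Fin 18)} {s : ℝ}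
    (vis : ∀ k ∈ V, (4 ≤ k ∧ k ≠ 13 ∧ k ≠ 16 ∧ k ≠ 17) ∧ 0 < btW θ k)
    (ht : Top θ (fun k => k ∈ V) s) (h2 : 2 ≤ s) (hr : Reso θ s) :
    (∀ k ∈ DrW s, 4 ≤ k ∧ k ≠ 17 ∧ k ∉ V) ∧ s ≤ 4 ∧
    ∃ (j : Fin 14) (Vs : Finset (Fin 14)), WallJ θ s j Vs ∧ RL478.WallS θ s V j Vs ∧
      ((s = 2 ∧ j = 7 ∧ Vs = {10}) ∨ (s = 2 ∧ j = 8 ∧ Vs = {11}) ∨
        (s = 3 ∧ j = 4 ∧ Vs = {6, 7, 10}) ∨ (s = 3 ∧ j = 2 ∧ Vs = {5}) ∨
        (s = 3 ∧ j = 1 ∧ Vs = {3}) ∨ (s = 4 ∧ j = 0 ∧ Vs = {1, 3})) := by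
  have hK : ∀ k ∈ V, KW θ k ≤ s := fun k hk => ht.2 k hk
  have hc := wall_cases h1 vis ht h2 hr
  have h4 : s ≤ 4 := by
    rcases hc with ⟨h, -⟩ | ⟨h, -⟩ | ⟨h, -⟩ | ⟨h, -⟩ | ⟨h, -⟩ | ⟨h, -⟩ <;> rw [h] <;> norm_num
  refine ⟨dr4_of h2 vis hK, h4, ?_⟩
  rcases hc with ⟨h, W⟩ | ⟨h, W⟩ | ⟨h, W⟩ | ⟨h, W⟩ | ⟨h, W⟩ | ⟨h, W⟩
  · exact ⟨_, _, W, W.wallS h2 h4 vis hK, Or.inl ⟨h, rfl, rfl⟩⟩
  · exact ⟨_, _, W, W.wallS h2 h4 vis hK, Or.inr (Or.inl ⟨h, rfl, rfl⟩)⟩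
  · exact ⟨_, _, W, W.wallS h2 h4 vis hK, Or.inr (Or.inr (Or.inl ⟨h, rfl, rfl⟩))⟩
  · exact ⟨_, _, W, W.wallS h2 h4 vis hK, Or.inr (Or.inr (Or.inr (Or.inl ⟨h, rfl, rfl⟩)))⟩
  · exact ⟨_, _, W, W.wallS h2 h4 vis hK, Or.inr (Or.inr (Or.inr (Or.inr (Or.inl ⟨h, rfl, rfl⟩))))⟩
  · exact ⟨_, _, W, W.wallS h2 h4 vis hK, Or.inr (Or.inr (Or.inr (Or.inr (Or.inr ⟨h, rfl, rfl⟩))))⟩

end Crest.Agent.R136.RL626
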