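import Crest.Agent.R136.Rn4_648

/-!
# R136, wall resonances (helper648): the numbers at the walls `(3, 3)`, `(4, 4)`, `(3, 4)`
-/

set_option autoImplicit false
set_option linter.unusedSectionVars false
set_option linter.unusedVariables false
set_option linter.style.longLine false
set_option maxRecDepth 4000

open Filter Topology

namespace Crest.Agent.R136.Rnm648

open Finset Crest.Agent.R138.Ex926 Crest.Agent.R136.Net191 Crest.Agent.R136.Gf356
open Crest.Agent.R136.Qg926 Crest.Agent.R136.Dg219 Crest.Agent.R136.Aw413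
open Crest.Agent.R136.NetW191 Crest.Agent.R136.EvW938 Crest.Agent.R136.PrW464
open Crest.Agent.R136.LadW697 Crest.Agent.R136.AwJ774 Crest.Agent.R136.Bas938
open Crest.Agent.R136.ThB830 Crest.Agent.R136.Pin851 Crest.Agent.R136.NatW697
open Crest.Agent.R136.Lfz648 Crest.Agent.R136.Pinv648 Crest.Agent.R136.Rnl648
open Crest.Agent.R136.Res2648 Crest.Agent.R136.LadT830
open Crest.Agent.R136.Rc146 (OutA)
open Crest.Agent.R136.K2S774 (cn)

section pt

variable {B Bo : Base} {I J : ℕ → Finset (ℕ × ℝ)} {co : ∀ n : ℕ, ℕ × ℝ → ℕ × ℝ → Fin 18 → ℝ}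
  {C : ℝ} {κ : ℕ → ℝ} {u : ℕ → Fin 18 → ℝ} {f : ℕ → ℕ × ℝ → FW} {K : ℝ}
  {θ : Fin 3 → ℝ} {q : Fin 3 → ℝ} {V T : Set (Fin 18)} {s : ℝ}
  {lam lo : (Fin 18 → ℝ) → ℝ} {A : ℝ × ℝ} {φ : ℕ → (Fin 18 → ℝ) → ℝ} {r : ℕ → ℝ}
  {Dr : Finset (Fin 18)}

/-! ### `(w, K) = (3, 3)` -/

/-- bad fractions -/
def bad3 : List (ℤ × ℤ) := [(4, 1), (5, 1), (6, 1)]

theorem bad3_ok : ∀ v ∈ bad3, (((3 : ℤ) : ℝ)) * v.2 ≠ v.1 := by
  intro v hv
  simp only [bad3, List.mem_cons, List.not_mem_nil, or_false] at hv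
  rcases hv with rfl | rfl | rfl <;> norm_num

theorem num33 (h : PtC B Bo I J co C κ u f K θ q V T (((3 : ℤ) : ℝ)) lam lo A φ r)
    (hw : ((3 : ℤ) : ℝ) = 1 - θ 0 + ((3 : ℤ) : ℝ) * θ 1) (hnd : ¬ 3 + ((3 : ℤ) : ℝ) ≤ -A.1) :
    NumW S33 {5} lam ∧ NumR S33 {1, 8} 2 1 lam := by
  have hDr := drW3
  have hth := h.th1
  have H := pinV_of h hDr
  have hG := grp_of (θ := θ) hth hDr
  rw [bN_eq hth hw] at hG
  obtain ⟨hA, hB⟩ := frames_ptC h
  have hi := ind_ptC h hDr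
  have hout := h.out.toOutS
  rw [hDr] at hout
  have dead : ∀ (P : Finset (Fin 18)) (f : Fin 18) (L : List Stp), f ≠ 17 →
      Okc noHT 3 bad3 {4} P f L → ¬ Vis lam P f := fun P f L hf hk hv =>
    hnd (row_end h hDr (H.chain hG hA hB bad3_ok L hv hf hk))
  have n14 : NoV {4} lam 14 := noV_of H (P := {0, 2, 3, 7, 17})
    (aloneE hG (by decide) (by decide)) (by decide) (by decide) (by decide)
    (dead _ _ [Stp.leaf 3 10 13 1 0 {0, 2, 7}] (by decide) (by decide))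
  have n7 : NoV {4} lam 7 := noV_of H (P := {0, 2, 3, 14})
    (aloneE hG (by decide) (by decide)) (by decide) (by decide) (by decide)
    (dead _ _ [Stp.leaf 3 3 10 2 0 {0, 2}, Stp.leaf 3 10 13 1 0 {0, 2, 7}] (by decide)
      (by decide))
  have f5 : Free lam (TW (((3 : ℤ) : ℝ))) {4} (insert 5 ∅) :=
    (H.free_or H.free_empty (j := 5) (TW_z0 hDr hth (by decide) (by decide)) (by decide)
      (by decide) (by decide) (by decide)).resolve_left
      (dead _ _ [Stp.leaf 2 1 5 2 1 {0, 7}, Stp.leaf 2 5 10 1 0 {0, 5, 7},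
        Stp.leaf 3 10 13 1 0 {0, 2, 7}] (by decide) (by decide))
  refine ⟨⟨fun x hx => ?_, frost_ptC h hDr, fun x hx => ?_⟩, ⟨one_pos, fun x t ht htx => ?_⟩⟩
  · refine dens_of hout (G_zero θ _) hi (by decide) (by decide) (by decide)
      (wholeE hG (by decide)) hx ?_
    rw [phi0_eq (Fr := insert 5 ∅) hout (G_zero θ _) (TW_c _) (by decide)
      (fun i hi => ?_) (fun i hi => ?_) hx, f5.free x hx]
    · exact TW_z0 hDr hth ((by decide : ∀ i ∈ (insert 5 ∅ : Finset (Fin 18)),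
        i ∉ ({4} : Finset (Fin 18))) i hi) ((by decide : ∀ i ∈ (insert 5 ∅ :
        Finset (Fin 18)), sI 3 i = 0) i hi)
    · obtain ⟨h1, h2⟩ := TW_z1 hDr hth hi
      exact (by decide : ∀ i : Fin 18, i ∉ ({4} : Finset (Fin 18)) → sI 3 i = 0 →
        (i ∈ S33 \ {4} ↔ i ∈ (insert 5 ∅ : Finset (Fin 18)))) i h1 h2
  · rw [cut_lines, cut_lines]
    have e0 := ind_drop hi (S := univ \ S33) (by decide) hx
    have e1 := smod_ind (A := (univ \ S33) \ {4}) (B := insert 5 ∅) (smod_ptC h hDr) H.zero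
      (by decide) (by decide) (by decide) (by decide) hx (f5.free x hx)
    have e2 := n7 (((univ \ S33) \ {4}) ∪ insert 5 ∅) (by decide) (by decide) x hx
    have e3 := n14 (insert 7 (((univ \ S33) \ {4}) ∪ insert 5 ∅)) (by decide) (by decide) x hx
    rw [ind_drop hi (S := univ \ S0 {5}) (by decide) hx,
      show (univ \ S0 {5}) \ {4} =
        insert 14 (insert 7 (((univ \ S33) \ {4}) ∪ insert 5 ∅)) from by decide]
    linarith
  · rw [one_mul, cut_update (by decide), cut_bxs]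
    exact rateA H hi hA (by decide) (by decide) (by decide) (by decide) (by decide)
      (fun i hi hiD => neE hG hiD (by decide) ((by decide : ∀ i ∈ S33 ∪ {1, 8},
        i ∉ ({4} : Finset (Fin 18)) → sepE 3 3 i 2) i hi hiD)) ht htx

/-! ### `(w, K) = (4, 4)` -/

/-- bad fractions -/
def bad4 : List (ℤ × ℤ) := [(5, 1), (6, 1), (8, 1)]

theorem bad4_ok : ∀ v ∈ bad4, (((4 : ℤ) : ℝ)) * v.2 ≠ v.1 := by
  intro v hv
  simp only [bad4, List.mem_cons, List.not_mem_nil, or_false] at hv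
  rcases hv with rfl | rfl | rfl <;> norm_num

theorem num44 (h : PtC B Bo I J co C κ u f K θ q V T (((4 : ℤ) : ℝ)) lam lo A φ r)
    (hw : ((4 : ℤ) : ℝ) = 1 - θ 0 + ((4 : ℤ) : ℝ) * θ 1) (hnd : ¬ 3 + ((4 : ℤ) : ℝ) ≤ -A.1) :
    NumW S44 {1, 3} lam ∧ NumR S44 {1} 2 1 lam ∧ NumR S44 {2, 6} 1 (q 1 + 2 * q 2) lam := by
  have hDr := drW4
  have hth := h.th1
  have H := pinV_of h hDr
  have hG := grp_of (θ := θ) hth hDr
  rw [bN_eq hth hw] at hG
  obtain ⟨hA, hB⟩ := frames_ptC h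
  have hi := ind_ptC h hDr
  have hout := h.out.toOutS
  rw [hDr] at hout
  have dead : ∀ (P : Finset (Fin 18)) (f : Fin 18) (L : List Stp), f ≠ 17 →
      Okc noHT 4 bad4 ∅ P f L → ¬ Vis lam P f := fun P f L hf hk hv =>
    hnd (row_end h hDr (H.chain hG hA hB bad4_ok L hv hf hk))
  have n9 : NoV ∅ lam 9 := noV_of H (P := {0, 2, 5, 7, 14})
    (aloneE hG (by decide) (by decide)) (by decide) (by decide) (by decide)
    (dead _ _ [Stp.leaf 2 5 10 1 0 {0, 5, 7}, Stp.leaf 3 10 13 1 0 {0, 2, 7}] (by decide)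
      (by decide))
  refine ⟨⟨fun x hx => ?_, frost_ptC h hDr, fun x hx => ?_⟩, ⟨one_pos, fun x t ht htx => ?_⟩,
    ⟨H.m0, fun x t ht htx => ?_⟩⟩
  · refine dens_of hout (G_zero θ _) hi (by decide) (by decide) (by decide)
      (wholeE hG (by decide)) hx ?_
    rw [phi0_eq (Fr := ∅) hout (G_zero θ _) (TW_c _) (by decide)
      (fun i hi => ?_) (fun i hi => ?_) hx, H.free_empty.free x hx]
    · exact absurd hi (Finset.notMem_empty _)
    · obtain ⟨h1, h2⟩ := TW_z1 hDr hth hi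
      exact (by decide : ∀ i : Fin 18, i ∉ (∅ : Finset (Fin 18)) → sI 4 i = 0 →
        (i ∈ S44 \ ∅ ↔ i ∈ (∅ : Finset (Fin 18)))) i h1 h2
  · rw [cut_lines, cut_lines]
    have e2 := n9 (univ \ S44) (by decide) (by decide) x hx
    rw [show univ \ S0 {1, 3} = insert 9 (univ \ S44) from by decide]
    exact e2
  · rw [one_mul, cut_update (by decide), cut_bxs]
    exact rateA H hi hA (by decide) (by decide) (by decide) (by decide) (by decide)
      (fun i hi hiD => neE hG hiD (by decide) ((by decide : ∀ i ∈ S44 ∪ {1},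
        i ∉ (∅ : Finset (Fin 18)) → sepE 4 4 i 2) i hi hiD)) ht htx
  · rw [cut_update (by decide), cut_bxs]
    refine H.closs H.free_empty (by decide) (by decide) (fun i hi hi1 => ?_) ht htx
    obtain ⟨h1, h2⟩ := TW_z1 hDr hth hi
    exact (by decide : ∀ i : Fin 18, i ∉ (∅ : Finset (Fin 18)) → sI 4 i = 0 → i ≠ 1 →
        (i ∈ S44 ∪ {2, 6} ↔ i ∈ (∅ : Finset (Fin 18)))) i h1 h2 hi1

end pt

end Crest.Agent.R136.Rnm648
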