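import Crest.Agent.R136.Rn5_648

/-!
# R136, wall resonances (helper648): the numbers at the wall `(3, 4)`

`lossN` : `N` costs at most the rate `ρ = (-A.1 - 3) / 3 < 1`; `free14` : `14 : j` costs nothing given
`A : x` for `j < (1 - ρ) x`.
-/

set_option autoImplicit false
set_option linter.unusedSectionVars false
set_option linter.unusedVariables false
set_option linter.style.longLine false
set_option maxRecDepth 4000

open Filter Topology

namespace Crest.Agent.R136.Rnm648

open Finset Crest.Agent.R138.Ex926 Crest.Agent.R136.Net191 Crest.Agent.R136.Gf356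
open Crest.Agent.R136.Qg926 Crest.Agent.R136.Dg219 Crest.Agent.R136.Aw413
open Crest.Agent.R136.NetW191 Crest.Agent.R136.EvW938 Crest.Agent.R136.PrW464
open Crest.Agent.R136.LadW697 Crest.Agent.R136.AwJ774 Crest.Agent.R136.Bas938
open Crest.Agent.R136.ThB830 Crest.Agent.R136.Pin851 Crest.Agent.R136.NatW697
open Crest.Agent.R136.Lfz648 Crest.Agent.R136.Pinv648 Crest.Agent.R136.Rnl648
open Crest.Agent.R136.Res2648 Crest.Agent.R136.LadT830
open Crest.Agent.R136.Rc146 (OutA)
open Crest.Agent.R136.K2S774 (cn)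

theorem CL_congr {Dr : Finset (Fin 18)} {c c' : Fin 18 → ℝ} (h : ∀ i, i ∉ Dr → c i = c' i)
    (hc : c ∈ CL Dr) : c' ∈ CL Dr := by
  rw [CL, mem_cnW] at hc ⊢
  intro k hk l hl hD
  have hkD : k ∉ Dr := fun h' => hk (Finset.mem_coe.2 h')
  rw [← h k hkD]
  refine (hc k hk l hl hD).trans (le_of_eq ?_)
  congr 1
  exact List.map_congr_left fun a ha => h a fun h' => hD a ha (Finset.mem_coe.2 h')

theorem CL_upd17 {Dr : Finset (Fin 18)} {c : Fin 18 → ℝ} (hc : c ∈ CL Dr) {y : ℝ}
    (hy : y ≤ c 17) : Function.update c 17 y ∈ CL Dr := by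
  rw [CL, mem_cnW] at hc ⊢
  intro k hk l hl hD
  have e : l.map (Function.update c 17 y) = l.map c := by
    refine List.map_congr_left fun s hs' => ?_
    rw [Function.update_of_ne]
    rintro rfl
    exact no17 k l hl hs'
  rw [e]
  by_cases h : k = 17
  · subst h
    rw [Function.update_self]
    exact hy.trans (hc 17 hk l hl hD)
  · rw [Function.update_of_ne h]
    exact hc k hk l hl hD

section pt

variable {B Bo : Base} {I J : ℕ → Finset (ℕ × ℝ)} {co : ∀ n : ℕ, ℕ × ℝ → ℕ × ℝ → Fin 18 → ℝ}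
  {C : ℝ} {κ : ℕ → ℝ} {u : ℕ → Fin 18 → ℝ} {f : ℕ → ℕ × ℝ → FW} {K : ℝ}
  {θ : Fin 3 → ℝ} {q : Fin 3 → ℝ} {V T : Set (Fin 18)} {s : ℝ}
  {lam lo : (Fin 18 → ℝ) → ℝ} {A : ℝ × ℝ} {φ : ℕ → (Fin 18 → ℝ) → ℝ} {r : ℕ → ℝ}
  {Dr : Finset (Fin 18)}

/-- the tower costs `3 u` -/
theorem tower (h : PtC B Bo I J co C κ u f K θ q V T s lam lo A φ r) (hDr : DrW s = ↑Dr)
    {w : ℝ} (hw : 0 ≤ w) : lam (ind {0, 2, 3} w) ≤ -(3 * w) := by
  obtain ⟨hA, hB⟩ := frames_ptC h
  have h1 := frost_ptC h hDr w hw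
  have h2 := hA w hw
  have h3 := hB w hw
  have e0 : (Pi.single 0 w : Fin 18 → ℝ) = ind {0} w := by
    funext k
    by_cases hk : k = 0
    · subst hk; rw [Pi.single_eq_same, ind_mem (by simp)]
    · rw [Pi.single_eq_of_ne hk, ind_notMem (by simpa using hk)]
  rw [e0] at h1
  rw [show (insert 2 {0} : Finset (Fin 18)) = {0, 2} from by decide] at h2
  rw [show (insert 3 {0, 2} : Finset (Fin 18)) = {0, 2, 3} from by decide] at h3
  linarith

/-- bad fractions -/
def badB : List (ℤ × ℤ) := [(6, 1)]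

theorem badB_ok : ∀ v ∈ badB, (((4 : ℤ) : ℝ)) * v.2 ≠ v.1 := by
  intro v hv
  simp only [badB, List.mem_cons, List.not_mem_nil, or_false] at hv
  subst hv
  norm_num

/-- **the loss of `N`** on the rung `3`, `b = 4` -/
theorem lossN (h : PtC B Bo I J co C κ u f K θ q V T (((3 : ℤ) : ℝ)) lam lo A φ r)
    (hw : ((3 : ℤ) : ℝ) = 1 - θ 0 + ((4 : ℤ) : ℝ) * θ 1) {x : ℝ} (hx : 0 ≤ x) :
    lam (ind {0, 2, 3, 7} x) - lam (ind (insert 17 {0, 2, 3, 7}) x) ≤ (-A.1 - 3) / 3 * x := by
  have hDr := drW3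
  have hth := h.th1
  have H := pinV_of h hDr
  have hG := grp_of (θ := θ) hth hDr
  rw [bN_eq hth hw] at hG
  have hi := ind_ptC h hDr
  have hs0 : (0:ℝ) < ((3 : ℤ) : ℝ) := by norm_num
  set w : ℝ := x / 3 with hwx
  have hw0 : 0 ≤ w := by positivity
  have hT := TW_mem hs0 hDr
  have m1 : w • TW (((3 : ℤ) : ℝ)) ∈ CL {4} := K2S774.cn_smul hT hw0
  set cD : Fin 18 → ℝ := fun i => if i ∈ ({4} : Finset (Fin 18)) then 0 else
    w * TW (((3 : ℤ) : ℝ)) i with hcD
  have vD : ∀ i, cD i = if i ∈ ({4} : Finset (Fin 18)) then 0 else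
    w * TW (((3 : ℤ) : ℝ)) i := fun i => rfl
  have m2 : cD ∈ CL {4} := CL_congr (fun i hi => by
    rw [vD, if_neg hi, Pi.smul_apply, smul_eq_mul]) m1
  have e1 : lam cD = lam (w • TW (((3 : ℤ) : ℝ))) := hi _ m2 _ m1 fun i hi => by
    rw [vD, if_neg hi, Pi.smul_apply, smul_eq_mul]
  have e2 : lam (w • TW (((3 : ℤ) : ℝ))) = w * A.1 := by
    have := h.out.toOutS
    rw [hDr] at this
    exact out_ray this m1
  have hnn : ∀ i, 0 ≤ cD i := fun i => by
    rw [vD]
    split_ifs
    · exact le_rfl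
    · exact mul_nonneg hw0 (TW_nonneg _ h.s0 i)
  have T17 : cD 17 = x := by
    rw [vD, if_neg (by decide), hG.hT 17 (by decide), show sI 3 17 = 3 from by decide, hwx]
    push_cast
    ring
  have m3 : Function.update cD 17 0 ∈ CL {4} := CL_upd17 m2 (by rw [T17]; exact hx)
  have e3 : Function.update (Function.update cD 17 0) 17 x = cD := by
    rw [Function.update_idem, ← T17, Function.update_eq_self]
  have u7 : Up2 ({4} : Finset (Fin 18)) {0, 2, 3, 7} 17 := by decide
  have key := H.dec 17 x (Function.update cD 17 0) (ind {0, 2, 3, 7} x) m3 (by rw [e3]; exact m2)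
    (mem_ind u7.1 hx) (mem_upd u7.1 u7.2.1 u7.2.2 hx le_rfl) (fun i hi => by
      by_cases hiD : i ∈ ({4} : Finset (Fin 18))
      · rw [mem_singleton.1 hiD, Function.update_of_ne (by decide), vD, if_pos (by decide),
          ind_notMem (by decide)]
      · have h17 := aloneE (k := 17) hG (by decide) (by decide) i hiD hi
        rw [h17, Function.update_self, ind_notMem (by decide)])
  rw [e3, ← ind_insert u7.2.2] at key
  -- the tower
  have h3 : lam (Function.update cD 17 0) ≤ -(3 * w) := by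
    refine le_trans (H.anti _ (mem_ind (by decide : UpW ({4} : Finset (Fin 18)) {0, 2, 3}) hw0) _
      m3 fun i => ?_) (tower h hDr hw0)
    by_cases h17 : i = 17
    · subst h17; rw [Function.update_self, ind_notMem (by decide)]
    · rw [Function.update_of_ne h17]
      by_cases hi3 : i ∈ ({0, 2, 3} : Finset (Fin 18))
      · rw [ind_mem hi3, vD, if_neg ((by decide : ∀ i ∈ ({0, 2, 3} : Finset (Fin 18)),
          i ∉ ({4} : Finset (Fin 18))) i hi3)]
        simp only [mem_insert, mem_singleton] at hi3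
        rcases hi3 with rfl | rfl | rfl
        · rw [TW_z, mul_one]
        · rw [TW_A, mul_one]
        · rw [TW_B, mul_one]
      · rw [ind_notMem hi3]; exact hnn i
  rw [← key, e1, e2]
  have e4 : (-A.1 - 3) / 3 * x = w * (-A.1 - 3) := by rw [hwx]; ring
  rw [e4]
  linarith

/-- **`14 : j` costs nothing given `A : x`** for `j` small -/
theorem free14 (h : PtC B Bo I J co C κ u f K θ q V T (((3 : ℤ) : ℝ)) lam lo A φ r)
    (hw : ((3 : ℤ) : ℝ) = 1 - θ 0 + ((4 : ℤ) : ℝ) * θ 1) {x j : ℝ} (hj : 0 ≤ j)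
    (hjx : j < (1 - (-A.1 - 3) / 3) * x) (hjx' : j ≤ x) :
    lam (ind {0, 1, 2, 7, 8} x) ≤ lam (Function.update (ind {0, 1, 2, 7, 8} x) 14 j) := by
  have hDr := drW3
  have hth := h.th1
  have H := pinV_of h hDr
  have hG := grp_of (θ := θ) hth hDr
  rw [bN_eq hth hw] at hG
  obtain ⟨hA, hB⟩ := frames_ptC h
  have hx : 0 ≤ x := hj.trans hjx'
  have u1 : Up2 ({4} : Finset (Fin 18)) {0, 1, 2, 7, 8} 14 := by decide
  have u2 : Up2 ({4} : Finset (Fin 18)) (insert 3 (insert 17 {0, 2, 7})) 14 := by decide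
  have key := H.dec 14 j (ind {0, 1, 2, 7, 8} x) (ind (insert 3 (insert 17 {0, 2, 7})) x)
    (mem_ind u1.1 hx) (mem_upd u1.1 u1.2.1 u1.2.2 hj hjx') (mem_ind u2.1 hx)
    (mem_upd u2.1 u2.2.1 u2.2.2 hj hjx') (fun i hi => by
      by_cases hiD : i ∈ ({4} : Finset (Fin 18))
      · rw [mem_singleton.1 hiD, ind_notMem (by decide), ind_notMem (by decide)]
      · by_cases h1 : i ∈ ({0, 1, 2, 7, 8} : Finset (Fin 18))
        · by_cases h2 : i ∈ (insert 3 (insert 17 {0, 2, 7}) : Finset (Fin 18))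
          · rw [ind_mem h1, ind_mem h2]
          · exact absurd hi (neE hG hiD (by decide) ((by decide : ∀ i : Fin 18,
              i ∈ ({0, 1, 2, 7, 8} : Finset (Fin 18)) →
              i ∉ (insert 3 (insert 17 {0, 2, 7}) : Finset (Fin 18)) → sepE 3 4 i 14) i h1 h2))
        · by_cases h2 : i ∈ (insert 3 (insert 17 {0, 2, 7}) : Finset (Fin 18))
          · exact absurd hi (neE hG hiD (by decide) ((by decide : ∀ i : Fin 18,
              i ∉ ({0, 1, 2, 7, 8} : Finset (Fin 18)) →
              i ∈ (insert 3 (insert 17 {0, 2, 7}) : Finset (Fin 18)) → sepE 3 4 i 14) i h1 h2))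
          · rw [ind_notMem h1, ind_notMem h2])
  by_contra hcon
  push Not at hcon
  have hv : lam (Function.update (ind (insert 3 (insert 17 {0, 2, 7})) x) 14 j) <
      lam (ind (insert 3 (insert 17 {0, 2, 7})) x) := by linarith
  have hX := H.xok hG hA hB badB_ok (W := insert 14 (insert 17 {0, 2, 7})) (X := 3)
    (by decide) x hx
  have h1 := H.leaf {0, 2, 7} 3 10 13 1 0 one_ne_zero (by decide) (by decide) (by decide)
    (by decide) (by decide) (by decide) (by decide) (by decide) j x hj hjx' hX hv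
  have h2 := H.ins_le (W := {0, 2, 7}) (f := 3) (by decide) hx
  have h3 := lossN h hw hx
  have e1 : (insert (Fin.castAdd 14 (3 : Fin 4)) (insert (Fin.natAdd 4 (13 : Fin 14))
      ({0, 2, 7} : Finset (Fin 18))) : Finset (Fin 18)) = insert 17 {0, 2, 3, 7} := by decide
  have e2 : (insert 3 {0, 2, 7} : Finset (Fin 18)) = {0, 2, 3, 7} := by decide
  rw [e1] at h1
  rw [e2] at h2
  have e3 : (1 - (-A.1 - 3) / 3) * x = x - (-A.1 - 3) / 3 * x := by ring
  rw [e3] at hjx
  linarith

/-! ### `(w, K) = (3, 4)` -/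

theorem num34 (h : PtC B Bo I J co C κ u f K θ q V T (((3 : ℤ) : ℝ)) lam lo A φ r)
    (hw : ((3 : ℤ) : ℝ) = 1 - θ 0 + ((4 : ℤ) : ℝ) * θ 1) (hnd : ¬ 3 + ((3 : ℤ) : ℝ) ≤ -A.1) :
    NumW S34 {3} lam ∧ ∃ c, NumB S34 c 1 lam := by
  have hDr := drW3
  have hth := h.th1
  have H := pinV_of h hDr
  have hG := grp_of (θ := θ) hth hDr
  rw [bN_eq hth hw] at hG
  obtain ⟨hA, hB⟩ := frames_ptC h
  have hi := ind_ptC h hDr
  have hout := h.out.toOutS
  rw [hDr] at hout
  refine ⟨⟨fun x hx => ?_, frost_ptC h hDr, fun x hx => ?_⟩, ?_⟩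
  · refine dens_of hout (G_zero θ _) hi (by decide) (by decide) (by decide)
      (wholeE hG (by decide)) hx ?_
    rw [phi0_eq (Fr := ∅) hout (G_zero θ _) (TW_c _) (by decide)
      (fun i hi => ?_) (fun i hi => ?_) hx, H.free_empty.free x hx]
    · exact absurd hi (Finset.notMem_empty _)
    · obtain ⟨h1, h2⟩ := TW_z1 hDr hth hi
      exact (by decide : ∀ i : Fin 18, i ∉ ({4} : Finset (Fin 18)) → sI 3 i = 0 →
        (i ∈ S34 \ {4} ↔ i ∈ (∅ : Finset (Fin 18)))) i h1 h2
  · rw [show S0 {3} = S34 from by decide]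
  · obtain ⟨ρ, hρ⟩ : ∃ ρ : ℝ, ρ = (-A.1 - 3) / 3 := ⟨_, rfl⟩
    have hρ1 : ρ < 1 := by
      push Not at hnd
      push_cast at hnd
      rw [hρ, div_lt_one (by norm_num)]
      linarith
    have hρ0 : 0 ≤ ρ := by
      have h1 := lossN h hw (x := 1) zero_le_one
      rw [← hρ, mul_one] at h1
      have u7 : Up2 ({4} : Finset (Fin 18)) {0, 2, 3, 7} 17 := by decide
      have h2 := H.anti _ (mem_ind u7.1 (zero_le_one (α := ℝ))) _ (mem_ind u7.2.1 zero_le_one)
        (fun i => by
          by_cases h1 : i ∈ ({0, 2, 3, 7} : Finset (Fin 18))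
          · rw [ind_mem h1, ind_mem (mem_insert_of_mem h1)]
          · rw [ind_notMem h1]; exact ind_nonneg zero_le_one i)
      linarith
    obtain ⟨c, hc⟩ : ∃ c : ℝ, c = (1 - ρ) / 2 := ⟨_, rfl⟩
    have hc0 : 0 < c := by rw [hc]; linarith
    have hc1 : c ≤ 1 := by rw [hc]; linarith
    have eB : ∀ x : ℝ, cut S34 (bxs {1, 2, 8} x) (fun _ => x) = ind {0, 1, 2, 7, 8} x := fun x => by
      rw [cut_bxs, show S34 ∪ {1, 2, 8} = ({0, 1, 2, 7, 8} : Finset (Fin 18)) from by decide]
    have eP : ∀ x y : ℝ, cut S34 (pBY x y) (fun _ => x) =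
        Function.update (ind {0, 1, 2, 7, 8} x) 14 y := fun x y => by
      have h14S : (14 : Fin 18) ∉ S34 := by decide
      unfold pBY
      rw [cut_update h14S, eB]
    refine ⟨c, ⟨hc0, hc1, one_pos, fun x hx => ?_, fun x t ht htx => ?_⟩⟩
    · rw [eB, eP]
      rcases hx.eq_or_lt with h0 | h0
      · rw [← h0, mul_zero, ind_zero]
        refine le_of_eq (congrArg lam ?_)
        exact (Function.update_eq_self 14 (0 : Fin 18 → ℝ)).symm
      · have hcx : 0 ≤ c * x := by positivity
        refine free14 h hw hcx ?_ (by nlinarith)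
        rw [← hρ, hc]
        nlinarith
    · have h3S : (3 : Fin 18) ∉ S34 := by decide
      rw [one_mul, cut_update h3S, eP]
      have hx : 0 ≤ x := by
        by_contra hcon
        push Not at hcon
        have : c * x < 0 := mul_neg_of_pos_of_neg hc0 hcon
        linarith
      have hcx : 0 ≤ c * x := by positivity
      have hcx' : c * x ≤ x := by nlinarith
      have htx' := htx.trans hcx'
      have u1 : Up2 ({4} : Finset (Fin 18)) {0, 1, 2, 7, 8} 14 := by decide
      have u3 : Up2 ({4} : Finset (Fin 18)) {0, 1, 2, 7, 8} 3 := by decide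
      have m1 := mem_upd u1.1 u1.2.1 u1.2.2 hcx hcx'
      have hWv : ∀ i : Fin 18, i ∈ ({0, 1, 2, 7, 8} : Finset (Fin 18)) → i ≠ 14 ∧ i ≠ 3 := by
        decide
      have hval : ∀ i : Fin 18, i ∈ ({0, 1, 2, 7, 8} : Finset (Fin 18)) →
          Function.update (Function.update (ind {0, 1, 2, 7, 8} x) 14 (c * x)) 3 t i = x :=
        fun i hi => by
          rw [Function.update_of_ne (hWv i hi).2, Function.update_of_ne (hWv i hi).1, ind_mem hi]
      have hnn : ∀ i : Fin 18, 0 ≤
          Function.update (Function.update (ind {0, 1, 2, 7, 8} x) 14 (c * x)) 3 t i := by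
        intro i
        rw [Function.update_apply, Function.update_apply]
        split_ifs
        exacts [ht, hcx, ind_nonneg hx i]
      have hle : ∀ i : Fin 18,
          Function.update (Function.update (ind {0, 1, 2, 7, 8} x) 14 (c * x)) 3 t i ≤ x := by
        intro i
        rw [Function.update_apply, Function.update_apply]
        split_ifs
        exacts [htx', hcx', ind_le hx i]
      have m2 : Function.update (Function.update (ind {0, 1, 2, 7, 8} x) 14 (c * x)) 3 t ∈
          CL {4} := by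
        refine mem_max hnn fun k l hl hD => ?_
        by_cases h14 : k = 14
        · obtain ⟨i, hi, hiW⟩ := u1.2.1 k (by rw [h14]; exact mem_insert_self _ _) l hl hD
          have hik : i ≠ k := (mlW_low k l hl i hi).ne
          have hiW' := Finset.mem_of_mem_insert_of_ne hiW (by rw [← h14]; exact hik)
          exact ⟨i, hi, by rw [hval i hiW']; exact hle k⟩
        by_cases h3 : k = 3
        · obtain ⟨i, hi, hiW⟩ := u3.2.1 k (by rw [h3]; exact mem_insert_self _ _) l hl hD
          have hik : i ≠ k := (mlW_low k l hl i hi).ne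
          have hiW' := Finset.mem_of_mem_insert_of_ne hiW (by rw [← h3]; exact hik)
          exact ⟨i, hi, by rw [hval i hiW']; exact hle k⟩
        by_cases hkW : k ∈ ({0, 1, 2, 7, 8} : Finset (Fin 18))
        · obtain ⟨i, hi, hiW⟩ := u1.1 k hkW l hl hD
          exact ⟨i, hi, by rw [hval i hiW]; exact hle k⟩
        · obtain ⟨i, hi⟩ := List.exists_mem_of_ne_nil l (mlW_ne k l hl)
          refine ⟨i, hi, ?_⟩
          rw [Function.update_of_ne h3, Function.update_of_ne h14, ind_notMem hkW]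
          exact hnn i
      refine rateB H hB (by decide) m1 m2 ht (by decide) (by decide)
        (neE hG (by decide) (by decide) (by decide)) (neE hG (by decide) (by decide) (by decide))
        fun i hi => ?_
      by_cases hiD : i ∈ ({4} : Finset (Fin 18))
      · rw [mem_singleton.1 hiD, Function.update_of_ne (by decide), ind_notMem (by decide)]
      · have h14 : i ≠ 14 := fun e => absurd hi (neE hG hiD (by decide) (by rw [e]; decide))
        have hiW : i ∉ ({0, 1, 2, 7, 8} : Finset (Fin 18)) := fun h' =>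
          absurd hi (neE hG hiD (by decide) ((by decide : ∀ i : Fin 18,
            i ∈ ({0, 1, 2, 7, 8} : Finset (Fin 18)) → sepE 3 4 i 3) i h'))
        rw [Function.update_of_ne h14, ind_notMem hiW]

end pt

end Crest.Agent.R136.Rnm648
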