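import Crest.Agent.R136.RLi_66
import Crest.Agent.R136.RL4_626
import Crest.Agent.R136.Int4_599
import Crest.Agent.R136.Rn5_648
import Crest.Agent.R136.Rn6_648

/-!
# R136, thin branch (helper66): the F-half of the resonant walls

* **`exists_ptC`** : a stage of slope `s ≤ 4` has an interior point `PtC` which is not dead
  (478's `hasRigW` for every rung).
* `exists_intLaw_zY`, `.._AY`, `.._BY`, `.._YY`, `.._2` : interior tangents with the law of the wall.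
* **`exists_intLaw`** : all six resonant walls (626's `wall_data`).
-/

set_option autoImplicit false
set_option linter.unusedVariables false
set_option linter.unusedSectionVars false

open Filter Topology

namespace Crest.Agent.R136.RL66

open Finset Crest.Agent.R136.NetW191 Crest.Agent.R136.Net191 Crest.Agent.R136.Qg926
open Crest.Agent.R136.EvW938 Crest.Agent.R136.Bas938
open Crest.Agent.R136.Gf356 Crest.Agent.R136.Aw413 Crest.Agent.R136.Dg219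
open Crest.Agent.R136.PrW464 Crest.Agent.R136.NatW697 Crest.Agent.R136.LadW697
open Crest.Agent.R136.AwJ774 Crest.Agent.R136.ThB830 Crest.Agent.R136.LadT830
open Crest.Agent.R136.Rnm648 Crest.Agent.R136.Rnl648
open Crest.Agent.R136.RL626 (WallJ)
open Crest.Agent.R136.RL478 (IntLaw)
open Crest.Agent.R136.Rc146 (OutA)
open Crest.Agent.R136.Dg262 (X)
open Crest.Agent.R136.K2S774 (cn JT BaseOk Prf)
open Crest.Agent.R136.K2A146 (FLemA deadA)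
open Crest.Agent.R138.Ex926 (Base U IsTan)

section

variable {P : Set (Fin 18 → ℝ)} {ν own : (Fin 18 → ℝ) → ℝ} {K : ℝ} {r0 : Fin 18 → ℝ}
  {θ : Fin 3 → ℝ} {g : ℝ} {qq : Fin 3 → ℝ} {V0 T : Set (Fin 18)} {lam lo : (Fin 18 → ℝ) → ℝ}
  {s : ℝ}

/-- **a stage of slope `s` has an interior point which is not dead** -/
theorem exists_ptC (s0 : 0 < s) (s4 : s ≤ 4) {J0 : Finset (Fin 18)}
    (hJ0 : ∀ k, k ∈ J0 ↔ 4 ≤ k ∧ (alW k : ℝ) = s) (h : CtxW P ν own K r0 θ g qq V0 T)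
    (hst : StW P ν own K r0 θ g qq V0 s lam lo) (hs : ∀ k ∈ V0, KW θ k ≤ s) :
    ∃ z : ℝ × ℝ, z.1 < 0 ∧ ∃ k : ℕ → ℝ, (∀ l, 0 < k l) ∧ Tendsto k atTop (𝓝 0) ∧
      ∃ lamI loI : (Fin 18 → ℝ) → ℝ,
        IsTan (cn QW (actW (DrW s))) (cn QW (actW (DrW s))) lam
          (fun _ => X 0 (TW s) (btW θ) z) k lamI ∧
        IsTan (cn QW (actW (DrW s))) (cn QW (actW (DrW s))) lo
          (fun _ => X 0 (TW s) (btW θ) z) k loI ∧
        ∃ (B Bo : Base) (I J : ℕ → Finset (ℕ × ℝ))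
          (co : ∀ n : ℕ, ℕ × ℝ → ℕ × ℝ → Fin 18 → ℝ) (C : ℝ) (κ : ℕ → ℝ) (u : ℕ → Fin 18 → ℝ)
          (f : ℕ → ℕ × ℝ → FW) (A : ℝ × ℝ) (φ : ℕ → (Fin 18 → ℝ) → ℝ) (r : ℕ → ℝ),
          PtC B Bo I J co C κ u f K θ qq V0 T s lamI loI A φ r ∧ ¬ 3 + s ≤ -A.1 := by
  classical
  by_contra hcon
  have hg := h.g0
  have hq0 := h.q0
  have hqg := h.qg
  have hd : 0 < (g - 3 * qq 0) / 2 := by linarith
  refine deadA hst (recW θ _ _) (rungW (J := J0)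
    s0 (fun k hk => ?_) (b := btW θ) (fun k _ => rfl) hJ0) hd ?_
  · obtain ⟨h4, h1, h2⟩ := vis_al h.slots hk
    exact ⟨h4, h2.trans_le (hs k hk)⟩
  intro z hz D' hD' k lam' lo' kpos k0 H1 H2 x' h' hJ hB φ rt out _
  by_contra hlt
  rw [not_le] at hlt
  have hloc : locT V0 0 (btW θ) (TW s) = fun k => k ∈ V0 ∧ KW θ k = s := by
    funext k
    simp only [locT, eq_iff_iff]
    constructor
    · rintro ⟨hk, hT⟩
      refine ⟨hk, ?_⟩
      rw [(vis_TWc h.slots hs hk).2, TW_z] at hT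
      linarith
    · rintro ⟨hk, hK⟩
      refine ⟨hk, ?_⟩
      rw [(vis_TWc h.slots hs hk).2, TW_z, hK]
      ring
  obtain ⟨B, Bo, I, J, co, C, κ, u, f, hco, hu, hκ, hκs, hne, hae⟩ := h.ae
  have hA := hae (actW (DrW s)) x' h' lam' lo' (TW s) (TW s) (btW θ) _ φ rt
    (fun k => k ∈ T ∧ k ∈ V0 ∧ KW θ k = s) hJ hB (fun i hi => by
      rw [(vis_TWc h.slots hs hi).2, TW_z]
      have := hs i hi
      linarith) (fun k hk => by rw [hloc]; exact hk) (by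
      rintro ⟨-, hk, -⟩
      exact absurd (vis_al h.slots hk).1 (by decide)) out.toOutS
  rw [hloc] at hA
  have hP : PtC B Bo I J co C κ u f K θ qq V0 T s lam' lo' _ φ rt :=
    { co_eq := hco
      gru := hu
      kp1 := hκ
      kp0 := hκs
      ne := hne
      th1 := h.θ1
      q1 := h.q1
      q2 := h.q2
      s0 := s0
      top := hs
      vis := fun k hk => vis_al h.slots hk
      aew := hA
      out := out
      prf := hst.prf.tan kpos H1 H2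
      sweep := fun c hc hc1 hcT t ht =>
        hst.sweep (fun k _ => rfl) (nat_btW _ _) (ThB830.TW_nonneg s s0) hz kpos k0 H1 hc
          hc1 hcT ht
      ind := fun c hc c' hc' hcc => hst.ind_pt h.θ1 kpos k0 H1 hc hc' hcc }
  rw [DlW_saW] at hlt
  refine hcon ⟨z, hz, k, kpos, k0, lam', lo', H1, H2, B, Bo, I, J, co, C, κ, u, f, _, φ, rt, hP, ?_⟩
  rw [not_le]
  simp only at hlt ⊢
  have h3 : qq 0 * (s - 1) ≤ qq 0 * 3 := mul_le_mul_of_nonneg_left (by linarith) hq0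
  linarith

/-- weights of the rung `3` -/
theorem mem_J3 (k : Fin 18) : k ∈ univ.filter (fun k : Fin 18 => 4 ≤ k ∧ alW k = 3) ↔
    4 ≤ k ∧ (alW k : ℝ) = ((3 : ℤ) : ℝ) := by
  rw [mem_filter]
  exact ⟨fun ⟨_, h1, h2⟩ => ⟨h1, by rw [h2]⟩, fun ⟨h1, h2⟩ => ⟨mem_univ _, h1, by exact_mod_cast h2⟩⟩

theorem mem_J4 (k : Fin 18) : k ∈ univ.filter (fun k : Fin 18 => 4 ≤ k ∧ alW k = 4) ↔
    4 ≤ k ∧ (alW k : ℝ) = ((4 : ℤ) : ℝ) := by
  rw [mem_filter]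
  exact ⟨fun ⟨_, h1, h2⟩ => ⟨h1, by rw [h2]⟩, fun ⟨h1, h2⟩ => ⟨mem_univ _, h1, by exact_mod_cast h2⟩⟩

/-- output of the F-half of a wall -/
def IntAt (θ : Fin 3 → ℝ) (s : ℝ) (V0 : Set (Fin 18)) (lam lo : (Fin 18 → ℝ) → ℝ) (j : Fin 14)
    (Vs : Finset (Fin 14)) : Prop :=
  ∃ z : ℝ × ℝ, z.1 < 0 ∧ ∃ k : ℕ → ℝ, (∀ l, 0 < k l) ∧ Tendsto k atTop (𝓝 0) ∧
    ∃ lamI loI : (Fin 18 → ℝ) → ℝ,
      IsTan (cn QW (actW (DrW s))) (cn QW (actW (DrW s))) lam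
        (fun _ => X 0 (TW s) (btW θ) z) k lamI ∧
      IsTan (cn QW (actW (DrW s))) (cn QW (actW (DrW s))) lo
        (fun _ => X 0 (TW s) (btW θ) z) k loI ∧
      IntLaw θ s V0 (DrW s) lamI j Vs

/-- visible slots of the wall -/
theorem wall_vis {j : Fin 14} {Vs : Finset (Fin 14)} (W : WallJ θ s j Vs)
    (vis : ∀ k ∈ V0, 4 ≤ k ∧ 0 < btW θ k) {S : Finset (Fin 18)}
    (hS : ∀ q ∈ Vs, Fin.natAdd 4 q ∈ S) : ∀ k ∈ V0, KW θ k = s → k ∈ S := by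
  intro k hk hks
  obtain ⟨h4, hb⟩ := vis k hk
  have e : Fin.natAdd 4 (⟨k.val - 4, by omega⟩ : Fin 14) = k := by
    apply Fin.ext
    have : (4 : ℕ) ≤ k.val := h4
    simp only [Fin.natAdd]
    omega
  have hq := W.all ⟨k.val - 4, by omega⟩ (by rw [e]; exact hks) (by rw [e]; exact hb)
  rw [← e]
  exact hS _ hq

/-- the slope of a wall -/
theorem wall_s {j : Fin 14} {Vs : Finset (Fin 14)} (W : WallJ θ s j Vs) {b : ℤ}
    (hb : wc (Fin.natAdd 4 j) = -b) : s = 1 - θ 0 + (b : ℝ) * θ 1 := by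
  have h := W.kj
  have hn : ∀ q : Fin 14, wn (Fin.natAdd 4 q) = 1 := by decide
  rw [KW_eq, hn j, hb] at h
  push_cast at h
  linarith

theorem notDr_of {N : ℤ} {D S : Finset (Fin 18)} (hD : DrW (N : ℝ) = ↑D) (h : Disjoint S D) :
    ∀ k ∈ S, k ∉ DrW (N : ℝ) := by
  intro k hk hk'
  rw [hD] at hk'
  exact Finset.disjoint_left.1 h hk hk'

/-- **the wall `zY`** (`(w, K) = (3, 2)`) -/
theorem exists_intLaw_zY (hs3 : s = 3) (W : WallJ θ s 4 {6, 7, 10})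
    (h : CtxW P ν own K r0 θ g qq V0 T) (hst : StW P ν own K r0 θ g qq V0 s lam lo)
    (hs : ∀ k ∈ V0, KW θ k ≤ s) (vis : ∀ k ∈ V0, 4 ≤ k ∧ 0 < btW θ k) :
    IntAt θ s V0 lam lo 4 {6, 7, 10} := by
  obtain rfl : s = ((3 : ℤ) : ℝ) := by rw [hs3]; norm_num
  obtain ⟨z, hz, k, kpos, k0, lamI, loI, H1, H2, B, Bo, I, J, co, C, κ, u, f, A, φ, r, hP, hnd⟩ :=
    exists_ptC (by norm_num) (by norm_num) mem_J3 h hst hs
  obtain ⟨n1, n2, n3⟩ := num32 hP (wall_s W (by decide)) hnd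
  exact ⟨z, hz, k, kpos, k0, lamI, loI, H1, H2, Int599.intLaw_zY
    (notDr_of drW3 (by decide)) (wall_vis W vis (by decide)) n1 n2 n3⟩

/-- **the wall `AY`** (`(w, K) = (3, 3)`) -/
theorem exists_intLaw_AY (hs3 : s = 3) (W : WallJ θ s 2 {5})
    (h : CtxW P ν own K r0 θ g qq V0 T) (hst : StW P ν own K r0 θ g qq V0 s lam lo)
    (hs : ∀ k ∈ V0, KW θ k ≤ s) (vis : ∀ k ∈ V0, 4 ≤ k ∧ 0 < btW θ k) :
    IntAt θ s V0 lam lo 2 {5} := by
  obtain rfl : s = ((3 : ℤ) : ℝ) := by rw [hs3]; norm_num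
  obtain ⟨z, hz, k, kpos, k0, lamI, loI, H1, H2, B, Bo, I, J, co, C, κ, u, f, A, φ, r, hP, hnd⟩ :=
    exists_ptC (by norm_num) (by norm_num) mem_J3 h hst hs
  obtain ⟨n1, n2⟩ := num33 hP (wall_s W (by decide)) hnd
  exact ⟨z, hz, k, kpos, k0, lamI, loI, H1, H2, Int599.intLaw_AY
    (by rw [drW3]; simp) (notDr_of drW3 (by decide)) (wall_vis W vis (by decide)) n1 n2⟩

/-- **the wall `BY`** (`(w, K) = (3, 4)`) -/
theorem exists_intLaw_BY (hs3 : s = 3) (W : WallJ θ s 1 {3})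
    (h : CtxW P ν own K r0 θ g qq V0 T) (hst : StW P ν own K r0 θ g qq V0 s lam lo)
    (hs : ∀ k ∈ V0, KW θ k ≤ s) (vis : ∀ k ∈ V0, 4 ≤ k ∧ 0 < btW θ k) :
    IntAt θ s V0 lam lo 1 {3} := by
  obtain rfl : s = ((3 : ℤ) : ℝ) := by rw [hs3]; norm_num
  obtain ⟨z, hz, k, kpos, k0, lamI, loI, H1, H2, B, Bo, I, J, co, C, κ, u, f, A, φ, r, hP, hnd⟩ :=
    exists_ptC (by norm_num) (by norm_num) mem_J3 h hst hs
  obtain ⟨n1, c, n2⟩ := num34 hP (wall_s W (by decide)) hnd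
  exact ⟨z, hz, k, kpos, k0, lamI, loI, H1, H2, Int599.intLaw_BY
    (by rw [drW3]; simp) (notDr_of drW3 (by decide)) (wall_vis W vis (by decide)) n1 n2⟩

/-- **the wall `YY`** (`(w, K) = (4, 4)`) -/
theorem exists_intLaw_YY (hs4 : s = 4) (W : WallJ θ s 0 {1, 3})
    (h : CtxW P ν own K r0 θ g qq V0 T) (hst : StW P ν own K r0 θ g qq V0 s lam lo)
    (hs : ∀ k ∈ V0, KW θ k ≤ s) (vis : ∀ k ∈ V0, 4 ≤ k ∧ 0 < btW θ k) :
    IntAt θ s V0 lam lo 0 {1, 3} := by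
  obtain rfl : s = ((4 : ℤ) : ℝ) := by rw [hs4]; norm_num
  obtain ⟨z, hz, k, kpos, k0, lamI, loI, H1, H2, B, Bo, I, J, co, C, κ, u, f, A, φ, r, hP, hnd⟩ :=
    exists_ptC (by norm_num) (by norm_num) mem_J4 h hst hs
  obtain ⟨n1, n2, n3⟩ := num44 hP (wall_s W (by decide)) hnd
  exact ⟨z, hz, k, kpos, k0, lamI, loI, H1, H2, Int599.intLaw_YY
    (notDr_of drW4 (by decide)) (wall_vis W vis (by decide)) n1 n2 n3⟩

/-- the walls of slope `2` -/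
theorem exists_intLaw_2 {j q : Fin 14} {Vp : Fin 4} (hw : Wl2 q Vp j) (hs2 : s = 2)
    (W : WallJ θ s j {q}) (h : CtxW P ν own K r0 θ g qq V0 T)
    (hst : StW P ν own K r0 θ g qq V0 s lam lo) (hs : ∀ k ∈ V0, KW θ k ≤ s)
    (vis : ∀ k ∈ V0, 4 ≤ k ∧ 0 < btW θ k) : IntAt θ s V0 lam lo j {q} := by
  subst hs2
  exact exists_intLaw2 hw W h hst hs vis

/-- **all resonant walls** : the last component of 626's `wall_data` -/
theorem exists_intLaw {j : Fin 14} {Vs : Finset (Fin 14)} (W : WallJ θ s j Vs)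
    (hc : (s = 2 ∧ j = 7 ∧ Vs = {10}) ∨ (s = 2 ∧ j = 8 ∧ Vs = {11}) ∨
        (s = 3 ∧ j = 4 ∧ Vs = {6, 7, 10}) ∨ (s = 3 ∧ j = 2 ∧ Vs = {5}) ∨
        (s = 3 ∧ j = 1 ∧ Vs = {3}) ∨ (s = 4 ∧ j = 0 ∧ Vs = {1, 3}))
    (h : CtxW P ν own K r0 θ g qq V0 T) (hst : StW P ν own K r0 θ g qq V0 s lam lo)
    (hs : ∀ k ∈ V0, KW θ k ≤ s) (vis : ∀ k ∈ V0, 4 ≤ k ∧ 0 < btW θ k) :
    IntAt θ s V0 lam lo j Vs := by
  rcases hc with ⟨h1, rfl, rfl⟩ | ⟨h1, rfl, rfl⟩ | ⟨h1, rfl, rfl⟩ | ⟨h1, rfl, rfl⟩ |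
    ⟨h1, rfl, rfl⟩ | ⟨h1, rfl, rfl⟩
  · exact exists_intLaw_2 (Or.inl ⟨rfl, rfl, rfl⟩) h1 W h hst hs vis
  · exact exists_intLaw_2 (Or.inr ⟨rfl, rfl, rfl⟩) h1 W h hst hs vis
  · exact exists_intLaw_zY h1 W h hst hs vis
  · exact exists_intLaw_AY h1 W h hst hs vis
  · exact exists_intLaw_BY h1 W h hst hs vis
  · exact exists_intLaw_YY h1 W h hst hs vis

end

end Crest.Agent.R136.RL66
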