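import Crest.Agent.R136.RL8_478
import Crest.Agent.R136.RLj_66

/-!
# R136, thin branch, resonant walls (helper626): the last glue of `SeamWallG`

* `exI_six` : 478's `ExI` at the six walls, from 66's `exists_intLaw`.
* **`seamWallG`** : context + pins of the rungs `4`, `3` ⊢ `SeamWallG`; `seamWallG_rows` from `RowsC`.
-/

set_option autoImplicit false
set_option linter.unusedVariables false

open Finset Filter Topology

namespace Crest.Agent.R136.RL626

open Crest.Agent.R136.Net191
open Crest.Agent.R136.NetW191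
open Crest.Agent.R136.PrW464
open Crest.Agent.R136.NatW697
open Crest.Agent.R136.LadW697
open Crest.Agent.R136.LadT830
open Crest.Agent.R136.LadG697
open Crest.Agent.R136.AwJ774
open Crest.Agent.R136.K2S774
open Crest.Agent.R138.Ex926

/-- **the six walls have interior points with the law** -/
theorem exI_six (θ : Fin 3 → ℝ) (g : ℝ) (q : Fin 3 → ℝ) (V T : Set (Fin 18)) (s : ℝ) (j : Fin 14)
    (Vs : Finset (Fin 14)) (hSl : SlotOkW θ (fun k => k ∈ V) (fun k => k ∈ T))
    (vis : ∀ k ∈ V, (4 ≤ k ∧ k ≠ 13 ∧ k ≠ 16 ∧ k ≠ 17) ∧ 0 < btW θ k)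
    (ht : Top θ (fun k => k ∈ V) s) (W : WallJ θ s j Vs) (h6 : RL478.Six s j Vs) :
    RL478.ExI θ g q V T s j Vs := by
  intro P ν own r0 lam lo hC hst
  obtain ⟨z, hz, k, kpos, k0, lamI, loI, H1, -, HI⟩ := RL66.exists_intLaw W h6 hC hst
    (fun k hk => ht.2 k hk) (fun k hk => ⟨(vis k hk).1.1, (vis k hk).2⟩)
  exact ⟨z, hz, k, kpos, k0, lamI, H1, HI⟩

/-- **the producer of the resonant walls** -/
theorem seamWallG (hC : SeamCtx) (p4 : PinC 4 fun θ V => ∀ k ∈ V, KW θ k < 4)
    (p3 : PinC 3 fun θ V => ∀ k ∈ V, KW θ k < 3) : SeamWallG :=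
  RL478.seamWallG_of hC p4 p3 exI_six

/-- the same from the table of the rows -/
theorem seamWallG_rows (hR : RowsC) (hC : SeamCtx) : SeamWallG := seamWallG hC hR.pin4 hR.pin3

end Crest.Agent.R136.RL626
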