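import Crest.Agent.R136.Dry_774
import Crest.Agent.R136.FinT_879
import Crest.Agent.R136.U4G_879
import Crest.Agent.R136.Ut7_262
import Crest.Agent.R136.Fw5_808
import Crest.Agent.R136.Ff5_880
import Crest.Agent.R136.SmF_163
import Crest.Agent.R136.Asm4_102
import Crest.Agent.R136.ThO_830
import Crest.Agent.R136.CtxZ_830
import Crest.Agent.R136.Rws_938
import Crest.Agent.R136.RwY_848
import Crest.Agent.R136.OwW5_831
import Crest.Agent.R136.SGa4_480
import Crest.Agent.R136.Pin3_851
import Crest.Agent.R136.GdF_778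
import Crest.Agent.R136.RL9_626
import Crest.Agent.R136.Wr1_774
import Crest.Agent.R136.BtrF_879
import Crest.Agent.R136.Shy_410
import Crest.Agent.R136.Lks_140
import Crest.Agent.R136.ALf_877
import Crest.Agent.R136.Spec_851
import Crest.Agent.R136.Ndz_325
import Crest.Agent.R136.AlQ_500
import Crest.Agent.R136.LinF4_403
import Crest.Agent.R136.QGe_312

/-!
# R136: the top of S0187 (helper774; second copy of helper484's `Top_484` / `Fin2_484`)

* `Open` : what is open
* **`ks4_of_open`**, **`s0187_of_open`**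
-/

set_option autoImplicit false
set_option linter.unusedVariables false

open Finset Filter Topology

namespace Crest.Agent.R136.Fin774

open Crest.Agent.R136.Top484
open Crest.Agent.R136.NatT550
open Crest.Agent.R136.TopB550
open Crest.Agent.R136.LadG697

/-- **what is open** -/
structure Open : Prop where
  /-- 57, 876, 208 -/
  lnd : Al500.LeafNd
  /-- 601, 862, 467, 455, 818 -/
  v6 : Al500.LeafV6

/-- **base tilt** -/
theorem btr : Pl2.BTR Pl2.Al1 := Btr879.btr_of1 (Shv410.shareL_of1 Lks140.lnkSh)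

/-- **tilt of the curved pairs** -/
theorem tilt (O : Open) : ∃ η : ℝ, 0 < η ∧ ∀ (p : Par4) (D : Dat4), J1c η p D → SmT163.TiltB D :=
  Wr774.tiltB_of btr (ALf877.alr_open2 Ndw325.ndMx (Al500.alkFalse_of2 O.lnd O.v6))

theorem rowsC : RowsC := Rws938.rowsC_of Pin851.pin3 Vw848.deadhi2

/-- **the thin table** -/
theorem thinTable {η : ℝ} (hη0 : 0 < η) (hη : η ≤ 1 / 8) : ThinTable η := by
  have hR : RowsC := rowsC
  exact thinTable_res (ThO830.seamThinOb hη0 hη GeoN778.gdThin) hR CtxZ830.seamCtx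
    (seamWall_of SGa480.seamGau (RL626.seamWallG_rows hR CtxZ830.seamCtx)) OwW831.seamOwnC
    OwW831.seamClose OwW831.seamCap (seamQuad_of SGa480.seamGau (QG312.seamQuadG hR))
    (seamLin_of SGa480.seamGau (LinF403.seamLinG_rows hR))

/-- **U6** -/
theorem seamU6 {η : ℝ} (hη : η ≤ 1 / 8)
    (hT : ∀ (p : Par4) (D : Dat4), J1c η p D → SmT163.TiltB D) :
    SeamU6J (fun p D => J1c η p D ∧ True) η :=
  Ut262.seamU6Q_of (Q := fun _ => True) (fun p D _ h => ParOk.of_J1c h)
    (Fl808.seamTiltFQ Ff880.flatFree (fun _ => True) η)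
    (SmT163.seamThinQ (by linarith) hT)

theorem ks4_of_open (O : Open) : KS879.KS4 := by
  obtain ⟨η1, h1, hT⟩ := tilt O
  have h0 : 0 < min (1 / 8) η1 := lt_min (by norm_num) h1
  have h8 : min (1 / 8) η1 ≤ 1 / 8 := min_le_left _ _
  exact ks4_of_seamsJ (J := fun p D => J1c (min (1 / 8) η1) p D ∧ True)
    (fun h => by
      obtain ⟨p, D, hJ⟩ := U4G879.exists_core h0 h
      exact ⟨p, D, hJ, trivial⟩)
    (seamU6 h8 fun p D hJ => hT p D (Tl102.J1c_mono hJ (min_le_right _ _)))
    (Dry774.thickTable h0 h8) (thinTable h0 h8)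

/-- **S0187** from the open pieces -/
theorem s0187_of_open (O : Open) (K : Set (EuclideanSpace ℝ (Fin 4)))
    (hK : ∀ e : EuclideanSpace ℝ (Fin 4), ‖e‖ = 1 →
      ∃ a : EuclideanSpace ℝ (Fin 4), segment ℝ a (a + e) ⊆ K) : dimH K = 4 :=
  KS879.s0187_of_KS4 (ks4_of_open O) K hK

end Crest.Agent.R136.Fin774
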