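import Crest.Agent.R136.GauD_66
import Crest.Agent.R136.Gau3_66
import Crest.Agent.R136.Gz1_779
import Crest.Agent.R136.NatR_550

/-!
# R136 (helper66): T.L, `F_b` is affine in the height in an interior window

* `monL` : the walls of `monQ` without the slot `R`.
* `lightW_of` : the numbers `LightF` give 501's `LightW` for the window with resolution `x`.
* `AffR` : affine relation of the flag `F_b` in absolute coordinates.
* **`strip_int`** : [RIG-0] on all classes of a dense part, exponent loss `3 η y₀`.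
-/

set_option autoImplicit false
set_option linter.unusedVariables false

open Filter Topology Finset

namespace Crest.Agent.R136.Gau66

open Crest.Agent.R138.Ex926
open Crest.Agent.R136.Net191
open Crest.Agent.R136.NetQ186
open Crest.Agent.R136.NatR550
open Crest.Agent.R136.Qg926
open Crest.Agent.R136.Gz779
open Crest.Agent.R136.WkL626 (topL legal_drop)
open Crest.Agent.R136.Rgl501 (lv LightW rig0_light)
open Crest.Agent.R136.Wk323 (stR stR_ok)
open Crest.Agent.R136.Ev356 (QWnd)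

/-- the walls without the slot `R` -/
def monL : Mons 11 where
  mon k := (mfQ k).filter fun e => e 1 = 0
  low := fun k e he => monQ.low k e (mem_filter.1 he).1
  ne := fun k e he => monQ.ne k e (mem_filter.1 he).1

theorem monL_sub (k : Fin 11) : monL.mon k ⊆ mfQ k := filter_subset _ _

theorem monL_one (k : Fin 11) (e : Fin 11 → ℕ) (he : e ∈ monL.mon k) : e 1 = 0 :=
  (mem_filter.1 he).2

theorem legL_cone {p : Fin 11 → ℝ} (h : Legal monL p) : p ∈ coneN := by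
  have hs : ∀ e : Fin 11 → ℕ, ∑ s, (e s : ℝ) * p s = e 0 * p 0 + e 1 * p 1 + e 2 * p 2 +
      e 3 * p 3 + e 4 * p 4 + e 5 * p 5 + e 6 * p 6 + e 7 * p 7 + e 8 * p 8 + e 9 * p 9 +
      e 10 * p 10 := by
    intro e
    simp [Fin.sum_univ_succ]
    ring
  have w : ∀ k, ∀ e ∈ mfQ k, e 1 = 0 → p k ≤ ∑ s, (e s : ℝ) * p s := fun k e he h1 =>
    h.wall k e (mem_filter.2 ⟨he, h1⟩)
  simp only [hs] at w
  refine ⟨?_, ?_, ?_, ?_, ?_, ?_, ?_, ?_, ?_, ?_⟩
  · simpa using w 4 ![0, 0, 1, 1, 0, 0, 0, 0, 0, 0, 0] (by decide) (by decide)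
  · simpa using w 6 ![0, 0, 1, 0, 0, 1, 0, 0, 0, 0, 0] (by decide) (by decide)
  · simpa using w 7 ![0, 0, 0, 0, 1, 1, 0, 0, 0, 0, 0] (by decide) (by decide)
  · simpa using w 7 ![0, 0, 0, 1, 0, 0, 1, 0, 0, 0, 0] (by decide) (by decide)
  · simpa using w 8 ![1, 0, 0, 0, 0, 1, 0, 0, 0, 0, 0] (by decide) (by decide)
  · simpa using w 9 ![1, 0, 0, 0, 0, 0, 1, 0, 0, 0, 0] (by decide) (by decide)
  · simpa using w 9 ![0, 0, 1, 0, 0, 0, 0, 0, 1, 0, 0] (by decide) (by decide)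
  · simpa using w 10 ![1, 0, 0, 0, 0, 0, 0, 1, 0, 0, 0] (by decide) (by decide)
  · simpa using w 10 ![0, 0, 0, 0, 1, 0, 0, 0, 1, 0, 0] (by decide) (by decide)
  · simpa using w 10 ![0, 0, 0, 1, 0, 0, 0, 0, 0, 1, 0] (by decide) (by decide)

theorem leg_monL_cone (R' : ℝ) : Leg monL R' ⊆ coneN := fun _ h => legL_cone h.1

/-- legal for `monL` : nonnegative and the walls, slot `1` free -/
theorem legL_of {p : Fin 11 → ℝ} (h0 : ∀ s, 0 ≤ p s) (h : p ∈ coneN) : Legal monL p := by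
  obtain ⟨a1, a2, a3, a4, a5, a6, a7, a8, a9, a10⟩ := h
  refine legal_drop (p' := Function.update p 1 (p 7)) monL_sub monL_one h0
    (fun s hs => Function.update_of_ne hs _ _) ?_
  rw [legalQ_iff]
  have e1 : Function.update p 1 (p 7) 1 = p 7 := Function.update_self _ _ _
  have en : ∀ s : Fin 11, s ≠ 1 → Function.update p 1 (p 7) s = p s :=
    fun s hs => Function.update_of_ne hs _ _
  rw [en 0 (by decide), en 2 (by decide), en 3 (by decide), en 4 (by decide), en 5 (by decide),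
    en 6 (by decide), en 7 (by decide), en 8 (by decide), en 9 (by decide), en 10 (by decide), e1]
  refine ⟨fun k => ?_, a1, a2, by linarith [h0 0], a3, a4, a5, a6, a7, a8, a9, a10⟩
  by_cases hk : k = 1
  · subst hk; rw [e1]; exact h0 7
  · rw [en k hk]; exact h0 k

theorem cut_cu (x : ℝ) (p : Fin 11 → ℝ) : cut {0, 3} p (fun _ => x) = cu x p := by
  funext s
  unfold cu cut topL
  by_cases h0 : s = 0
  · subst h0; simp
  · by_cases h3 : s = 3
    · subst h3; simp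
    · simp [h0, h3]

section

variable {ι : ℕ → Type*} [∀ n, DecidableEq (ι n)] {B B' : Base} {I J : ∀ n, Finset (ι n)}
  {co : ∀ n, ι n → ι n → Fin 11 → ℝ} {C : ℝ} {Y : ℕ → Fin 11 → ℝ} {w : ℕ → ℝ}
  {T : ℕ → ℝ} {lam : (Fin 11 → ℝ) → ℝ} {Cl : ∀ n, Finset (ι n)}
  {s₀ : ∀ n, ι n} {x R' a m : ℝ}

theorem lv_legL {x n t : ℝ} (hx : 0 ≤ x) (ht : 0 ≤ t) (htx : t ≤ x) (hn : n = 0 ∨ n = x) :
    Legal monL (cu x (lv x n t)) := by
  rw [← cut_cu]
  have e : cut {0, 3} (lv x n t) (fun _ => x) = ![x, 0, x, x, x, x, x, t, x, t, n] := by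
    funext s
    unfold cut lv
    fin_cases s <;> simp
  have hn0 : 0 ≤ n := by rcases hn with rfl | rfl <;> linarith
  have hnx : n ≤ x := by rcases hn with rfl | rfl <;> linarith
  rw [e]
  refine legL_of (fun s => ?_) ⟨?_, ?_, ?_, ?_, ?_, ?_, ?_, ?_, ?_, ?_⟩
  · fin_cases s <;> simp <;> linarith
  all_goals simp only [Matrix.cons_val] <;> linarith

/-- **the numbers of `LightF` give 501's window** -/
theorem lightW_of (hx : 0 < x) (hxR : x ≤ R') {a m s : ℝ} (H : LightF coneN lam a m) (has : a < s)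
    (hs1 : s < 1)
    (hsl : ∀ᶠ n in (U : Filter ℕ), Y n 7 + x * w n ≤ Y n 0 + Y n 1)
    (ht7 : ∀ᶠ n in (U : Filter ℕ), Y n 10 = Y n 0 + Y n 7)
    (ht9 : ∀ᶠ n in (U : Filter ℕ), Y n 10 = Y n 3 + Y n 9) :
    LightW ((stR 1 x R' monL).wnd B B' I J co monQ C Y w coneN T lam Cl s₀) x 1 s a where
  x_pos := hx
  hS := rfl
  kz := rfl
  top := fun _ => le_rfl
  slack := hsl
  tight7 := ht7
  tight9 := ht9
  leg0 := by
    rw [WSt.mem_legW]
    refine ⟨⟨?_, fun s => ?_⟩, fun s hs => ?_⟩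
    · have := lv_legL hx.le le_rfl hx.le (Or.inl rfl)
      rw [← cut_cu] at this
      exact this
    · refine le_trans ?_ hxR
      show cut {0, 3} (lv x 0 0) (fun _ => x) s ≤ x
      unfold cut lv
      fin_cases s <;> simp <;> linarith
    · show lv x 0 0 s ≤ x
      unfold lv
      fin_cases s <;> simp <;> linarith
  leg := fun t ht htx => by
    rw [WSt.mem_legW]
    refine ⟨⟨?_, fun s => ?_⟩, fun s hs => ?_⟩
    · have := lv_legL hx.le ht htx (Or.inr rfl)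
      rw [← cut_cu] at this
      exact this
    · refine le_trans ?_ hxR
      show cut {0, 3} (lv x x t) (fun _ => x) s ≤ x
      unfold cut lv
      fin_cases s <;> simp <;> linarith
    · show lv x x t s ≤ x
      unfold lv
      fin_cases s <;> simp <;> linarith
  dens := by
    show lam (fun _ => x) ≤ lam (cut {0, 3} (fun _ => x) 0) + lam (cut {0, 3} 0 (fun _ => x))
    have h1 := H.dens x hx.le
    have hm : ∀ p : Fin 11 → ℝ, (∀ s, 0 ≤ p s) → p ∈ coneN → Legal monL p := fun p => legL_of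
    have c1 : (fun _ => x : Fin 11 → ℝ) ∈ coneN := by
      refine ⟨?_, ?_, ?_, ?_, ?_, ?_, ?_, ?_, ?_, ?_⟩ <;> linarith
    have c2 : topL x ∈ coneN := by
      refine ⟨?_, ?_, ?_, ?_, ?_, ?_, ?_, ?_, ?_, ?_⟩ <;> simp [topL] <;> linarith
    have c3 : cut {0, 3} (fun _ => x : Fin 11 → ℝ) 0 ∈ coneN := by
      refine ⟨?_, ?_, ?_, ?_, ?_, ?_, ?_, ?_, ?_, ?_⟩ <;> simp [cut] <;> linarith
    have c4 : cut {0, 3} (topL x) 0 ∈ coneN := by
      refine ⟨?_, ?_, ?_, ?_, ?_, ?_, ?_, ?_, ?_, ?_⟩ <;> simp [cut, topL] <;> linarith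
    have e1 : lam (fun _ => x) = lam (topL x) := H.slot _ c1 _ c2 fun i hi => by
      simp [topL, hi]
    have e2 : lam (cut {0, 3} (fun _ => x) 0) = lam (cut {0, 3} (topL x) 0) :=
      H.slot _ c3 _ c4 fun i hi => by
        simp [topL, cut, hi]
    have e3 : cut {0, 3} (0 : Fin 11 → ℝ) (fun _ => x) = cut {0, 3} 0 (topL x) := by
      rw [cut_cu]; rfl
    rw [e1, e2, e3]
    exact h1
  frost := fun y hy _ => by
    show lam (Pi.single 0 y) ≤ -(1 * y)
    rw [one_mul]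
    exact H.frost y hy
  full := fun t ht htx => by
    rw [WSt.wnd_nu, WSt.wnd_nu]
    show s * t ≤ lam (cut {0, 3} (lv x x 0) fun _ => x) - lam (fun _ => x) -
      (lam (cut {0, 3} (lv x x t) fun _ => x) - lam (fun _ => x))
    rw [cut_cu, cut_cu]
    have h1 := H.full x t ht htx
    have h2 : s * t ≤ t := by nlinarith
    linarith
  loss := by
    rw [WSt.wnd_nu, WSt.wnd_nu]
    show lam (cut {0, 3} (lv x 0 0) fun _ => x) - lam (fun _ => x) -
      (lam (cut {0, 3} (lv x x 0) fun _ => x) - lam (fun _ => x)) ≤ a * x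
    rw [cut_cu, cut_cu]
    have h1 := H.loss x hx.le
    linarith

end

/-- **affine relation** of the flag `F_b` on a set of incidences; `D0, D3` = sides of the slots
`z, F_b`; slope at most `s D3/D0`, error `r D3` -/
def AffR {α : Type*} (F : α → Fq4) (D0 D3 s r : ℝ) (G : Finset α) : Prop :=
  ∃ mu be : ℝ, |mu| * D0 ≤ s * D3 ∧ ∀ i ∈ G, |(F i).fb - be - mu * (F i).z| ≤ r * D3

theorem AffR.mono {α : Type*} {F : α → Fq4} {D0 D3 s r : ℝ} {G G' : Finset α} (h : G' ⊆ G)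
    (H : AffR F D0 D3 s r G) : AffR F D0 D3 s r G' := by
  obtain ⟨mu, be, h1, h2⟩ := H
  exact ⟨mu, be, h1, fun i hi => h2 i (h hi)⟩

theorem AffR.weak {α : Type*} {F : α → Fq4} {D0 D3 s r s' r' : ℝ} {G : Finset α} (hD : 0 ≤ D3)
    (hs : s ≤ s') (hr : r ≤ r') (H : AffR F D0 D3 s r G) : AffR F D0 D3 s' r' G := by
  obtain ⟨mu, be, h1, h2⟩ := H
  exact ⟨mu, be, h1.trans (mul_le_mul_of_nonneg_right hs hD), fun i hi =>
    (h2 i hi).trans (mul_le_mul_of_nonneg_right hr hD)⟩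

/-- from normalised coordinates to absolute coordinates -/
theorem affR_of_crd {α : Type*} {F : α → Fq4} {D0 D3 s r : ℝ} {G : Finset α} (h0 : 0 < D0)
    (h3 : 0 < D3) (s₀ : α) {μ β : ℝ} (hμ : |μ| ≤ s)
    (h : ∀ i ∈ G, |((F i).fb - (F s₀).fb) / D3 - β - μ * (((F i).z - (F s₀).z) / D0)| ≤ r) :
    AffR F D0 D3 s r G := by
  refine ⟨μ * D3 / D0, (F s₀).fb + β * D3 - μ * D3 / D0 * (F s₀).z, ?_, fun i hi => ?_⟩
  · rw [abs_div, abs_mul, abs_of_pos h0, abs_of_pos h3, div_mul_cancel₀ _ h0.ne']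
    exact mul_le_mul_of_nonneg_right hμ h3.le
  · have h1 := h i hi
    have e : (F i).fb - ((F s₀).fb + β * D3 - μ * D3 / D0 * (F s₀).z) - μ * D3 / D0 * (F i).z =
        (((F i).fb - (F s₀).fb) / D3 - β - μ * (((F i).z - (F s₀).z) / D0)) * D3 := by
      field_simp
      ring
    rw [e, abs_mul, abs_of_pos h3]
    exact mul_le_mul_of_nonneg_right h1 h3.le

/-- **[RIG-0] on all classes of a dense part of an interior window** -/
theorem strip_int {B B' : Base} {I J : ℕ → Finset (ℕ × ℝ)} {F : ℕ → ℕ × ℝ → Fq4}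
    {Y : ℕ → Fin 11 → ℝ} {w : ℕ → ℝ} {T : ℕ → ℝ} {lam : (Fin 11 → ℝ) → ℝ}
    (hZ : ZWin B B' I J (coF F) monQ 2 Y w coneN T lam) {a m : ℝ} (H : LightF coneN lam a m)
    {x : ℝ} (hx : 0 < x)
    (hsl : ∀ᶠ n in (U : Filter ℕ), Y n 7 + x * w n ≤ Y n 0 + Y n 1)
    (ht7 : ∀ᶠ n in (U : Filter ℕ), Y n 10 = Y n 0 + Y n 7)
    (ht9 : ∀ᶠ n in (U : Filter ℕ), Y n 10 = Y n 3 + Y n 9)
    {η : ℝ} (hη : 0 < η) (hη1 : η ≤ 1) :
    ∃ y₀ : ℝ, 0 < y₀ ∧ y₀ ≤ x ∧ ∃ J1 : ℕ → Finset (ℕ × ℝ), (∀ n, J1 n ⊆ J n) ∧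
      ∀ᶠ n in (U : Filter ℕ), B'.d n ^ (3 * η * y₀) * ((J n).card : ℝ) ≤ ((J1 n).card : ℝ) ∧
        ∀ s ∈ J1 n, AffR (F n) (B.d n ^ Y n 0) (B.d n ^ Y n 3) (B'.d n ^ (-(2 * η * y₀)))
          (B'.d n ^ y₀) (cls (J1 n) (zlab B I (coF F) monQ 2 Y w n 0) s) := by
  obtain ⟨θ, hθ, hθ1, hrig⟩ := rig0_light (σ := 1) (s := (a + 1) / 2) (a := a) (η := η) H.a0
    (by linarith [H.a1]) (by linarith [H.a1]) le_rfl hη hη1
  have hst : (stR 1 x x monL).Ok monQ coneN :=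
    stR_ok one_pos hx.le le_rfl monL_sub rfl (leg_monL_cone x)
  have hd : ∀ n (u : ℝ), 0 < B'.d n ^ u := fun n u => Real.rpow_pos_of_pos (B'.pos n) u
  have hD : ∀ n (u : ℝ), 0 < B.d n ^ u := fun n u => Real.rpow_pos_of_pos (B.pos n) u
  have hdn : ∀ n {u v : ℝ}, u ≤ v → B'.d n ^ v ≤ B'.d n ^ u := fun n {u v} h' =>
    Real.rpow_le_rpow_of_exponent_ge (B'.pos n) (B'.lt n).le h'
  have hloc : ∀ Gd : ℕ → Finset (ℕ × ℝ), (∀ n, Gd n ⊆ J n) →
      (∀ n, ∀ s ∈ Gd n, ∀ y ∈ J n, zlab B I (coF F) monQ 2 Y w n 0 y =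
        zlab B I (coF F) monQ 2 Y w n 0 s → y ∈ Gd n) →
      (∀ᶠ n in (U : Filter ℕ), ((J n).card : ℝ) ≤ 2 * ((Gd n).card : ℝ)) →
      ∀ᶠ n in (U : Filter ℕ), ∃ s : ℕ × ℝ, ∃ G' ⊆ cls (Gd n)
        (zlab B I (coF F) monQ 2 Y w n 0) s, ∃ y, θ * x ≤ y ∧ y ≤ x ∧
        T n * B'.d n ^ (η * y) ≤ (G'.card : ℝ) ∧ 0 < (G'.card : ℝ) ∧
        AffR (F n) (B.d n ^ Y n 0) (B.d n ^ Y n 3) (B'.d n ^ (-(η * y))) (B'.d n ^ y) G' := by
    intro Gd hGd hfull hdens
    obtain ⟨s₀, hs₀, hok⟩ := hZ.exists_wnd hst (fun _ => (0, 0)) (Gd := Gd) (E := Gd)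
      (Eventually.of_forall hGd) (Eventually.of_forall fun n => Subset.refl _)
      (Sd := fun _ => 2) (Base.Sub.const two_pos) hdens
    have hq : QWnd ((stR 1 x x monL).wnd B B' I J (coF F) monQ 2 Y w coneN T lam
        (fun n => cls (Gd n) (zlab B I (coF F) monQ 2 Y w n 0) (s₀ n)) s₀) F :=
      { ok := hok
        hM := rfl
        hco := fun n i _ j _ => rfl
        hS := fun s hs => by
          have : s ∈ ({0, 3} : Finset (Fin 11)) := hs
          simp only [mem_insert, mem_singleton] at this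
          rcases this with rfl | rfl
          · exact Or.inl rfl
          · exact Or.inr (Or.inr (Or.inl rfl)) }
    have hL := lightW_of (B := B) (B' := B') (I := I) (J := J) (co := coF F) (C := 2) (T := T)
      (Cl := fun n => cls (Gd n) (zlab B I (coF F) monQ 2 Y w n 0) (s₀ n)) (s₀ := s₀)
      (R' := x) hx le_rfl H (s := (a + 1) / 2) (by linarith [H.a1]) (by linarith [H.a1]) hsl
      ht7 ht9
    filter_upwards [hrig hq hL] with n hn
    obtain ⟨y, hy1, hy2, G', μ, β, g1, g2, g3, g4⟩ := hn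
    refine ⟨s₀ n, G', g1, y, hy1, hy2, g2, ?_, ?_⟩
    · exact lt_of_lt_of_le (mul_pos (hZ.T0 n) (hd n _)) g2
    · refine affR_of_crd (hD n _) (hD n _) (s₀ n) (β := β) g3 fun i hi => ?_
      have := g4 i hi
      simp only [Wnd.crd, WSt.wnd, stR, one_pow, one_mul, coF, coQ, Matrix.cons_val] at this
      exact this
  have hθx : θ * x ≤ x := by nlinarith
  obtain ⟨y₀, h1, h2, J1, h3, h4⟩ := strip_to_global' (B := B') (J := J)
    (fun n => zlab B I (coF F) monQ 2 Y w n 0) hZ.T0 (fun ε hε => by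
      filter_upwards [hZ.prof.up 0 ε hε] with n hn s hs
      have := hn 0 hZ.zero (by rw [norm_zero]) s hs
      rwa [hZ.lam0, zero_add] at this) (a := θ * x) (b := x) (mul_pos hθ hx) hθx hη hη1
    (fun n y G => AffR (F n) (B.d n ^ Y n 0) (B.d n ^ Y n 3) (B'.d n ^ (-(η * y)))
          (B'.d n ^ y) G)
    (fun n y G => AffR (F n) (B.d n ^ Y n 0) (B.d n ^ Y n 3) (B'.d n ^ (-(2 * η * y)))
          (B'.d n ^ y) G)
    (fun n y G G' hG h => h.mono hG)
    (fun n y y' G hy1 hy2 hy3 h => h.weak (hD n _).le (hdn n (by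
      have h5 : η * y ≤ η * ((1 + η) * y') := mul_le_mul_of_nonneg_left hy3 hη.le
      have h6 : 0 ≤ y' := le_trans (mul_pos hθ hx).le hy1
      have h7 : η * (η * y') ≤ η * (1 * y') := mul_le_mul_of_nonneg_left
        (mul_le_mul_of_nonneg_right hη1 h6) hη.le
      linarith)) (hdn n hy2)) hloc
  exact ⟨y₀, lt_of_lt_of_le (mul_pos hθ hx) h1, h2, J1, h3, h4⟩

end Crest.Agent.R136.Gau66
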