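import Crest.Agent.R136.GauE_66
import Crest.Agent.R136.GauB1_66
import Crest.Agent.R136.Gau4_66

/-!
# R136 (helper66): T.L, `F_b` is affine in the height at the record line

* `recW_zoom` : a zoom of a record window at moving record points is a record window (the
  normalisations are exact on the record line).
* `int_*` : exponents of the interior base point `z.1 T + z.2 ρ`.
* **`exists_affW`** : `HasRig` gives a record window with affine `F_b` (`AffW`).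
-/

set_option autoImplicit false
set_option linter.unusedVariables false

open Filter Topology Finset

namespace Crest.Agent.R136.Gau66

open Crest.Agent.R138.Ex926
open Crest.Agent.R136.Net191
open Crest.Agent.R136.NetQ186
open Crest.Agent.R136.NatT550
open Crest.Agent.R136.NatR550
open Crest.Agent.R136.TopB550
open Crest.Agent.R136.Qg926
open Crest.Agent.R136.Zpr779
open Crest.Agent.R136.Gz779
open Crest.Agent.R136.TL196
open Crest.Agent.R136.LdF3511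

section congr

variable {m : ℕ} {ι : ℕ → Type*} [∀ n, DecidableEq (ι n)]

theorem zprof_congrT {B : Base} {κ : ℕ → Type*} [∀ n, DecidableEq (κ n)] {V : Type*} [LE V]
    [Norm V] {J : ∀ n, Finset (ι n)} {g : ∀ n, V → ι n → κ n} {D : Set V} {T T' : ℕ → ℝ}
    {lam : V → ℝ} (h : ZProf B J g D T lam) (he : ∀ᶠ n in (U : Filter ℕ), T' n = T n) :
    ZProf B J g D T' lam where
  up := fun K ε hε => by
    filter_upwards [h.up K ε hε, he] with n h1 h2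
    rw [h2]; exact h1
  num := h.num
  root := fun K ε hε => by
    filter_upwards [h.root K ε hε, he] with n h1 h2
    rw [h2]; exact h1

theorem zwin_congrT {B B' : Base} {I J : ∀ n, Finset (ι n)} {co : ∀ n, ι n → ι n → Fin m → ℝ}
    {M : Mons m} {C : ℝ} {X : ℕ → Fin m → ℝ} {w : ℕ → ℝ} {D : Set (Fin m → ℝ)} {T T' : ℕ → ℝ}
    {lam : (Fin m → ℝ) → ℝ} (h : ZWin B B' I J co M C X w D T lam) (hT : ∀ n, 0 < T' n)
    (he : ∀ᶠ n in (U : Filter ℕ), T' n = T n) : ZWin B B' I J co M C X w D T' lam :=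
  { h with
    prof := zprof_congrT h.prof he
    T0 := hT }

end congr

section rec

variable {η : ℝ} {c : LCtx}

theorem rec_val_add (ok : c.Ok η) {ξ x : ℝ} (h0 : 0 ≤ ξ) (h1 : ξ < 1) (h2 : 0 ≤ ξ + x)
    (h3 : ξ + x < 1) : c.ν (c.X (ξ + x)) = c.ν (c.X ξ) + x * DL c.p c.ρ := by
  rw [rec_val ok h0 h1, rec_val ok h2 h3]
  unfold DN
  simp only [DL, LCtx.ρ, nL, Matrix.cons_val]
  ring

theorem own_rec (ok : c.Ok η) {ξ : ℝ} (h0 : 0 < ξ) (h1 : ξ < 1) : c.own (c.X ξ) = 1 - ξ := by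
  have hleg : c.X ξ ∈ Leg monQ c.R := by
    obtain ⟨δ, hδ, hl⟩ := recF_leg ok.th.tp.big (R_room ok).2.1 (R_room ok).1 h0 h1
    have := hl 0 coneN_zero (fun k => by simpa using hδ.le)
    rw [add_zero] at this
    exact this
  refine own_val ok hleg h0.le h1.le ?_ ?_ ?_
  · simp only [LCtx.X, nat4, Matrix.cons_val]
  · simp only [LCtx.X, nat4, Matrix.cons_val]
    exact le_of_eq (by ring)
  · simp only [LCtx.X, nat4, Matrix.cons_val]
    exact le_of_eq (by ring)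

theorem lo_rec {lam lo : (Fin 11 → ℝ) → ℝ} (ok : c.Ok η)
    (hlo : ∀ a ∈ coneN, a 3 ≤ a 0 → a 4 ≤ (1 - c.p.θ 1) * a 0 → lo a = -(a 0)) (s : ℝ) :
    lo (s • c.ρ) = -s := by
  have hL : c.p.θ 2 - c.p.θ 0 = 1 := ok.pat.2.2.1
  have hL2 : c.p.θ 2 = 2 * c.p.θ 1 := ok.pat.2.2.2
  have e0 : (s • c.ρ) 0 = s := by simp [LCtx.ρ, nL]
  have e3 : (s • c.ρ) 3 = s := by
    simp only [LCtx.ρ, nL, Pi.smul_apply, smul_eq_mul, Matrix.cons_val]
    linear_combination s * hL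
  have e4 : (s • c.ρ) 4 = (1 - c.p.θ 1) * s := by
    simp only [LCtx.ρ, nL, Pi.smul_apply, smul_eq_mul, Matrix.cons_val]
    linear_combination s * (hL - hL2)
  rw [hlo _ (ρ_mem c s) (by rw [e0, e3]) (by rw [e0, e4]), e0]

/-- **zoom of a record window at record points** -/
theorem recW_zoom (ok : c.Ok η) {B₁ B' : Base} {J J' : ℕ → Finset (ℕ × ℝ)} {ξ w : ℕ → ℝ}
    {lam lo lam' lo' : (Fin 11 → ℝ) → ℝ} (W : RecW c B₁ J ξ w lam lo)
    (F : RecFacts c lam' lo') {σ v : ℕ → ℝ} {S : ℝ} (hσ : ∀ n, |σ n| ≤ S)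
    (hv : Tendsto v U (𝓝 0)) (hJ : ∀ n, J' n ⊆ J n)
    (hZ : ZWin c.D.B B' c.D.I J' (coF c.F) monQ 2 (fun n => c.X (ξ n) + w n • (σ n • c.ρ))
      (fun n => w n * v n) coneN
      (fun n => c.D.B.d n ^ (-(c.ν (c.X (ξ n)))) * B₁.d n ^ (-(lam (σ n • c.ρ)))) lam')
    (hO : ZProf B' J' (fun n a => zolb c.D.B c.D.I (coF c.F) monQ 2 (fun n => c.X (ξ n)) w n
      (σ n • c.ρ + v n • a)) coneN
      (fun n => c.D.B.d n ^ (-(c.own (c.X (ξ n)))) * B₁.d n ^ (-(lo (σ n • c.ρ)))) lo') :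
    RecW c B' J' (fun n => ξ n + w n * σ n) (fun n => w n * v n) lam' lo' := by
  obtain ⟨ξ₀, h0, h1, hξ⟩ := W.ξlim
  have hwσ : Tendsto (fun n => w n * σ n) U (𝓝 0) := by
    have hb : Tendsto (fun n => |w n| * |S|) U (𝓝 0) := by
      have := W.wlim.abs.mul_const |S|
      rwa [abs_zero, zero_mul] at this
    refine squeeze_zero_norm (fun n => ?_) hb
    rw [Real.norm_eq_abs, abs_mul]
    exact mul_le_mul_of_nonneg_left ((hσ n).trans (le_abs_self _)) (abs_nonneg _)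
  have hξ' : Tendsto (fun n => ξ n + w n * σ n) U (𝓝 ξ₀) := by
    have := hξ.add hwσ
    rwa [add_zero] at this
  have hX : ∀ n, c.X (ξ n) + w n • (σ n • c.ρ) = c.X (ξ n + w n * σ n) := fun n => by
    rw [smul_smul, X_add]
  have ev : ∀ᶠ n in (U : Filter ℕ), 0 < ξ n ∧ ξ n < 1 ∧ 0 < ξ n + w n * σ n ∧
      ξ n + w n * σ n < 1 := by
    filter_upwards [hξ.eventually_const_lt h0, hξ.eventually_lt_const h1,
      hξ'.eventually_const_lt h0, hξ'.eventually_lt_const h1] with n a b d e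
    exact ⟨a, b, d, e⟩
  refine F.recW ?_ ⟨ξ₀, h0, h1, hξ'⟩ ?_ ?_ ?_
  · filter_upwards [W.Jsub] with n hn using (hJ n).trans hn
  · have := W.wlim.mul hv
    rwa [zero_mul] at this
  · have e1 : (fun n => c.X (ξ n) + w n • (σ n • c.ρ)) = fun n => c.X (ξ n + w n * σ n) :=
      funext hX
    rw [e1] at hZ
    refine zwin_congrT hZ (fun n => Real.rpow_pos_of_pos (c.D.B.pos n) _) ?_
    filter_upwards [ev] with n hn
    rw [rec_val_add ok hn.1.le hn.2.1 hn.2.2.1.le hn.2.2.2, W.win.base n, W.recd,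
      ← Real.rpow_mul (c.D.B.pos n).le, ← Real.rpow_add (c.D.B.pos n)]
    congr 1
    ring
  · have e1 : (fun n a => zolb c.D.B c.D.I (coF c.F) monQ 2 (fun n => c.X (ξ n)) w n
        (σ n • c.ρ + v n • a)) = zolb c.D.B c.D.I (coF c.F) monQ 2
          (fun n => c.X (ξ n + w n * σ n)) (fun n => w n * v n) := by
      funext n a x
      unfold zolb zlab
      rw [← zoom_zoom, hX]
    rw [e1] at hO
    refine zprof_congrT hO ?_
    filter_upwards [ev] with n hn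
    rw [own_rec ok hn.1 hn.2.1, own_rec ok hn.2.2.1 hn.2.2.2, W.win.base n,
      lo_rec (lam := lam) ok W.lo_full, ← Real.rpow_mul (c.D.B.pos n).le,
      ← Real.rpow_add (c.D.B.pos n)]
    congr 1
    ring

end rec

/-! ### the interior base point -/

section int

variable {η : ℝ} {c : LCtx}

/-- interior base direction -/
noncomputable def yI (c : LCtx) (z : ℝ × ℝ) : Fin 11 → ℝ := z.1 • tN + z.2 • c.ρ

theorem tN_eq : tN = nL 1 0 0 1 := by
  funext k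
  fin_cases k <;> simp [tN, nL]
  norm_num

theorem tN_mem (s : ℝ) : s • tN ∈ coneN := by
  rw [tN_eq, nL_smul]
  exact nL_mem _ _ _ _

theorem yI_mem (c : LCtx) (z : ℝ × ℝ) : yI c z ∈ coneN := coneN_add (tN_mem _) (ρ_mem c _)

theorem X_zero (c : LCtx) (ξ : ℝ) : c.X ξ 0 = c.w0 + ξ := by
  simp only [LCtx.X, nat4, Matrix.cons_val]

theorem X_three (ok : c.Ok η) (ξ : ℝ) : c.X ξ 3 = c.w0 + ξ := by
  have hL : c.p.θ 2 - c.p.θ 0 = 1 := ok.pat.2.2.1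
  simp only [LCtx.X, nat4, Matrix.cons_val]
  linear_combination ξ * hL

theorem Y_zero (c : LCtx) (z : ℝ × ℝ) (ξ w : ℝ) :
    (c.X ξ + w • yI c z) 0 = c.w0 + (ξ + w * (z.1 + z.2)) := by
  simp only [LCtx.X, nat4, yI, tN, LCtx.ρ, nL, Pi.add_apply, Pi.smul_apply, smul_eq_mul,
    Matrix.cons_val]
  ring

theorem Y_three (ok : c.Ok η) (z : ℝ × ℝ) (ξ w : ℝ) :
    (c.X ξ + w • yI c z) 3 = c.w0 + (ξ + w * (z.1 + z.2)) := by
  have hL : c.p.θ 2 - c.p.θ 0 = 1 := ok.pat.2.2.1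
  simp only [LCtx.X, nat4, yI, tN, LCtx.ρ, nL, Pi.add_apply, Pi.smul_apply, smul_eq_mul,
    Matrix.cons_val]
  linear_combination (ξ + w * z.2) * hL

theorem Y_tight7 (c : LCtx) (z : ℝ × ℝ) (ξ w : ℝ) :
    (c.X ξ + w • yI c z) 10 = (c.X ξ + w • yI c z) 0 + (c.X ξ + w • yI c z) 7 := by
  simp only [LCtx.X, nat4, yI, tN, LCtx.ρ, nL, Pi.add_apply, Pi.smul_apply, smul_eq_mul,
    Matrix.cons_val]
  ring

theorem Y_tight9 (c : LCtx) (z : ℝ × ℝ) (ξ w : ℝ) :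
    (c.X ξ + w • yI c z) 10 = (c.X ξ + w • yI c z) 3 + (c.X ξ + w • yI c z) 9 := by
  simp only [LCtx.X, nat4, yI, tN, LCtx.ρ, nL, Pi.add_apply, Pi.smul_apply, smul_eq_mul,
    Matrix.cons_val]
  ring

theorem Y_slack (ok : c.Ok η) (z : ℝ × ℝ) {ξ₀ : ℝ} (h0 : 0 < ξ₀) (h1 : ξ₀ < 1) {ξ w u : ℕ → ℝ}
    (hξ : Tendsto ξ U (𝓝 ξ₀)) (hw : Tendsto w U (𝓝 0)) (hu : Tendsto u U (𝓝 0)) (x : ℝ) :
    ∀ᶠ n in (U : Filter ℕ), (c.X (ξ n) + w n • yI c z) 7 + x * u n ≤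
      (c.X (ξ n) + w n • yI c z) 0 + (c.X (ξ n) + w n • yI c z) 1 := by
  have hT := ok.th.tp.big.T0
  have hw0 := ok.th.tp.big.w0T
  have hR := ok.th.tp.big.R0
  have hθ := abs_le.1 (ok.th.tp.big.th 0)
  have e : ∀ n, (c.X (ξ n) + w n • yI c z) 7 + x * u n - ((c.X (ξ n) + w n • yI c z) 0 +
      (c.X (ξ n) + w n • yI c z) 1) = (2 * c.w0 - (c.R - 1)) + (-(c.p.θ 0) - 1) * ξ n +
        (-(z.2 * c.p.θ 0) - z.2) * w n + x * u n := fun n => by
    simp only [LCtx.X, nat4, yI, tN, LCtx.ρ, nL, Pi.add_apply, Pi.smul_apply, smul_eq_mul,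
      Matrix.cons_val]
    ring
  have ht : Tendsto (fun n => (2 * c.w0 - (c.R - 1)) + (-(c.p.θ 0) - 1) * ξ n +
      (-(z.2 * c.p.θ 0) - z.2) * w n + x * u n) U (𝓝 ((2 * c.w0 - (c.R - 1)) +
        (-(c.p.θ 0) - 1) * ξ₀ + (-(z.2 * c.p.θ 0) - z.2) * 0 + x * 0)) :=
    (((hξ.const_mul _).const_add _).add (hw.const_mul _)).add (hu.const_mul _)
  have hlt : (2 * c.w0 - (c.R - 1)) + (-(c.p.θ 0) - 1) * ξ₀ + (-(z.2 * c.p.θ 0) - z.2) * 0 +
      x * 0 < 0 := by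
    have h2 : (-(c.p.θ 0) - 1) * ξ₀ ≤ c.T0 := by
      have h3 : -(c.p.θ 0) * ξ₀ ≤ c.T0 * 1 := by
        rcases le_total 0 (-(c.p.θ 0)) with h4 | h4
        · exact mul_le_mul (by linarith [hθ.1]) h1.le h0.le hT
        · have := mul_nonneg (neg_nonneg.2 h4) h0.le
          linarith
      linarith
    linarith
  filter_upwards [ht.eventually_lt_const hlt] with n hn
  have := e n
  linarith

/-- the exponents of the interior base point are below those of the record classes behind it -/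
theorem Y_le (ok : c.Ok η) {z : ℝ × ℝ} (hz : z.1 < 0) {ξ w1 h s u K : ℝ} (hw1 : 0 ≤ w1)
    (hh : 0 ≤ h) (hs0 : 0 ≤ s) (hs1 : s ≤ 1) (hu0 : 0 ≤ u) (hu1 : u ≤ 1) (huK : u * K ≤ s)
    (hhK : h * (‖c.ρ‖ + K) ≤ -z.1 * c.p.θ 1) {a : Fin 11 → ℝ} (ha1 : 0 ≤ a 1) (haK : ‖a‖ ≤ K) :
    c.X ξ + w1 • yI c z ≤
      c.X (ξ + w1 * (z.1 + z.2) + w1 * h * s) + (w1 * h * u) • a := by
  have hL : c.p.θ 2 - c.p.θ 0 = 1 := ok.pat.2.2.1
  have hL2 : c.p.θ 2 = 2 * c.p.θ 1 := ok.pat.2.2.2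
  have hθ := ok.th.tp.ok.θ1
  have hK : 0 ≤ K := (norm_nonneg a).trans haK
  have hab : ∀ k, |a k| ≤ K := fun k => by
    have := norm_le_pi_norm a k
    rw [Real.norm_eq_abs] at this
    exact this.trans haK
  have hρb : ∀ k, |c.ρ k| ≤ ‖c.ρ‖ := fun k => by
    have := norm_le_pi_norm c.ρ k
    rwa [Real.norm_eq_abs] at this
  -- the general estimate of a slot
  have key : ∀ k : Fin 11, c.p.θ 1 ≤ tN k - c.ρ k →
      0 ≤ w1 * (-z.1 * (tN k - c.ρ k) + h * (s * c.ρ k + u * a k)) := by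
    intro k hk
    refine mul_nonneg hw1 ?_
    have h1 : -z.1 * c.p.θ 1 ≤ -z.1 * (tN k - c.ρ k) :=
      mul_le_mul_of_nonneg_left hk (by linarith)
    have h2 : -(‖c.ρ‖ + K) ≤ s * c.ρ k + u * a k := by
      have h3 : |s * c.ρ k| ≤ 1 * ‖c.ρ‖ := by
        rw [abs_mul, abs_of_nonneg hs0]
        exact mul_le_mul hs1 (hρb k) (abs_nonneg _) zero_le_one
      have h4 : |u * a k| ≤ 1 * K := by
        rw [abs_mul, abs_of_nonneg hu0]
        exact mul_le_mul hu1 (hab k) (abs_nonneg _) zero_le_one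
      have h5 := (abs_le.1 h3).1
      have h6 := (abs_le.1 h4).1
      linarith
    have h3 := mul_le_mul_of_nonneg_left h2 hh
    linarith
  have hlev : ∀ k : Fin 11, 0 ≤ w1 * (h * (s + u * a k)) := by
    intro k
    refine mul_nonneg hw1 (mul_nonneg hh ?_)
    have h4 : |u * a k| ≤ u * K := by
      rw [abs_mul, abs_of_nonneg hu0]
      exact mul_le_mul_of_nonneg_left (hab k) hu0
    have h6 := (abs_le.1 h4).1
    linarith
  have hdiff : ∀ k : Fin 11, (c.X (ξ + w1 * (z.1 + z.2) + w1 * h * s) + (w1 * h * u) • a) k -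
      (c.X ξ + w1 • yI c z) k =
      w1 * (-z.1 * (tN k - c.ρ k) + h * (s * c.ρ k + u * a k)) := by
    intro k
    have e1 : c.X (ξ + w1 * (z.1 + z.2) + w1 * h * s) =
        c.X ξ + (w1 * (z.1 + z.2) + w1 * h * s) • c.ρ := by
      rw [X_add]; congr 1; ring
    rw [e1]
    simp only [yI, Pi.add_apply, Pi.smul_apply, smul_eq_mul]
    ring
  intro k
  have hd := hdiff k
  suffices hs : 0 ≤ w1 * (-z.1 * (tN k - c.ρ k) + h * (s * c.ρ k + u * a k)) by linarith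
  have hθ0 : c.p.θ 0 = 2 * c.p.θ 1 - 1 := by linarith
  fin_cases k
  · have := hlev 0
    have e : tN 0 - c.ρ 0 = 0 := by simp [tN, LCtx.ρ, nL]
    have e2 : c.ρ 0 = 1 := by simp [LCtx.ρ, nL]
    show 0 ≤ w1 * (-z.1 * (tN 0 - c.ρ 0) + h * (s * c.ρ 0 + u * a 0))
    rw [e, e2, mul_zero, zero_add, mul_one]; exact this
  · have e : tN 1 - c.ρ 1 = 0 := by simp [tN, LCtx.ρ, nL]
    have e2 : c.ρ 1 = 0 := by simp [LCtx.ρ, nL]
    show 0 ≤ w1 * (-z.1 * (tN 1 - c.ρ 1) + h * (s * c.ρ 1 + u * a 1))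
    rw [e, e2, mul_zero, zero_add, mul_zero, zero_add]
    exact mul_nonneg hw1 (mul_nonneg hh (mul_nonneg hu0 ha1))
  · exact key 2 (by simp only [tN, LCtx.ρ, nL, Matrix.cons_val]; linarith)
  · have := hlev 3
    have e2 : c.ρ 3 = 1 := by simp only [LCtx.ρ, nL, Matrix.cons_val]; linarith
    have e : tN 3 - c.ρ 3 = 0 := by rw [e2]; simp [tN]
    show 0 ≤ w1 * (-z.1 * (tN 3 - c.ρ 3) + h * (s * c.ρ 3 + u * a 3))
    rw [e, e2, mul_zero, zero_add, mul_one]; exact this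
  · exact key 4 (by simp only [tN, LCtx.ρ, nL, Matrix.cons_val]; linarith)
  · exact key 5 (by simp only [tN, LCtx.ρ, nL, Matrix.cons_val]; linarith)
  · exact key 6 (by simp only [tN, LCtx.ρ, nL, Matrix.cons_val]; linarith)
  · exact key 7 (by simp only [tN, LCtx.ρ, nL, Matrix.cons_val]; linarith)
  · exact key 8 (by simp only [tN, LCtx.ρ, nL, Matrix.cons_val]; linarith)
  · exact key 9 (by simp only [tN, LCtx.ρ, nL, Matrix.cons_val]; linarith)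
  · exact key 10 (by simp only [tN, LCtx.ρ, nL, Matrix.cons_val]; linarith)

end int

/-! ### the theorem -/

/-- from the twin windows to `AffW` -/
theorem affW_core {η : ℝ} {c : LCtx} (ok : c.Ok η) {B1 B2 : Base} {J : ℕ → Finset (ℕ × ℝ)}
    {ξ1 w1 : ℕ → ℝ} {lam0 lo0 : (Fin 11 → ℝ) → ℝ} (W1 : RecW c B1 J ξ1 w1 lam0 lo0)
    {z : ℝ × ℝ} (hz : z.1 < 0) {h2 : ℕ → ℝ} (h2pos : ∀ n, 0 < h2 n) (h20 : Tendsto h2 U (𝓝 0))
    {lamI : (Fin 11 → ℝ) → ℝ} {a m : ℝ} (LF : LightF coneN lamI a m) {ξ₀ : ℝ} {ξ' h' : ℕ → ℝ}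
    {lamR loR : (Fin 11 → ℝ) → ℝ} (RJR : RecJ c ξ₀ ξ' h' lamR loR) {TI : ℕ → ℝ}
    (ZI : ZWin c.D.B B2 c.D.I J (coF c.F) monQ 2 (fun n => c.X (ξ1 n) + w1 n • yI c z)
      (fun n => w1 n * h2 n) coneN TI lamI)
    (W2 : RecW c B2 J (fun n => ξ1 n + w1 n * (z.1 + z.2)) (fun n => w1 n * h2 n) lamR loR)
    (H : ℕ → ℕ → ℝ) (s2 : ∀ i, B2.Sub (H i)) :
    ∃ (B' : Base) (J : ℕ → Finset (ℕ × ℝ)) (ξ w : ℕ → ℝ) (lam lo : (Fin 11 → ℝ) → ℝ)
      (g : ℕ → ℕ × ℝ → ℕ × ℝ) (mu be : ℕ → ℕ × ℝ → ℝ),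
      AffW c B' J ξ w lam lo g mu be ∧ ∀ i, B'.Sub (H i) := by
  classical
  obtain ⟨x0, x00, x01, hx⟩ := W1.ξlim
  have hw20 : Tendsto (fun n => w1 n * h2 n) U (𝓝 0) := W2.wlim
  -- strips for every exponent
  have key : ∀ j : ℕ, ∃ y₀ : ℝ, 0 < y₀ ∧ y₀ ≤ 1 ∧ ∃ J1 : ℕ → Finset (ℕ × ℝ),
      (∀ n, J1 n ⊆ J n) ∧
      ∀ᶠ n in (U : Filter ℕ), B2.d n ^ (3 * (1 / ((j : ℝ) + 2) ^ 2) * y₀) *
          ((J n).card : ℝ) ≤ ((J1 n).card : ℝ) ∧
        ∀ s ∈ J1 n, AffR (c.F n) (c.D.B.d n ^ (c.X (ξ1 n) + w1 n • yI c z) 0)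
          (c.D.B.d n ^ (c.X (ξ1 n) + w1 n • yI c z) 3)
          (B2.d n ^ (-(2 * (1 / ((j : ℝ) + 2) ^ 2) * y₀))) (B2.d n ^ y₀)
          (cls (J1 n) (zlab c.D.B c.D.I (coF c.F) monQ 2
            (fun n => c.X (ξ1 n) + w1 n • yI c z) (fun n => w1 n * h2 n) n 0) s) := by
    intro j
    have hj : (0 : ℝ) < (j : ℝ) + 2 := by positivity
    refine strip_int ZI LF one_pos (Y_slack ok z x00 x01 hx W1.wlim hw20 1)
      (Eventually.of_forall fun n => Y_tight7 c z _ _)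
      (Eventually.of_forall fun n => Y_tight9 c z _ _) (by positivity) ?_
    rw [div_le_one (by positivity)]
    nlinarith
  choose y hy0 hy1 J1 hJ1 hst using key
  -- tangents at the moving record points
  have hj2 : ∀ j : ℕ, (0 : ℝ) < (j : ℝ) + 2 := fun j => by positivity
  have hupos : ∀ j : ℕ, 0 < y j / ((j : ℝ) + 2) := fun j => div_pos (hy0 j) (hj2 j)
  have hu0 : Tendsto (fun j : ℕ => y j / ((j : ℝ) + 2)) atTop (𝓝 0) := by
    have h3 : Tendsto (fun j : ℕ => 1 / ((j : ℝ) + 1)) atTop (𝓝 0) :=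
      tendsto_one_div_add_atTop_nhds_zero_nat
    refine squeeze_zero (fun j => (hupos j).le) (fun j => ?_) h3
    rw [div_le_div_iff₀ (hj2 j) (by positivity)]
    have := hy1 j
    have := hy0 j
    nlinarith
  obtain ⟨φ2, hφ2, lam', lo', t3, t3o⟩ := RJR.next ok (fun j => y j / 2) hupos
  have hφt := hφ2.tendsto_atTop
  obtain ⟨ψ1, hψ1⟩ := RJR.comp (s := fun j => y (φ2 j) / 2) (S := 1) (fun j => by
    rw [abs_of_nonneg (by have := hy0 (φ2 j); positivity)]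
    have := hy1 (φ2 j)
    linarith) (fun j => hupos (φ2 j)) (hu0.comp hφt) t3 t3o
  have RJ3 := hψ1 ψ1 (fun m => le_rfl)
  have he : Tendsto (fun j : ℕ => 3 / (((φ2 j : ℕ) : ℝ) + 2)) atTop (𝓝 0) := by
    have h3 : Tendsto (fun j : ℕ => 3 / ((j : ℝ) + 2)) atTop (𝓝 0) :=
      tendsto_const_nhds.div_atTop (tendsto_natCast_atTop_atTop.atTop_add tendsto_const_nhds)
    exact h3.comp hφt
  obtain ⟨k3, hk3, B3, d3, L3, s3, J', hJ', hAff, ⟨S, hS, hdJ⟩, ZF, OF⟩ := exists_zoom_ref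
    W2.win (x := fun j => (y (φ2 j) / 2) • c.ρ) (b := ‖c.ρ‖) (fun j => by
      rw [norm_smul, Real.norm_of_nonneg (by have := hy0 (φ2 j); positivity)]
      have h4 := hy1 (φ2 j)
      have h5 := norm_nonneg c.ρ
      nlinarith) (h := fun j => y (φ2 j) / (((φ2 j : ℕ) : ℝ) + 2)) (fun j => hupos (φ2 j))
    (hu0.comp hφt) coneN_zero t3 (fun n => Real.rpow_pos_of_pos (c.D.B.pos n) _) W2.oprof
    coneN_zero t3o H s2 he
    (fun j n J1 => ∀ s ∈ J1, AffR (c.F n) (c.D.B.d n ^ (c.X (ξ1 n) + w1 n • yI c z) 0)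
          (c.D.B.d n ^ (c.X (ξ1 n) + w1 n • yI c z) 3)
          (B2.d n ^ (-(2 * (1 / (((φ2 j : ℕ) : ℝ) + 2) ^ 2) * y (φ2 j)))) (B2.d n ^ y (φ2 j))
          (cls J1 (zlab c.D.B c.D.I (coF c.F) monQ 2
            (fun n => c.X (ξ1 n) + w1 n • yI c z) (fun n => w1 n * h2 n) n 0) s))
    (fun j => by
      filter_upwards [hst (φ2 j)] with n hn
      refine ⟨J1 (φ2 j) n, hJ1 _ n, ?_, hn.2⟩
      have e1 : 3 / (((φ2 j : ℕ) : ℝ) + 2) * (y (φ2 j) / (((φ2 j : ℕ) : ℝ) + 2)) =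
          3 * (1 / (((φ2 j : ℕ) : ℝ) + 2) ^ 2) * y (φ2 j) := by
        have := (hj2 (φ2 j)).ne'
        field_simp
      rw [e1]
      exact hn.1)
  -- the record window
  have W3 := recW_zoom ok W2 (RJ3.facts ok) (σ := fun n => y (φ2 (k3 n)) / 2)
    (v := fun n => y (φ2 (k3 n)) / (((φ2 (k3 n) : ℕ) : ℝ) + 2)) (S := 1) (fun n => by
      rw [abs_of_nonneg (by have := hy0 (φ2 (k3 n)); positivity)]
      have := hy1 (φ2 (k3 n))
      linarith) ((hu0.comp hφt).comp hk3) hJ' ZF OF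
  have hjt : Tendsto (fun n => ((φ2 (k3 n) : ℕ) : ℝ) + 2) U atTop :=
    (tendsto_natCast_atTop_atTop.comp (hφt.comp hk3)).atTop_add tendsto_const_nhds
  -- labels, slopes and constants
  set gl : ℕ → ℕ × ℝ → ℕ × ℝ := fun n => zlab c.D.B c.D.I (coF c.F) monQ 2
    (fun n => c.X (ξ1 n) + w1 n • yI c z) (fun n => w1 n * h2 n) n 0 with hgl
  set P : ℕ → ℕ × ℝ → ℝ × ℝ → Prop := fun n l p =>
    |p.1| * c.D.B.d n ^ (c.X (ξ1 n) + w1 n • yI c z) 0 ≤
      B2.d n ^ (-(2 * (1 / (((φ2 (k3 n) : ℕ) : ℝ) + 2) ^ 2) * y (φ2 (k3 n)))) *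
        c.D.B.d n ^ (c.X (ξ1 n) + w1 n • yI c z) 3 ∧
      ∀ i ∈ J' n, gl n i = l → |(c.F n i).fb - p.2 - p.1 * (c.F n i).z| ≤
        B2.d n ^ y (φ2 (k3 n)) * c.D.B.d n ^ (c.X (ξ1 n) + w1 n • yI c z) 3 with hP
  set pp : ℕ → ℕ × ℝ → ℝ × ℝ := fun n l => if h : ∃ p, P n l p then h.choose else 0 with hpp
  have hPp : ∀ᶠ n in (U : Filter ℕ), ∀ i ∈ J' n, P n (gl n i) (pp n (gl n i)) := by
    filter_upwards [hAff] with n hn i hi
    obtain ⟨mu, be, h1, h2⟩ := hn i hi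
    have hex : ∃ p, P n (gl n i) p := ⟨(mu, be), h1, fun i' hi' hl =>
      h2 i' (mem_cls.2 ⟨hi', hl⟩)⟩
    have e1 : pp n (gl n i) = hex.choose := dif_pos hex
    rw [e1]
    exact hex.choose_spec
  have hd1 : ∀ n, 0 < c.D.B.d n := fun n => c.D.B.pos n
  have hb2 : ∀ n, B2.d n = c.D.B.d n ^ (w1 n * h2 n) := W2.win.base
  -- the exponents of the slots 0 and 3
  have hX3 : ∀ n, c.D.B.d n ^ c.X (ξ1 n + w1 n * (z.1 + z.2) + w1 n * h2 n *
      (y (φ2 (k3 n)) / 2)) 3 = c.D.B.d n ^ (c.X (ξ1 n) + w1 n • yI c z) 3 *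
        B2.d n ^ (y (φ2 (k3 n)) / 2) := fun n => by
    rw [X_three ok, Y_three ok, hb2, ← Real.rpow_mul (hd1 n).le, ← Real.rpow_add (hd1 n)]
    congr 1
    ring
  refine ⟨B3, J', _, _, lam', lo', gl, fun n l => (pp n l).1, fun n l => (pp n l).2,
    ⟨W3, ⟨_, _, _, RJ3⟩, ⟨max 1 (cN monQ 2 (cK0 monQ 2)), le_max_left _ _, fun K => ?_⟩,
      ⟨fun n => B3.d n ^ (-(2 / (((φ2 (k3 n) : ℕ) : ℝ) + 2))), sub_rpow
        (tendsto_const_nhds.div_atTop hjt), ?_⟩, fun K => ?_⟩, s3⟩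
  · -- few labels
    have hsm : Tendsto (fun n => h2 n * (‖c.ρ‖ + |K|)) U (𝓝 (0 * (‖c.ρ‖ + |K|))) :=
      h20.mul_const _
    rw [zero_mul] at hsm
    have hθz : 0 < -z.1 * c.p.θ 1 := mul_pos (by linarith) ok.th.tp.ok.θ1
    filter_upwards [hsm.eventually_lt_const hθz, hjt.eventually_ge_atTop (2 * |K|),
      ZI.legal 0, W3.win.legal |K|, W3.win.sub] with n n1 n2 n3 n4 n5 a ha ha1 haK s hs
    refine le_trans ?_ (le_max_right _ _)
    have l1 := n3 0 coneN_zero (by rw [norm_zero])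
    have l2 := n4 a ha (haK.trans (le_abs_self _))
    refine few_labels W3.win.chart l1 l2 ?_ n5 hs
    have hyp := hy0 (φ2 (k3 n))
    have hyl := hy1 (φ2 (k3 n))
    have hj := hj2 (φ2 (k3 n))
    have hle := Y_le ok hz (ξ := ξ1 n) (w1 := w1 n) (h := h2 n) (s := y (φ2 (k3 n)) / 2)
      (u := y (φ2 (k3 n)) / (((φ2 (k3 n) : ℕ) : ℝ) + 2)) (K := |K|) (W1.win.w0 n).le
      (h2pos n).le (by positivity) (by linarith) (hupos _).le (by
        rw [div_le_one hj]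
        have : (0 : ℝ) ≤ ((φ2 (k3 n) : ℕ) : ℝ) := Nat.cast_nonneg _
        linarith) (by
        rw [div_mul_eq_mul_div, div_le_div_iff₀ hj two_pos, mul_assoc]
        refine mul_le_mul_of_nonneg_left ?_ hyp.le
        linarith) n1.le ha1 (haK.trans (le_abs_self _))
    rw [smul_zero, add_zero]
    exact hle
  · -- slope
    filter_upwards [hPp] with n hn i hi
    have h1 := (hn i hi).1
    have e0 : (c.X (ξ1 n) + w1 n • yI c z) 0 = (c.X (ξ1 n) + w1 n • yI c z) 3 := by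
      rw [Y_zero, Y_three ok]
    rw [e0] at h1
    have hpos3 := Real.rpow_pos_of_pos (hd1 n) ((c.X (ξ1 n) + w1 n • yI c z) 3)
    have h2' := le_of_mul_le_mul_right h1 hpos3
    have e1 : c.X (ξ1 n + w1 n * (z.1 + z.2) + w1 n * h2 n * (y (φ2 (k3 n)) / 2)) 0 =
        c.X (ξ1 n + w1 n * (z.1 + z.2) + w1 n * h2 n * (y (φ2 (k3 n)) / 2)) 3 := by
      rw [X_zero, X_three ok]
    rw [e1]
    refine mul_le_mul_of_nonneg_right (h2'.trans (le_of_eq ?_))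
      (Real.rpow_pos_of_pos (hd1 n) _).le
    rw [d3, ← Real.rpow_mul (B2.pos n).le]
    congr 1
    have := (hj2 (φ2 (k3 n))).ne'
    field_simp
  · -- precision
    filter_upwards [hPp, hjt.eventually_ge_atTop (2 * |K|)] with n hn hjK i hi
    have h1 := (hn i hi).2 i hi rfl
    refine h1.trans ?_
    rw [hX3, d3, ← Real.rpow_mul (B2.pos n).le, mul_comm (c.D.B.d n ^ _), ← mul_assoc,
      ← Real.rpow_add (B2.pos n)]
    refine mul_le_mul_of_nonneg_right ?_ (Real.rpow_pos_of_pos (hd1 n) _).le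
    refine Real.rpow_le_rpow_of_exponent_ge (B2.pos n) (B2.lt n).le ?_
    have hyp := hy0 (φ2 (k3 n))
    have hj := hj2 (φ2 (k3 n))
    have h3 : y (φ2 (k3 n)) / (((φ2 (k3 n) : ℕ) : ℝ) + 2) * K ≤ y (φ2 (k3 n)) / 2 := by
      rw [div_mul_eq_mul_div, div_le_div_iff₀ hj two_pos, mul_assoc]
      refine mul_le_mul_of_nonneg_left ?_ hyp.le
      have := le_abs_self K
      linarith
    linarith

/-- **`F_b` is affine in the height at the record line** -/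
theorem exists_affW {η : ℝ} {c : LCtx} (ok : c.Ok η) (hRig : HasRig c) (H : ℕ → ℕ → ℝ)
    (hH : ∀ i, c.D.B.Sub (H i)) :
    ∃ (B' : Base) (J : ℕ → Finset (ℕ × ℝ)) (ξ w : ℕ → ℝ) (lam lo : (Fin 11 → ℝ) → ℝ)
      (g : ℕ → ℕ × ℝ → ℕ × ℝ) (mu be : ℕ → ℕ × ℝ → ℝ),
      AffW c B' J ξ w lam lo g mu be ∧ ∀ i, B'.Sub (H i) := by
  classical
  -- the first record window
  obtain ⟨φ0, -, lam0, lo0, RJ0⟩ := exists_recJ (ξ₀ := 1 / 2) (ξ := fun _ => 1 / 2)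
    (h := fun l => 1 / ((l : ℝ) + 1)) ok (by norm_num) (by norm_num) tendsto_const_nhds
    (fun l => by positivity) tendsto_one_div_add_atTop_nhds_zero_nat
  obtain ⟨k1, hk1, HW⟩ := RJ0.win ok H hH
  obtain ⟨B1, -, -, s1, W1⟩ := HW k1 hk1 (Eventually.of_forall fun n => le_rfl)
  -- the interior point
  obtain ⟨z, hz, kk, kpos, k0, lamI, a, m, tI, LF⟩ := hRig _ _ _ _ _ RJ0
  obtain ⟨φ, hφ, lamR, loR, tR, tRo⟩ := RJ0.next ok (fun _ => z.1 + z.2) kpos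
  have tI' : IsTan coneN coneN lam0 (fun _ => yI c z) (fun l => kk (φ l)) lamI :=
    tan_subseq tI hφ.tendsto_atTop
  have kk0 : Tendsto (fun l => kk (φ l)) atTop (𝓝 0) := k0.comp hφ.tendsto_atTop
  obtain ⟨ψ0, hψ0⟩ := RJ0.comp (s := fun _ => z.1 + z.2) (S := |z.1 + z.2|) (fun _ => le_rfl)
    (fun j => kpos (φ j)) kk0 tR tRo
  have RJR := hψ0 ψ0 (fun m => le_rfl)
  -- twin windows
  obtain ⟨k2, hk2, HT⟩ := exists_twin W1.win (xI := fun _ => yI c z)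
    (xR := fun _ => (z.1 + z.2) • c.ρ) (b := max ‖yI c z‖ ‖(z.1 + z.2) • c.ρ‖)
    (fun _ => le_max_left _ _) (fun _ => le_max_right _ _) (h := fun l => kk (φ l))
    (fun l => kpos _) kk0 coneN_zero tI' tR
    (hTo := fun n => Real.rpow_pos_of_pos (c.D.B.pos n) _) W1.oprof coneN_zero tRo H s1
  obtain ⟨B2, d2, L2, s2, ZI, ZR, OR⟩ := HT k2 hk2 (Eventually.of_forall fun n => le_rfl)
  have W2 := recW_zoom ok W1 (RJR.facts ok) (σ := fun _ => z.1 + z.2)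
    (v := fun n => kk (φ (k2 n))) (S := |z.1 + z.2|) (fun _ => le_rfl) (kk0.comp hk2)
    (fun n => subset_rfl) ZR OR
  exact affW_core ok W1 hz (fun n => kpos _) (kk0.comp hk2) LF RJR ZI W2 H s2

end Crest.Agent.R136.Gau66
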