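import Crest.Agent.R136.GauB2_66

/-!
# R136 (helper66): T.L, fork on the slope and the branch of small slope

* `AffW.refine` : a dense part.
* `AffW.fork` : small slope on a dense part, or slope `≥ d'^ε` for every `ε` on a dense part.
* `small_rec` : small slope: `F_b` is constant on the classes of a finer record window.
-/

set_option autoImplicit false
set_option linter.unusedVariables false

open Filter Topology Finset

namespace Crest.Agent.R136.Gau66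

open Crest.Agent.R138.Ex926
open Crest.Agent.R136.Net191
open Crest.Agent.R136.NetQ186
open Crest.Agent.R136.NatT550
open Crest.Agent.R136.NatR550
open Crest.Agent.R136.TopB550
open Crest.Agent.R136.Qg926
open Crest.Agent.R136.Zpr779
open Crest.Agent.R136.Gz779
open Crest.Agent.R136.TL196
open Crest.Agent.R136.LdF3511

section

variable {η : ℝ} {c : LCtx} {B' : Base} {J : ℕ → Finset (ℕ × ℝ)} {ξ w : ℕ → ℝ}
  {lam lo : (Fin 11 → ℝ) → ℝ} {g : ℕ → ℕ × ℝ → ℕ × ℝ} {mu be : ℕ → ℕ × ℝ → ℝ}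

/-- a dense part of a nonempty set is nonempty -/
theorem dense_ne {B : Base} {J J' : ℕ → Finset (ℕ × ℝ)} {S : ℕ → ℝ}
    (hne : ∀ᶠ n in (U : Filter ℕ), (J n).Nonempty)
    (hd : ∀ᶠ n in (U : Filter ℕ), ((J n).card : ℝ) ≤ S n * ((J' n).card : ℝ)) :
    ∀ᶠ n in (U : Filter ℕ), (J' n).Nonempty := by
  filter_upwards [hne, hd] with n h1 h2
  have h3 : (0 : ℝ) < (J n).card := by exact_mod_cast card_pos.2 h1
  rw [← card_pos]
  rcases Nat.eq_zero_or_pos (J' n).card with h0 | h0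
  · rw [h0] at h2
    simp only [Nat.cast_zero, mul_zero] at h2
    linarith
  · exact h0

/-- **dense part** -/
theorem AffW.refine (A : AffW c B' J ξ w lam lo g mu be) {J' : ℕ → Finset (ℕ × ℝ)}
    (hsub : ∀ n, J' n ⊆ J n) {S : ℕ → ℝ} (hS : B'.Sub S)
    (hd : ∀ᶠ n in (U : Filter ℕ), ((J n).card : ℝ) ≤ S n * ((J' n).card : ℝ)) :
    AffW c B' J' ξ w lam lo g mu be where
  rw := A.rw.refine (Eventually.of_forall hsub)
    (dense_ne (B := B') A.rw.win.ne hd) hS hd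
  rj := A.rj
  few := by
    obtain ⟨N, hN, h⟩ := A.few
    refine ⟨N, hN, fun K => ?_⟩
    filter_upwards [h K] with n hn a ha ha1 haK s hs
    refine le_trans ?_ (hn a ha ha1 haK s (hsub n hs))
    exact_mod_cast card_le_card (image_subset_image (cls_mono (hsub n) _ _))
  slope := by
    obtain ⟨S, hS, h⟩ := A.slope
    exact ⟨S, hS, h.mono fun n hn i hi => hn i (hsub n hi)⟩
  aff := fun K => (A.aff K).mono fun n hn i hi => hn i (hsub n hi)

/-- **the fork** -/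
theorem AffW.fork (A : AffW c B' J ξ w lam lo g mu be) :
    (∃ m : ℝ, 0 < m ∧ ∃ J' : ℕ → Finset (ℕ × ℝ), (∀ n, J' n ⊆ J n) ∧
      (∀ᶠ n in (U : Filter ℕ), ((J n).card : ℝ) ≤ 2 * ((J' n).card : ℝ)) ∧
      ∀ᶠ n in (U : Filter ℕ), ∀ i ∈ J' n, |mu n (g n i)| * c.D.B.d n ^ (c.X (ξ n) 0) ≤
        B'.d n ^ m * c.D.B.d n ^ (c.X (ξ n) 3)) ∨
    (∃ J' : ℕ → Finset (ℕ × ℝ), (∀ n, J' n ⊆ J n) ∧
      (∀ᶠ n in (U : Filter ℕ), ((J n).card : ℝ) ≤ 2 * ((J' n).card : ℝ)) ∧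
      ∀ ε : ℝ, 0 < ε → ∀ᶠ n in (U : Filter ℕ), ∀ i ∈ J' n,
        B'.d n ^ ε * c.D.B.d n ^ (c.X (ξ n) 3) ≤
          |mu n (g n i)| * c.D.B.d n ^ (c.X (ξ n) 0)) := by
  classical
  set Sm : ℕ → ∀ n : ℕ, Finset (ℕ × ℝ) := fun l n => (J n).filter fun i =>
    |mu n (g n i)| * c.D.B.d n ^ (c.X (ξ n) 0) ≤
      B'.d n ^ (1 / ((l : ℝ) + 1)) * c.D.B.d n ^ (c.X (ξ n) 3) with hSm
  by_cases hex : ∃ l, ∀ᶠ n in (U : Filter ℕ), ((J n).card : ℝ) ≤ 2 * ((Sm l n).card : ℝ)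
  · left
    obtain ⟨l, hl⟩ := hex
    exact ⟨1 / ((l : ℝ) + 1), by positivity, Sm l, fun n => filter_subset _ _, hl,
      Eventually.of_forall fun n i hi => (mem_filter.1 hi).2⟩
  · right
    push Not at hex
    set La : ℕ → ∀ n : ℕ, Finset (ℕ × ℝ) := fun l n => (J n).filter fun i =>
      ¬ |mu n (g n i)| * c.D.B.d n ^ (c.X (ξ n) 0) ≤
        B'.d n ^ (1 / ((l : ℝ) + 1)) * c.D.B.d n ^ (c.X (ξ n) 3) with hLa
    have hbig : ∀ l, ∀ᶠ n in (U : Filter ℕ), ((J n).card : ℝ) ≤ 2 * ((La l n).card : ℝ) := by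
      intro l
      filter_upwards [hex l] with n hn
      have h2 := card_filter_add_card_filter_not (s := J n)
        (fun i => |mu n (g n i)| * c.D.B.d n ^ (c.X (ξ n) 0) ≤
          B'.d n ^ (1 / ((l : ℝ) + 1)) * c.D.B.d n ^ (c.X (ξ n) 3))
      have h3 : (Sm l n).card + (La l n).card = (J n).card := h2
      have h4 := congrArg (Nat.cast : ℕ → ℝ) h3
      rw [Nat.cast_add] at h4
      linarith
    obtain ⟨k, hk, hk2⟩ := exists_diag _ hbig
    refine ⟨fun n => La (k n) n, fun n => filter_subset _ _, hk2.mono fun n hn => hn _ le_rfl,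
      fun ε hε => ?_⟩
    obtain ⟨l0, hl0⟩ := exists_nat_gt (1 / ε)
    filter_upwards [hk.eventually (eventually_ge_atTop l0)] with n hn i hi
    have h1 := (mem_filter.1 hi).2
    rw [not_le] at h1
    refine le_trans (mul_le_mul_of_nonneg_right ?_ (Real.rpow_pos_of_pos (c.D.B.pos n) _).le)
      h1.le
    refine Real.rpow_le_rpow_of_exponent_ge (B'.pos n) (B'.lt n).le ?_
    have h2 : (l0 : ℝ) ≤ (k n : ℝ) := by exact_mod_cast hn
    rw [div_le_iff₀ (by positivity)]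
    rw [div_lt_iff₀ hε] at hl0
    nlinarith

/-- **small slope**: one more zoom, and `F_b` is constant on the classes of the base
`(0, -T1)` -/
theorem small_rec (ok : c.Ok η) (A : AffW c B' J ξ w lam lo g mu be) {m : ℝ} (hm : 0 < m)
    (hsm : ∀ᶠ n in (U : Filter ℕ), ∀ i ∈ J n, |mu n (g n i)| * c.D.B.d n ^ (c.X (ξ n) 0) ≤
      B'.d n ^ m * c.D.B.d n ^ (c.X (ξ n) 3)) (T1 : ℝ) (H : ℕ → ℕ → ℝ)
    (hH : ∀ i, B'.Sub (H i)) :
    ∃ (B2 : Base) (J2 : ℕ → Finset (ℕ × ℝ)) (ξ2 w2 : ℕ → ℝ) (lam2 lo2 : (Fin 11 → ℝ) → ℝ),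
      RecW c B2 J2 ξ2 w2 lam2 lo2 ∧ (∀ i, B2.Sub (H i)) ∧
      ∀ K : ℝ, ∀ᶠ n in (U : Filter ℕ), ∀ i ∈ J2 n, ∀ j ∈ J2 n,
        zlab c.D.B c.D.I (coF c.F) monQ 2 (c.XB T1 ξ2 w2) w2 n 0 i =
          zlab c.D.B c.D.I (coF c.F) monQ 2 (c.XB T1 ξ2 w2) w2 n 0 j →
        |(c.F n j).fb - (c.F n i).fb| ≤ B2.d n ^ K * c.D.B.d n ^ (c.XB T1 ξ2 w2 n 3) := by
  classical
  obtain ⟨ξ₀, ξ', h', RJ⟩ := A.rj
  -- record tangent at the constant base
  have hpos : ∀ l : ℕ, (0 : ℝ) < 1 / ((l : ℝ) + 1) := fun l => by positivity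
  obtain ⟨φ, hφ, lam', lo', t1, t2⟩ := RJ.next ok (fun _ => 0) hpos
  have hφt := hφ.tendsto_atTop
  have h0 : Tendsto (fun l : ℕ => 1 / (((φ l : ℕ) : ℝ) + 1)) atTop (𝓝 0) :=
    tendsto_one_div_add_atTop_nhds_zero_nat.comp hφt
  obtain ⟨ψ, hψ⟩ := RJ.comp (s := fun _ => 0) (S := 0) (fun _ => by simp) (fun j => hpos (φ j))
    h0 t1 t2
  have RJ2 := hψ ψ (fun m => le_rfl)
  obtain ⟨k, hk, HZ⟩ := A.rw.win.exists_zoom (x := fun _ => (0 : ℝ) • c.ρ) (b := 0)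
    (fun _ => by simp) (h := fun l => 1 / (((φ l : ℕ) : ℝ) + 1)) (fun l => hpos _) h0
    coneN_zero t1 (fun n => Real.rpow_pos_of_pos (c.D.B.pos n) _) A.rw.oprof coneN_zero t2 H hH
  obtain ⟨B2, d2, L2, s2, ZF, OF⟩ := HZ k hk (Eventually.of_forall fun n => le_rfl)
  have hu0 := h0.comp hk
  have W2 := recW_zoom ok A.rw (RJ2.facts ok) (σ := fun _ => 0)
    (v := fun n => 1 / (((φ (k n) : ℕ) : ℝ) + 1)) (S := 0) (fun _ => by simp) hu0
    (fun n => subset_rfl) ZF OF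
  -- one coarse label per class
  obtain ⟨N, hN, hfew⟩ := A.few
  set v : ℕ → ℝ := fun n => 1 / (((φ (k n) : ℕ) : ℝ) + 1) with hv
  have hv0 : ∀ n, 0 < v n := fun n => hpos _
  have hv1 : ∀ n, v n ≤ 1 := fun n => by
    rw [hv]
    simp only
    rw [div_le_one (by positivity)]
    have : (0 : ℝ) ≤ ((φ (k n) : ℕ) : ℝ) := Nat.cast_nonneg _
    linarith
  set f : ∀ n : ℕ, ℕ × ℝ → ℕ × ℝ := fun n => zlab c.D.B c.D.I (coF c.F) monQ 2
    (c.XB T1 (fun n => ξ n + w n * 0) (fun n => w n * v n)) (fun n => w n * v n) n 0 with hf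
  have hfeq : ∀ n, f n = zlab c.D.B c.D.I (coF c.F) monQ 2 (fun n => c.X (ξ n)) w n
      (v n • bT T1) := fun n => by
    show nlab c.D.B c.D.I (coF c.F) monQ 2 n
        (c.X (ξ n + w n * 0) + (w n * v n) • bT T1 + (w n * v n) • (0 : Fin 11 → ℝ)) =
      nlab c.D.B c.D.I (coF c.F) monQ 2 n (c.X (ξ n) + w n • v n • bT T1)
    rw [mul_zero, add_zero, smul_zero, add_zero, mul_smul]
  have hlab : ∀ᶠ n in (U : Filter ℕ), ∀ s ∈ J n,
      (((cls (J n) (f n) s).image (g n)).card : ℝ) ≤ N := by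
    filter_upwards [hfew ‖bT T1‖] with n hn s hs
    rw [hfeq n]
    refine hn _ (coneN_smul (bT_mem T1) (hv0 n).le) ?_ ?_ s hs
    · simp [bT, nL]
    · rw [norm_smul, Real.norm_of_nonneg (hv0 n).le]
      exact mul_le_of_le_one_left (norm_nonneg _) (hv1 n)
  set J2 : ℕ → Finset (ℕ × ℝ) := fun n =>
    if h : ∀ s ∈ J n, (((cls (J n) (f n) s).image (g n)).card : ℝ) ≤ N then
      (popular_fs (J n) (f n) (g n) h).choose else ∅ with hJ2
  have hJ2s : ∀ n, J2 n ⊆ J n := fun n => by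
    by_cases h : ∀ s ∈ J n, (((cls (J n) (f n) s).image (g n)).card : ℝ) ≤ N
    · have e : J2 n = (popular_fs (J n) (f n) (g n) h).choose := dif_pos h
      rw [e]; exact (popular_fs (J n) (f n) (g n) h).choose_spec.1
    · have e : J2 n = ∅ := dif_neg h
      rw [e]; exact empty_subset _
  have hJ2p : ∀ᶠ n in (U : Filter ℕ), ((J n).card : ℝ) ≤ N * ((J2 n).card : ℝ) ∧
      ∀ x ∈ J2 n, ∀ y ∈ J2 n, f n x = f n y → g n x = g n y := by
    filter_upwards [hlab] with n h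
    have e : J2 n = (popular_fs (J n) (f n) (g n) h).choose := dif_pos h
    rw [e]; exact (popular_fs (J n) (f n) (g n) h).choose_spec.2
  have hdens : ∀ᶠ n in (U : Filter ℕ), ((J n).card : ℝ) ≤ N * ((J2 n).card : ℝ) :=
    hJ2p.mono fun n hn => hn.1
  have hNsub : B2.Sub fun _ => N := Base.Sub.const (by linarith)
  have W3 := W2.refine (Eventually.of_forall hJ2s) (dense_ne (B := B2) A.rw.win.ne hdens) hNsub
    hdens
  refine ⟨B2, J2, _, _, lam', lo', W3, s2, fun K => ?_⟩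
  -- the estimate
  have hKv : ∀ M : ℝ, ∀ᶠ n in (U : Filter ℕ), v n * M ≤ min m 1 := by
    intro M
    have h1 : Tendsto (fun n => v n * M) U (𝓝 (0 * M)) := hu0.mul_const M
    rw [zero_mul] at h1
    filter_upwards [h1.eventually_lt_const (lt_min hm one_pos)] with n hn using hn.le
  filter_upwards [hJ2p, hsm, A.aff 1, hKv (K + 1), W3.win.sub, W3.win.legal ‖bT T1‖,
    B2.ev_rpow_small (η := 1) (c := 1 / (2 + cK0 monQ 2)) one_pos (by
      have := cK0_one (M := monQ) (C := 2) (by norm_num)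
      positivity)] with n h1 h2 h3 h4 h5 h6 h7 i hi j hj hl
  have hiJ := hJ2s n hi
  have hjJ := hJ2s n hj
  have hg : g n i = g n j := h1.2 i hi j hj hl
  have a1 := h3 i hiJ
  have a2 := h3 j hjJ
  rw [← hg] at a2
  have a3 := h2 i hiJ
  -- the heights are close
  have hnear : |(c.F n j).z - (c.F n i).z| ≤ cK0 monQ 2 * c.D.B.d n ^ (c.X (ξ n) 0) := by
    have hleg := h6 (bT T1) (bT_mem T1) le_rfl
    have hl' : nlab c.D.B c.D.I (coF c.F) monQ 2 n (c.X (ξ n + w n * 0) + (w n * v n) • bT T1) i =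
        nlab c.D.B c.D.I (coF c.F) monQ 2 n (c.X (ξ n + w n * 0) + (w n * v n) • bT T1) j := by
      have h9 : nlab c.D.B c.D.I (coF c.F) monQ 2 n
          (c.X (ξ n + w n * 0) + (w n * v n) • bT T1 + (w n * v n) • (0 : Fin 11 → ℝ)) i =
        nlab c.D.B c.D.I (coF c.F) monQ 2 n
          (c.X (ξ n + w n * 0) + (w n * v n) • bT T1 + (w n * v n) • (0 : Fin 11 → ℝ)) j := hl
      rw [smul_zero, add_zero] at h9
      exact h9
    have h8 := near_of_nlab W3.win.chart hleg (h5 hi) (h5 hj) hl' 0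
    have e1 : (c.X (ξ n + w n * 0) + (w n * v n) • bT T1) 0 = c.X (ξ n) 0 := by
      simp [bT, nL]
    rw [e1] at h8
    exact h8
  have hD3 : 0 < c.D.B.d n ^ (c.X (ξ n) 3) := Real.rpow_pos_of_pos (c.D.B.pos n) _
  have eXB : c.XB T1 (fun n => ξ n + w n * 0) (fun n => w n * v n) n 3 = c.X (ξ n) 3 := by
    simp [LCtx.XB, bT, nL]
  rw [eXB]
  have hbd : ∀ t : ℝ, min m 1 ≤ t → B'.d n ^ t ≤ B2.d n ^ (K + 1) := by
    intro t ht
    rw [d2, ← Real.rpow_mul (B'.pos n).le]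
    exact Real.rpow_le_rpow_of_exponent_ge (B'.pos n) (B'.lt n).le (h4.trans ht)
  have b1 := hbd 1 (min_le_right _ _)
  have b2 := hbd m (min_le_left _ _)
  have hcK : 0 ≤ cK0 monQ 2 := by
    have := cK0_one (M := monQ) (C := 2) (by norm_num)
    linarith
  have e2 : (c.F n j).fb - (c.F n i).fb =
      ((c.F n j).fb - be n (g n i) - mu n (g n i) * (c.F n j).z) -
        ((c.F n i).fb - be n (g n i) - mu n (g n i) * (c.F n i).z) +
        mu n (g n i) * ((c.F n j).z - (c.F n i).z) := by ring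
  have e3 : |mu n (g n i) * ((c.F n j).z - (c.F n i).z)| ≤
      cK0 monQ 2 * (B'.d n ^ m * c.D.B.d n ^ (c.X (ξ n) 3)) := by
    rw [abs_mul]
    calc |mu n (g n i)| * |(c.F n j).z - (c.F n i).z|
        ≤ |mu n (g n i)| * (cK0 monQ 2 * c.D.B.d n ^ (c.X (ξ n) 0)) :=
          mul_le_mul_of_nonneg_left hnear (abs_nonneg _)
      _ = cK0 monQ 2 * (|mu n (g n i)| * c.D.B.d n ^ (c.X (ξ n) 0)) := by ring
      _ ≤ _ := mul_le_mul_of_nonneg_left a3 hcK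
  rw [e2]
  have t3 : |((c.F n j).fb - be n (g n i) - mu n (g n i) * (c.F n j).z) -
        ((c.F n i).fb - be n (g n i) - mu n (g n i) * (c.F n i).z) +
        mu n (g n i) * ((c.F n j).z - (c.F n i).z)| ≤
      (2 + cK0 monQ 2) * (B2.d n ^ (K + 1) * c.D.B.d n ^ (c.X (ξ n) 3)) := by
    have c1 : B'.d n ^ (1 : ℝ) * c.D.B.d n ^ (c.X (ξ n) 3) ≤
        B2.d n ^ (K + 1) * c.D.B.d n ^ (c.X (ξ n) 3) := mul_le_mul_of_nonneg_right b1 hD3.le
    have c2 : cK0 monQ 2 * (B'.d n ^ m * c.D.B.d n ^ (c.X (ξ n) 3)) ≤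
        cK0 monQ 2 * (B2.d n ^ (K + 1) * c.D.B.d n ^ (c.X (ξ n) 3)) :=
      mul_le_mul_of_nonneg_left (mul_le_mul_of_nonneg_right b2 hD3.le) hcK
    rw [abs_le] at a1 a2 e3 ⊢
    constructor <;> linarith [a1.1, a1.2, a2.1, a2.2, e3.1, e3.2]
  refine t3.trans ?_
  rw [Real.rpow_add (B2.pos n)]
  have h8 : (2 + cK0 monQ 2) * B2.d n ^ (1 : ℝ) ≤ 1 := by
    have h9 : (0 : ℝ) < 2 + cK0 monQ 2 := by linarith
    calc (2 + cK0 monQ 2) * B2.d n ^ (1 : ℝ) ≤ (2 + cK0 monQ 2) * (1 / (2 + cK0 monQ 2)) :=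
          mul_le_mul_of_nonneg_left h7 h9.le
      _ = 1 := by field_simp
  have hK0 : 0 < B2.d n ^ K := Real.rpow_pos_of_pos (B2.pos n) _
  calc (2 + cK0 monQ 2) * (B2.d n ^ K * B2.d n ^ (1 : ℝ) * c.D.B.d n ^ (c.X (ξ n) 3))
      = ((2 + cK0 monQ 2) * B2.d n ^ (1 : ℝ)) * (B2.d n ^ K * c.D.B.d n ^ (c.X (ξ n) 3)) := by ring
    _ ≤ 1 * (B2.d n ^ K * c.D.B.d n ^ (c.X (ξ n) 3)) :=
        mul_le_mul_of_nonneg_right h8 (mul_pos hK0 hD3).le
    _ = _ := one_mul _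

end

end Crest.Agent.R136.Gau66
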