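import Crest.Agent.R136.WkM_626
import Crest.Agent.R136.Gz2_779
import Crest.Agent.R136.TL3_196

/-!
# R136 (helper626): T.L, part (C), last step

`gwin_of_rel` : relations `GRel` on the classes of a record window (parameters depend on the class
only) give 196's `GWin`; `gwin_flat` : the same for `F_b` constant (no gauge).
-/

set_option autoImplicit false
set_option linter.unusedSectionVars false
set_option linter.unusedVariables false

open Filter Topology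

namespace Crest.Agent.R136.WkM626

open Finset
open Crest.Agent.R136.NetQ186
open Crest.Agent.R136.GeoQ186
open Crest.Agent.R136.Qg926
open Crest.Agent.R136.Net191
open Crest.Agent.R136.Gau66
open Crest.Agent.R136.Gz779
open Crest.Agent.R136.Zpr779
open Crest.Agent.R136.NatT550
open Crest.Agent.R136.NatR550
open Crest.Agent.R136.TL196
open Crest.Agent.R138.Ex926
open Crest.Agent.R138.Dp76 (Dense)

variable {κ' : ℕ → Type*} {B B' : Base} {I J : ℕ → Finset (ℕ × ℝ)} {F : ℕ → ℕ × ℝ → Fq4}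
  {M : Mons 11} {C : ℝ} {X : ℕ → Fin 11 → ℝ} {w : ℕ → ℝ} {D : Set (Fin 11 → ℝ)} {T : ℕ → ℝ}
  {lam : (Fin 11 → ℝ) → ℝ} {x : ℝ}

/-- **relations on one set of incidences** with fixed parameters, for all `ε`, give `GauIn` -/
theorem gauIn_of_eps {E : ℕ → Finset (ℕ × ℝ)} {s0 e0 q0 be mu : ℕ → ℝ}
    (ht : ∀ n, TightQ (X n))
    (hmu : ∀ ε : ℝ, 0 < ε → ∀ᶠ n in (U : Filter ℕ),
      |mu n| * B.d n ^ X n 0 ≤ B'.d n ^ (-ε) * B.d n ^ X n 3)
    (hs0 : ∀ ε : ℝ, 0 < ε → ∀ᶠ n in (U : Filter ℕ),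
      |s0 n| * B.d n ^ X n 5 ≤ B'.d n ^ (-ε) * B.d n ^ X n 2)
    (hrel : ∀ ε : ℝ, 0 < ε → ∀ᶠ n in (U : Filter ℕ), ∀ i ∈ E n,
      GRel (s0 n) (e0 n) (q0 n) (be n) (mu n) (B'.d n ^ (x - ε) * B.d n ^ X n 2)
        (B'.d n ^ (x - ε) * B.d n ^ X n 6) (B'.d n ^ (x - ε) * B.d n ^ X n 3) (F n i)) :
    ∃ ηg : ℕ → ℝ, GauIn B B' E F (fun n => gg (s0 n) (e0 n) (mu n)) X ηg x x := by
  obtain ⟨k, hk, hk2⟩ := exists_diag (fun j n => ∀ i ∈ E n,
      GRel (s0 n) (e0 n) (q0 n) (be n) (mu n)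
        (B'.d n ^ (x - 1 / ((j : ℝ) + 1)) * B.d n ^ X n 2)
        (B'.d n ^ (x - 1 / ((j : ℝ) + 1)) * B.d n ^ X n 6)
        (B'.d n ^ (x - 1 / ((j : ℝ) + 1)) * B.d n ^ X n 3) (F n i))
    (fun j => hrel (1 / ((j : ℝ) + 1)) (by positivity))
  have hks : ∀ ε : ℝ, 0 < ε → ∀ᶠ n in (U : Filter ℕ), 1 / ((k n : ℝ) + 1) ≤ ε := by
    intro ε hε
    have h4 : Tendsto (fun n => 1 / ((k n : ℝ) + 1)) U (𝓝 0) :=
      tendsto_one_div_add_atTop_nhds_zero_nat.comp hk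
    exact h4.eventually (ge_mem_nhds hε)
  have hB : ∀ n, ∀ t : ℝ, 0 < B.d n ^ t := fun n t => Real.rpow_pos_of_pos (B.pos n) t
  have hd : ∀ n, ∀ t : ℝ, 0 < B'.d n ^ t := fun n t => Real.rpow_pos_of_pos (B'.pos n) t
  have hsz : ∀ (q : Fin 11), ∀ ε : ℝ, 0 < ε → ∀ᶠ n in (U : Filter ℕ),
      B'.d n ^ (x - 1 / ((k n : ℝ) + 1)) * B.d n ^ X n q ≤
        B'.d n ^ (x - ε) * B.d n ^ X n q := by
    intro q ε hε
    filter_upwards [hks ε hε] with n hn
    refine mul_le_mul_of_nonneg_right ?_ (hB n _).le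
    exact Real.rpow_le_rpow_of_exponent_ge (B'.pos n) (B'.lt n).le (by linarith)
  exact ⟨_, gauIn_of_rel (s0 := s0) (e0 := e0) (q0 := q0) (be := be) (mu := mu)
    (dE := fun n => B'.d n ^ (x - 1 / ((k n : ℝ) + 1)) * B.d n ^ X n 2)
    (dC := fun n => B'.d n ^ (x - 1 / ((k n : ℝ) + 1)) * B.d n ^ X n 6)
    (dF := fun n => B'.d n ^ (x - 1 / ((k n : ℝ) + 1)) * B.d n ^ X n 3) ht
    (hk2.mono fun n hn => hn (k n) le_rfl) (fun n => (mul_pos (hd n _) (hB n _)).le) hmu hs0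
    (hsz 2) (hsz 6) (hsz 3)⟩

/-- `GauIn` only sees the base exponents eventually -/
theorem gauIn_congrX {E : ℕ → Finset (ℕ × ℝ)} {h : ℕ → Fin 6 → ℝ} {X X' : ℕ → Fin 11 → ℝ}
    {η : ℕ → ℝ} {x xF : ℝ} (H : GauIn B B' E F h X η x xF)
    (e : ∀ᶠ n in (U : Filter ℕ), X' n = X n) : GauIn B B' E F h X' η x xF where
  h4 := H.h4
  h5 := H.h5
  η0 := H.η0
  tau := H.tau
  b2 := fun ε hε => by filter_upwards [H.b2 ε hε, e] with n h1 h2; rw [h2]; exact h1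
  b3 := fun ε hε => by filter_upwards [H.b3 ε hε, e] with n h1 h2; rw [h2]; exact h1
  bη := fun ε hε => by filter_upwards [H.bη ε hε, e] with n h1 h2; rw [h2]; exact h1
  s1 := fun ε hε => by filter_upwards [H.s1 ε hε, e] with n h1 h2; rw [h2]; exact h1
  s3 := fun ε hε => by filter_upwards [H.s3 ε hε, e] with n h1 h2; rw [h2]; exact h1
  n6 := fun ε hε => by filter_upwards [H.n6 ε hε, e] with n h1 h2; rw [h2]; exact h1
  n7 := fun ε hε => by filter_upwards [H.n7 ε hε, e] with n h1 h2; rw [h2]; exact h1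
  n8 := fun ε hε => by filter_upwards [H.n8 ε hε, e] with n h1 h2; rw [h2]; exact h1
  n8' := fun ε hε => by filter_upwards [H.n8' ε hε, e] with n h1 h2; rw [h2]; exact h1
  n9 := fun ε hε => by filter_upwards [H.n9 ε hε, e] with n h1 h2; rw [h2]; exact h1
  n10 := fun ε hε => by filter_upwards [H.n10 ε hε, e] with n h1 h2; rw [h2]; exact h1

theorem tightQ_zero : TightQ (0 : Fin 11 → ℝ) := by
  constructor <;> simp

open Classical in
/-- tight exponents for all `n` -/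
noncomputable def fixX (X : ℕ → Fin 11 → ℝ) (n : ℕ) : Fin 11 → ℝ := if TightQ (X n) then X n else 0

theorem fixX_tight (X : ℕ → Fin 11 → ℝ) (n : ℕ) : TightQ (fixX X n) := by
  unfold fixX
  split_ifs with h
  · exact h
  · exact tightQ_zero

theorem fixX_eq {X : ℕ → Fin 11 → ℝ} {n : ℕ} (h : TightQ (X n)) : fixX X n = X n := if_pos h

/-- **the class base of a record window has tight exponents** -/
theorem tight_XB {c : LCtx} {η : ℝ} (ok : c.Ok η) {ξ w : ℕ → ℝ}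
    (hξ : ∃ ξ₀ : ℝ, 0 < ξ₀ ∧ ξ₀ < 1 ∧ Tendsto ξ U (𝓝 ξ₀)) (hw : Tendsto w U (𝓝 0)) (T1 : ℝ) :
    ∀ᶠ n in (U : Filter ℕ), TightQ (c.XB T1 ξ w n) := by
  obtain ⟨ξ₀, h0, h1, h2⟩ := hξ
  have hT := ok.th.tp.big
  have e1 : ∀ᶠ n in (U : Filter ℕ), 0 < ξ n := h2.eventually (lt_mem_nhds h0)
  have e2 : ∀ᶠ n in (U : Filter ℕ), ξ n < 1 := h2.eventually (gt_mem_nhds h1)
  have e3 : ∀ᶠ n in (U : Filter ℕ), |w n * T1| < 1 / 4 := by
    have h3 : Tendsto (fun n => |w n * T1|) U (𝓝 0) := by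
      have := (hw.mul_const T1).abs
      rwa [zero_mul, abs_zero] at this
    exact h3.eventually (gt_mem_nhds (by norm_num))
  filter_upwards [e1, e2, e3] with n a1 a2 a3
  have hth : ∀ k, |c.p.θ k * ξ n| ≤ c.T0 := fun k => by
    rw [abs_mul, abs_of_pos a1]
    have := hT.th k
    have := abs_nonneg (c.p.θ k)
    nlinarith
  have t0 := abs_le.1 (hth 0)
  have t1 := abs_le.1 (hth 1)
  have t2 := abs_le.1 (hth 2)
  have t3 := abs_lt.1 a3
  have hw0 := hT.w0T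
  have hT0 := hT.T0
  have hX : ∀ k, c.XB T1 ξ w n k = nat4 c.w0 (c.R - 1) (ξ n) (-(c.p.θ 1 * ξ n) - w n * T1)
      (-(c.p.θ 2 * ξ n) - 2 * (w n * T1)) (-(c.p.θ 0 * ξ n) - 2 * (w n * T1)) k := by
    intro k
    unfold LCtx.XB LCtx.X bT
    fin_cases k <;>
      simp only [Pi.add_apply, Pi.smul_apply, smul_eq_mul, nat4, nL, Matrix.cons_val,
        Fin.zero_eta, Fin.mk_one, Fin.reduceFinMk, Fin.isValue] <;> ring
  have hR : 0 ≤ c.R - 1 := (R_room ok).2.2.le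
  constructor
  · intro k
    rw [hX]
    fin_cases k <;>
      simp only [nat4, Matrix.cons_val, Fin.zero_eta, Fin.mk_one, Fin.reduceFinMk,
        Fin.isValue] <;> linarith
  all_goals
    simp only [hX, nat4, Matrix.cons_val]
    linarith

/-- the chart of the thick branch is straight -/
theorem F_y2 (c : LCtx) (n : ℕ) (i : ℕ × ℝ) : (c.F n i).y2 = 0 := by
  show (0 : ℝ) / _ = 0
  simp

/-- **last step of (C)** : relations `GRel` on the classes of a record window, whose parameters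
depend on a class label `f` only, give `GWin` -/
theorem gwin_of_rel {c : LCtx} {η : ℝ} (ok : c.Ok η) {T1 : ℝ} {J : ℕ → Finset (ℕ × ℝ)}
    {ξ w : ℕ → ℝ} {lam lo : (Fin 11 → ℝ) → ℝ} (rw' : RecW c B' J ξ w lam lo)
    (f : ∀ n, ℕ × ℝ → κ' n) (s0 e0 q0 be mu : ∀ n, κ' n → ℝ)
    (hf : ∀ᶠ n in (U : Filter ℕ), ∀ i ∈ J n, ∀ j ∈ J n,
      zlab c.D.B c.D.I (coF c.F) monQ 2 (c.XB T1 ξ w) w n 0 i =
        zlab c.D.B c.D.I (coF c.F) monQ 2 (c.XB T1 ξ w) w n 0 j → f n i = f n j)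
    (hmu : ∀ ε : ℝ, 0 < ε → ∀ᶠ n in (U : Filter ℕ), ∀ i ∈ J n,
      |mu n (f n i)| * c.D.B.d n ^ c.XB T1 ξ w n 0 ≤
        B'.d n ^ (-ε) * c.D.B.d n ^ c.XB T1 ξ w n 3)
    (hs0 : ∀ ε : ℝ, 0 < ε → ∀ᶠ n in (U : Filter ℕ), ∀ i ∈ J n,
      |s0 n (f n i)| * c.D.B.d n ^ c.XB T1 ξ w n 5 ≤
        B'.d n ^ (-ε) * c.D.B.d n ^ c.XB T1 ξ w n 2)
    (hrel : ∀ ε : ℝ, 0 < ε → ∀ᶠ n in (U : Filter ℕ), ∀ i ∈ J n,
      GRel (s0 n (f n i)) (e0 n (f n i)) (q0 n (f n i)) (be n (f n i)) (mu n (f n i))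
        (B'.d n ^ (x - ε) * c.D.B.d n ^ c.XB T1 ξ w n 2)
        (B'.d n ^ (x - ε) * c.D.B.d n ^ c.XB T1 ξ w n 6)
        (B'.d n ^ (x - ε) * c.D.B.d n ^ c.XB T1 ξ w n 3) (c.F n i)) :
    ∃ (Cl : ℕ → Finset (ℕ × ℝ)) (s₀ : ℕ → ℕ × ℝ) (h : ℕ → Fin 6 → ℝ) (ηg : ℕ → ℝ),
      GWin c T1 x B' J ξ w lam lo Cl Cl s₀ h ηg := by
  obtain ⟨s₀, h1, h2, h3⟩ := rw'.exists_cls T1 (Gd := J) (E := J)
    (Eventually.of_forall fun n => Subset.refl _) (Eventually.of_forall fun n => Subset.refl _)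
    (S := fun _ => 1) (Base.Sub.const one_pos) (Eventually.of_forall fun n => by rw [one_mul])
  set X : ℕ → Fin 11 → ℝ := c.XB T1 ξ w with hX
  set Cl : ℕ → Finset (ℕ × ℝ) :=
    fun n => cls (J n) (zlab c.D.B c.D.I (coF c.F) monQ 2 X w n 0) (s₀ n) with hCl
  have hcl : ∀ᶠ n in (U : Filter ℕ), ∀ i ∈ Cl n, i ∈ J n ∧ f n i = f n (s₀ n) := by
    filter_upwards [h1, hf] with n a1 a2 i hi
    obtain ⟨b1, b2⟩ := mem_cls.1 hi
    exact ⟨b1, a2 i b1 _ a1 b2⟩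
  have hfix : ∀ᶠ n in (U : Filter ℕ), fixX X n = X n := by
    filter_upwards [tight_XB ok rw'.ξlim rw'.wlim T1] with n hn using fixX_eq hn
  obtain ⟨ηg, h4⟩ := gauIn_of_eps (B := c.D.B) (B' := B') (F := c.F) (X := fixX X) (x := x)
    (E := Cl) (s0 := fun n => s0 n (f n (s₀ n))) (e0 := fun n => e0 n (f n (s₀ n)))
    (q0 := fun n => q0 n (f n (s₀ n))) (be := fun n => be n (f n (s₀ n)))
    (mu := fun n => mu n (f n (s₀ n))) (fixX_tight X)
    (fun ε hε => by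
      filter_upwards [hmu ε hε, h1, hfix] with n a1 a2 a3
      rw [a3]; exact a1 _ a2)
    (fun ε hε => by
      filter_upwards [hs0 ε hε, h1, hfix] with n a1 a2 a3
      rw [a3]; exact a1 _ a2)
    (fun ε hε => by
      filter_upwards [hrel ε hε, hcl, hfix] with n a1 a2 a3 i hi
      obtain ⟨b1, b2⟩ := a2 i hi
      have := a1 i b1
      rw [b2] at this
      rw [a3]; exact this)
  refine ⟨Cl, s₀, _, ηg,
    { rw := rw', cls := h2, esub := Eventually.of_forall fun n => Subset.refl _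
      edens := fun ε hε => ?_
      own := fun P hP R hR h0 => h3 Cl (Eventually.of_forall fun n => Subset.refl _)
        (fun ε hε => ?_) P hP R hR h0
      gau := gauIn_congrX h4 (hfix.mono fun n hn => hn.symm) }⟩
  all_goals
    filter_upwards with n
    refine le_mul_of_one_le_left (Nat.cast_nonneg _) ?_
    exact Real.one_le_rpow_of_pos_of_le_one_of_nonpos (B'.pos n) (B'.lt n).le (by linarith)

/-- the same without gauge (`F_b` constant on the record classes) -/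
theorem gwin_flat {c : LCtx} {η : ℝ} (ok : c.Ok η) {T1 : ℝ} {J : ℕ → Finset (ℕ × ℝ)}
    {ξ w : ℕ → ℝ} {lam lo : (Fin 11 → ℝ) → ℝ} (rw' : RecW c B' J ξ w lam lo)
    (hfb : ∀ ε : ℝ, 0 < ε → ∀ᶠ n in (U : Filter ℕ), ∀ i ∈ J n, ∀ j ∈ J n,
      zlab c.D.B c.D.I (coF c.F) monQ 2 (c.XB T1 ξ w) w n 0 i =
        zlab c.D.B c.D.I (coF c.F) monQ 2 (c.XB T1 ξ w) w n 0 j →
        |(c.F n j).fb - (c.F n i).fb| ≤ B'.d n ^ (x - ε) * c.D.B.d n ^ c.XB T1 ξ w n 3) :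
    ∃ (Cl : ℕ → Finset (ℕ × ℝ)) (s₀ : ℕ → ℕ × ℝ) (h : ℕ → Fin 6 → ℝ) (ηg : ℕ → ℝ),
      GWin c T1 x B' J ξ w lam lo Cl Cl s₀ h ηg := by
  obtain ⟨s₀, h1, h2, h3⟩ := rw'.exists_cls T1 (Gd := J) (E := J)
    (Eventually.of_forall fun n => Subset.refl _) (Eventually.of_forall fun n => Subset.refl _)
    (S := fun _ => 1) (Base.Sub.const one_pos) (Eventually.of_forall fun n => by rw [one_mul])
  set X : ℕ → Fin 11 → ℝ := c.XB T1 ξ w with hX
  set Cl : ℕ → Finset (ℕ × ℝ) :=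
    fun n => cls (J n) (zlab c.D.B c.D.I (coF c.F) monQ 2 X w n 0) (s₀ n) with hCl
  have hfix : ∀ᶠ n in (U : Filter ℕ), fixX X n = X n := by
    filter_upwards [tight_XB ok rw'.ξlim rw'.wlim T1] with n hn using fixX_eq hn
  have h4 : GauIn c.D.B B' Cl c.F (fun _ => 0) (fixX X) (fun _ => 0) x x :=
    gauIn_flat (fixX_tight X) (Eventually.of_forall fun n i _ j _ => by
        show (c.F n j).y2 - (c.F n i).y2 = 0
        simp [F_y2]) fun ε hε => by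
      filter_upwards [hfb ε hε, hfix] with n a1 a3 i hi j hj
      rw [a3]
      exact a1 i (mem_cls.1 hi).1 j (mem_cls.1 hj).1
        ((mem_cls.1 hi).2.trans (mem_cls.1 hj).2.symm)
  refine ⟨Cl, s₀, _, _,
    { rw := rw', cls := h2, esub := Eventually.of_forall fun n => Subset.refl _
      edens := fun ε hε => ?_
      own := fun P hP R hR h0 => h3 Cl (Eventually.of_forall fun n => Subset.refl _)
        (fun ε hε => ?_) P hP R hR h0
      gau := gauIn_congrX h4 (hfix.mono fun n hn => hn.symm) }⟩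
  all_goals
    filter_upwards with n
    refine le_mul_of_one_le_left (Nat.cast_nonneg _) ?_
    exact Real.one_le_rpow_of_pos_of_le_one_of_nonpos (B'.pos n) (B'.lt n).le (by linarith)

end Crest.Agent.R136.WkM626
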