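import Crest.Agent.R136.GauC0_66
import Crest.Agent.R136.WkM2_626

/-!
# R136 (helper66): T.L, the branch of large slope and the seam `SeamWin`

* `gwin_large` : record window with affine `F_b`, slope `≥ d'^ε` for all `ε` ⊢ `GWin`.
* `gwin_small` : small slope ⊢ `GWin`.
* **`seamWin_of`** : `HasRig` ⊢ `SeamWin`.
-/

set_option autoImplicit false
set_option linter.unusedVariables false

open Filter Topology Finset

namespace Crest.Agent.R136.Gau66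

open Crest.Agent.R138.Ex926
open Crest.Agent.R136.Net191
open Crest.Agent.R136.NetQ186
open Crest.Agent.R136.NatT550
open Crest.Agent.R136.NatR550
open Crest.Agent.R136.TopB550
open Crest.Agent.R136.Qg926
open Crest.Agent.R136.Zpr779
open Crest.Agent.R136.Gz779
open Crest.Agent.R136.TL196
open Crest.Agent.R136.LdF3511
open Crest.Agent.R136.WkM626 (rig_classes gwin_of_rel gwin_flat zwin_light_shift tight_shift F_y2)
open Crest.Agent.R136.Wk323 (TightX)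
open Crest.Agent.R138.Dp76 (Dense)

/-- one sequence `e → 0` for all `ε` -/
theorem diag_eps (P : ℝ → ℕ → Prop) (h : ∀ ε : ℝ, 0 < ε → ∀ᶠ n in (U : Filter ℕ), P ε n) :
    ∃ e : ℕ → ℝ, (∀ n, 0 < e n) ∧ Tendsto e U (𝓝 0) ∧ ∀ᶠ n in (U : Filter ℕ), P (e n) n := by
  obtain ⟨k, hk, hk2⟩ := exists_diag (fun j n => P (1 / ((j : ℝ) + 1)) n)
    (fun j => h _ (by positivity))
  exact ⟨fun n => 1 / ((k n : ℝ) + 1), fun n => by positivity,
    tendsto_one_div_add_atTop_nhds_zero_nat.comp hk, hk2.mono fun n hn => hn _ le_rfl⟩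

/-- a dense part: one loss sequence -/
theorem sub_of_dense {B : Base} {J J' : ℕ → Finset (ℕ × ℝ)} (h : Dense B J' J) :
    ∃ S : ℕ → ℝ, B.Sub S ∧ ∀ᶠ n in (U : Filter ℕ), ((J n).card : ℝ) ≤ S n * ((J' n).card : ℝ) := by
  obtain ⟨e, -, he, h2⟩ := diag_eps _ h.2
  refine ⟨fun n => B.d n ^ (-(e n)), sub_rpow he, ?_⟩
  filter_upwards [h2] with n hn
  have hp : 0 < B.d n ^ e n := Real.rpow_pos_of_pos (B.pos n) _
  rw [Real.rpow_neg (B.pos n).le, inv_mul_eq_div, le_div_iff₀ hp]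
  linarith

/-- sub-polynomial: upper bound -/
theorem sub_le {B : Base} {S : ℕ → ℝ} (hS : B.Sub S) {ε : ℝ} (hε : 0 < ε) :
    ∀ᶠ n in (U : Filter ℕ), S n ≤ B.d n ^ (-ε) := by
  filter_upwards [hS.ev_le hε] with n h4
  rw [← B.exp_eq, ← Real.log_le_iff_le_exp h4.1]
  exact h4.2

/-- one coarse label per fine class: sequences -/
theorem popular_seq {α β γ : Type*} [DecidableEq α] [DecidableEq β] [DecidableEq γ]
    {J : ℕ → Finset α} {f : ℕ → α → β} {g : ℕ → α → γ} {N : ℝ}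
    (h : ∀ᶠ n in (U : Filter ℕ), ∀ s ∈ J n,
      (((cls (J n) (f n) s).image (g n)).card : ℝ) ≤ N) :
    ∃ J' : ℕ → Finset α, (∀ n, J' n ⊆ J n) ∧
      ∀ᶠ n in (U : Filter ℕ), ((J n).card : ℝ) ≤ N * ((J' n).card : ℝ) ∧
        ∀ x ∈ J' n, ∀ y ∈ J' n, f n x = f n y → g n x = g n y := by
  classical
  set J2 : ℕ → Finset α := fun n =>
    if h : ∀ s ∈ J n, (((cls (J n) (f n) s).image (g n)).card : ℝ) ≤ N then
      (popular_fs (J n) (f n) (g n) h).choose else ∅ with hJ2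
  refine ⟨J2, fun n => ?_, ?_⟩
  · by_cases h : ∀ s ∈ J n, (((cls (J n) (f n) s).image (g n)).card : ℝ) ≤ N
    · have e : J2 n = (popular_fs (J n) (f n) (g n) h).choose := dif_pos h
      rw [e]; exact (popular_fs (J n) (f n) (g n) h).choose_spec.1
    · have e : J2 n = ∅ := dif_neg h
      rw [e]; exact empty_subset _
  · filter_upwards [h] with n h
    have e : J2 n = (popular_fs (J n) (f n) (g n) h).choose := dif_pos h
    rw [e]; exact (popular_fs (J n) (f n) (g n) h).choose_spec.2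

section

variable {η : ℝ} {c : LCtx}

/-- exponents of the interior class base -/
theorem Y_tightX (ok : c.Ok η) (z : ℝ × ℝ) (ξ w : ℝ) : TightX (c.X ξ + w • yI c z) := by
  have hL : c.p.θ 2 - c.p.θ 0 = 1 := ok.pat.2.2.1
  have hL2 : c.p.θ 2 = 2 * c.p.θ 1 := ok.pat.2.2.2
  constructor <;>
    simp only [LCtx.X, nat4, yI, tN, LCtx.ρ, nL, Pi.add_apply, Pi.smul_apply, smul_eq_mul,
      Matrix.cons_val] <;> ring

theorem bT_eq (T1 : ℝ) : bT T1 = (-T1) • eN := by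
  funext k
  fin_cases k <;> simp [bT, eN, nL] <;> ring

theorem eN_mem (s : ℝ) : s • eN ∈ coneN := by
  have h : s • eN = bT (-s) := by rw [bT_eq, neg_neg]
  rw [h]
  exact bT_mem _

/-- **large slope** -/
theorem gwin_large (ok : c.Ok η) (hRig : HasRig c) {B' : Base} {J : ℕ → Finset (ℕ × ℝ)}
    {ξ w : ℕ → ℝ} {lam lo : (Fin 11 → ℝ) → ℝ} {g : ℕ → ℕ × ℝ → ℕ × ℝ} {mu be : ℕ → ℕ × ℝ → ℝ}
    (A : AffW c B' J ξ w lam lo g mu be)
    (hlg : ∀ ε : ℝ, 0 < ε → ∀ᶠ n in (U : Filter ℕ), ∀ i ∈ J n,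
      B'.d n ^ ε * c.D.B.d n ^ (c.X (ξ n) 3) ≤ |mu n (g n i)| * c.D.B.d n ^ (c.X (ξ n) 0))
    {T1 x : ℝ} (hx : 0 < x) (H : ℕ → ℕ → ℝ) (hH : ∀ i, B'.Sub (H i)) :
    ∃ (B2 : Base) (J2 : ℕ → Finset (ℕ × ℝ)) (ξ2 w2 : ℕ → ℝ) (lam2 lo2 : (Fin 11 → ℝ) → ℝ)
      (Cl : ℕ → Finset (ℕ × ℝ)) (s₀ : ℕ → ℕ × ℝ) (h : ℕ → Fin 6 → ℝ) (ηg : ℕ → ℝ),
      GWin c T1 x B2 J2 ξ2 w2 lam2 lo2 Cl Cl s₀ h ηg ∧ ∀ i, B2.Sub (H i) := by
  classical
  obtain ⟨ξ₀, ξ', h', RJ⟩ := A.rj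
  obtain ⟨z, hz, kk, kpos, k0, lamI, a, m, tI, LF⟩ := hRig _ _ _ _ _ RJ
  obtain ⟨φ, hφ, lamR, loR, tR, tRo⟩ := RJ.next ok (fun _ => z.2) kpos
  have tI' : IsTan coneN coneN lam (fun _ => yI c z) (fun l => kk (φ l)) lamI :=
    tan_subseq tI hφ.tendsto_atTop
  have kk0 : Tendsto (fun l => kk (φ l)) atTop (𝓝 0) := k0.comp hφ.tendsto_atTop
  obtain ⟨ψ0, hψ0⟩ := RJ.comp (s := fun _ => z.2) (S := |z.2|) (fun _ => le_rfl)
    (fun j => kpos (φ j)) kk0 tR tRo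
  have RJR := hψ0 ψ0 (fun m => le_rfl)
  -- losses
  obtain ⟨S, hS, hslope⟩ := A.slope
  obtain ⟨e, e0, he, hlow⟩ := diag_eps _ hlg
  set s' : ℕ → ℕ → ℝ := fun i => match i with
    | 0 => S
    | 1 => fun n => B'.d n ^ (-(e n))
    | i + 2 => H i with hs'
  have hs'sub : ∀ i, B'.Sub (s' i) := fun i => match i with
    | 0 => hS
    | 1 => sub_rpow he
    | i + 2 => hH i
  obtain ⟨k2, hk2, HT⟩ := exists_twin A.rw.win (xI := fun _ => yI c z)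
    (xR := fun _ => z.2 • c.ρ) (b := max ‖yI c z‖ ‖z.2 • c.ρ‖)
    (fun _ => le_max_left _ _) (fun _ => le_max_right _ _) (h := fun l => kk (φ l))
    (fun l => kpos _) kk0 coneN_zero tI' tR
    (hTo := fun n => Real.rpow_pos_of_pos (c.D.B.pos n) _) A.rw.oprof coneN_zero tRo s' hs'sub
  obtain ⟨B2, d2, L2, s2, ZI, ZR, OR⟩ := HT k2 hk2 (Eventually.of_forall fun n => le_rfl)
  have W2 := recW_zoom ok A.rw (RJR.facts ok) (σ := fun _ => z.2)
    (v := fun n => kk (φ (k2 n))) (S := |z.2|) (fun _ => le_rfl) (kk0.comp hk2)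
    (fun n => subset_rfl) ZR OR
  have hH2 : ∀ i, B2.Sub (H i) := fun i => s2 (i + 2)
  have hS2 : B2.Sub S := s2 0
  have he2 : B2.Sub fun n => B'.d n ^ (-(e n)) := s2 1
  set v : ℕ → ℝ := fun n => kk (φ (k2 n)) with hv
  have hv0 : ∀ n, 0 < v n := fun n => kpos _
  have hvt : Tendsto v U (𝓝 0) := kk0.comp hk2
  -- the interior window at the class base
  have ZI' := zwin_light_shift ZI LF (τ := -T1) fun p hp => coneN_add (eN_mem _) hp
  set w2 : ℕ → ℝ := fun n => w n * v n with hw2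
  set ξ2 : ℕ → ℝ := fun n => ξ n + w n * z.2 with hξ2
  set Y : ℕ → Fin 11 → ℝ := fun n => c.X (ξ n) + w n • yI c z + w2 n • ((-T1) • eN)
    with hY
  have hw0 : ∀ n, 0 < w n := A.rw.win.w0
  have hXk : ∀ n k, c.X (ξ2 n) k = c.X (ξ n) k + w n * z.2 * c.ρ k := fun n k => by
    rw [hξ2]; simp only [← X_add, Pi.add_apply, Pi.smul_apply, smul_eq_mul]
  have hXB : ∀ n k, c.XB T1 ξ2 w2 n k = Y n k + w n * (-z.1) * tN k := fun n k => by
    have e : c.XB T1 ξ2 w2 n k = c.X (ξ2 n) k + w2 n * (bT T1) k := rfl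
    rw [e, hXk, bT_eq, hY]
    simp only [yI, Pi.add_apply, Pi.smul_apply, smul_eq_mul]
    ring
  have ρ3 : c.ρ 3 = 1 := by
    have hL : c.p.θ 2 - c.p.θ 0 = 1 := ok.pat.2.2.1
    simp only [LCtx.ρ, nL, Matrix.cons_val]
    linear_combination hL
  have hY0 : ∀ n, Y n 0 = c.X (ξ n) 3 + w n * (z.1 + z.2) := fun n => by
    have e : Y n 0 = (c.X (ξ n) + w n • yI c z) 0 + w2 n * ((-T1) * eN 0) := rfl
    have e0 : eN 0 = 0 := rfl
    rw [e, Y_zero, X_three ok, e0]; ring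
  have hY3 : ∀ n, Y n 3 = c.X (ξ n) 3 + w n * (z.1 + z.2) := fun n => by
    have e : Y n 3 = (c.X (ξ n) + w n • yI c z) 3 + w2 n * ((-T1) * eN 3) := rfl
    have e0 : eN 3 = 0 := rfl
    rw [e, Y_three ok, X_three ok, e0]; ring
  have hB0 : ∀ n, c.XB T1 ξ2 w2 n 0 = c.X (ξ n) 3 + w n * z.2 := fun n => by
    have e0 : tN 0 = 1 := rfl
    rw [hXB, hY0, e0]; ring
  have hB3 : ∀ n, c.XB T1 ξ2 w2 n 3 = c.X (ξ n) 3 + w n * z.2 := fun n => by
    have e0 : tN 3 = 1 := rfl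
    rw [hXB, hY3, e0]; ring
  have hBs : ∀ n k, tN k = 0 → c.XB T1 ξ2 w2 n k = Y n k := fun n k hk => by
    rw [hXB, hk, mul_zero, add_zero]
  have hB2 : ∀ n, c.XB T1 ξ2 w2 n 2 = Y n 2 := fun n => hBs n 2 rfl
  have hB5 : ∀ n, c.XB T1 ξ2 w2 n 5 = Y n 5 := fun n => hBs n 5 rfl
  have hB6 : ∀ n, c.XB T1 ξ2 w2 n 6 = Y n 6 := fun n => hBs n 6 rfl
  have tN0 : ∀ k, 0 ≤ tN k := fun k => by fin_cases k <;> simp [tN]
  have hle : ∀ n, Y n ≤ c.XB T1 ξ2 w2 n := fun n k => by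
    rw [hXB]
    have := mul_nonneg (mul_nonneg (hw0 n).le (neg_nonneg.2 hz.le)) (tN0 k)
    linarith
  -- slope and precision in the new units
  have hmub : ∀ᶠ n in (U : Filter ℕ), ∀ i ∈ J n,
      B'.d n ^ (e n) ≤ |mu n (g n i)| ∧ |mu n (g n i)| ≤ S n := by
    filter_upwards [hlow, hslope] with n h1 h2 i hi
    have h3 := h1 i hi
    have h4 := h2 i hi
    have e03 : c.X (ξ n) 0 = c.X (ξ n) 3 := by rw [X_zero, X_three ok]
    rw [e03] at h3 h4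
    have hp := Real.rpow_pos_of_pos (c.D.B.pos n) (c.X (ξ n) 3)
    exact ⟨le_of_mul_le_mul_right h3 hp, le_of_mul_le_mul_right h4 hp⟩
  have hmuε : ∀ ε : ℝ, 0 < ε → ∀ᶠ n in (U : Filter ℕ), ∀ i ∈ J n,
      B2.d n ^ ε ≤ |mu n (g n i)| ∧ |mu n (g n i)| ≤ B2.d n ^ (-ε) := by
    intro ε hε
    filter_upwards [hmub, sub_le hS2 hε, sub_le he2 hε] with n h1 h2 h3 i hi
    obtain ⟨h4, h5⟩ := h1 i hi
    refine ⟨le_trans ?_ h4, h5.trans h2⟩
    rw [Real.rpow_neg (B'.pos n).le, Real.rpow_neg (B2.pos n).le] at h3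
    exact (inv_le_inv₀ (Real.rpow_pos_of_pos (B'.pos n) _)
      (Real.rpow_pos_of_pos (B2.pos n) _)).1 h3
  have haffK : ∀ t ε : ℝ, ∀ᶠ n in (U : Filter ℕ), ∀ i ∈ J n,
      |(c.F n i).fb - be n (g n i) - mu n (g n i) * (c.F n i).z| ≤
        B2.d n ^ (x - ε) * c.D.B.d n ^ (c.X (ξ n) 3 + w n * t) := by
    intro t ε
    have h1 : Tendsto (fun n => v n * (x - ε)) U (𝓝 (0 * (x - ε))) := hvt.mul_const _
    rw [zero_mul] at h1
    filter_upwards [A.aff (|t| + 1), h1.eventually_lt_const one_pos] with n h2 h3 i hi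
    refine (h2 i hi).trans ?_
    have h4 : B'.d n ^ (|t| + 1) ≤ B'.d n ^ (v n * (x - ε) + t) :=
      Real.rpow_le_rpow_of_exponent_ge (B'.pos n) (B'.lt n).le (by
        have := le_abs_self t
        linarith)
    have e1 : B2.d n ^ (x - ε) * c.D.B.d n ^ (c.X (ξ n) 3 + w n * t) =
        B'.d n ^ (v n * (x - ε) + t) * c.D.B.d n ^ (c.X (ξ n) 3) := by
      have e2 : c.D.B.d n ^ (w n * t) = B'.d n ^ t := by
        rw [A.rw.win.base n, ← Real.rpow_mul (c.D.B.pos n).le]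
      have e3 : B2.d n ^ (x - ε) = B'.d n ^ (v n * (x - ε)) := by
        rw [d2, ← Real.rpow_mul (B'.pos n).le]
      rw [Real.rpow_add (c.D.B.pos n), Real.rpow_add (B'.pos n), e2, e3]
      ring
    rw [e1]
    exact mul_le_mul_of_nonneg_right h4 (Real.rpow_pos_of_pos (c.D.B.pos n) _).le
  -- one label `g` per interior class
  have hYe : ∀ n, Y n + w2 n • (0 : Fin 11 → ℝ) =
      c.X (ξ n) + w n • (yI c z + v n • ((-T1) • eN)) := fun n => by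
    rw [smul_zero, add_zero, hY, hw2]
    simp only [smul_add, smul_smul]
    rw [add_assoc, mul_assoc]
  obtain ⟨N, hN, hfew⟩ := A.few
  set f1 : ℕ → ℕ × ℝ → ℕ × ℝ := fun n => zlab c.D.B c.D.I (coF c.F) monQ 2 Y w2 n 0 with hf1
  have hf1e : ∀ n, f1 n = zlab c.D.B c.D.I (coF c.F) monQ 2 (fun n => c.X (ξ n)) w n
      (yI c z + v n • ((-T1) • eN)) := fun n => by
    show nlab c.D.B c.D.I (coF c.F) monQ 2 n (Y n + w2 n • (0 : Fin 11 → ℝ)) =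
      nlab c.D.B c.D.I (coF c.F) monQ 2 n (c.X (ξ n) + w n • (yI c z + v n • ((-T1) • eN)))
    rw [hYe]
  have hv1 : ∀ᶠ n in (U : Filter ℕ), v n ≤ 1 :=
    (hvt.eventually_lt_const one_pos).mono fun n hn => hn.le
  have hlab1 : ∀ᶠ n in (U : Filter ℕ), ∀ s ∈ J n,
      (((cls (J n) (f1 n) s).image (g n)).card : ℝ) ≤ N := by
    filter_upwards [hfew (‖yI c z‖ + ‖(-T1) • eN‖), hv1] with n hn h1 s hs
    rw [hf1e n]
    refine hn _ (coneN_add (yI_mem c z) (coneN_smul (eN_mem _) (hv0 n).le)) ?_ ?_ s hs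
    · simp [yI, tN, LCtx.ρ, nL, eN]
    · refine (norm_add_le _ _).trans (add_le_add le_rfl ?_)
      rw [norm_smul (v n), Real.norm_of_nonneg (hv0 n).le]
      exact mul_le_of_le_one_left (norm_nonneg _) h1
  obtain ⟨J1, hJ1s, hJ1p⟩ := popular_seq hlab1
  have hJ1d : ∀ᶠ n in (U : Filter ℕ), ((J n).card : ℝ) ≤ N * ((J1 n).card : ℝ) :=
    hJ1p.mono fun n hn => hn.1
  have hJ1ne := dense_ne (B := B2) A.rw.win.ne hJ1d
  have ZI1 := ZI'.refine (Eventually.of_forall hJ1s) hJ1ne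
    (Base.Sub.const (by linarith) : B2.Sub fun _ => N) hJ1d
  -- the rigid leaf
  obtain ⟨J2, hJ2s, hJ2d, s0, e0', q0, hrig⟩ := rig_classes (fun _ => (0, 0)) (F := c.F) ZI1
    (fun n i => F_y2 c n i) (Eventually.of_forall fun n => by
      have := tight_shift (Y_tightX ok z (ξ n) (w n)) (w2 n * (-T1))
      rwa [← smul_smul] at this) LF hx le_rfl monL_sub monL_one rfl (leg_monL_cone x) g mu be
    (hJ1p.mono fun n hn i hi j hj hl => hn.2 i hi j hj hl)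
    (fun ε hε => by
      filter_upwards [hmuε ε hε] with n hn i hi
      obtain ⟨h1, h2⟩ := hn i (hJ1s n hi)
      have e03 : Y n 0 = Y n 3 := by rw [hY0, hY3]
      have hp := Real.rpow_pos_of_pos (c.D.B.pos n) (Y n 3)
      rw [e03]
      exact ⟨mul_le_mul_of_nonneg_right h1 hp.le, mul_le_mul_of_nonneg_right h2 hp.le⟩)
    (fun ε hε => by
      filter_upwards [haffK (z.1 + z.2) ε] with n hn i hi
      have h1 := hn i (hJ1s n hi)
      rw [← hY3] at h1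
      exact h1)
  obtain ⟨S', hS', hd'⟩ := sub_of_dense hJ2d
  have hJ2ne := dense_ne (B := B2) hJ1ne hd'
  -- one interior class per record class
  set fR : ℕ → ℕ × ℝ → ℕ × ℝ := fun n =>
    zlab c.D.B c.D.I (coF c.F) monQ 2 (c.XB T1 ξ2 w2) w2 n 0 with hfR
  have hlab2 : ∀ᶠ n in (U : Filter ℕ), ∀ s ∈ J2 n,
      (((cls (J2 n) (fR n) s).image (f1 n)).card : ℝ) ≤ max 1 (cN monQ 2 (cK0 monQ 2)) := by
    filter_upwards [ZI'.legal 0, W2.win.legal ‖bT T1‖, W2.win.sub] with n n1 n2 n3 s hs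
    refine le_trans ?_ (le_max_right _ _)
    have l1 := n1 0 coneN_zero (by rw [norm_zero])
    have l2 := n2 (bT T1) (bT_mem T1) le_rfl
    have l3 : Legal monQ (c.XB T1 ξ2 w2 n + w2 n • (0 : Fin 11 → ℝ)) := by
      rw [smul_zero, add_zero]; exact l2
    exact few_labels W2.win.chart l1 l3 (by rw [smul_zero, add_zero, add_zero]; exact hle n)
      (((hJ2s n).trans (hJ1s n)).trans n3) hs
  obtain ⟨J3, hJ3s, hJ3p⟩ := popular_seq hlab2
  have hJ3d : ∀ᶠ n in (U : Filter ℕ), ((J2 n).card : ℝ) ≤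
      max 1 (cN monQ 2 (cK0 monQ 2)) * ((J3 n).card : ℝ) := hJ3p.mono fun n hn => hn.1
  have hsub : ∀ n, J3 n ⊆ J n := fun n => ((hJ3s n).trans (hJ2s n)).trans (hJ1s n)
  have hM0 : (0 : ℝ) < max 1 (cN monQ 2 (cK0 monQ 2)) := lt_of_lt_of_le one_pos (le_max_left _ _)
  have W3 := W2.refine (Eventually.of_forall hsub) (dense_ne (B := B2) hJ2ne hJ3d)
    (S := fun n => N * (S' n * max 1 (cN monQ 2 (cK0 monQ 2))))
    ((Base.Sub.const (by linarith)).mul (hS'.mul (Base.Sub.const hM0))) (by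
      have hS'0 : ∀ᶠ n in (U : Filter ℕ), 0 ≤ S' n := (hS'.ev_le one_pos).mono fun n hn => hn.1.le
      filter_upwards [hJ1d, hd', hJ3d, hS'0] with n n1 n2 n3 n4
      calc ((J n).card : ℝ) ≤ N * ((J1 n).card : ℝ) := n1
        _ ≤ N * (S' n * ((J2 n).card : ℝ)) := mul_le_mul_of_nonneg_left n2 (by linarith)
        _ ≤ N * (S' n * (max 1 (cN monQ 2 (cK0 monQ 2)) * ((J3 n).card : ℝ))) :=
            mul_le_mul_of_nonneg_left (mul_le_mul_of_nonneg_left n3 n4) (by linarith)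
        _ = _ := by ring)
  obtain ⟨Cl, s₀, h, ηg, hG⟩ := gwin_of_rel (x := x) ok (T1 := T1) W3
    (f := fun n i => (f1 n i, g n i)) (s0 := fun n l => s0 n l.1) (e0 := fun n l => e0' n l.1)
    (q0 := fun n l => q0 n l.1) (be := fun n l => be n l.2) (mu := fun n l => mu n l.2)
    (by
      filter_upwards [hJ3p, hJ1p] with n n1 n2 i hi j hj hl
      have h1 : f1 n i = f1 n j := n1.2 i hi j hj hl
      have h2 : g n i = g n j := n2.2 i (hJ2s n (hJ3s n hi)) j (hJ2s n (hJ3s n hj)) h1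
      rw [h1, h2])
    (fun ε hε => by
      filter_upwards [hmuε ε hε] with n hn i hi
      have h1 := (hn i (hsub n hi)).2
      rw [hB0, hB3]
      exact mul_le_mul_of_nonneg_right h1 (Real.rpow_pos_of_pos (c.D.B.pos n) _).le)
    (fun ε hε => by
      filter_upwards [hrig ε hε] with n hn i hi
      have h1 := (hn i (hJ3s n hi)).1
      rw [hB5, hB2]
      exact h1)
    (fun ε hε => by
      filter_upwards [hrig ε hε, haffK z.2 ε] with n hn hn2 i hi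
      obtain ⟨-, h1⟩ := hn i (hJ3s n hi)
      have h2 := hn2 i (hsub n hi)
      rw [hB2, hB6, hB3]
      exact ⟨h1.str, h1.hE, h1.hC, by rw [← sub_sub]; exact h2⟩)
  exact ⟨B2, J3, ξ2, w2, lamR, loR, Cl, s₀, h, ηg, hG, hH2⟩

/-- **small slope** -/
theorem gwin_small (ok : c.Ok η) {B' : Base} {J : ℕ → Finset (ℕ × ℝ)}
    {ξ w : ℕ → ℝ} {lam lo : (Fin 11 → ℝ) → ℝ} {g : ℕ → ℕ × ℝ → ℕ × ℝ} {mu be : ℕ → ℕ × ℝ → ℝ}
    (A : AffW c B' J ξ w lam lo g mu be) {m : ℝ} (hm : 0 < m)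
    (hsm : ∀ᶠ n in (U : Filter ℕ), ∀ i ∈ J n, |mu n (g n i)| * c.D.B.d n ^ (c.X (ξ n) 0) ≤
      B'.d n ^ m * c.D.B.d n ^ (c.X (ξ n) 3)) (T1 x : ℝ) (H : ℕ → ℕ → ℝ)
    (hH : ∀ i, B'.Sub (H i)) :
    ∃ (B2 : Base) (J2 : ℕ → Finset (ℕ × ℝ)) (ξ2 w2 : ℕ → ℝ) (lam2 lo2 : (Fin 11 → ℝ) → ℝ)
      (Cl : ℕ → Finset (ℕ × ℝ)) (s₀ : ℕ → ℕ × ℝ) (h : ℕ → Fin 6 → ℝ) (ηg : ℕ → ℝ),
      GWin c T1 x B2 J2 ξ2 w2 lam2 lo2 Cl Cl s₀ h ηg ∧ ∀ i, B2.Sub (H i) := by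
  obtain ⟨B2, J2, ξ2, w2, lam2, lo2, W, hH2, hfb⟩ := small_rec ok A hm hsm T1 H hH
  obtain ⟨Cl, s₀, h, ηg, hG⟩ := gwin_flat (x := x) ok (T1 := T1) W fun ε _ => hfb (x - ε)
  exact ⟨B2, J2, ξ2, w2, lam2, lo2, Cl, s₀, h, ηg, hG, hH2⟩

theorem xz_pos (θ : ℝ) : 0 < xz θ := by
  have h1 : 1 ≤ T1z θ := le_max_left _ _
  unfold xz
  linarith

/-- **the seam** of the gauge stage of T.L, from the interior point with rigid numbers -/
theorem seamWin_of {η : ℝ} (hR : ∀ c : LCtx, c.Ok η → HasRig c) : SeamWin η := by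
  intro c ok H hH
  obtain ⟨B', J, ξ, w, lam, lo, g, mu, be, A, hH'⟩ := exists_affW ok (hR c ok) H hH
  have h2 : B'.Sub fun _ => (2 : ℝ) := Base.Sub.const two_pos
  rcases A.fork with ⟨m, hm, J', hs, hd, hsm⟩ | ⟨J', hs, hd, hlg⟩
  · obtain ⟨B2, J2, ξ2, w2, lam2, lo2, Cl, s₀, h, ηg, hG, hH2⟩ :=
      gwin_small ok (A.refine hs h2 hd) hm hsm (T1z (c.p.θ 1)) (xz (c.p.θ 1)) H hH'
    exact ⟨B2, J2, ξ2, w2, lam2, lo2, Cl, Cl, s₀, h, ηg, hG, hH2⟩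
  · obtain ⟨B2, J2, ξ2, w2, lam2, lo2, Cl, s₀, h, ηg, hG, hH2⟩ :=
      gwin_large ok (hR c ok) (A.refine hs h2 hd) hlg (T1 := T1z (c.p.θ 1))
        (x := xz (c.p.θ 1)) (xz_pos _) H hH'
    exact ⟨B2, J2, ξ2, w2, lam2, lo2, Cl, Cl, s₀, h, ηg, hG, hH2⟩

end

end Crest.Agent.R136.Gau66
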