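import Crest.Agent.R136.Rgl3_501
import Crest.Agent.R136.WkL_626
import Crest.Agent.R136.K2A_146

/-!
# R136 (helper66): T.L, definitions of the chain v3

* `eN`, `tN` : natural `(0,1)` and `(1,0)` vectors of the lightlike plane (slots of `coQ`).
* `cu x p` : the exponent vector `z, F_b : x`, line slots `p`, slot `R : p 1`.
* `LightF D lam a m` : the numbers of an interior tangent `lam` of the lightlike surface.
-/

set_option autoImplicit false

open Filter Topology

namespace Crest.Agent.R136.Gau66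

open Crest.Agent.R136.Qg926 (cut)
open Crest.Agent.R136.WkL626 (topL)
open Crest.Agent.R136.Rgl501 (lv)
open Crest.Agent.R136.Wk323 (vec fAll fPos fDir qv)

/-- natural vector `(v,t) = (0,1)` : `E, C_a, F_a, X_a : 1`, `C_b, P, X_b, N : 2` -/
def eN : Fin 11 → ℝ := ![0, 0, 1, 0, 1, 1, 2, 2, 1, 2, 2]

/-- natural vector `(v,t) = (1,0)` : `z, F_b, F_a, P, X_a, X_b : 1`, `N : 2` -/
def tN : Fin 11 → ℝ := ![1, 0, 0, 1, 1, 0, 0, 1, 1, 1, 2]

/-- `z, F_b` at `x`, the other slots at `p` -/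
def cu (x : ℝ) (p : Fin 11 → ℝ) : Fin 11 → ℝ := cut {0, 3} p (topL x)

/-- **numbers of an interior tangent** of the lightlike surface (level slots `z, F_b`, line slots
the others, slot `R` never resolved); `a < 1` = rate of `N`, `m > 0` = rate of `C_a` -/
structure LightF (D : Set (Fin 11 → ℝ)) (lam : (Fin 11 → ℝ) → ℝ) (a m : ℝ) : Prop where
  a0 : 0 ≤ a
  a1 : a < 1
  m0 : 0 < m
  /-- levels and lines are independent -/
  dens : ∀ x, 0 ≤ x → lam (topL x) ≤ lam (cut {0, 3} (topL x) 0) + lam (cut {0, 3} 0 (topL x))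
  frost : ∀ y, 0 ≤ y → lam (Pi.single 0 y) ≤ -y
  /-- `X_b` (and `P`) full, given the rest -/
  full : ∀ x t, 0 ≤ t → t ≤ x → t ≤ lam (cu x (lv x x 0)) - lam (cu x (lv x x t))
  /-- `N` loses less than its size -/
  loss : ∀ x, 0 ≤ x → lam (cu x (lv x 0 0)) - lam (cu x (lv x x 0)) ≤ a * x
  dec : ∀ x, 0 ≤ x → lam (cu x 0) + lam (cu x (vec fAll x)) ≤
    lam (cu x (vec fPos x)) + lam (cu x (vec fDir x))
  fib : ∀ x y, 0 ≤ y → y ≤ x → lam (cu x (qv x y)) - lam (cu x (qv x x)) ≤ a * (x - y)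
  conc : ∀ x y, 0 ≤ y → y ≤ x → m * y ≤ lam (cu x 0) - lam (cu x (vec {5} y))
  /-- the numbers hold at every class `τ e` -/
  add : ∀ τ : ℝ, ∀ c ∈ D, lam (τ • eN + c) = lam (τ • eN) + lam c
  /-- the slot `R` is not seen (480's `tan_slot`) -/
  slot : ∀ c ∈ D, ∀ c' ∈ D, (∀ i, i ≠ 1 → c i = c' i) → lam c = lam c'

end Crest.Agent.R136.Gau66
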