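import Crest.Agent.R136.TL3_196
import Crest.Agent.R136.GauD_66

/-!
# R136 (helper66): T.L, the interfaces of the `F_b` half

* `HasRig c` : at every tangent at the record line there is an interior point of the lightlike
  surface with the numbers `LightF` (480).
* `AffW` : record window in which `F_b` is affine in the height on every class of a coarse partition
  `g`; relations in absolute coordinates (consumed by 560).
-/

set_option autoImplicit false

open Filter Topology Finset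

namespace Crest.Agent.R136.Gau66

open Crest.Agent.R138.Ex926
open Crest.Agent.R136.Net191
open Crest.Agent.R136.NetQ186
open Crest.Agent.R136.NatT550
open Crest.Agent.R136.NatR550
open Crest.Agent.R136.Qg926
open Crest.Agent.R136.Zpr779
open Crest.Agent.R136.Gz779
open Crest.Agent.R136.TL196

/-- **interior point with the numbers of the lightlike surface**, at every record tangent -/
def HasRig (c : LCtx) : Prop := ∀ (ξ₀ : ℝ) (ξ h : ℕ → ℝ) (lam lo : (Fin 11 → ℝ) → ℝ),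
  RecJ c ξ₀ ξ h lam lo → ∃ z : ℝ × ℝ, z.1 < 0 ∧ ∃ k : ℕ → ℝ, (∀ l, 0 < k l) ∧
    Tendsto k atTop (𝓝 0) ∧ ∃ (lamI : (Fin 11 → ℝ) → ℝ) (a m : ℝ),
      IsTan coneN coneN lam (fun _ => z.1 • tN + z.2 • c.ρ) k lamI ∧ LightF coneN lamI a m

/-- **record window with affine `F_b`** : `g` = label of the coarse partition, `mu, be` = slope and
constant of its classes -/
structure AffW (c : LCtx) (B' : Base) (J : ℕ → Finset (ℕ × ℝ)) (ξ w : ℕ → ℝ)
    (lam lo : (Fin 11 → ℝ) → ℝ) (g : ℕ → ℕ × ℝ → ℕ × ℝ) (mu be : ℕ → ℕ × ℝ → ℝ) : Prop where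
  rw : RecW c B' J ξ w lam lo
  /-- `(lam, lo)` is a tangent of the profiles at the record line -/
  rj : ∃ (ξ₀ : ℝ) (ξ' h : ℕ → ℝ), RecJ c ξ₀ ξ' h lam lo
  /-- every bounded class meets few coarse classes -/
  few : ∃ N : ℝ, 1 ≤ N ∧ ∀ K : ℝ, ∀ᶠ n in (U : Filter ℕ), ∀ a ∈ coneN, 0 ≤ a 1 → ‖a‖ ≤ K →
    ∀ s ∈ J n,
    (((cls (J n) (zlab c.D.B c.D.I (coF c.F) monQ 2 (fun n => c.X (ξ n)) w n a) s).image
      (g n)).card : ℝ) ≤ N
  slope : ∃ S : ℕ → ℝ, B'.Sub S ∧ ∀ᶠ n in (U : Filter ℕ), ∀ i ∈ J n,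
    |mu n (g n i)| * c.D.B.d n ^ (c.X (ξ n) 0) ≤ S n * c.D.B.d n ^ (c.X (ξ n) 3)
  aff : ∀ K : ℝ, ∀ᶠ n in (U : Filter ℕ), ∀ i ∈ J n,
    |(c.F n i).fb - be n (g n i) - mu n (g n i) * (c.F n i).z| ≤
      B'.d n ^ K * c.D.B.d n ^ (c.X (ξ n) 3)

end Crest.Agent.R136.Gau66
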