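import Crest.Agent.R136.Rgl8_480
import Crest.Agent.R136.TL3_196
import Crest.Agent.R136.Tb4_628

/-!
# R136 (helper480), T.L (A), part 5: `hasRig` for the data of the thick branch

* `lin_of_ctx` : the data of `Thick` with the pattern `pL` are an `LIn`;
* **`hasRig`** : every joint tangent at the record line has an interior point with `LightF`.
-/

set_option autoImplicit false
set_option linter.unusedSectionVars false
set_option linter.unusedVariables false

open Filter Topology Set MeasureTheory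

namespace Crest.Agent.R136.Rgl480

open Crest.Agent.R136.Dg219 (mw)
open Crest.Agent.R136.Dg262 (X)
open Crest.Agent.R136.Gau66 (eN tN cu LightF)
open Crest.Agent.R136.NatR550 (coneN nL)
open Crest.Agent.R136.NatT550
open Crest.Agent.R136.Net191 Crest.Agent.R136.Qg926 Crest.Agent.R136.Gf356
open Crest.Agent.R136.NetQ186 Crest.Agent.R136.Aw413
open Crest.Agent.R136.K2S774 (cn Prf JT Stage RecD RungD BaseOk Nat)
open Crest.Agent.R136.LdF3511
open Crest.Agent.R136.AwJ774
open Crest.Agent.R136.Top484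
open Crest.Agent.R136.Wq638
open Crest.Agent.R136.TL196
open Crest.Agent.R138.Ex926 (Base U IsTan)

variable {η : ℝ} {c : LCtx} {ξ₀ : ℝ} {ξ h : ℕ → ℝ} {lam lo : (Fin 11 → ℝ) → ℝ}

/-- **the data of the thick branch** -/
theorem lin_of_ctx (ok : c.Ok η) (h0 : 0 < ξ₀) (h1 : ξ₀ < 1) :
    LIn c.D.B c.D.I c.I1 (couQ c.D.B c.D.lev c.D.w c.w0 (incQ c.π c.D.L c.eE c.fA c.fB)) c.F 2 c.R
      c.w0 (ownQ c.p.θ c.w0 c.R c.V) c.T c.ν c.own {k | c.V k} (Tb628.oS c.p.θ) (c.X ξ₀)
      (c.p.θ 1) := by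
  have hL : c.p.θ 2 - c.p.θ 0 = 1 := ok.pat.2.2.1
  have hL2 : c.p.θ 2 = 2 * c.p.θ 1 := ok.pat.2.2.2
  have hv : ∀ k, c.V k → k = 3 ∨ k = 4 := fun k hk => by
    rcases (ok.th.tp.slots.vis k hk).1 with rfl | rfl | rfl
    · exact absurd hk ok.pat.1
    · exact Or.inl rfl
    · exact Or.inr rfl
  refine
    { src :=
        { prof := Tb628.nprof ok.th
          ownF := Tb628.ownF ok.th
          path := Tb628.ownPath c.p.θ c.w0 c.R c.V
          rpos := fun k => (recF_box ok.th.tp.big (R_room ok).2.1 (R_room ok).1 h0 h1 k).1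
          ownR := ⟨?_, ?_, fun k hk => ?_⟩ }
      chart := fun n i _ j _ => rfl
      slot := fun n i _ j _ => ?_
      T3 := ?_
      t3 := ok.pat.2.1
      tie := hv
      κ3 := ?_
      κ4 := ?_
      θpos := ok.th.tp.ok.θ1 }
  · simp only [LCtx.X, nat4, Matrix.cons_val]; linarith
  · simp only [LCtx.X, nat4, Matrix.cons_val]; linarith
  · have e0 : c.X ξ₀ 0 - c.w0 = ξ₀ := by simp only [LCtx.X, nat4, Matrix.cons_val]; ring
    rw [e0]
    have hk' : c.V k := hk
    have hk0 : k ≠ 0 := by rcases hv k hk' with rfl | rfl <;> decide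
    simp only [ownQ, if_neg hk0, if_pos hk']
    rcases hv k hk' with rfl | rfl <;>
      simp only [LCtx.X, nat4, pathQ, Matrix.cons_val] <;> ring
  · simp [couQ, coQ, GeoQ186.scl, incQ, GeoQ186.mkT]
  · by_contra hT
    have := (ok.th.tp.slots.cap 3 ok.pat.2.1 hT).1
    revert this; decide
  · rw [Tb628.oS_eq]; simp only [Matrix.cons_val]; exact hL
  · rw [Tb628.oS_eq]; simp only [Matrix.cons_val]; linarith

/-- **(A) of T.L** : every joint tangent at the record line has an interior point whose tangent has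
the numbers `LightF` -/
theorem hasRig (ok : c.Ok η) (hη : η < 1) (H : RecJ c ξ₀ ξ h lam lo) :
    ∃ z : ℝ × ℝ, z.1 < 0 ∧ RigAt lam lo (X 0 tN c.ρ z) := by
  have hL : c.p.θ 2 - c.p.θ 0 = 1 := ok.pat.2.2.1
  have hL2 : c.p.θ 2 = 2 * c.p.θ 1 := ok.pat.2.2.2
  have hv : ∀ k, c.V k → k = 3 ∨ k = 4 := fun k hk => by
    rcases (ok.th.tp.slots.vis k hk).1 with rfl | rfl | rfl
    · exact absurd hk ok.pat.1
    · exact Or.inl rfl
    · exact Or.inr rfl
  have hq0 := ok.th.tp.ok.q0
  have hq2 := ok.th.tp.ok.q2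
  have hg0 := ok.th.tp.ok.g0
  have hηp := ok.th.tp.ok.η_pos
  have hg : 0 < c.p.g - c.p.q 0 := by nlinarith
  have e0 : rhoF c.p.θ 0 = 1 := by simp [rhoF, nL]
  exact hasRig_gen (lin_of_ctx ok H.ξ0 H.ξ1) (H.stage ok) (fun v t1 t2 t3 h => ⟨v, t1, t2, t3, rfl, h⟩)
    (fun i hi => by rcases hv i hi with rfl | rfl <;> simp)
    (fun i hi => by
      rw [Tb628.oS_eq]
      rcases hv i hi with rfl | rfl <;> simp only [oL, Matrix.cons_val])
    (fun i hi => by
      rw [e0]
      simp only [mem_insert_iff, mem_singleton_iff] at hi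
      rcases hi with rfl | rfl <;> simp only [rhoF, nL, oL, Matrix.cons_val] <;> ring)
    hL2 hL hg0.2 hq2.1 hg

end Crest.Agent.R136.Rgl480
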