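import Crest.Agent.R136.GauC1_66
import Crest.Agent.R136.Rgl9_480

/-!
# R136 (helper66): T.L, the seam `SeamWin`
-/

set_option autoImplicit false

open Filter Topology Finset

namespace Crest.Agent.R136.Gau66

open Crest.Agent.R138.Ex926
open Crest.Agent.R136.TL196

/-- 480's interior point -/
theorem hasRig_ctx {η : ℝ} (hη : η < 1) (c : LCtx) (ok : c.Ok η) : HasRig c := by
  intro ξ₀ ξ h lam lo RJ
  obtain ⟨z, hz, k, k0, kt, lamI, loI, a, m, t1, -, LF⟩ := Rgl480.hasRig ok hη RJ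
  refine ⟨z, hz, k, k0, kt, lamI, a, m, ?_, LF⟩
  have e : (fun _ : ℕ => z.1 • tN + z.2 • c.ρ) = fun _ => Dg262.X 0 tN c.ρ z := by
    funext _ i
    simp only [Dg262.X, Pi.add_apply, Pi.smul_apply, smul_eq_mul, Pi.zero_apply]
    ring
  rw [e]
  exact t1

/-- **the seam** of the gauge stage of T.L -/
theorem seamWin {η : ℝ} (hη : η < 1) : SeamWin η := seamWin_of (hasRig_ctx hη)

end Crest.Agent.R136.Gau66
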