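import Crest.Agent.R138.TwA_501
import Crest.Agent.R138.PlThin_187

/-!
# R136 [RIG_E], Lemma A (for helper344), part 1 (helper501): configurations, counting, slopes

Lines `l : (x l, c l, p l)`, heights `k : (z k, f k)`; position `X_l(k) = x l + z k * c l`.  If two
lines meet at `k` then `p l' - p l = f k * (c l' - c l)` up to `δ / e`.  All losses are powers of `e`.
-/

set_option autoImplicit false
set_option linter.unusedVariables false
set_option linter.unusedSectionVars false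

open Finset

namespace Crest.Agent.R136.LA501

open Crest.Agent.R138.TwA501 (sq_card_le card_le_of_fibers)

/-- position of the line `l` at the height `k` -/
def XX (z x c : ℕ → ℝ) (l k : ℕ) : ℝ := x l + z k * c l

/-- cell of width `δ` of the position -/
noncomputable def cell (δ : ℝ) (z x c : ℕ → ℝ) (k l : ℕ) : ℤ := ⌊XX z x c l k / δ⌋

/-- a regular configuration -/
structure Cfg (δ e m : ℝ) (L Z : Finset ℕ) (I : Finset (ℕ × ℕ)) (z f x c p : ℕ → ℝ) : Prop where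
  δ0 : 0 < δ
  δe : δ ≤ e
  e0 : 0 < e
  e1 : e ≤ 1 / 100
  m0 : 0 < m
  m1 : m ≤ 1
  sub : I ⊆ L ×ˢ Z
  zf : ∀ k ∈ Z, |z k| ≤ 1 ∧ |f k| ≤ 1
  lb : ∀ l ∈ L, |x l| ≤ 2 ∧ |c l| ≤ 1 ∧ |p l| ≤ 1
  hz : ∀ k ∈ Z, ∀ r : ℝ, δ ≤ r → r ≤ 1 →
    ((Z.filter fun k' => |z k' - z k| ≤ r).card : ℝ) ≤ r / e * Z.card
  pen : ∀ l k : ℕ, (l, k) ∈ I → ∀ r : ℝ, δ ≤ r → r ≤ 2 →
    ((L.filter fun l' => (l', k) ∈ I ∧ |XX z x c l' k - XX z x c l k| ≤ δ ∧
      |c l' - c l| ≤ r).card : ℝ) ≤ δ * r ^ m / e * L.card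
  star : ∀ l l' k : ℕ, (l, k) ∈ I → (l', k) ∈ I → |XX z x c l' k - XX z x c l k| ≤ δ →
    |p l' - p l - f k * (c l' - c l)| ≤ δ / e
  degZ : ∀ k ∈ Z, e * (L.card : ℝ) ≤ ((L.filter fun l => (l, k) ∈ I).card : ℝ)
  degL : ∀ l ∈ L, e * (Z.card : ℝ) ≤ ((Z.filter fun k => (l, k) ∈ I).card : ℝ)
  nL : L.Nonempty
  nZ : Z.Nonempty

section

variable {δ e m : ℝ} {L Z : Finset ℕ} {I : Finset (ℕ × ℕ)} {z f x c p : ℕ → ℝ}

theorem cell_close (hδ : 0 < δ) {k l l' : ℕ} (h : cell δ z x c k l = cell δ z x c k l') :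
    |XX z x c l' k - XX z x c l k| ≤ δ := by
  unfold cell at h
  have h1 := Int.abs_sub_lt_one_of_floor_eq_floor h
  rw [← sub_div, abs_div, abs_of_pos hδ, div_lt_one hδ] at h1
  rw [abs_sub_comm]
  exact h1.le

theorem cells_card (H : Cfg δ e m L Z I z f x c p) {k : ℕ} (hk : k ∈ Z) {S : Finset ℕ}
    (hS : S ⊆ L) : ((S.image (cell δ z x c k)).card : ℝ) ≤ 8 / δ := by
  have hδ := H.δ0
  have hsub : S.image (cell δ z x c k) ⊆ Finset.Icc ⌊-3 / δ⌋ ⌊3 / δ⌋ := by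
    intro a ha
    obtain ⟨l, hl, rfl⟩ := mem_image.1 ha
    obtain ⟨h1, h2, -⟩ := H.lb l (hS hl)
    have h3 := (H.zf k hk).1
    have h4 : |z k * c l| ≤ 1 := by
      rw [abs_mul]
      calc |z k| * |c l| ≤ 1 * 1 := mul_le_mul h3 h2 (abs_nonneg _) zero_le_one
        _ = 1 := one_mul _
    rw [abs_le] at h1 h4
    rw [Finset.mem_Icc]
    unfold cell XX
    refine ⟨Int.floor_le_floor ?_, Int.floor_le_floor ?_⟩
    · exact div_le_div_of_nonneg_right (by linarith [h1.1, h4.1]) hδ.le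
    · exact div_le_div_of_nonneg_right (by linarith [h1.2, h4.2]) hδ.le
  have h1 : ((S.image (cell δ z x c k)).card : ℝ) ≤ ((Finset.Icc ⌊-3 / δ⌋ ⌊3 / δ⌋).card : ℝ) := by
    exact_mod_cast card_le_card hsub
  refine h1.trans ?_
  rw [Int.card_Icc]
  have h2 : (0 : ℤ) ≤ ⌊3 / δ⌋ + 1 - ⌊-3 / δ⌋ := by
    have : ⌊-3 / δ⌋ ≤ ⌊3 / δ⌋ := Int.floor_le_floor
      (div_le_div_of_nonneg_right (by norm_num) hδ.le)
    omega
  have h3 : (((⌊3 / δ⌋ + 1 - ⌊-3 / δ⌋).toNat : ℕ) : ℝ) = ((⌊3 / δ⌋ + 1 - ⌊-3 / δ⌋ : ℤ) : ℝ) := by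
    have := Int.toNat_of_nonneg h2
    exact_mod_cast this
  rw [h3]
  push_cast
  have h4 := Int.floor_le (3 / δ)
  have h5 := Int.lt_floor_add_one (-3 / δ)
  have h6 : 1 ≤ 1 / δ := by
    rw [le_div_iff₀ hδ]
    linarith [H.δe, H.e1]
  have h7 : 8 / δ = 3 / δ - (-3 / δ) + 2 * (1 / δ) := by ring
  rw [h7]
  linarith

/-- lines of one cell at `k` -/
theorem fib_one (H : Cfg δ e m L Z I z f x c p) {k : ℕ} {S : Finset ℕ} (hS : S ⊆ L)
    (hSI : ∀ l ∈ S, (l, k) ∈ I) {r : ℝ} (hr : δ ≤ r) (hr2 : r ≤ 2)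
    (hc : ∀ l ∈ S, ∀ l' ∈ S, |XX z x c l' k - XX z x c l k| ≤ δ ∧ |c l' - c l| ≤ r) :
    (S.card : ℝ) ≤ δ * r ^ m / e * L.card := by
  have hr0 : 0 < r := H.δ0.trans_le hr
  rcases S.eq_empty_or_nonempty with rfl | ⟨l0, hl0⟩
  · rw [card_empty, Nat.cast_zero]
    have := H.δ0
    have := H.e0
    positivity
  · refine le_trans ?_ (H.pen l0 k (hSI l0 hl0) r hr hr2)
    exact_mod_cast card_le_card fun l hl => by
      rw [mem_filter]
      exact ⟨hS hl, hSI l hl, hc l0 hl0 l hl⟩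

theorem two_rpow_le (hm : 0 < m) (hm1 : m ≤ 1) : (2 : ℝ) ^ m ≤ 2 := by
  calc (2 : ℝ) ^ m ≤ (2 : ℝ) ^ (1 : ℝ) := Real.rpow_le_rpow_of_exponent_le (by norm_num) hm1
    _ = 2 := Real.rpow_one 2

/-- all lines of a cell -/
theorem fib_all (H : Cfg δ e m L Z I z f x c p) {k : ℕ} {S : Finset ℕ} (hS : S ⊆ L)
    (hSI : ∀ l ∈ S, (l, k) ∈ I)
    (hc : ∀ l ∈ S, ∀ l' ∈ S, |XX z x c l' k - XX z x c l k| ≤ δ) :
    (S.card : ℝ) ≤ 2 * δ / e * L.card := by
  have h1 := fib_one H hS hSI (r := 2) (by linarith [H.δe, H.e1]) le_rfl fun l hl l' hl' => by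
    refine ⟨hc l hl l' hl', ?_⟩
    have a1 := (H.lb l (hS hl)).2.1
    have a2 := (H.lb l' (hS hl')).2.1
    rw [abs_le] at a1 a2 ⊢
    constructor <;> linarith [a1.1, a1.2, a2.1, a2.2]
  refine h1.trans ?_
  have h2 := two_rpow_le H.m0 H.m1
  have := H.δ0
  have := H.e0
  refine mul_le_mul_of_nonneg_right ?_ (Nat.cast_nonneg _)
  refine div_le_div_of_nonneg_right ?_ H.e0.le
  nlinarith

/-- `l, l'` are incident to `k0` and `k`, in one cell at `k`, with `s1 < |c l - c l'|` -/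
noncomputable def P1 (δ : ℝ) (L : Finset ℕ) (I : Finset (ℕ × ℕ)) (z x c : ℕ → ℝ) (s1 : ℝ)
    (k0 k : ℕ) : Finset (ℕ × ℕ) :=
  (L ×ˢ L).filter fun q => ((q.1, k) ∈ I ∧ (q.1, k0) ∈ I) ∧ ((q.2, k) ∈ I ∧ (q.2, k0) ∈ I) ∧
    cell δ z x c k q.1 = cell δ z x c k q.2 ∧ s1 < |c q.2 - c q.1|

theorem mem_P1 {s1 : ℝ} {k0 k : ℕ} {q : ℕ × ℕ} : q ∈ P1 δ L I z x c s1 k0 k ↔
    (q.1 ∈ L ∧ q.2 ∈ L) ∧ ((q.1, k) ∈ I ∧ (q.1, k0) ∈ I) ∧ ((q.2, k) ∈ I ∧ (q.2, k0) ∈ I) ∧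
    cell δ z x c k q.1 = cell δ z x c k q.2 ∧ s1 < |c q.2 - c q.1| := by
  unfold P1
  rw [mem_filter, mem_product]

/-- total number of pairs at `(k0, k)` -/
theorem P1_le (H : Cfg δ e m L Z I z f x c p) (s1 : ℝ) (k0 k : ℕ) :
    ((P1 δ L I z x c s1 k0 k).card : ℝ) ≤ 2 * δ / e * (L.card : ℝ) ^ 2 := by
  have hδ := H.δ0
  have he := H.e0
  have h1 := card_le_of_fibers (P1 δ L I z x c s1 k0 k) Prod.fst (2 * δ / e * L.card) (by
    rintro ⟨l, l0⟩ hl
    have hS : ((P1 δ L I z x c s1 k0 k).filter fun q => q.1 = l).card =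
        (((P1 δ L I z x c s1 k0 k).filter fun q => q.1 = l).image Prod.snd).card := by
      rw [card_image_of_injOn]
      rintro ⟨a, b⟩ h1 ⟨a', b'⟩ h2 h3
      rw [mem_coe, mem_filter] at h1 h2
      have e1 : a = l := h1.2
      have e2 : a' = l := h2.2
      have e3 : b = b' := h3
      rw [e1, e2, e3]
    rw [hS]
    have hmem : ∀ l' ∈ (((P1 δ L I z x c s1 k0 k).filter fun q => q.1 = l).image Prod.snd),
        l' ∈ L ∧ (l', k) ∈ I ∧ cell δ z x c k l = cell δ z x c k l' := by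
      intro l' hl'
      obtain ⟨⟨a, b⟩, h1, h2⟩ := mem_image.1 hl'
      rw [mem_filter, mem_P1] at h1
      have e1 : a = l := h1.2
      have e2 : b = l' := h2
      subst e1 e2
      exact ⟨h1.1.1.2, h1.1.2.2.1.1, h1.1.2.2.2.1⟩
    refine fib_all H (k := k) (fun l' hl' => (hmem l' hl').1) (fun l' hl' => (hmem l' hl').2.1)
      fun a ha b hb => ?_
    exact cell_close hδ (((hmem a ha).2.2).symm.trans (hmem b hb).2.2))
  refine h1.trans ?_
  have h2 : (((P1 δ L I z x c s1 k0 k).image Prod.fst).card : ℝ) ≤ L.card := by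
    exact_mod_cast card_le_card fun l hl => by
      obtain ⟨q, hq, rfl⟩ := mem_image.1 hl
      exact (mem_P1.1 hq).1.1
  calc (((P1 δ L I z x c s1 k0 k).image Prod.fst).card : ℝ) * (2 * δ / e * L.card)
      ≤ L.card * (2 * δ / e * L.card) := mul_le_mul_of_nonneg_right h2 (by positivity)
    _ = _ := by ring

/-- pairs at `(k0, k)` with given cells at `k0` -/
theorem P1_fib (H : Cfg δ e m L Z I z f x c p) {s1 s2 : ℝ} (hs2 : 0 < s2) (hs21 : s2 ≤ 1)
    (hδs : δ ≤ s2) {k0 k : ℕ} (hfar : s2 < |z k - z k0|) (A A' : ℤ) :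
    (((P1 δ L I z x c s1 k0 k).filter fun q => cell δ z x c k0 q.1 = A ∧
      cell δ z x c k0 q.2 = A').card : ℝ) ≤ 4 * δ ^ 2 * δ ^ m / (e ^ 2 * s2) * (L.card : ℝ) ^ 2 := by
  have hδ := H.δ0
  have he := H.e0
  set Q := (P1 δ L I z x c s1 k0 k).filter fun q => cell δ z x c k0 q.1 = A ∧
      cell δ z x c k0 q.2 = A' with hQ
  have h1 := card_le_of_fibers Q Prod.fst (δ * (2 * δ / s2) ^ m / e * L.card) (by
    rintro ⟨l, l0⟩ hl
    have hS : (Q.filter fun q => q.1 = l).card =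
        ((Q.filter fun q => q.1 = l).image Prod.snd).card := by
      rw [card_image_of_injOn]
      rintro ⟨a, b⟩ h1 ⟨a', b'⟩ h2 h3
      rw [mem_coe, mem_filter] at h1 h2
      have e1 : a = l := h1.2
      have e2 : a' = l := h2.2
      have e3 : b = b' := h3
      rw [e1, e2, e3]
    rw [hS]
    have hmem : ∀ l' ∈ ((Q.filter fun q => q.1 = l).image Prod.snd),
        l' ∈ L ∧ (l', k0) ∈ I ∧ cell δ z x c k l = cell δ z x c k l' ∧
          cell δ z x c k0 l' = A' := by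
      intro l' hl'
      obtain ⟨⟨a, b⟩, h1, h2⟩ := mem_image.1 hl'
      rw [mem_filter, hQ, mem_filter, mem_P1] at h1
      have e1 : a = l := h1.2
      have e2 : b = l' := h2
      subst e1 e2
      exact ⟨h1.1.1.1.2, h1.1.1.2.2.1.2, h1.1.1.2.2.2.1, h1.1.2.2⟩
    refine fib_one H (k := k0) (fun l' hl' => (hmem l' hl').1) (fun l' hl' => (hmem l' hl').2.1)
      ?_ ?_ fun a ha b hb => ?_
    · rw [le_div_iff₀ hs2]
      nlinarith
    · rw [div_le_iff₀ hs2]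
      linarith
    · have g1 := cell_close hδ (((hmem a ha).2.2.2).trans (hmem b hb).2.2.2.symm)
      refine ⟨g1, ?_⟩
      have g2 := cell_close hδ (((hmem a ha).2.2.1).symm.trans (hmem b hb).2.2.1)
      have g3 : (z k - z k0) * (c b - c a) =
          (XX z x c b k - XX z x c a k) - (XX z x c b k0 - XX z x c a k0) := by
        unfold XX; ring
      have g4 : |z k - z k0| * |c b - c a| ≤ 2 * δ := by
        rw [← abs_mul, g3]
        refine (abs_sub _ _).trans ?_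
        linarith
      rw [le_div_iff₀ hs2]
      calc |c b - c a| * s2 ≤ |c b - c a| * |z k - z k0| :=
            mul_le_mul_of_nonneg_left hfar.le (abs_nonneg _)
        _ = |z k - z k0| * |c b - c a| := mul_comm _ _
        _ ≤ _ := g4)
  have h2 : ((Q.image Prod.fst).card : ℝ) ≤ 2 * δ / e * L.card := by
    have hmem : ∀ l ∈ Q.image Prod.fst, l ∈ L ∧ (l, k0) ∈ I ∧ cell δ z x c k0 l = A := by
      intro l hl
      obtain ⟨q, hq, rfl⟩ := mem_image.1 hl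
      rw [hQ, mem_filter, mem_P1] at hq
      exact ⟨hq.1.1.1, hq.1.2.1.2, hq.2.1⟩
    refine fib_all H (k := k0) (fun l' hl' => (hmem l' hl').1) (fun l' hl' => (hmem l' hl').2.1)
      fun a ha b hb => cell_close hδ (((hmem a ha).2.2).trans (hmem b hb).2.2.symm)
  refine h1.trans ((mul_le_mul_of_nonneg_right h2 (by positivity)).trans ?_)
  have h3 : (2 * δ / s2) ^ m ≤ 2 * δ ^ m / s2 := by
    rw [Real.div_rpow (by positivity) hs2.le, Real.mul_rpow (by norm_num) hδ.le]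
    have g1 := two_rpow_le H.m0 H.m1
    have g2 : s2 ≤ s2 ^ m := by
      calc s2 = s2 ^ (1 : ℝ) := (Real.rpow_one s2).symm
        _ ≤ _ := Real.rpow_le_rpow_of_exponent_ge hs2 hs21 H.m1
    have g3 : 0 < δ ^ m := Real.rpow_pos_of_pos hδ _
    exact div_le_div₀ (by positivity) (mul_le_mul_of_nonneg_right g1 g3.le) hs2 g2
  calc 2 * δ / e * (L.card : ℝ) * (δ * (2 * δ / s2) ^ m / e * L.card)
      ≤ 2 * δ / e * (L.card : ℝ) * (δ * (2 * δ ^ m / s2) / e * L.card) := by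
        refine mul_le_mul_of_nonneg_left ?_ (by positivity)
        refine mul_le_mul_of_nonneg_right ?_ (Nat.cast_nonneg _)
        refine div_le_div_of_nonneg_right ?_ he.le
        exact mul_le_mul_of_nonneg_left h3 hδ.le
    _ = _ := by field_simp; ring

/-- slope of `f` between two heights -/
noncomputable def slp (z f : ℕ → ℝ) (k0 k : ℕ) : ℝ := (f k - f k0) / (z k - z k0)

/-- one pair of lines meeting at `k`, seen from `k0` -/
theorem one_pair (H : Cfg δ e m L Z I z f x c p) {s1 s2 : ℝ} (hs2 : 0 < s2) (hse : s2 ≤ e)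
    {k0 k : ℕ} (hk0 : k0 ∈ Z) (hk : k ∈ Z) (hfar : s2 < |z k - z k0|) {q : ℕ × ℕ}
    (hq : q ∈ P1 δ L I z x c s1 k0 k) :
    |(p q.2 - p q.1 - f k0 * (c q.2 - c q.1)) +
      slp z f k0 k * (XX z x c q.2 k0 - XX z x c q.1 k0)| ≤ 3 * δ / s2 ∧
      s1 * s2 - δ ≤ |XX z x c q.2 k0 - XX z x c q.1 k0| ∧ |slp z f k0 k| ≤ 2 / s2 := by
  have hδ := H.δ0
  have he := H.e0
  obtain ⟨⟨h1, h2⟩, ⟨h3, h4⟩, ⟨h5, h6⟩, h7, h8⟩ := mem_P1.1 hq
  have hne : z k - z k0 ≠ 0 := by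
    intro h0
    rw [h0, abs_zero] at hfar
    linarith
  have g1 := cell_close hδ h7
  have g2 := H.star _ _ _ h3 h5 g1
  have g3 : slp z f k0 k * (z k - z k0) = f k - f k0 := by
    unfold slp
    field_simp
  have g4 : |slp z f k0 k| ≤ 2 / s2 := by
    unfold slp
    rw [abs_div]
    have a1 := (H.zf k hk).2
    have a2 := (H.zf k0 hk0).2
    have a3 : |f k - f k0| ≤ 2 := by
      refine (abs_sub _ _).trans ?_
      linarith
    exact div_le_div₀ (by norm_num) a3 hs2 hfar.le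
  refine ⟨?_, ?_, g4⟩
  · have e1 : (p q.2 - p q.1 - f k0 * (c q.2 - c q.1)) +
        slp z f k0 k * (XX z x c q.2 k0 - XX z x c q.1 k0) =
        (p q.2 - p q.1 - f k * (c q.2 - c q.1)) +
          slp z f k0 k * (XX z x c q.2 k - XX z x c q.1 k) := by
      have : (f k - f k0) * (c q.2 - c q.1) = slp z f k0 k * (z k - z k0) * (c q.2 - c q.1) := by
        rw [g3]
      unfold XX
      linear_combination this
    rw [e1]
    refine (abs_add_le _ _).trans ?_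
    rw [abs_mul]
    have b1 : |slp z f k0 k| * |XX z x c q.2 k - XX z x c q.1 k| ≤ 2 / s2 * δ :=
      mul_le_mul g4 g1 (abs_nonneg _) (by positivity)
    have b2 : δ / e ≤ δ / s2 := div_le_div_of_nonneg_left hδ.le hs2 hse
    have b3 : 3 * δ / s2 = δ / s2 + 2 / s2 * δ := by ring
    rw [b3]
    linarith
  · have e1 : XX z x c q.2 k0 - XX z x c q.1 k0 = (XX z x c q.2 k - XX z x c q.1 k) -
        (z k - z k0) * (c q.2 - c q.1) := by
      unfold XX; ring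
    have b1 : s1 * s2 ≤ |(z k - z k0) * (c q.2 - c q.1)| := by
      rw [abs_mul]
      calc s1 * s2 ≤ |c q.2 - c q.1| * s2 := mul_le_mul_of_nonneg_right h8.le hs2.le
        _ ≤ |c q.2 - c q.1| * |z k - z k0| := mul_le_mul_of_nonneg_left hfar.le (abs_nonneg _)
        _ = _ := mul_comm _ _
    have b2 : |(z k - z k0) * (c q.2 - c q.1)| ≤ |XX z x c q.2 k0 - XX z x c q.1 k0| +
        |XX z x c q.2 k - XX z x c q.1 k| := by
      have b3 : (z k - z k0) * (c q.2 - c q.1) = (XX z x c q.2 k - XX z x c q.1 k) -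
          (XX z x c q.2 k0 - XX z x c q.1 k0) := by
        rw [e1]; ring
      rw [b3]
      refine (abs_sub _ _).trans ?_
      linarith
    linarith

/-- **the slope depends only on the two cells at the pin** -/
theorem slopes_eq (H : Cfg δ e m L Z I z f x c p) {s1 s2 : ℝ} (hs1 : 0 < s1) (hs2 : 0 < s2)
    (hse : s2 ≤ e) (hδs : 2 * δ ≤ s1 * s2) {k0 k h : ℕ} (hk0 : k0 ∈ Z) (hk : k ∈ Z) (hh : h ∈ Z)
    (hfar : s2 < |z k - z k0|) (hfar' : s2 < |z h - z k0|) {q q' : ℕ × ℕ}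
    (hq : q ∈ P1 δ L I z x c s1 k0 k) (hq' : q' ∈ P1 δ L I z x c s1 k0 h)
    (h1 : cell δ z x c k0 q.1 = cell δ z x c k0 q'.1)
    (h2 : cell δ z x c k0 q.2 = cell δ z x c k0 q'.2) :
    |slp z f k0 h - slp z f k0 k| ≤ 24 * δ / (s1 * s2 ^ 2) := by
  have hδ := H.δ0
  have he := H.e0
  obtain ⟨a1, a2, a3⟩ := one_pair H hs2 hse hk0 hk hfar hq
  obtain ⟨b1, b2, b3⟩ := one_pair H hs2 hse hk0 hh hfar' hq'
  have mq := mem_P1.1 hq
  have mq' := mem_P1.1 hq'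
  have c1 := cell_close hδ h1
  have c2 := cell_close hδ h2
  have d1 := H.star _ _ _ mq.2.1.2 mq'.2.1.2 c1
  have d2 := H.star _ _ _ mq.2.2.1.2 mq'.2.2.1.2 c2
  set DX := XX z x c q.2 k0 - XX z x c q.1 k0 with hDX
  set DY := XX z x c q'.2 k0 - XX z x c q'.1 k0 with hDY
  set s := slp z f k0 k with hs
  set t := slp z f k0 h with ht
  have hb : δ / e ≤ δ / s2 := div_le_div_of_nonneg_left hδ.le hs2 hse
  have f1 : |DY - DX| ≤ 2 * δ := by
    have : DY - DX = (XX z x c q'.2 k0 - XX z x c q.2 k0) -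
        (XX z x c q'.1 k0 - XX z x c q.1 k0) := by rw [hDX, hDY]; ring
    rw [this]
    refine (abs_sub _ _).trans ?_
    linarith
  have f2 : |t| * |DY - DX| ≤ 2 / s2 * (2 * δ) := mul_le_mul b3 f1 (abs_nonneg _) (by positivity)
  have f3 : (t - s) * DX = ((p q'.2 - p q'.1 - f k0 * (c q'.2 - c q'.1)) + t * DY) -
      ((p q.2 - p q.1 - f k0 * (c q.2 - c q.1)) + s * DX) -
      ((p q'.2 - p q.2 - f k0 * (c q'.2 - c q.2)) - (p q'.1 - p q.1 - f k0 * (c q'.1 - c q.1))) -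
      t * (DY - DX) := by ring
  have f4 : |(t - s) * DX| ≤ 12 * δ / s2 := by
    rw [f3]
    have g1 := abs_sub (((p q'.2 - p q'.1 - f k0 * (c q'.2 - c q'.1)) + t * DY) -
      ((p q.2 - p q.1 - f k0 * (c q.2 - c q.1)) + s * DX) -
      ((p q'.2 - p q.2 - f k0 * (c q'.2 - c q.2)) - (p q'.1 - p q.1 - f k0 * (c q'.1 - c q.1))))
      (t * (DY - DX))
    have g2 := abs_sub (((p q'.2 - p q'.1 - f k0 * (c q'.2 - c q'.1)) + t * DY) -
      ((p q.2 - p q.1 - f k0 * (c q.2 - c q.1)) + s * DX))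
      ((p q'.2 - p q.2 - f k0 * (c q'.2 - c q.2)) - (p q'.1 - p q.1 - f k0 * (c q'.1 - c q.1)))
    have g3 := abs_sub ((p q'.2 - p q'.1 - f k0 * (c q'.2 - c q'.1)) + t * DY)
      ((p q.2 - p q.1 - f k0 * (c q.2 - c q.1)) + s * DX)
    have g4 := abs_sub (p q'.2 - p q.2 - f k0 * (c q'.2 - c q.2))
      (p q'.1 - p q.1 - f k0 * (c q'.1 - c q.1))
    rw [abs_mul] at g1
    have g5 : 12 * δ / s2 = 3 * δ / s2 + 3 * δ / s2 + 2 * (δ / s2) + 2 / s2 * (2 * δ) := by ring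
    rw [g5]
    linarith
  have f5 : s1 * s2 / 2 ≤ |DX| := by linarith
  rw [abs_mul] at f4
  have f6 : |t - s| * (s1 * s2 / 2) ≤ 12 * δ / s2 :=
    (mul_le_mul_of_nonneg_left f5 (abs_nonneg _)).trans f4
  rw [le_div_iff₀ (by positivity)]
  rw [le_div_iff₀ hs2] at f6
  nlinarith

end

end Crest.Agent.R136.LA501
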