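import Crest.Agent.R136.LA1_501

/-!
# R136 [RIG_E], Lemma A (for helper344), part 2 (helper501): many bad pairs
-/

set_option autoImplicit false
set_option linter.unusedVariables false
set_option linter.unusedSectionVars false

open Finset

namespace Crest.Agent.R136.LA501

open Crest.Agent.R138.TwA501 (sq_card_le card_le_of_fibers)

variable {δ e m : ℝ} {L Z : Finset ℕ} {I : Finset (ℕ × ℕ)} {z f x c p : ℕ → ℝ}

/-- lines through both `k0` and `k` -/
def S2 (L : Finset ℕ) (I : Finset (ℕ × ℕ)) (k0 k : ℕ) : Finset ℕ :=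
  L.filter fun l => (l, k) ∈ I ∧ (l, k0) ∈ I

theorem sum_S2 (L Z : Finset ℕ) (I : Finset (ℕ × ℕ)) :
    ∑ k0 ∈ Z, ∑ k ∈ Z, ((S2 L I k0 k).card : ℝ) =
      ∑ l ∈ L, ((Z.filter fun k => (l, k) ∈ I).card : ℝ) ^ 2 := by
  have h1 : ∀ k0 k : ℕ, ((S2 L I k0 k).card : ℝ) =
      ∑ l ∈ L, (if (l, k) ∈ I then (1 : ℝ) else 0) * (if (l, k0) ∈ I then (1 : ℝ) else 0) := by
    intro k0 k
    unfold S2
    rw [card_filter]
    push_cast
    refine sum_congr rfl fun l _ => ?_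
    by_cases a : (l, k) ∈ I <;> by_cases b : (l, k0) ∈ I <;> simp [a, b]
  have h2 : ∀ l : ℕ, ((Z.filter fun k => (l, k) ∈ I).card : ℝ) =
      ∑ k ∈ Z, (if (l, k) ∈ I then (1 : ℝ) else 0) := by
    intro l
    rw [card_filter]
    push_cast
    rfl
  calc ∑ k0 ∈ Z, ∑ k ∈ Z, ((S2 L I k0 k).card : ℝ)
      = ∑ k0 ∈ Z, ∑ k ∈ Z, ∑ l ∈ L, (if (l, k) ∈ I then (1 : ℝ) else 0) *
          (if (l, k0) ∈ I then (1 : ℝ) else 0) :=
        sum_congr rfl fun k0 _ => sum_congr rfl fun k _ => h1 k0 k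
    _ = ∑ k0 ∈ Z, ∑ l ∈ L, ∑ k ∈ Z, (if (l, k) ∈ I then (1 : ℝ) else 0) *
          (if (l, k0) ∈ I then (1 : ℝ) else 0) := sum_congr rfl fun k0 _ => sum_comm
    _ = ∑ l ∈ L, ∑ k0 ∈ Z, ∑ k ∈ Z, (if (l, k) ∈ I then (1 : ℝ) else 0) *
          (if (l, k0) ∈ I then (1 : ℝ) else 0) := sum_comm
    _ = ∑ l ∈ L, ((Z.filter fun k => (l, k) ∈ I).card : ℝ) ^ 2 := by
        refine sum_congr rfl fun l _ => ?_
        rw [h2 l, sq, sum_mul_sum]
        refine sum_congr rfl fun k0 _ => ?_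
        rw [← sum_mul, mul_comm]
        rw [← mul_sum]

/-- **many common pairs** -/
theorem sum_S2_sq (H : Cfg δ e m L Z I z f x c p) :
    e ^ 4 * (Z.card : ℝ) ^ 2 * (L.card : ℝ) ^ 2 ≤
      ∑ k0 ∈ Z, ∑ k ∈ Z, ((S2 L I k0 k).card : ℝ) ^ 2 := by
  have hZ : (0 : ℝ) < Z.card := by exact_mod_cast H.nZ.card_pos
  have hL : (0 : ℝ) < L.card := by exact_mod_cast H.nL.card_pos
  have he := H.e0
  have h1 : (L.card : ℝ) * (e * Z.card) ^ 2 ≤ ∑ k0 ∈ Z, ∑ k ∈ Z, ((S2 L I k0 k).card : ℝ) := by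
    rw [sum_S2]
    calc (L.card : ℝ) * (e * Z.card) ^ 2 = ∑ l ∈ L, (e * (Z.card : ℝ)) ^ 2 := by
          rw [sum_const, nsmul_eq_mul]
      _ ≤ _ := sum_le_sum fun l hl => pow_le_pow_left₀ (by positivity) (H.degL l hl) 2
  have h2 : (∑ k0 ∈ Z, ∑ k ∈ Z, ((S2 L I k0 k).card : ℝ)) ^ 2 ≤
      ((Z.card : ℝ) ^ 2) * ∑ k0 ∈ Z, ∑ k ∈ Z, ((S2 L I k0 k).card : ℝ) ^ 2 := by
    have g1 := sq_sum_le_card_mul_sum_sq (s := Z ×ˢ Z)
      (f := fun q : ℕ × ℕ => ((S2 L I q.1 q.2).card : ℝ))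
    rw [sum_product, sum_product, card_product] at g1
    push_cast at g1
    rw [sq (Z.card : ℝ)]
    exact g1
  have h3 : ((L.card : ℝ) * (e * Z.card) ^ 2) ^ 2 ≤
      ((Z.card : ℝ) ^ 2) * ∑ k0 ∈ Z, ∑ k ∈ Z, ((S2 L I k0 k).card : ℝ) ^ 2 :=
    (pow_le_pow_left₀ (by positivity) h1 2).trans h2
  have h4 : ((L.card : ℝ) * (e * Z.card) ^ 2) ^ 2 =
      ((Z.card : ℝ) ^ 2) * (e ^ 4 * (Z.card : ℝ) ^ 2 * (L.card : ℝ) ^ 2) := by ring
  rw [h4] at h3
  exact le_of_mul_le_mul_left h3 (by positivity)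

/-- near pairs of one cell -/
theorem near_le (H : Cfg δ e m L Z I z f x c p) {S : Finset ℕ} {k : ℕ} (hS : S ⊆ L)
    (hSI : ∀ l ∈ S, (l, k) ∈ I) {s1 : ℝ} (h1 : δ ≤ s1) (h2 : s1 ≤ 2) :
    (((S ×ˢ S).filter fun q => cell δ z x c k q.1 = cell δ z x c k q.2 ∧
      |c q.2 - c q.1| ≤ s1).card : ℝ) ≤ S.card * (δ * s1 ^ m / e * L.card) := by
  have hδ := H.δ0
  have he := H.e0
  set Q := (S ×ˢ S).filter fun q => cell δ z x c k q.1 = cell δ z x c k q.2 ∧
      |c q.2 - c q.1| ≤ s1 with hQ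
  have hs0 : 0 < s1 := hδ.trans_le h1
  have g1 := card_le_of_fibers Q Prod.fst (δ * s1 ^ m / e * L.card) (by
    rintro ⟨l, l0⟩ hl
    have hlS : l ∈ S := by
      rw [hQ, mem_filter, mem_product] at hl
      exact hl.1.1
    have hcd : (Q.filter fun q => q.1 = l).card =
        ((Q.filter fun q => q.1 = l).image Prod.snd).card := by
      rw [card_image_of_injOn]
      rintro ⟨a, b⟩ h1 ⟨a', b'⟩ h2 h3
      rw [mem_coe, mem_filter] at h1 h2
      have e1 : a = l := h1.2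
      have e2 : a' = l := h2.2
      have e3 : b = b' := h3
      rw [e1, e2, e3]
    rw [hcd]
    refine le_trans ?_ (H.pen l k (hSI l hlS) s1 h1 h2)
    exact_mod_cast card_le_card fun l' hl' => by
      obtain ⟨⟨a, b⟩, h1, h2⟩ := mem_image.1 hl'
      rw [mem_filter, hQ, mem_filter, mem_product] at h1
      have e1 : a = l := h1.2
      have e2 : b = l' := h2
      subst e1 e2
      rw [mem_filter]
      exact ⟨hS h1.1.1.2, hSI b h1.1.1.2, cell_close hδ h1.1.2.1, h1.1.2.2⟩)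
  refine g1.trans ?_
  refine mul_le_mul_of_nonneg_right ?_ (by positivity)
  exact_mod_cast card_le_card fun l hl => by
    obtain ⟨q, hq, rfl⟩ := mem_image.1 hl
    rw [hQ, mem_filter, mem_product] at hq
    exact hq.1.1

/-- lower bound of the number of far pairs of one cell -/
theorem far_ge (H : Cfg δ e m L Z I z f x c p) {S : Finset ℕ} {k : ℕ} (hk : k ∈ Z) (hS : S ⊆ L)
    (hSI : ∀ l ∈ S, (l, k) ∈ I) {s1 : ℝ} (h1 : δ ≤ s1) (h2 : s1 ≤ 2) :
    δ / 8 * (S.card : ℝ) ^ 2 ≤ (((S ×ˢ S).filter fun q =>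
      cell δ z x c k q.1 = cell δ z x c k q.2 ∧ s1 < |c q.2 - c q.1|).card : ℝ) +
      S.card * (δ * s1 ^ m / e * L.card) := by
  have hδ := H.δ0
  have g1 := sq_card_le S (cell δ z x c k)
  have g2 := cells_card H hk hS
  have g3 : (S.card : ℝ) ^ 2 ≤ 8 / δ *
      (((S ×ˢ S).filter fun q => cell δ z x c k q.1 = cell δ z x c k q.2).card : ℝ) :=
    g1.trans (mul_le_mul_of_nonneg_right g2 (Nat.cast_nonneg _))
  have g4 : δ / 8 * (S.card : ℝ) ^ 2 ≤
      (((S ×ˢ S).filter fun q => cell δ z x c k q.1 = cell δ z x c k q.2).card : ℝ) := by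
    calc δ / 8 * (S.card : ℝ) ^ 2 ≤ δ / 8 * (8 / δ *
        (((S ×ˢ S).filter fun q => cell δ z x c k q.1 = cell δ z x c k q.2).card : ℝ)) :=
          mul_le_mul_of_nonneg_left g3 (by positivity)
      _ = _ := by field_simp
  refine g4.trans ?_
  have g5 := near_le H hS hSI h1 h2
  have g6 : (((S ×ˢ S).filter fun q => cell δ z x c k q.1 = cell δ z x c k q.2).card : ℝ) ≤
      (((S ×ˢ S).filter fun q => cell δ z x c k q.1 = cell δ z x c k q.2 ∧
        s1 < |c q.2 - c q.1|).card : ℝ) +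
      (((S ×ˢ S).filter fun q => cell δ z x c k q.1 = cell δ z x c k q.2 ∧
      |c q.2 - c q.1| ≤ s1).card : ℝ) := by
    have : ((S ×ˢ S).filter fun q => cell δ z x c k q.1 = cell δ z x c k q.2) ⊆
        ((S ×ˢ S).filter fun q => cell δ z x c k q.1 = cell δ z x c k q.2 ∧
          s1 < |c q.2 - c q.1|) ∪ ((S ×ˢ S).filter fun q =>
            cell δ z x c k q.1 = cell δ z x c k q.2 ∧ |c q.2 - c q.1| ≤ s1) := by
      intro q hq
      rw [mem_filter] at hq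
      rw [mem_union, mem_filter, mem_filter]
      rcases lt_or_ge s1 |c q.2 - c q.1| with h | h
      · exact Or.inl ⟨hq.1, hq.2, h⟩
      · exact Or.inr ⟨hq.1, hq.2, h⟩
    exact_mod_cast (card_le_card this).trans (card_union_le _ _)
  linarith

/-- powers: `(e ^ (n * M)) ^ m ≤ e ^ n` if `1 ≤ M m` -/
theorem pow_rpow_le {e m : ℝ} (he : 0 < e) (he1 : e ≤ 1) {M : ℕ} (hM : 1 ≤ (M : ℝ) * m) (n : ℕ) :
    (e ^ (n * M)) ^ m ≤ e ^ n := by
  rw [← Real.rpow_natCast e (n * M), ← Real.rpow_mul he.le, ← Real.rpow_natCast e n]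
  refine Real.rpow_le_rpow_of_exponent_ge he he1 ?_
  push_cast
  have : (n : ℝ) * 1 ≤ n * (M * m) := mul_le_mul_of_nonneg_left hM (Nat.cast_nonneg _)
  linarith

/-- far heights -/
noncomputable def farZ (Z : Finset ℕ) (z : ℕ → ℝ) (s2 : ℝ) (k0 : ℕ) : Finset ℕ :=
  Z.filter fun k => s2 < |z k - z k0|

/-- **lower bound of the number of configurations** -/
theorem sum_P1_ge (H : Cfg δ e m L Z I z f x c p) {M : ℕ} (hM : 1 ≤ (M : ℝ) * m)
    (hδ1 : δ ≤ e ^ (6 * M)) (hδ2 : δ ≤ e ^ 8) :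
    e ^ 4 * δ / 16 * (Z.card : ℝ) ^ 2 * (L.card : ℝ) ^ 2 ≤
      ∑ k0 ∈ Z, ∑ k ∈ farZ Z z (e ^ 8) k0,
        ((P1 δ L I z x c (e ^ (6 * M)) k0 k).card : ℝ) := by
  have hδ := H.δ0
  have he := H.e0
  have he1 : e ≤ 1 := by linarith [H.e1]
  set s1 : ℝ := e ^ (6 * M) with hs1
  have hs10 : 0 < s1 := by positivity
  have hs12 : s1 ≤ 2 := (pow_le_one₀ he.le he1).trans (by norm_num)
  have hs1m : s1 ^ m ≤ e ^ 6 := pow_rpow_le he he1 hM 6
  set s2 : ℝ := e ^ 8 with hs2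
  have hs20 : 0 < s2 := by positivity
  have hs21 : s2 ≤ 1 := pow_le_one₀ he.le he1
  set N : ℝ := (Z.card : ℝ) ^ 2 * (L.card : ℝ) ^ 2 with hN
  have hN0 : 0 ≤ N := by positivity
  -- all heights
  have hP : ∀ k0 k : ℕ, k ∈ Z → δ / 8 * ((S2 L I k0 k).card : ℝ) ^ 2 ≤
      ((P1 δ L I z x c s1 k0 k).card : ℝ) + δ * e ^ 5 * (L.card : ℝ) ^ 2 := by
    intro k0 k hk
    have hS : S2 L I k0 k ⊆ L := filter_subset _ _
    have hSI : ∀ l ∈ S2 L I k0 k, (l, k) ∈ I := fun l hl => (mem_filter.1 hl).2.1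
    have g1 := far_ge H hk hS hSI hδ1 hs12
    have g2 : (((S2 L I k0 k ×ˢ S2 L I k0 k).filter fun q =>
        cell δ z x c k q.1 = cell δ z x c k q.2 ∧ s1 < |c q.2 - c q.1|).card : ℝ) ≤
        ((P1 δ L I z x c s1 k0 k).card : ℝ) := by
      exact_mod_cast card_le_card fun q hq => by
        rw [mem_filter, mem_product] at hq
        obtain ⟨⟨a1, a2⟩, a3, a4⟩ := hq
        unfold S2 at a1 a2
        rw [mem_filter] at a1 a2
        exact mem_P1.2 ⟨⟨a1.1, a2.1⟩, a1.2, a2.2, a3, a4⟩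
    have g3 : ((S2 L I k0 k).card : ℝ) * (δ * s1 ^ m / e * L.card) ≤
        δ * e ^ 5 * (L.card : ℝ) ^ 2 := by
      have a1 : ((S2 L I k0 k).card : ℝ) ≤ L.card := by exact_mod_cast card_le_card hS
      have a2 : δ * s1 ^ m / e ≤ δ * e ^ 5 := by
        rw [div_le_iff₀ he]
        calc δ * s1 ^ m ≤ δ * e ^ 6 := mul_le_mul_of_nonneg_left hs1m hδ.le
          _ = _ := by ring
      calc ((S2 L I k0 k).card : ℝ) * (δ * s1 ^ m / e * L.card)
          ≤ L.card * (δ * e ^ 5 * L.card) := by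
            refine mul_le_mul a1 ?_ (by positivity) (Nat.cast_nonneg _)
            exact mul_le_mul_of_nonneg_right a2 (Nat.cast_nonneg _)
        _ = _ := by ring
    linarith
  have hsum : δ / 8 * ∑ k0 ∈ Z, ∑ k ∈ Z, ((S2 L I k0 k).card : ℝ) ^ 2 ≤
      ∑ k0 ∈ Z, ∑ k ∈ Z, ((P1 δ L I z x c s1 k0 k).card : ℝ) + δ * e ^ 5 * N := by
    rw [mul_sum]
    have g1 : ∑ k0 ∈ Z, δ / 8 * ∑ k ∈ Z, ((S2 L I k0 k).card : ℝ) ^ 2 ≤
        ∑ k0 ∈ Z, (∑ k ∈ Z, ((P1 δ L I z x c s1 k0 k).card : ℝ) +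
          Z.card * (δ * e ^ 5 * (L.card : ℝ) ^ 2)) := by
      refine sum_le_sum fun k0 _ => ?_
      rw [mul_sum]
      refine (sum_le_sum fun k hk => hP k0 k hk).trans (le_of_eq ?_)
      rw [sum_add_distrib, sum_const, nsmul_eq_mul]
    refine g1.trans (le_of_eq ?_)
    rw [sum_add_distrib, sum_const, nsmul_eq_mul, hN]
    ring
  -- near heights
  have hnear : ∑ k0 ∈ Z, ∑ k ∈ Z.filter (fun k => ¬ s2 < |z k - z k0|),
      ((P1 δ L I z x c s1 k0 k).card : ℝ) ≤ 2 * δ * e ^ 6 * N := by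
    have g1 : ∀ k0 ∈ Z, ∑ k ∈ Z.filter (fun k => ¬ s2 < |z k - z k0|),
        ((P1 δ L I z x c s1 k0 k).card : ℝ) ≤
        (s2 / e * Z.card) * (2 * δ / e * (L.card : ℝ) ^ 2) := by
      intro k0 hk0
      have a1 := H.hz k0 hk0 s2 hδ2 hs21
      have a2 : ∑ k ∈ Z.filter (fun k => ¬ s2 < |z k - z k0|),
          ((P1 δ L I z x c s1 k0 k).card : ℝ) ≤
          ∑ k ∈ Z.filter (fun k => ¬ s2 < |z k - z k0|), 2 * δ / e * (L.card : ℝ) ^ 2 :=
        sum_le_sum fun k _ => P1_le H s1 k0 k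
      refine a2.trans ?_
      rw [sum_const, nsmul_eq_mul]
      refine mul_le_mul_of_nonneg_right ?_ (by positivity)
      refine le_trans ?_ a1
      exact_mod_cast card_le_card fun k hk => by
        rw [mem_filter] at hk ⊢
        exact ⟨hk.1, not_lt.1 hk.2⟩
    refine (sum_le_sum g1).trans (le_of_eq ?_)
    rw [sum_const, nsmul_eq_mul, hN, hs2]
    field_simp
  have hsplit : ∀ k0 : ℕ, ∑ k ∈ Z, ((P1 δ L I z x c s1 k0 k).card : ℝ) =
      ∑ k ∈ farZ Z z s2 k0, ((P1 δ L I z x c s1 k0 k).card : ℝ) +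
      ∑ k ∈ Z.filter (fun k => ¬ s2 < |z k - z k0|), ((P1 δ L I z x c s1 k0 k).card : ℝ) := by
    intro k0
    unfold farZ
    rw [sum_filter_add_sum_filter_not]
  have htot := sum_S2_sq H
  have h1 : δ / 8 * (e ^ 4 * (Z.card : ℝ) ^ 2 * (L.card : ℝ) ^ 2) ≤
      ∑ k0 ∈ Z, ∑ k ∈ farZ Z z s2 k0, ((P1 δ L I z x c s1 k0 k).card : ℝ) +
        2 * δ * e ^ 6 * N + δ * e ^ 5 * N := by
    have a1 := (mul_le_mul_of_nonneg_left htot (by positivity : (0:ℝ) ≤ δ / 8)).trans hsum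
    have a2 : ∑ k0 ∈ Z, ∑ k ∈ Z, ((P1 δ L I z x c s1 k0 k).card : ℝ) =
        ∑ k0 ∈ Z, ∑ k ∈ farZ Z z s2 k0, ((P1 δ L I z x c s1 k0 k).card : ℝ) +
        ∑ k0 ∈ Z, ∑ k ∈ Z.filter (fun k => ¬ s2 < |z k - z k0|),
          ((P1 δ L I z x c s1 k0 k).card : ℝ) := by
      rw [← sum_add_distrib]
      exact sum_congr rfl fun k0 _ => hsplit k0
    rw [a2] at a1
    linarith
  have h2 : e ^ 5 ≤ e ^ 4 / 100 := by
    calc e ^ 5 = e ^ 4 * e := by ring
      _ ≤ e ^ 4 * (1 / 100) := mul_le_mul_of_nonneg_left H.e1 (by positivity)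
      _ = _ := by ring
  have h3 : e ^ 6 ≤ e ^ 4 / 10000 := by
    calc e ^ 6 = e ^ 5 * e := by ring
      _ ≤ e ^ 4 / 100 * (1 / 100) := mul_le_mul h2 H.e1 he.le (by positivity)
      _ = _ := by ring
  have h4 : δ * N * e ^ 5 ≤ δ * N * (e ^ 4 / 100) := mul_le_mul_of_nonneg_left h2 (by positivity)
  have h5 : δ * N * e ^ 6 ≤ δ * N * (e ^ 4 / 10000) :=
    mul_le_mul_of_nonneg_left h3 (by positivity)
  have h6 : 0 ≤ δ * N * e ^ 4 := by positivity
  have h7 : e ^ 4 * δ / 16 * (Z.card : ℝ) ^ 2 * (L.card : ℝ) ^ 2 = δ * N * e ^ 4 / 16 := by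
    rw [hN]; ring
  have h8 : δ / 8 * (e ^ 4 * (Z.card : ℝ) ^ 2 * (L.card : ℝ) ^ 2) = δ * N * e ^ 4 / 8 := by
    rw [hN]; ring
  rw [h7]
  rw [h8] at h1
  linarith

/-- **upper bound at one pin** -/
theorem pin_le (H : Cfg δ e m L Z I z f x c p) {s1 s2 r κ : ℝ} (hs1 : 0 < s1) (hs2 : 0 < s2)
    (hse : s2 ≤ e) (hδs : 2 * δ ≤ s1 * s2) (hδs2 : δ ≤ s2) (hκ : 0 ≤ κ)
    (hr : 24 * δ / (s1 * s2 ^ 2) ≤ r) {k0 : ℕ} (hk0 : k0 ∈ Z) :
    ∑ k ∈ farZ Z z s2 k0, ((P1 δ L I z x c s1 k0 k).card : ℝ) ≤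
      (((farZ Z z s2 k0).filter fun k => κ * Z.card ≤
        (((farZ Z z s2 k0).filter fun h => |slp z f k0 h - slp z f k0 k| ≤ r).card : ℝ)).card : ℝ) *
        (2 * δ / e * (L.card : ℝ) ^ 2) +
      (8 / δ) ^ 2 * (κ * Z.card) * (4 * δ ^ 2 * δ ^ m / (e ^ 2 * s2) * (L.card : ℝ) ^ 2) := by
  classical
  have hδ := H.δ0
  have he := H.e0
  have he1 : e ≤ 1 := by linarith [H.e1]
  have hs21 : s2 ≤ 1 := hse.trans he1
  have hfZ : farZ Z z s2 k0 ⊆ Z := filter_subset _ _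
  have hfar : ∀ k ∈ farZ Z z s2 k0, s2 < |z k - z k0| := fun k hk => (mem_filter.1 hk).2
  set Bd := (farZ Z z s2 k0).filter fun k => κ * Z.card ≤
        (((farZ Z z s2 k0).filter fun h => |slp z f k0 h - slp z f k0 k| ≤ r).card : ℝ) with hBd
  set Gd := (farZ Z z s2 k0).filter fun k => ¬ κ * Z.card ≤
        (((farZ Z z s2 k0).filter fun h => |slp z f k0 h - slp z f k0 k| ≤ r).card : ℝ) with hGd
  have hsp : ∑ k ∈ farZ Z z s2 k0, ((P1 δ L I z x c s1 k0 k).card : ℝ) =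
      ∑ k ∈ Bd, ((P1 δ L I z x c s1 k0 k).card : ℝ) +
        ∑ k ∈ Gd, ((P1 δ L I z x c s1 k0 k).card : ℝ) := by
    rw [hBd, hGd, sum_filter_add_sum_filter_not]
  rw [hsp]
  refine add_le_add ?_ ?_
  · refine (sum_le_sum fun k _ => P1_le H s1 k0 k).trans (le_of_eq ?_)
    rw [sum_const, nsmul_eq_mul]
  · -- all configurations over good heights
    set W := Gd.sigma fun k => P1 δ L I z x c s1 k0 k with hW
    have hWc : (W.card : ℝ) = ∑ k ∈ Gd, ((P1 δ L I z x c s1 k0 k).card : ℝ) := by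
      rw [hW, card_sigma]
      push_cast
      rfl
    rw [← hWc]
    have hlab := card_le_of_fibers W
      (fun w => (w.1, cell δ z x c k0 w.2.1, cell δ z x c k0 w.2.2))
      (4 * δ ^ 2 * δ ^ m / (e ^ 2 * s2) * (L.card : ℝ) ^ 2) (by
        rintro ⟨k, q⟩ hw
        rw [hW, mem_sigma] at hw
        have hkf : k ∈ farZ Z z s2 k0 := (mem_filter.1 hw.1).1
        refine le_trans ?_ (P1_fib H (s1 := s1) hs2 hs21 hδs2 (hfar k hkf)
          (cell δ z x c k0 q.1) (cell δ z x c k0 q.2))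
        have : (W.filter fun w => (w.1, cell δ z x c k0 w.2.1, cell δ z x c k0 w.2.2) =
            (k, cell δ z x c k0 q.1, cell δ z x c k0 q.2)).card ≤
            (((P1 δ L I z x c s1 k0 k).filter fun q' => cell δ z x c k0 q'.1 =
              cell δ z x c k0 q.1 ∧ cell δ z x c k0 q'.2 = cell δ z x c k0 q.2)).card := by
          refine card_le_card_of_injOn (fun w => w.2) ?_ ?_
          · rintro ⟨k', q'⟩ h1
            rw [mem_coe, mem_filter, hW, mem_sigma] at h1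
            obtain ⟨⟨a1, a2⟩, a3⟩ := h1
            simp only [Prod.mk.injEq] at a3
            obtain ⟨b1, b2, b3⟩ := a3
            subst b1
            rw [mem_coe, mem_filter]
            exact ⟨a2, b2, b3⟩
          · rintro ⟨k', q'⟩ h1 ⟨k'', q''⟩ h2 h3
            rw [mem_coe, mem_filter] at h1 h2
            have a1 := h1.2
            have a2 := h2.2
            simp only [Prod.mk.injEq] at a1 a2
            have b1 : k' = k'' := a1.1.trans a2.1.symm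
            subst b1
            have b2 : q' = q'' := h3
            rw [b2]
        exact_mod_cast this)
    refine hlab.trans (mul_le_mul_of_nonneg_right ?_ (by positivity))
    set Im := W.image fun w => (w.1, cell δ z x c k0 w.2.1, cell δ z x c k0 w.2.2) with hIm
    have hlab2 := card_le_of_fibers Im (fun w => w.2) (κ * Z.card) (by
      rintro ⟨k, A, A'⟩ hw
      rw [hIm, mem_image] at hw
      obtain ⟨⟨k1, q⟩, hq1, hq2⟩ := hw
      simp only [Prod.mk.injEq] at hq2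
      obtain ⟨b1, b2, b3⟩ := hq2
      subst b1
      rw [hW, mem_sigma] at hq1
      have hkG := mem_filter.1 hq1.1
      have hlt := not_le.1 hkG.2
      refine le_trans ?_ hlt.le
      have : (Im.filter fun w => w.2 = (A, A')).card ≤
          ((farZ Z z s2 k0).filter fun h => |slp z f k0 h - slp z f k0 k1| ≤ r).card := by
        refine card_le_card_of_injOn (fun w => w.1) ?_ ?_
        · rintro ⟨h, C, C'⟩ h1
          rw [mem_coe, mem_filter, hIm, mem_image] at h1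
          obtain ⟨⟨⟨h', q'⟩, a1, a2⟩, a3⟩ := h1
          simp only [Prod.mk.injEq] at a2 a3
          obtain ⟨c1, c2, c3⟩ := a2
          subst c1
          rw [hW, mem_sigma] at a1
          have hhG := mem_filter.1 a1.1
          rw [mem_coe, mem_filter]
          refine ⟨hhG.1, ?_⟩
          refine (slopes_eq H hs1 hs2 hse hδs hk0 (hfZ hkG.1) (hfZ hhG.1) (hfar _ hkG.1)
            (hfar _ hhG.1) hq1.2 a1.2 ?_ ?_).trans hr
          · rw [b2, c2, a3.1]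
          · rw [b3, c3, a3.2]
        · rintro ⟨h, C, C'⟩ h1 ⟨h', D, D'⟩ h2 h3
          rw [mem_coe, mem_filter] at h1 h2
          have a1 := h1.2
          have a2 := h2.2
          simp only [Prod.mk.injEq] at a1 a2
          have b1 : h = h' := h3
          rw [b1, a1.1, a1.2, a2.1, a2.2]
      exact_mod_cast this)
    refine hlab2.trans (mul_le_mul_of_nonneg_right ?_ (by positivity))
    have hsub : Im.image (fun w => w.2) ⊆
        (L.image (cell δ z x c k0)) ×ˢ (L.image (cell δ z x c k0)) := by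
      intro w hw
      rw [mem_image] at hw
      obtain ⟨w', hw', rfl⟩ := hw
      rw [hIm, mem_image] at hw'
      obtain ⟨⟨k1, q⟩, hq1, rfl⟩ := hw'
      rw [hW, mem_sigma] at hq1
      have := mem_P1.1 hq1.2
      rw [mem_product, mem_image, mem_image]
      exact ⟨⟨q.1, this.1.1, rfl⟩, ⟨q.2, this.1.2, rfl⟩⟩
    have h8 := cells_card H hk0 (Subset.refl L)
    calc ((Im.image fun w => w.2).card : ℝ) ≤
          (((L.image (cell δ z x c k0)) ×ˢ (L.image (cell δ z x c k0))).card : ℝ) := by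
          exact_mod_cast card_le_card hsub
      _ = ((L.image (cell δ z x c k0)).card : ℝ) * ((L.image (cell δ z x c k0)).card : ℝ) := by
          rw [card_product]; push_cast; rfl
      _ ≤ (8 / δ) * (8 / δ) := mul_le_mul h8 h8 (Nat.cast_nonneg _) (by positivity)
      _ = _ := by ring

end Crest.Agent.R136.LA501
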