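import Crest.Agent.R136.LA2_501

/-!
# R136 [RIG_E], Lemma A (for helper344), part 3 (helper501): the strip
-/

set_option autoImplicit false
set_option linter.unusedVariables false
set_option linter.unusedSectionVars false

open Finset

namespace Crest.Agent.R136.LA501

open Crest.Agent.R138.TwA501 (sq_card_le card_le_of_fibers)

/-- the pairs with many heights of the same slope -/
noncomputable def Bdp (Z : Finset ℕ) (z f : ℕ → ℝ) (s2 r κ : ℝ) (k0 : ℕ) : Finset ℕ :=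
  (farZ Z z s2 k0).filter fun k => κ * Z.card ≤
    (((farZ Z z s2 k0).filter fun h => |slp z f k0 h - slp z f k0 k| ≤ r).card : ℝ)

section

variable {δ e m : ℝ} {L Z : Finset ℕ} {I : Finset (ℕ × ℕ)} {z f x c p : ℕ → ℝ}

/-- **many bad pairs** -/
theorem many_bad (H : Cfg δ e m L Z I z f x c p) {M : ℕ} (hM : 1 ≤ (M : ℝ) * m)
    (hδ1 : 2 * δ ≤ e ^ (6 * M + 8)) {r κ : ℝ} (hr : δ / e ^ (6 * M + 18) ≤ r)
    (hκ0 : 0 ≤ κ) (hκ : κ * δ ^ m ≤ δ * e ^ 16) :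
    e ^ 6 * (Z.card : ℝ) ^ 2 ≤ ∑ k0 ∈ Z, ((Bdp Z z f (e ^ 8) r κ k0).card : ℝ) := by
  have hδ := H.δ0
  have he := H.e0
  have he1 : e ≤ 1 := by linarith [H.e1]
  have hZ : (0 : ℝ) < Z.card := by exact_mod_cast H.nZ.card_pos
  have hL : (0 : ℝ) < L.card := by exact_mod_cast H.nL.card_pos
  have hsplit : e ^ (6 * M + 8) = e ^ (6 * M) * e ^ 8 := pow_add _ _ _
  have hp1 : e ^ (6 * M) ≤ 1 := pow_le_one₀ he.le he1
  have hp2 : e ^ 8 ≤ 1 := pow_le_one₀ he.le he1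
  have hp10 : 0 < e ^ (6 * M) := by positivity
  have hp20 : 0 < e ^ 8 := by positivity
  have hδa : δ ≤ e ^ (6 * M) := by
    have : e ^ (6 * M) * e ^ 8 ≤ e ^ (6 * M) * 1 := mul_le_mul_of_nonneg_left hp2 hp10.le
    rw [hsplit] at hδ1
    linarith
  have hδb : δ ≤ e ^ 8 := by
    have : e ^ (6 * M) * e ^ 8 ≤ 1 * e ^ 8 := mul_le_mul_of_nonneg_right hp1 hp20.le
    rw [hsplit] at hδ1
    linarith
  have hse : e ^ 8 ≤ e := by
    calc e ^ 8 = e ^ 7 * e := by ring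
      _ ≤ 1 * e := mul_le_mul_of_nonneg_right (pow_le_one₀ he.le he1) he.le
      _ = e := one_mul e
  have hlow := sum_P1_ge H hM hδa hδb
  have hrr : 24 * δ / (e ^ (6 * M) * (e ^ 8) ^ 2) ≤ r := by
    refine le_trans ?_ hr
    rw [div_le_div_iff₀ (by positivity) (by positivity)]
    have g1 : e ^ (6 * M + 18) = e ^ (6 * M) * (e ^ 8) ^ 2 * e ^ 2 := by ring
    rw [g1]
    have g2 : e ^ 2 ≤ 1 / 24 := by nlinarith [H.e1]
    have g3 : 0 < δ * (e ^ (6 * M) * (e ^ 8) ^ 2) := by positivity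
    calc 24 * δ * (e ^ (6 * M) * (e ^ 8) ^ 2 * e ^ 2)
        = 24 * (δ * (e ^ (6 * M) * (e ^ 8) ^ 2)) * e ^ 2 := by ring
      _ ≤ 24 * (δ * (e ^ (6 * M) * (e ^ 8) ^ 2)) * (1 / 24) :=
          mul_le_mul_of_nonneg_left g2 (by positivity)
      _ = _ := by ring
  have hup : ∀ k0 ∈ Z, ∑ k ∈ farZ Z z (e ^ 8) k0,
      ((P1 δ L I z x c (e ^ (6 * M)) k0 k).card : ℝ) ≤
      ((Bdp Z z f (e ^ 8) r κ k0).card : ℝ) * (2 * δ / e * (L.card : ℝ) ^ 2) +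
        256 * δ * e ^ 6 * Z.card * (L.card : ℝ) ^ 2 := by
    intro k0 hk0
    have g1 := pin_le H hp10 hp20 hse (by rw [← hsplit]; exact hδ1) hδb hκ0 hrr hk0
    refine g1.trans ?_
    unfold Bdp
    refine add_le_add le_rfl ?_
    have g2 : (8 / δ) ^ 2 * (κ * Z.card) * (4 * δ ^ 2 * δ ^ m / (e ^ 2 * e ^ 8) *
        (L.card : ℝ) ^ 2) = 256 * (κ * δ ^ m) / e ^ 10 * (Z.card * (L.card : ℝ) ^ 2) := by
      field_simp
      ring
    rw [g2]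
    have g3 : 256 * (κ * δ ^ m) / e ^ 10 ≤ 256 * δ * e ^ 6 := by
      rw [div_le_iff₀ (by positivity)]
      calc 256 * (κ * δ ^ m) ≤ 256 * (δ * e ^ 16) := mul_le_mul_of_nonneg_left hκ (by norm_num)
        _ = _ := by ring
    calc 256 * (κ * δ ^ m) / e ^ 10 * (Z.card * (L.card : ℝ) ^ 2)
        ≤ 256 * δ * e ^ 6 * (Z.card * (L.card : ℝ) ^ 2) :=
          mul_le_mul_of_nonneg_right g3 (by positivity)
      _ = _ := by ring
  have hall := hlow.trans (sum_le_sum hup)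
  rw [sum_add_distrib, ← sum_mul, sum_const, nsmul_eq_mul] at hall
  set S := ∑ k0 ∈ Z, ((Bdp Z z f (e ^ 8) r κ k0).card : ℝ) with hS
  have hS0 : 0 ≤ S := sum_nonneg fun _ _ => Nat.cast_nonneg _
  -- divide by `δ #L^2`
  have h1 : (e ^ 4 / 16 * (Z.card : ℝ) ^ 2) * (δ * (L.card : ℝ) ^ 2) ≤
      (S * (2 / e) + 256 * e ^ 6 * (Z.card : ℝ) ^ 2) * (δ * (L.card : ℝ) ^ 2) := by
    calc (e ^ 4 / 16 * (Z.card : ℝ) ^ 2) * (δ * (L.card : ℝ) ^ 2)
        = e ^ 4 * δ / 16 * (Z.card : ℝ) ^ 2 * (L.card : ℝ) ^ 2 := by ring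
      _ ≤ _ := hall
      _ = _ := by ring
  have h2 := le_of_mul_le_mul_right h1 (by positivity)
  have h3 : e ^ 6 ≤ e ^ 4 / 10000 := by
    have : e ^ 2 ≤ 1 / 10000 := by nlinarith [H.e1]
    calc e ^ 6 = e ^ 4 * e ^ 2 := by ring
      _ ≤ e ^ 4 * (1 / 10000) := mul_le_mul_of_nonneg_left this (by positivity)
      _ = _ := by ring
  have h4 : e ^ 4 / 50 * (Z.card : ℝ) ^ 2 ≤ S * (2 / e) := by
    have g1 : 256 * e ^ 6 * (Z.card : ℝ) ^ 2 ≤ 256 * (e ^ 4 / 10000) * (Z.card : ℝ) ^ 2 :=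
      mul_le_mul_of_nonneg_right (by linarith) (by positivity)
    have g2 : 0 ≤ e ^ 4 * (Z.card : ℝ) ^ 2 := by positivity
    linarith
  have h5 : e ^ 5 / 100 * (Z.card : ℝ) ^ 2 ≤ S := by
    have g1 : e / 2 * (e ^ 4 / 50 * (Z.card : ℝ) ^ 2) ≤ e / 2 * (S * (2 / e)) :=
      mul_le_mul_of_nonneg_left h4 (by positivity)
    have g2 : e / 2 * (S * (2 / e)) = S := by field_simp
    rw [g2] at g1
    linarith
  refine le_trans ?_ h5
  refine mul_le_mul_of_nonneg_right ?_ (by positivity)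
  calc e ^ 6 = e ^ 5 * e := by ring
    _ ≤ e ^ 5 * (1 / 100) := mul_le_mul_of_nonneg_left H.e1 (by positivity)
    _ = _ := by ring

end

/-- small powers -/
theorem exists_small_rpow {t b : ℝ} (ht : 0 < t) (hb : 0 < b) :
    ∃ δ₀ : ℝ, 0 < δ₀ ∧ δ₀ ≤ 1 ∧ ∀ δ : ℝ, 0 < δ → δ ≤ δ₀ → δ ^ t ≤ b := by
  refine ⟨min 1 (b ^ (1 / t)), lt_min one_pos (Real.rpow_pos_of_pos hb _), min_le_left _ _,
    fun δ h1 h2 => ?_⟩
  calc δ ^ t ≤ (b ^ (1 / t)) ^ t := Real.rpow_le_rpow h1.le (h2.trans (min_le_right _ _)) ht.le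
    _ = b := by rw [← Real.rpow_mul hb.le, one_div_mul_cancel ht.ne', Real.rpow_one]

theorem rp_anti {δ s t : ℝ} (h0 : 0 < δ) (h1 : δ ≤ 1) (h : s ≤ t) : δ ^ t ≤ δ ^ s :=
  Real.rpow_le_rpow_of_exponent_ge h0 h1 h

/-- **the strip** -/
theorem strip {m : ℝ} (hm : 0 < m) (hm1 : m ≤ 1) : ∃ a c₀ : ℝ, 0 < a ∧ a ≤ 1 ∧ 0 < c₀ ∧
    ∀ c1 : ℝ, 0 < c1 → c1 ≤ c₀ → ∃ ε₀ : ℝ, 0 < ε₀ ∧ ∀ ε : ℝ, 0 < ε → ε ≤ ε₀ →
    ∃ δ₀ : ℝ, 0 < δ₀ ∧ ∀ δ : ℝ, 0 < δ → δ ≤ δ₀ → ∀ (L Z : Finset ℕ) (I : Finset (ℕ × ℕ))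
      (z f x c p : ℕ → ℝ), Cfg δ (δ ^ ε) m L Z I z f x c p →
      ∃ μ g0 w : ℝ, |μ| ≤ 2 * δ ^ (-c1) ∧ δ ≤ w ∧ w ≤ δ ^ (a / 2) ∧
        w ^ (m / 4) * (Z.card : ℝ) ≤ ((Z.filter fun k => |f k - μ * z k - g0| ≤ w).card : ℝ) := by
  obtain ⟨M, hM⟩ : ∃ M : ℕ, 1 / m ≤ M := exists_nat_ge _
  have hMm : 1 ≤ (M : ℝ) * m := by rw [div_le_iff₀ hm] at hM; exact hM
  obtain ⟨a, c₀, ha, ha1, hc₀, HT⟩ := Crest.Agent.R138.Pl187.thin_graph (s := 1)
    (σ := 1 - m / 2) (η := m / 4) one_pos (by linarith) (by linarith) (by positivity)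
  refine ⟨a, c₀, ha, ha1, hc₀, fun c1 hc1 hc1c => ?_⟩
  obtain ⟨r₀, hr₀, HR⟩ := HT c1 hc1 hc1c
  set N3 : ℕ := 6 * M + 18 with hN3
  have hN3p : (0 : ℝ) < (N3 : ℝ) + 16 := by positivity
  refine ⟨min (min (1 / (2 * ((N3 : ℝ) + 16))) (c1 / 32)) (m / (2 * ((N3 : ℝ) + 16))), by
    positivity, fun ε hε hεε => ?_⟩
  have e1 : ((N3 : ℝ) + 16) * ε ≤ 1 / 2 := by
    have : ε ≤ 1 / (2 * ((N3 : ℝ) + 16)) := hεε.trans ((min_le_left _ _).trans (min_le_left _ _))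
    calc ((N3 : ℝ) + 16) * ε ≤ ((N3 : ℝ) + 16) * (1 / (2 * ((N3 : ℝ) + 16))) :=
          mul_le_mul_of_nonneg_left this hN3p.le
      _ = _ := by field_simp
  have e2 : ε ≤ c1 / 32 := hεε.trans ((min_le_left _ _).trans (min_le_right _ _))
  have e3 : ((N3 : ℝ) + 16) * ε ≤ m / 2 := by
    have : ε ≤ m / (2 * ((N3 : ℝ) + 16)) := hεε.trans (min_le_right _ _)
    calc ((N3 : ℝ) + 16) * ε ≤ ((N3 : ℝ) + 16) * (m / (2 * ((N3 : ℝ) + 16))) :=
          mul_le_mul_of_nonneg_left this hN3p.le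
      _ = _ := by field_simp
  have e4 : (N3 : ℝ) * ε ≤ 1 / 2 := by
    have : 0 < 16 * ε := by positivity
    linarith
  obtain ⟨d1, hd1, hd11, HD1⟩ := exists_small_rpow (t := 1 / 2) (by norm_num) hr₀
  obtain ⟨d2, hd2, hd21, HD2⟩ := exists_small_rpow (t := 1 / 2) (b := 1 / 2) (by norm_num)
    (by norm_num)
  refine ⟨min d1 (min d2 (1 / 2)), by positivity, ?_⟩
  intro δ hδ hδδ L Z I z f x c p H
  have hδ1 : δ ≤ 1 / 2 := hδδ.trans ((min_le_right _ _).trans (min_le_right _ _))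
  have hδ1' : δ ≤ 1 := by linarith
  have hr0 := HD1 δ hδ (hδδ.trans (min_le_left _ _))
  have hh0 := HD2 δ hδ (hδδ.trans ((min_le_right _ _).trans (min_le_left _ _)))
  set e : ℝ := δ ^ ε with he
  have hpw : ∀ n : ℕ, e ^ n = δ ^ ((n : ℝ) * ε) := by
    intro n
    rw [he, ← Real.rpow_natCast (δ ^ ε) n, ← Real.rpow_mul hδ.le, mul_comm]
  have he0 : 0 < e := Real.rpow_pos_of_pos hδ _
  set r : ℝ := δ / e ^ N3 with hr
  have hrval : r = δ ^ (1 - (N3 : ℝ) * ε) := by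
    rw [hr, hpw, Real.rpow_sub hδ, Real.rpow_one]
  have hrpos : 0 < r := by rw [hrval]; exact Real.rpow_pos_of_pos hδ _
  have hrh : r ≤ δ ^ (1 / 2 : ℝ) := by
    rw [hrval]; exact rp_anti hδ hδ1' (by linarith)
  have hδr : δ ≤ r := by
    rw [hrval]
    calc δ = δ ^ (1 : ℝ) := (Real.rpow_one δ).symm
      _ ≤ _ := rp_anti hδ hδ1' (by have : 0 ≤ (N3 : ℝ) * ε := by positivity
                                   linarith)
  have hr1 : r ≤ 1 := hrh.trans (Real.rpow_le_one hδ.le hδ1' (by norm_num))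
  -- `r ^ c1 ≤ e ^ 8`
  have hrc : r ^ c1 ≤ δ ^ (c1 / 2) := by
    calc r ^ c1 ≤ (δ ^ (1 / 2 : ℝ)) ^ c1 := Real.rpow_le_rpow hrpos.le hrh hc1.le
      _ = _ := by rw [← Real.rpow_mul hδ.le]; congr 1; ring
  have hrc8 : r ^ c1 ≤ e ^ 8 := by
    rw [hpw]
    refine hrc.trans (rp_anti hδ hδ1' ?_)
    push_cast
    linarith
  set κ : ℝ := δ ^ (1 - m) * e ^ 16 with hκ
  have hκ0 : 0 ≤ κ := by
    have := Real.rpow_nonneg hδ.le (1 - m)
    positivity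
  have hκm : κ * δ ^ m ≤ δ * e ^ 16 := by
    rw [hκ]
    refine le_of_eq ?_
    calc δ ^ (1 - m) * e ^ 16 * δ ^ m = (δ ^ (1 - m) * δ ^ m) * e ^ 16 := by ring
      _ = _ := by rw [← Real.rpow_add hδ]; simp
  have hκr : r ^ (1 - m / 2) ≤ κ := by
    rw [hκ, hpw, hrval, ← Real.rpow_mul hδ.le, ← Real.rpow_add hδ]
    refine rp_anti hδ hδ1' ?_
    push_cast
    have g1 : (N3 : ℝ) * ε * (m / 2) ≥ 0 := by positivity
    nlinarith
  have hbig : 2 * δ ≤ e ^ (6 * M + 8) := by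
    rw [hpw]
    have g1 : δ = δ ^ (1 / 2 : ℝ) * δ ^ (1 / 2 : ℝ) := by
      rw [← Real.rpow_add hδ]; norm_num
    have g2 : δ ^ (1 / 2 : ℝ) ≤ δ ^ (((6 * M + 8 : ℕ) : ℝ) * ε) := by
      refine rp_anti hδ hδ1' ?_
      have g3 : ((6 * M + 8 : ℕ) : ℝ) ≤ (N3 : ℝ) := by
        rw [hN3]; push_cast; linarith
      exact (mul_le_mul_of_nonneg_right g3 hε.le).trans e4
    have g4 : 0 < δ ^ (1 / 2 : ℝ) := Real.rpow_pos_of_pos hδ _
    calc 2 * δ = (2 * δ ^ (1 / 2 : ℝ)) * δ ^ (1 / 2 : ℝ) := by rw [mul_assoc, ← g1]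
      _ ≤ 1 * δ ^ (1 / 2 : ℝ) := mul_le_mul_of_nonneg_right (by linarith) g4.le
      _ = δ ^ (1 / 2 : ℝ) := one_mul _
      _ ≤ _ := g2
  have hmany := many_bad H hMm hbig (r := r) (κ := κ) le_rfl hκ0 hκm
  have hZ : (0 : ℝ) < Z.card := by exact_mod_cast H.nZ.card_pos
  have hthin := HR r hrpos (hrh.trans hr0) Z z f H.zf (by
    intro ρ h1 h2 k hk
    refine (H.hz k hk ρ (hδr.trans h1) h2).trans ?_
    rw [Real.rpow_one]
    refine mul_le_mul_of_nonneg_right ?_ (Nat.cast_nonneg _)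
    have hρ : 0 < ρ := hrpos.trans_le h1
    rw [div_eq_mul_inv, mul_comm ρ]
    refine mul_le_mul_of_nonneg_right ?_ hρ.le
    rw [Real.rpow_neg hrpos.le]
    refine inv_anti₀ (Real.rpow_pos_of_pos hrpos _) ?_
    refine hrc.trans ?_
    rw [he]
    exact rp_anti hδ hδ1' (by linarith))
  rcases hthin with hst | hbad
  · obtain ⟨k₁, hk₁, k₂, hk₂, hsep, μ, w, hμ, hμ2, hw1, hw2, hmass⟩ := hst
    refine ⟨μ, f k₁ - μ * z k₁, w, ?_, hδr.trans hw1, ?_, ?_⟩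
    · refine hμ2.trans (mul_le_mul_of_nonneg_left ?_ (by norm_num))
      exact Real.rpow_le_rpow_of_nonpos hδ hδr (by linarith)
    · refine hw2.trans ?_
      calc r ^ a ≤ (δ ^ (1 / 2 : ℝ)) ^ a := Real.rpow_le_rpow hrpos.le hrh ha.le
        _ = _ := by rw [← Real.rpow_mul hδ.le]; congr 1; ring
    · refine hmass.trans (le_of_eq ?_)
      congr 2
      ext k
      rw [mem_filter, mem_filter]
      have : f k - f k₁ - μ * (z k - z k₁) = f k - μ * z k - (f k₁ - μ * z k₁) := by ring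
      rw [this]
  · exfalso
    have h1 : ∑ k0 ∈ Z, ((Bdp Z z f (e ^ 8) r κ k0).card : ℝ) ≤ r ^ c1 * (Z.card : ℝ) ^ 2 := by
      refine le_trans ?_ hbad
      have h2 : ∑ k0 ∈ Z, (Bdp Z z f (e ^ 8) r κ k0).card =
          (Z.sigma fun k0 => Bdp Z z f (e ^ 8) r κ k0).card := (card_sigma _ _).symm
      have h3 : (∑ k0 ∈ Z, ((Bdp Z z f (e ^ 8) r κ k0).card : ℝ)) =
          ((Z.sigma fun k0 => Bdp Z z f (e ^ 8) r κ k0).card : ℝ) := by
        rw [← h2]; push_cast; rfl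
      rw [h3]
      have h4 : (Z.sigma fun k0 => Bdp Z z f (e ^ 8) r κ k0).card ≤
          ((Z ×ˢ Z).filter fun q => r ^ c1 ≤ |z q.2 - z q.1| ∧ r ^ (1 - m / 2) * Z.card ≤
            ((Z.filter fun k => r ^ c1 ≤ |z k - z q.1| ∧
            |(f k - f q.1) / (z k - z q.1) - (f q.2 - f q.1) / (z q.2 - z q.1)| ≤
              r).card : ℝ)).card := by
        refine card_le_card_of_injOn (fun w => (w.1, w.2)) ?_ ?_
        · rintro ⟨k0, k⟩ hw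
          rw [mem_coe, mem_sigma] at hw
          obtain ⟨a1, a2⟩ := hw
          unfold Bdp at a2
          rw [mem_filter] at a2
          have a3 := mem_filter.1 a2.1
          rw [mem_coe, mem_filter, mem_product]
          refine ⟨⟨a1, a3.1⟩, hrc8.trans a3.2.le, ?_⟩
          refine (mul_le_mul_of_nonneg_right hκr (Nat.cast_nonneg _)).trans (a2.2.trans ?_)
          exact_mod_cast card_le_card fun h hh => by
            rw [mem_filter] at hh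
            have b1 := mem_filter.1 hh.1
            rw [mem_filter]
            exact ⟨b1.1, hrc8.trans b1.2.le, hh.2⟩
        · rintro ⟨k0, k⟩ _ ⟨k0', k'⟩ _ h3
          simp only [Prod.mk.injEq] at h3
          obtain ⟨b1, b2⟩ := h3
          subst b1 b2
          rfl
      exact_mod_cast h4
    have h5 : e ^ 6 * (Z.card : ℝ) ^ 2 ≤ r ^ c1 * (Z.card : ℝ) ^ 2 := hmany.trans h1
    have h6 := le_of_mul_le_mul_right h5 (by positivity)
    have h7 : r ^ c1 < e ^ 6 := by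
      rw [hpw]
      refine hrc.trans_lt ?_
      refine Real.rpow_lt_rpow_of_exponent_gt hδ (by linarith) ?_
      push_cast
      linarith
    linarith

end Crest.Agent.R136.LA501
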