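import Crest.Agent.R136.LA3_501

/-!
# R136 [RIG_E], Lemma A (for helper344), part 4 (helper501): regularisation, level sets
-/

set_option autoImplicit false
set_option linter.unusedVariables false
set_option linter.unusedSectionVars false

open Finset

namespace Crest.Agent.R136.LA501

open Crest.Agent.R138.TwA501 (sq_card_le card_le_of_fibers)

/-- incidences over `L1 × Z1` -/
def res (I : Finset (ℕ × ℕ)) (L1 Z1 : Finset ℕ) : Finset (ℕ × ℕ) := (L1 ×ˢ Z1).filter (· ∈ I)

theorem mem_res {I : Finset (ℕ × ℕ)} {L1 Z1 : Finset ℕ} {l k : ℕ} :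
    (l, k) ∈ res I L1 Z1 ↔ (l ∈ L1 ∧ k ∈ Z1) ∧ (l, k) ∈ I := by
  unfold res
  rw [mem_filter, mem_product]

theorem res_card (I : Finset (ℕ × ℕ)) (L1 Z1 : Finset ℕ) :
    ((res I L1 Z1).card : ℝ) = ∑ l ∈ L1, ((Z1.filter fun k => (l, k) ∈ I).card : ℝ) := by
  unfold res
  rw [card_filter, sum_product]
  push_cast
  refine sum_congr rfl fun l _ => ?_
  rw [card_filter]
  push_cast
  rfl

theorem res_card' (I : Finset (ℕ × ℕ)) (L1 Z1 : Finset ℕ) :
    ((res I L1 Z1).card : ℝ) = ∑ k ∈ Z1, ((L1.filter fun l => (l, k) ∈ I).card : ℝ) := by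
  unfold res
  rw [card_filter, sum_product_right]
  push_cast
  refine sum_congr rfl fun l _ => ?_
  rw [card_filter]
  push_cast
  rfl

/-- **minimal degrees** -/
theorem regularize (L Z : Finset ℕ) (I : Finset (ℕ × ℕ)) {d : ℝ} (hd : 0 < d)
    (hL : L.Nonempty) (hZ : Z.Nonempty) (hdens : d * L.card * Z.card ≤ ((res I L Z).card : ℝ)) :
    ∃ L1 ⊆ L, ∃ Z1 ⊆ Z, d / 2 * L.card * Z.card ≤ ((res I L1 Z1).card : ℝ) ∧
      (∀ k ∈ Z1, d / 4 * L.card ≤ ((L1.filter fun l => (l, k) ∈ I).card : ℝ)) ∧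
      (∀ l ∈ L1, d / 4 * Z.card ≤ ((Z1.filter fun k => (l, k) ∈ I).card : ℝ)) := by
  classical
  have hLc : (0 : ℝ) < L.card := by exact_mod_cast hL.card_pos
  have hZc : (0 : ℝ) < Z.card := by exact_mod_cast hZ.card_pos
  set Φ : Finset ℕ × Finset ℕ → ℝ := fun q => ((res I q.1 q.2).card : ℝ) -
    d / 4 * Z.card * q.1.card - d / 4 * L.card * q.2.card with hΦ
  obtain ⟨⟨L1, Z1⟩, hmem, hmax⟩ := exists_max_image (L.powerset ×ˢ Z.powerset) Φ
    ⟨(L, Z), by rw [mem_product]; exact ⟨mem_powerset_self L, mem_powerset_self Z⟩⟩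
  rw [mem_product, mem_powerset, mem_powerset] at hmem
  refine ⟨L1, hmem.1, Z1, hmem.2, ?_, fun k hk => ?_, fun l hl => ?_⟩
  · have h1 := hmax (L, Z) (by
      rw [mem_product]; exact ⟨mem_powerset_self L, mem_powerset_self Z⟩)
    simp only [hΦ] at h1
    have h2 : 0 ≤ d / 4 * Z.card * (L1.card : ℝ) := by positivity
    have h3 : 0 ≤ d / 4 * L.card * (Z1.card : ℝ) := by positivity
    have h4 : d / 4 * Z.card * (L.card : ℝ) = d * L.card * Z.card / 4 := by ring
    have h5 : d / 4 * L.card * (Z.card : ℝ) = d * L.card * Z.card / 4 := by ring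
    have h6 : d / 2 * L.card * Z.card = d * L.card * Z.card / 2 := by ring
    rw [h6]
    linarith
  · have h1 := hmax (L1, Z1.erase k) (by
      rw [mem_product, mem_powerset, mem_powerset]
      exact ⟨hmem.1, (erase_subset _ _).trans hmem.2⟩)
    simp only [hΦ] at h1
    rw [res_card', res_card', card_erase_of_mem hk, ← add_sum_erase Z1 _ hk] at h1
    have h2 : 1 ≤ Z1.card := card_pos.2 ⟨k, hk⟩
    rw [Nat.cast_sub h2] at h1
    push_cast at h1
    linarith
  · have h1 := hmax (L1.erase l, Z1) (by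
      rw [mem_product, mem_powerset, mem_powerset]
      exact ⟨(erase_subset _ _).trans hmem.1, hmem.2⟩)
    simp only [hΦ] at h1
    rw [res_card, res_card, card_erase_of_mem hl, ← add_sum_erase L1 _ hl] at h1
    have h2 : 1 ≤ L1.card := card_pos.2 ⟨l, hl⟩
    rw [Nat.cast_sub h2] at h1
    push_cast at h1
    linarith

/-- the hypotheses without degrees -/
structure Raw (δ e m : ℝ) (L Z : Finset ℕ) (I : Finset (ℕ × ℕ)) (z f x c p : ℕ → ℝ) : Prop where
  zf : ∀ k ∈ Z, |z k| ≤ 1 ∧ |f k| ≤ 1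
  lb : ∀ l ∈ L, |x l| ≤ 2 ∧ |c l| ≤ 1 ∧ |p l| ≤ 1
  hz : ∀ k ∈ Z, ∀ r : ℝ, δ ≤ r → r ≤ 1 →
    ((Z.filter fun k' => |z k' - z k| ≤ r).card : ℝ) ≤ r / e * Z.card
  pen : ∀ l k : ℕ, (l, k) ∈ I → ∀ r : ℝ, δ ≤ r → r ≤ 2 →
    ((L.filter fun l' => (l', k) ∈ I ∧ |XX z x c l' k - XX z x c l k| ≤ δ ∧
      |c l' - c l| ≤ r).card : ℝ) ≤ δ * r ^ m / e * L.card
  star : ∀ l l' k : ℕ, (l, k) ∈ I → (l', k) ∈ I → |XX z x c l' k - XX z x c l k| ≤ δ →
    |p l' - p l - f k * (c l' - c l)| ≤ δ / e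

section

variable {δ e m : ℝ} {L Z : Finset ℕ} {I : Finset (ℕ × ℕ)} {z f x c p : ℕ → ℝ}

theorem Cfg.raw (H : Cfg δ e m L Z I z f x c p) : Raw δ e m L Z I z f x c p :=
  ⟨H.zf, H.lb, H.hz, H.pen, H.star⟩

/-- restriction of the hypotheses -/
theorem Raw.res (H : Raw δ e m L Z I z f x c p) (hδ : 0 < δ) (he : 0 < e) {L1 Z1 : Finset ℕ}
    (hL : L1 ⊆ L) (hZ : Z1 ⊆ Z) {τ : ℝ} (hτ : 0 < τ) (hτ1 : τ ≤ 1)
    (hL1 : τ * L.card ≤ (L1.card : ℝ))
    (hZ1 : τ * Z.card ≤ (Z1.card : ℝ)) : Raw δ (e * τ) m L1 Z1 (res I L1 Z1) z f x c p where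
  zf := fun k hk => H.zf k (hZ hk)
  lb := fun l hl => H.lb l (hL hl)
  hz := fun k hk r h1 h2 => by
    have hr : 0 < r := hδ.trans_le h1
    have g1 := H.hz k (hZ hk) r h1 h2
    have g2 : ((Z1.filter fun k' => |z k' - z k| ≤ r).card : ℝ) ≤
        ((Z.filter fun k' => |z k' - z k| ≤ r).card : ℝ) := by
      exact_mod_cast card_le_card (filter_subset_filter _ hZ)
    refine g2.trans (g1.trans ?_)
    have g3 : r / (e * τ) * Z1.card = r / e * (Z1.card / τ) := by
      field_simp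
    rw [g3]
    refine mul_le_mul_of_nonneg_left ?_ (by positivity)
    rw [le_div_iff₀ hτ]
    linarith
  pen := fun l k hlk r h1 h2 => by
    have hr : 0 < r := hδ.trans_le h1
    have hrm : 0 ≤ r ^ m := Real.rpow_nonneg hr.le _
    have g1 := H.pen l k (mem_res.1 hlk).2 r h1 h2
    have g2 : ((L1.filter fun l' => (l', k) ∈ LA501.res I L1 Z1 ∧
        |XX z x c l' k - XX z x c l k| ≤ δ ∧ |c l' - c l| ≤ r).card : ℝ) ≤
        ((L.filter fun l' => (l', k) ∈ I ∧ |XX z x c l' k - XX z x c l k| ≤ δ ∧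
          |c l' - c l| ≤ r).card : ℝ) := by
      exact_mod_cast card_le_card fun l' hl' => by
        rw [mem_filter] at hl' ⊢
        exact ⟨hL hl'.1, (mem_res.1 hl'.2.1).2, hl'.2.2⟩
    refine g2.trans (g1.trans ?_)
    have g3 : δ * r ^ m / (e * τ) * L1.card = δ * r ^ m / e * (L1.card / τ) := by
      field_simp
    rw [g3]
    refine mul_le_mul_of_nonneg_left ?_ (by positivity)
    rw [le_div_iff₀ hτ]
    linarith
  star := fun l l' k h1 h2 h3 => by
    refine (H.star l l' k (mem_res.1 h1).2 (mem_res.1 h2).2 h3).trans ?_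
    refine div_le_div_of_nonneg_left hδ.le (by positivity) ?_
    calc e * τ ≤ e * 1 := mul_le_mul_of_nonneg_left hτ1 he.le
      _ = e := mul_one e

theorem Raw.mono (H : Raw δ e m L Z I z f x c p) (hδ : 0 < δ) {e' : ℝ} (he' : 0 < e')
    (h : e' ≤ e) : Raw δ e' m L Z I z f x c p where
  zf := H.zf
  lb := H.lb
  hz := fun k hk r h1 h2 => (H.hz k hk r h1 h2).trans (by
    have hr : 0 < r := hδ.trans_le h1
    exact mul_le_mul_of_nonneg_right (div_le_div_of_nonneg_left hr.le he' h) (Nat.cast_nonneg _))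
  pen := fun l k hlk r h1 h2 => (H.pen l k hlk r h1 h2).trans (by
    have hr : 0 < r := hδ.trans_le h1
    have hrm : 0 ≤ r ^ m := Real.rpow_nonneg hr.le _
    exact mul_le_mul_of_nonneg_right (div_le_div_of_nonneg_left (by positivity) he' h)
      (Nat.cast_nonneg _))
  star := fun l l' k h1 h2 h3 => (H.star l l' k h1 h2 h3).trans
    (div_le_div_of_nonneg_left hδ.le he' h)

/-- **from raw hypotheses to a regular configuration** -/
theorem Raw.cfg (H : Raw δ e m L Z I z f x c p) (hδ : 0 < δ) (he : 0 < e) (he1 : e ≤ 1 / 100)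
    (hm : 0 < m) (hm1 : m ≤ 1) (hL : L.Nonempty) (hZ : Z.Nonempty) {d e' : ℝ} (hd : 0 < d)
    (hd1 : d ≤ 1) (hdens : d * L.card * Z.card ≤ ((LA501.res I L Z).card : ℝ)) (he' : 0 < e')
    (hee : e' ≤ e * d / 4) (hδe : δ ≤ e') :
    ∃ L1 ⊆ L, ∃ Z1 ⊆ Z, d / 2 * L.card ≤ (L1.card : ℝ) ∧ d / 2 * Z.card ≤ (Z1.card : ℝ) ∧
      Cfg δ e' m L1 Z1 (LA501.res I L1 Z1) z f x c p := by
  have hLc : (0 : ℝ) < L.card := by exact_mod_cast hL.card_pos
  have hZc : (0 : ℝ) < Z.card := by exact_mod_cast hZ.card_pos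
  obtain ⟨L1, hL1, Z1, hZ1, h1, h2, h3⟩ := regularize L Z I hd hL hZ hdens
  have hcard : ((LA501.res I L1 Z1).card : ℝ) ≤ L1.card * Z1.card := by
    have : (LA501.res I L1 Z1).card ≤ (L1 ×ˢ Z1).card := card_le_card (filter_subset _ _)
    rw [card_product] at this
    exact_mod_cast this
  have hL1c : (L1.card : ℝ) ≤ L.card := by exact_mod_cast card_le_card hL1
  have hZ1c : (Z1.card : ℝ) ≤ Z.card := by exact_mod_cast card_le_card hZ1
  have a1 : d / 2 * L.card ≤ (L1.card : ℝ) := by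
    have : (d / 2 * L.card) * Z.card ≤ L1.card * (Z.card : ℝ) :=
      h1.trans (hcard.trans (mul_le_mul_of_nonneg_left hZ1c (Nat.cast_nonneg _)))
    exact le_of_mul_le_mul_right this hZc
  have a2 : d / 2 * Z.card ≤ (Z1.card : ℝ) := by
    have : (d / 2 * Z.card) * L.card ≤ Z1.card * (L.card : ℝ) := by
      calc (d / 2 * Z.card) * L.card = d / 2 * L.card * Z.card := by ring
        _ ≤ _ := h1
        _ ≤ L1.card * Z1.card := hcard
        _ ≤ L.card * Z1.card := mul_le_mul_of_nonneg_right hL1c (Nat.cast_nonneg _)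
        _ = _ := mul_comm _ _
    exact le_of_mul_le_mul_right this hLc
  have b1 : (0 : ℝ) < L1.card := by
    have : 0 < d / 2 * L.card := by positivity
    linarith
  have b2 : (0 : ℝ) < Z1.card := by
    have : 0 < d / 2 * Z.card := by positivity
    linarith
  have hR := (H.res hδ he hL1 hZ1 (τ := d / 2) (by positivity) (by linarith) a1 a2).mono hδ he'
    (by have : 0 < e * d := by positivity
        linarith)
  have hed : e' ≤ d / 4 := by
    refine hee.trans ?_
    have : e * d ≤ 1 * d := mul_le_mul_of_nonneg_right (by linarith) hd.le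
    linarith
  refine ⟨L1, hL1, Z1, hZ1, a1, a2, ?_⟩
  refine
    { δ0 := hδ
      δe := hδe
      e0 := he'
      e1 := ?_
      m0 := hm
      m1 := hm1
      sub := filter_subset _ _
      zf := hR.zf
      lb := hR.lb
      hz := hR.hz
      pen := hR.pen
      star := hR.star
      degZ := fun k hk => ?_
      degL := fun l hl => ?_
      nL := card_pos.1 (by exact_mod_cast b1)
      nZ := card_pos.1 (by exact_mod_cast b2) }
  · refine hee.trans ?_
    have : e * d ≤ 1 / 100 * 1 := mul_le_mul he1 hd1 hd.le (by norm_num)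
    linarith
  · have g1 : (L1.filter fun l => (l, k) ∈ LA501.res I L1 Z1) = L1.filter fun l => (l, k) ∈ I := by
      ext l
      rw [mem_filter, mem_filter, mem_res]
      constructor
      · rintro ⟨u1, u2⟩; exact ⟨u1, u2.2⟩
      · rintro ⟨u1, u2⟩; exact ⟨u1, ⟨u1, hk⟩, u2⟩
    rw [g1]
    refine le_trans ?_ (h2 k hk)
    exact mul_le_mul hed hL1c b1.le (by positivity)
  · have g1 : (Z1.filter fun k => (l, k) ∈ LA501.res I L1 Z1) = Z1.filter fun k => (l, k) ∈ I := by
      ext k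
      rw [mem_filter, mem_filter, mem_res]
      constructor
      · rintro ⟨u1, u2⟩; exact ⟨u1, u2.2⟩
      · rintro ⟨u1, u2⟩; exact ⟨u1, ⟨hl, u1⟩, u2⟩
    rw [g1]
    refine le_trans ?_ (h3 l hl)
    exact mul_le_mul hed hZ1c b2.le (by positivity)

/-- far pairs of one cell at the height `k` -/
noncomputable def FP (δ : ℝ) (L : Finset ℕ) (I : Finset (ℕ × ℕ)) (z x c : ℕ → ℝ) (s : ℝ)
    (k : ℕ) : Finset (ℕ × ℕ) :=
  ((L.filter fun l => (l, k) ∈ I) ×ˢ (L.filter fun l => (l, k) ∈ I)).filter fun q =>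
    cell δ z x c k q.1 = cell δ z x c k q.2 ∧ s < |c q.2 - c q.1|

theorem mem_FP {s : ℝ} {k : ℕ} {q : ℕ × ℕ} : q ∈ FP δ L I z x c s k ↔
    ((q.1 ∈ L ∧ (q.1, k) ∈ I) ∧ (q.2 ∈ L ∧ (q.2, k) ∈ I)) ∧
      cell δ z x c k q.1 = cell δ z x c k q.2 ∧ s < |c q.2 - c q.1| := by
  unfold FP
  rw [mem_filter, mem_product, mem_filter, mem_filter]

/-- a far pair meets at few heights -/
theorem meet_le (H : Cfg δ e m L Z I z f x c p) {s : ℝ} (hs : 0 < s) (hs1 : s ≤ 1)
    (hδs : 2 * δ ≤ s) {l l' : ℕ} (hc : s < |c l' - c l|) {K : Finset ℕ} (hK : K ⊆ Z)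
    (hKc : ∀ k ∈ K, cell δ z x c k l = cell δ z x c k l') :
    (K.card : ℝ) ≤ 2 * δ / (s * e) * Z.card := by
  have hδ := H.δ0
  have he := H.e0
  rcases K.eq_empty_or_nonempty with rfl | ⟨k0, hk0⟩
  · rw [card_empty, Nat.cast_zero]
    positivity
  · have h1 := H.hz k0 (hK hk0) (2 * δ / s) (by
      rw [le_div_iff₀ hs]; nlinarith) (by rw [div_le_one hs]; exact hδs)
    have h2 : (K.card : ℝ) ≤ ((Z.filter fun k' => |z k' - z k0| ≤ 2 * δ / s).card : ℝ) := by
      exact_mod_cast card_le_card fun k hk => by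
        rw [mem_filter]
        refine ⟨hK hk, ?_⟩
        have g1 := cell_close hδ (hKc k hk)
        have g2 := cell_close hδ (hKc k0 hk0)
        have g3 : (z k - z k0) * (c l' - c l) =
            (XX z x c l' k - XX z x c l k) - (XX z x c l' k0 - XX z x c l k0) := by
          unfold XX; ring
        have g4 : |z k - z k0| * |c l' - c l| ≤ 2 * δ := by
          rw [← abs_mul, g3]
          refine (abs_sub _ _).trans ?_
          linarith
        rw [le_div_iff₀ hs]
        exact (mul_le_mul_of_nonneg_left hc.le (abs_nonneg _)).trans g4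
    refine h2.trans (h1.trans (le_of_eq ?_))
    field_simp

/-- many far pairs at a height -/
theorem FP_ge (H : Cfg δ e m L Z I z f x c p) {M : ℕ} (hM : 1 ≤ (M : ℝ) * m)
    (hδ4 : δ ≤ e ^ (4 * M)) {k : ℕ} (hk : k ∈ Z) :
    δ / 16 * e ^ 2 * (L.card : ℝ) ^ 2 ≤ ((FP δ L I z x c (e ^ (4 * M)) k).card : ℝ) := by
  have hδ := H.δ0
  have he := H.e0
  have he1 : e ≤ 1 := by linarith [H.e1]
  set A := L.filter fun l => (l, k) ∈ I with hA
  have hAL : A ⊆ L := filter_subset _ _
  have hAI : ∀ l ∈ A, (l, k) ∈ I := fun l hl => (mem_filter.1 hl).2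
  have hs2 : e ^ (4 * M) ≤ 2 := (pow_le_one₀ he.le he1).trans (by norm_num)
  have hsm : (e ^ (4 * M)) ^ m ≤ e ^ 4 := pow_rpow_le he he1 hM 4
  have g1 := far_ge H hk hAL hAI hδ4 hs2
  have g2 : ((A.card : ℝ)) * (δ * (e ^ (4 * M)) ^ m / e * L.card) ≤
      δ * e ^ 2 * (A.card : ℝ) ^ 2 := by
    have a1 : δ * (e ^ (4 * M)) ^ m / e ≤ δ * e ^ 3 := by
      rw [div_le_iff₀ he]
      calc δ * (e ^ (4 * M)) ^ m ≤ δ * e ^ 4 := mul_le_mul_of_nonneg_left hsm hδ.le
        _ = _ := by ring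
    have a2 := H.degZ k hk
    rw [← hA] at a2
    calc (A.card : ℝ) * (δ * (e ^ (4 * M)) ^ m / e * L.card)
        ≤ A.card * (δ * e ^ 3 * L.card) := by
          refine mul_le_mul_of_nonneg_left ?_ (Nat.cast_nonneg _)
          exact mul_le_mul_of_nonneg_right a1 (Nat.cast_nonneg _)
      _ = A.card * (δ * e ^ 2) * (e * L.card) := by ring
      _ ≤ A.card * (δ * e ^ 2) * A.card := mul_le_mul_of_nonneg_left a2 (by positivity)
      _ = _ := by ring
  have g3 : δ / 16 * (A.card : ℝ) ^ 2 ≤ ((FP δ L I z x c (e ^ (4 * M)) k).card : ℝ) := by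
    have b1 : e ^ 2 ≤ 1 / 16 := by nlinarith [H.e1]
    have b2 : δ * e ^ 2 * (A.card : ℝ) ^ 2 ≤ δ * (1 / 16) * (A.card : ℝ) ^ 2 :=
      mul_le_mul_of_nonneg_right (mul_le_mul_of_nonneg_left b1 hδ.le) (by positivity)
    unfold FP
    rw [← hA]
    linarith
  refine le_trans ?_ g3
  have a2 := H.degZ k hk
  rw [← hA] at a2
  calc δ / 16 * e ^ 2 * (L.card : ℝ) ^ 2 = δ / 16 * (e * L.card) ^ 2 := by ring
    _ ≤ _ := mul_le_mul_of_nonneg_left (pow_le_pow_left₀ (by positivity) a2 2) (by positivity)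

/-- **level sets**: if `q` is constant on the pencils of the heights of `S` then a dense set of lines
has level sets of share `#S / #Z`. -/
theorem level (H : Cfg δ e m L Z I z f x c p) {M : ℕ} (hM : 1 ≤ (M : ℝ) * m)
    (hδ4 : 2 * δ ≤ e ^ (4 * M)) {S : Finset ℕ} (hS : S ⊆ Z) (hSn : S.Nonempty) {q : ℕ → ℝ}
    {W : ℝ} (hW : ∀ k ∈ S, ∀ l l' : ℕ, (l, k) ∈ I → (l', k) ∈ I →
      |XX z x c l' k - XX z x c l k| ≤ δ → |q l' - q l| ≤ W) :
    e ^ 4 * (L.card : ℝ) ≤ ((L.filter fun l => (S.card : ℝ) / Z.card * e ^ (4 * M + 4) *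
      L.card ≤ ((L.filter fun l' => |q l' - q l| ≤ W).card : ℝ)).card : ℝ) := by
  classical
  have hδ := H.δ0
  have he := H.e0
  have he1 : e ≤ 1 := by linarith [H.e1]
  have hLc : (0 : ℝ) < L.card := by exact_mod_cast H.nL.card_pos
  have hZc : (0 : ℝ) < Z.card := by exact_mod_cast H.nZ.card_pos
  have hSc : (0 : ℝ) < S.card := by exact_mod_cast hSn.card_pos
  have hs1 : e ^ (4 * M) ≤ 1 := pow_le_one₀ he.le he1
  have hs0 : 0 < e ^ (4 * M) := by positivity
  set s : ℝ := e ^ (4 * M) with hs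
  set T := S.sigma fun k => FP δ L I z x c s k with hT
  have hTc : (S.card : ℝ) * (δ / 16 * e ^ 2 * (L.card : ℝ) ^ 2) ≤ (T.card : ℝ) := by
    rw [hT, card_sigma]
    push_cast
    calc (S.card : ℝ) * (δ / 16 * e ^ 2 * (L.card : ℝ) ^ 2)
        = ∑ k ∈ S, (δ / 16 * e ^ 2 * (L.card : ℝ) ^ 2) := by rw [sum_const, nsmul_eq_mul]
      _ ≤ _ := sum_le_sum fun k hk => FP_ge H hM (by linarith) (hS hk)
  -- fibres over the first line
  set F : ℕ → ℝ := fun l => ((T.filter fun w => w.2.1 = l).card : ℝ) with hF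
  have hTF : (T.card : ℝ) = ∑ l ∈ L, F l := by
    have h1 := card_eq_sum_card_fiberwise (s := T) (t := L) (f := fun w => w.2.1) (by
      rintro ⟨k, w⟩ hw
      rw [mem_coe, hT, mem_sigma] at hw
      exact mem_coe.2 (mem_FP.1 hw.2).1.1.1)
    rw [h1]
    push_cast
    rfl
  have hF1 : ∀ l, F l ≤ S.card * (2 * δ / e * L.card) := by
    intro l
    have h1 := card_le_of_fibers (T.filter fun w => w.2.1 = l) (fun w => w.1)
      (2 * δ / e * L.card) (by
        rintro ⟨k, w⟩ hw
        have hcd : ((T.filter fun w => w.2.1 = l).filter fun w => w.1 = k).card =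
            (((T.filter fun w => w.2.1 = l).filter fun w => w.1 = k).image
              fun w => w.2.2).card := by
          rw [card_image_of_injOn]
          rintro ⟨k1, a, b⟩ h1 ⟨k2, a', b'⟩ h2 h3
          rw [mem_coe, mem_filter, mem_filter] at h1 h2
          have c1 : k1 = k := h1.2
          have c2 : k2 = k := h2.2
          have c3 : a = l := h1.1.2
          have c4 : a' = l := h2.1.2
          have c5 : b = b' := h3
          rw [c1, c2, c3, c4, c5]
        rw [hcd]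
        have hmem : ∀ l' ∈ (((T.filter fun w => w.2.1 = l).filter fun w => w.1 = k).image
              fun w => w.2.2), l' ∈ L ∧ (l', k) ∈ I ∧ cell δ z x c k l = cell δ z x c k l' := by
          intro l' hl'
          obtain ⟨⟨k1, a, b⟩, h1, h2⟩ := mem_image.1 hl'
          rw [mem_filter, mem_filter, hT, mem_sigma] at h1
          have c1 : k1 = k := h1.2
          have c3 : a = l := h1.1.2
          have c5 : b = l' := h2
          subst c1 c3 c5
          have := mem_FP.1 h1.1.1.2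
          exact ⟨this.1.2.1, this.1.2.2, this.2.1⟩
        refine fib_all H (k := k) (fun l' hl' => (hmem l' hl').1)
          (fun l' hl' => (hmem l' hl').2.1) fun a ha b hb => ?_
        exact cell_close hδ (((hmem a ha).2.2).symm.trans (hmem b hb).2.2))
    refine h1.trans (mul_le_mul_of_nonneg_right ?_ (by positivity))
    exact_mod_cast card_le_card fun k hk => by
      obtain ⟨w, hw, rfl⟩ := mem_image.1 hk
      rw [mem_filter, hT, mem_sigma] at hw
      exact hw.1.1
  have hF2 : ∀ l, F l ≤ ((L.filter fun l' => |q l' - q l| ≤ W).card : ℝ) *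
      (2 * δ / (s * e) * Z.card) := by
    intro l
    have h1 := card_le_of_fibers (T.filter fun w => w.2.1 = l) (fun w => w.2.2)
      (2 * δ / (s * e) * Z.card) (by
        rintro ⟨k, w⟩ hw
        rw [mem_filter, hT, mem_sigma] at hw
        have hw1 := mem_FP.1 hw.1.2
        have hwl : w.1 = l := hw.2
        have hcd : ((T.filter fun w => w.2.1 = l).filter fun w' => w'.2.2 = w.2).card =
            (((T.filter fun w => w.2.1 = l).filter fun w' => w'.2.2 = w.2).image
              fun w => w.1).card := by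
          rw [card_image_of_injOn]
          rintro ⟨k1, a, b⟩ h1 ⟨k2, a', b'⟩ h2 h3
          rw [mem_coe, mem_filter, mem_filter] at h1 h2
          have c1 : b = w.2 := h1.2
          have c2 : b' = w.2 := h2.2
          have c3 : a = l := h1.1.2
          have c4 : a' = l := h2.1.2
          have c5 : k1 = k2 := h3
          rw [c1, c2, c3, c4, c5]
        rw [hcd]
        refine meet_le H (l := l) (l' := w.2) hs0 hs1 hδ4 (by rw [← hwl]; exact hw1.2.2) ?_ ?_
        · intro k' hk'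
          obtain ⟨⟨k1, a, b⟩, h1, h2⟩ := mem_image.1 hk'
          rw [mem_filter, mem_filter, hT, mem_sigma] at h1
          have c5 : k1 = k' := h2
          subst c5
          exact hS h1.1.1.1
        · intro k' hk'
          obtain ⟨⟨k1, a, b⟩, h1, h2⟩ := mem_image.1 hk'
          rw [mem_filter, mem_filter, hT, mem_sigma] at h1
          have c1 : k1 = k' := h2
          have c3 : a = l := h1.1.2
          have c5 : b = w.2 := h1.2
          subst c1 c3 c5
          exact (mem_FP.1 h1.1.1.2).2.1)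
    refine h1.trans (mul_le_mul_of_nonneg_right ?_ (by positivity))
    exact_mod_cast card_le_card fun l' hl' => by
      obtain ⟨⟨k1, a, b⟩, h1, h2⟩ := mem_image.1 hl'
      rw [mem_filter, hT, mem_sigma] at h1
      have c3 : a = l := h1.2
      have c5 : b = l' := h2
      subst c3 c5
      have h3 := mem_FP.1 h1.1.2
      rw [mem_filter]
      exact ⟨h3.1.2.1, hW k1 h1.1.1 _ _ h3.1.1.2 h3.1.2.2 (cell_close hδ h3.2.1)⟩
  set th : ℝ := S.card * (δ * e ^ 2 / 32 * L.card) with hth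
  set G := L.filter fun l => (S.card : ℝ) / Z.card * e ^ (4 * M + 4) *
      L.card ≤ ((L.filter fun l' => |q l' - q l| ≤ W).card : ℝ) with hG
  have hGth : ∀ l ∈ L, l ∉ G → F l ≤ th := by
    intro l hl hlG
    by_contra hcon
    push Not at hcon
    apply hlG
    rw [hG, mem_filter]
    refine ⟨hl, ?_⟩
    have h1 : th ≤ ((L.filter fun l' => |q l' - q l| ≤ W).card : ℝ) *
      (2 * δ / (s * e) * Z.card) := hcon.le.trans (hF2 l)
    have h2 : 0 < 2 * δ / (s * e) * Z.card := by positivity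
    refine le_of_mul_le_mul_right (le_trans ?_ h1) h2
    rw [hth]
    have h3 : (S.card : ℝ) / Z.card * e ^ (4 * M + 4) * L.card * (2 * δ / (s * e) * Z.card) =
        S.card * (δ * (2 * e ^ 3) * L.card) := by
      rw [hs]
      field_simp
      ring
    rw [h3]
    refine mul_le_mul_of_nonneg_left ?_ hSc.le
    refine mul_le_mul_of_nonneg_right ?_ hLc.le
    have h4 : 2 * e ^ 3 ≤ e ^ 2 / 32 := by
      have : e ^ 3 = e ^ 2 * e := by ring
      rw [this]
      nlinarith [H.e1, sq_nonneg e, mul_pos he he]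
    nlinarith
  have hsum : (T.card : ℝ) ≤ G.card * (S.card * (2 * δ / e * L.card)) + L.card * th := by
    rw [hTF]
    have h1 : ∑ l ∈ L, F l = ∑ l ∈ G, F l + ∑ l ∈ L \ G, F l := by
      rw [add_comm, sum_sdiff (filter_subset _ _)]
    rw [h1]
    refine add_le_add ?_ ?_
    · refine (sum_le_sum fun l _ => hF1 l).trans (le_of_eq ?_)
      rw [sum_const, nsmul_eq_mul]
    · have h2 : ∑ l ∈ L \ G, F l ≤ ∑ l ∈ L \ G, th :=
        sum_le_sum fun l hl => hGth l (mem_sdiff.1 hl).1 (mem_sdiff.1 hl).2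
      refine h2.trans ?_
      rw [sum_const, nsmul_eq_mul]
      refine mul_le_mul_of_nonneg_right ?_ (by positivity)
      exact_mod_cast card_le_card sdiff_subset
  have h5 := hTc.trans hsum
  -- conclude
  have h6 : (e ^ 3 / 64 * L.card) * (S.card * (2 * δ / e * L.card)) ≤
      G.card * (S.card * (2 * δ / e * L.card)) := by
    have g1 : (e ^ 3 / 64 * L.card) * (S.card * (2 * δ / e * L.card)) =
        S.card * (δ * e ^ 2 * (L.card : ℝ) ^ 2) / 32 := by
      field_simp
      ring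
    have g2 : L.card * th = S.card * (δ * e ^ 2 * (L.card : ℝ) ^ 2) / 32 := by
      rw [hth]; ring
    rw [g1]
    rw [g2] at h5
    have g3 : (S.card : ℝ) * (δ / 16 * e ^ 2 * (L.card : ℝ) ^ 2) =
        S.card * (δ * e ^ 2 * (L.card : ℝ) ^ 2) / 16 := by ring
    rw [g3] at h5
    linarith
  have h7 := le_of_mul_le_mul_right h6 (by positivity)
  refine le_trans ?_ h7
  refine mul_le_mul_of_nonneg_right ?_ hLc.le
  calc e ^ 4 = e ^ 3 * e := by ring
    _ ≤ e ^ 3 * (1 / 64) := mul_le_mul_of_nonneg_left (by linarith [H.e1]) (by positivity)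
    _ = _ := by ring

end

end Crest.Agent.R136.LA501
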