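import Crest.Agent.R136.LA4_501

/-!
# R136 [RIG_E], Lemma A (for helper344), part 5 (helper501): **`lemA`**
-/

set_option autoImplicit false
set_option linter.unusedVariables false
set_option linter.unusedSectionVars false

open Finset

namespace Crest.Agent.R136.LA501

open Crest.Agent.R138.TwA501 (sq_card_le card_le_of_fibers)

section

variable {δ e m : ℝ} {L Z : Finset ℕ} {I : Finset (ℕ × ℕ)} {z f x c p : ℕ → ℝ}

theorem floor_near {a b : ℝ} (h : |a - b| ≤ 1) : |⌊a⌋ - ⌊b⌋| ≤ 1 := by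
  rw [abs_le] at h
  have h1 := Int.floor_le a
  have h2 := Int.lt_floor_add_one a
  have h3 := Int.floor_le b
  have h4 := Int.lt_floor_add_one b
  have g1 : (⌊a⌋ : ℝ) < ((⌊b⌋ + 2 : ℤ) : ℝ) := by push_cast; linarith [h.1, h.2]
  have g2 : (⌊b⌋ : ℝ) < ((⌊a⌋ + 2 : ℤ) : ℝ) := by push_cast; linarith [h.1, h.2]
  have g3 : ⌊a⌋ < ⌊b⌋ + 2 := by exact_mod_cast g1
  have g4 : ⌊b⌋ < ⌊a⌋ + 2 := by exact_mod_cast g2
  rw [abs_le]
  omega

/-- heavy level sets: few values -/
theorem values_le {L L' : Finset ℕ} (hL' : L' ⊆ L) (hLn : L.Nonempty) {q : ℕ → ℝ} {W τ : ℝ}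
    (hW : 0 < W) (hτ : 0 < τ)
    (h : ∀ l ∈ L', τ * L.card ≤ ((L.filter fun l' => |q l' - q l| ≤ W).card : ℝ)) :
    ((L'.image fun l => ⌊q l / W⌋).card : ℝ) ≤ 3 / τ := by
  classical
  have hLc : (0 : ℝ) < L.card := by exact_mod_cast hLn.card_pos
  set V := L'.image fun l => ⌊q l / W⌋ with hV
  have h1 : ∀ v ∈ V, τ * L.card ≤ ((L.filter fun l' => |⌊q l' / W⌋ - v| ≤ 1).card : ℝ) := by
    intro v hv
    obtain ⟨l, hl, rfl⟩ := mem_image.1 hv
    refine (h l hl).trans ?_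
    exact_mod_cast card_le_card fun l' hl' => by
      rw [mem_filter] at hl' ⊢
      refine ⟨hl'.1, floor_near ?_⟩
      rw [← sub_div, abs_div, abs_of_pos hW, div_le_one hW]
      exact hl'.2
  have h2 : ∑ v ∈ V, ((L.filter fun l' => |⌊q l' / W⌋ - v| ≤ 1).card : ℝ) ≤ 3 * L.card := by
    have g1 : ∀ v ∈ V, ((L.filter fun l' => |⌊q l' / W⌋ - v| ≤ 1).card : ℝ) =
        ∑ l' ∈ L, (if |⌊q l' / W⌋ - v| ≤ 1 then (1 : ℝ) else 0) := by
      intro v _
      rw [card_filter]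
      push_cast
      rfl
    rw [sum_congr rfl g1, sum_comm]
    have g2 : ∀ l' ∈ L, ∑ v ∈ V, (if |⌊q l' / W⌋ - v| ≤ 1 then (1 : ℝ) else 0) ≤ 3 := by
      intro l' _
      have g3 : ∑ v ∈ V, (if |⌊q l' / W⌋ - v| ≤ 1 then (1 : ℝ) else 0) =
          ((V.filter fun v => |⌊q l' / W⌋ - v| ≤ 1).card : ℝ) := by
        rw [card_filter]
        push_cast
        rfl
      rw [g3]
      have g4 : (V.filter fun v => |⌊q l' / W⌋ - v| ≤ 1) ⊆
          Finset.Icc (⌊q l' / W⌋ - 1) (⌊q l' / W⌋ + 1) := by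
        intro v hv
        rw [mem_filter, abs_le] at hv
        rw [Finset.mem_Icc]
        omega
      have g5 := card_le_card g4
      rw [Int.card_Icc] at g5
      have g6 : (⌊q l' / W⌋ + 1 + 1 - (⌊q l' / W⌋ - 1)).toNat = 3 := by
        have : ⌊q l' / W⌋ + 1 + 1 - (⌊q l' / W⌋ - 1) = 3 := by ring
        rw [this]; rfl
      rw [g6] at g5
      exact_mod_cast g5
    refine (sum_le_sum g2).trans (le_of_eq ?_)
    rw [sum_const, nsmul_eq_mul, mul_comm]
  have h3 : (V.card : ℝ) * (τ * L.card) ≤ 3 * L.card := by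
    refine le_trans ?_ h2
    rw [← nsmul_eq_mul, ← sum_const]
    exact sum_le_sum h1
  rw [le_div_iff₀ hτ]
  refine le_of_mul_le_mul_right (a := (L.card : ℝ)) ?_ hLc
  calc (V.card : ℝ) * τ * L.card = (V.card : ℝ) * (τ * L.card) := by ring
    _ ≤ _ := h3

/-- **all heights**: a dense set of lines with few values of `q` -/
theorem spread (H : Cfg δ e m L Z I z f x c p) {L' : Finset ℕ} (hL' : L' ⊆ L)
    (hLd : e ^ 4 * L.card ≤ (L'.card : ℝ)) {q : ℕ → ℝ} {W τ s : ℝ} (hW : 0 < W) (hτ : 0 < τ)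
    (h : ∀ l ∈ L', τ * L.card ≤ ((L.filter fun l' => |q l' - q l| ≤ W).card : ℝ))
    (hs1 : δ ≤ s) (hs2 : s ≤ 2) (hsm : s ^ m ≤ e ^ 12 * τ) :
    ∃ Z' ⊆ Z, e ^ 6 * Z.card ≤ (Z'.card : ℝ) ∧ ∀ k ∈ Z', ∃ l l' : ℕ, (l, k) ∈ I ∧ (l', k) ∈ I ∧
      |XX z x c l' k - XX z x c l k| ≤ δ ∧ |q l' - q l| ≤ W ∧ s < |c l' - c l| := by
  classical
  have hδ := H.δ0
  have he := H.e0
  have he1 : e ≤ 1 := by linarith [H.e1]
  have hLc : (0 : ℝ) < L.card := by exact_mod_cast H.nL.card_pos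
  have hZc : (0 : ℝ) < Z.card := by exact_mod_cast H.nZ.card_pos
  have hV := values_le hL' H.nL hW hτ h
  set A : ℕ → Finset ℕ := fun k => L'.filter fun l => (l, k) ∈ I with hA
  have hAL : ∀ k, A k ⊆ L := fun k => (filter_subset _ _).trans hL'
  have hAI : ∀ k, ∀ l ∈ A k, (l, k) ∈ I := fun k l hl => (mem_filter.1 hl).2
  set Z' := Z.filter fun k => e ^ 5 / 2 * L.card ≤ ((A k).card : ℝ) with hZ'
  refine ⟨Z', filter_subset _ _, ?_, ?_⟩
  · -- many heights
    have h1 : e ^ 4 * L.card * (e * Z.card) ≤ ∑ k ∈ Z, ((A k).card : ℝ) := by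
      have g1 : ∑ k ∈ Z, ((A k).card : ℝ) = ∑ l ∈ L', ((Z.filter fun k => (l, k) ∈ I).card : ℝ) := by
        rw [← res_card, res_card']
      rw [g1]
      calc e ^ 4 * L.card * (e * Z.card) ≤ L'.card * (e * Z.card) :=
            mul_le_mul_of_nonneg_right hLd (by positivity)
        _ = ∑ l ∈ L', e * (Z.card : ℝ) := by rw [sum_const, nsmul_eq_mul]
        _ ≤ _ := sum_le_sum fun l hl => H.degL l (hL' hl)
    have h2 : ∑ k ∈ Z, ((A k).card : ℝ) ≤ Z'.card * (L.card : ℝ) +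
        Z.card * (e ^ 5 / 2 * L.card) := by
      have g1 : ∑ k ∈ Z, ((A k).card : ℝ) = ∑ k ∈ Z', ((A k).card : ℝ) +
          ∑ k ∈ Z \ Z', ((A k).card : ℝ) := by
        rw [add_comm, sum_sdiff (filter_subset _ _)]
      rw [g1]
      refine add_le_add ?_ ?_
      · refine (sum_le_sum (g := fun _ => (L.card : ℝ)) fun k _ => ?_).trans (le_of_eq ?_)
        · exact_mod_cast card_le_card (hAL k)
        · rw [sum_const, nsmul_eq_mul]
      · refine (sum_le_sum (g := fun _ => (e ^ 5 / 2 * L.card : ℝ)) fun k hk => ?_).trans ?_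
        · by_contra hcon
          push Not at hcon
          rw [mem_sdiff] at hk
          exact hk.2 (mem_filter.2 ⟨hk.1, hcon.le⟩)
        · rw [sum_const, nsmul_eq_mul]
          refine mul_le_mul_of_nonneg_right ?_ (by positivity)
          exact_mod_cast card_le_card sdiff_subset
    have h3 : (e ^ 5 / 2 * Z.card) * L.card ≤ Z'.card * (L.card : ℝ) := by
      have := h1.trans h2
      linarith
    have h4 := le_of_mul_le_mul_right h3 hLc
    refine le_trans (mul_le_mul_of_nonneg_right ?_ hZc.le) h4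
    calc e ^ 6 = e ^ 5 * e := by ring
      _ ≤ e ^ 5 * (1 / 2) := mul_le_mul_of_nonneg_left (by linarith [H.e1]) (by positivity)
      _ = _ := by ring
  · intro k hk
    rw [hZ', mem_filter] at hk
    by_contra hcon
    push Not at hcon
    have h1 := sq_card_le (A k) (fun l => (cell δ z x c k l, ⌊q l / W⌋))
    have h2 : (((A k).image fun l => (cell δ z x c k l, ⌊q l / W⌋)).card : ℝ) ≤
        8 / δ * (3 / τ) := by
      have g1 : ((A k).image fun l => (cell δ z x c k l, ⌊q l / W⌋)) ⊆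
          ((A k).image (cell δ z x c k)) ×ˢ (L'.image fun l => ⌊q l / W⌋) := by
        intro w hw
        obtain ⟨l, hl, rfl⟩ := mem_image.1 hw
        rw [mem_product]
        exact ⟨mem_image_of_mem _ hl, mem_image.2 ⟨l, (mem_filter.1 hl).1, rfl⟩⟩
      have g2 := card_le_card g1
      rw [card_product] at g2
      have g3 : (((A k).image fun l => (cell δ z x c k l, ⌊q l / W⌋)).card : ℝ) ≤
          (((A k).image (cell δ z x c k)).card : ℝ) *
            ((L'.image fun l => ⌊q l / W⌋).card : ℝ) := by exact_mod_cast g2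
      exact g3.trans (mul_le_mul (cells_card H hk.1 (hAL k)) hV (Nat.cast_nonneg _)
        (by positivity))
    have h3 : (((A k ×ˢ A k).filter fun w => (cell δ z x c k w.1, ⌊q w.1 / W⌋) =
        (cell δ z x c k w.2, ⌊q w.2 / W⌋)).card : ℝ) ≤
        (A k).card * (δ * s ^ m / e * L.card) := by
      refine le_trans ?_ (near_le H (hAL k) (hAI k) hs1 hs2)
      exact_mod_cast card_le_card fun w hw => by
        rw [mem_filter, mem_product] at hw
        obtain ⟨⟨w1, w2⟩, w3⟩ := hw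
        rw [Prod.mk.injEq] at w3
        rw [mem_filter, mem_product]
        refine ⟨⟨w1, w2⟩, w3.1, ?_⟩
        refine hcon w.1 w.2 (hAI k _ w1) (hAI k _ w2) (cell_close hδ w3.1) ?_
        have g1 := Int.abs_sub_lt_one_of_floor_eq_floor w3.2
        rw [← sub_div, abs_div, abs_of_pos hW, div_lt_one hW] at g1
        rw [abs_sub_comm]
        exact g1.le
    have hAc : 0 < ((A k).card : ℝ) := by
      have : 0 < e ^ 5 / 2 * L.card := by positivity
      linarith [hk.2]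
    have h4 : ((A k).card : ℝ) * (A k).card ≤
        (8 / δ * (3 / τ) * (δ * s ^ m / e * L.card)) * (A k).card := by
      calc ((A k).card : ℝ) * (A k).card = ((A k).card : ℝ) ^ 2 := by ring
        _ ≤ _ := h1
        _ ≤ (8 / δ * (3 / τ)) * ((A k).card * (δ * s ^ m / e * L.card)) :=
            mul_le_mul h2 h3 (Nat.cast_nonneg _) (by positivity)
        _ = _ := by ring
    have h5 := le_of_mul_le_mul_right h4 hAc
    have h6 : 8 / δ * (3 / τ) * (δ * s ^ m / e * L.card) ≤ 24 * e ^ 11 * L.card := by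
      have g1 : 8 / δ * (3 / τ) * (δ * s ^ m / e * L.card) = 24 * (s ^ m / (τ * e)) * L.card := by
        field_simp
        ring
      rw [g1]
      refine mul_le_mul_of_nonneg_right ?_ hLc.le
      refine mul_le_mul_of_nonneg_left ?_ (by norm_num)
      rw [div_le_iff₀ (by positivity)]
      calc s ^ m ≤ e ^ 12 * τ := hsm
        _ = _ := by ring
    have h7 : (e ^ 5 / 2) * L.card ≤ (24 * e ^ 11) * L.card := hk.2.trans (h5.trans h6)
    have h8 := le_of_mul_le_mul_right h7 hLc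
    have h9 : e ^ 6 ≤ 1 / 100 := by
      calc e ^ 6 = e ^ 5 * e := by ring
        _ ≤ 1 * (1 / 100) := mul_le_mul (pow_le_one₀ he.le he1) H.e1 he.le zero_le_one
        _ = _ := by ring
    have h10 : 24 * e ^ 11 ≤ 24 * (e ^ 5 * (1 / 100)) := by
      refine mul_le_mul_of_nonneg_left ?_ (by norm_num)
      calc e ^ 11 = e ^ 5 * e ^ 6 := by ring
        _ ≤ _ := mul_le_mul_of_nonneg_left h9 (by positivity)
    have h11 : 0 < e ^ 5 := by positivity
    linarith

/-- the invariant of the lines -/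
def qq (μ g0 : ℝ) (x c p : ℕ → ℝ) (l : ℕ) : ℝ := p l + μ * x l - g0 * c l

theorem qq_sub (μ g0 : ℝ) (z f x c p : ℕ → ℝ) (l l' k : ℕ) :
    qq μ g0 x c p l' - qq μ g0 x c p l = (p l' - p l - f k * (c l' - c l)) +
      μ * (XX z x c l' k - XX z x c l k) + (f k - μ * z k - g0) * (c l' - c l) := by
  unfold qq XX
  ring

theorem qq_close (H : Cfg δ e m L Z I z f x c p) {μ g0 w : ℝ} {l l' k : ℕ} (h1 : (l, k) ∈ I)
    (h2 : (l', k) ∈ I) (h3 : |XX z x c l' k - XX z x c l k| ≤ δ)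
    (hg : |f k - μ * z k - g0| ≤ w) :
    |qq μ g0 x c p l' - qq μ g0 x c p l| ≤ δ / e + |μ| * δ + 2 * w := by
  have hl := H.lb l (mem_product.1 (H.sub h1)).1
  have hl' := H.lb l' (mem_product.1 (H.sub h2)).1
  have hw : 0 ≤ w := (abs_nonneg _).trans hg
  have hcc : |c l' - c l| ≤ 2 := by
    refine (abs_sub _ _).trans ?_
    linarith [hl.2.1, hl'.2.1]
  rw [qq_sub μ g0 z f x c p l l' k]
  refine (abs_add_le _ _).trans (add_le_add ((abs_add_le _ _).trans (add_le_add ?_ ?_)) ?_)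
  · exact H.star _ _ _ h1 h2 h3
  · rw [abs_mul]
    exact mul_le_mul_of_nonneg_left h3 (abs_nonneg _)
  · rw [abs_mul]
    calc |f k - μ * z k - g0| * |c l' - c l| ≤ w * 2 :=
          mul_le_mul hg hcc (abs_nonneg _) hw
      _ = _ := mul_comm _ _

theorem gk_le (H : Cfg δ e m L Z I z f x c p) {μ g0 W s : ℝ} {l l' k : ℕ} (h1 : (l, k) ∈ I)
    (h2 : (l', k) ∈ I) (h3 : |XX z x c l' k - XX z x c l k| ≤ δ)
    (hq : |qq μ g0 x c p l' - qq μ g0 x c p l| ≤ W) (hs : 0 < s) (hc : s < |c l' - c l|) :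
    |f k - μ * z k - g0| ≤ (W + (δ / e + |μ| * δ)) / s := by
  have h4 := H.star _ _ _ h1 h2 h3
  have h5 : |μ * (XX z x c l' k - XX z x c l k)| ≤ |μ| * δ := by
    rw [abs_mul]
    exact mul_le_mul_of_nonneg_left h3 (abs_nonneg _)
  have e1 : (f k - μ * z k - g0) * (c l' - c l) = (qq μ g0 x c p l' - qq μ g0 x c p l) -
      (p l' - p l - f k * (c l' - c l)) - μ * (XX z x c l' k - XX z x c l k) := by
    rw [qq_sub μ g0 z f x c p l l' k]; ring
  have h6 : |f k - μ * z k - g0| * |c l' - c l| ≤ W + (δ / e + |μ| * δ) := by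
    rw [← abs_mul, e1]
    have g1 := abs_sub ((qq μ g0 x c p l' - qq μ g0 x c p l) -
      (p l' - p l - f k * (c l' - c l))) (μ * (XX z x c l' k - XX z x c l k))
    have g2 := abs_sub (qq μ g0 x c p l' - qq μ g0 x c p l) (p l' - p l - f k * (c l' - c l))
    linarith
  rw [le_div_iff₀ hs]
  exact (mul_le_mul_of_nonneg_left hc.le (abs_nonneg _)).trans h6

/-- **assembly at one scale** -/
theorem asm (H : Cfg δ e m L Z I z f x c p) {M : ℕ} (hM : 1 ≤ (M : ℝ) * m)
    {μ g0 w W w1 W2 : ℝ} (hw : 0 < w) (hw1' : w ≤ 1)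
    (hS : w ^ (m / 4) * (Z.card : ℝ) ≤ ((Z.filter fun k => |f k - μ * z k - g0| ≤ w).card : ℝ))
    (hδ4 : 2 * δ ≤ e ^ (4 * M)) (hW : δ / e + |μ| * δ + 2 * w ≤ W)
    (hs : δ ≤ e ^ ((4 * M + 16) * M) * w ^ (1 / 4 : ℝ))
    (hw1 : 2 * W / (e ^ ((4 * M + 16) * M) * w ^ (1 / 4 : ℝ)) ≤ w1) (hw11 : w1 ≤ 1)
    (hδ9 : 2 * δ ≤ (e ^ 9) ^ (4 * M)) (hδ9' : 2 * δ ≤ e ^ 9)
    (hW2 : δ / e ^ 9 + |μ| * δ + 2 * w1 ≤ W2) :
    ∃ q0 : ℝ, ∃ I' ⊆ I, e ^ (36 * M + 55) * L.card * Z.card ≤ (I'.card : ℝ) ∧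
      |μ| ≤ (e ^ 10)⁻¹ ∧ ∀ l k : ℕ, (l, k) ∈ I' → |f k - μ * z k - g0| ≤ w1 ∧
        |p l + μ * x l - g0 * c l - q0| ≤ W2 := by
  classical
  have hδ := H.δ0
  have he := H.e0
  have he1 : e ≤ 1 := by linarith [H.e1]
  have hLc : (0 : ℝ) < L.card := by exact_mod_cast H.nL.card_pos
  have hZc : (0 : ℝ) < Z.card := by exact_mod_cast H.nZ.card_pos
  have hwm : 0 < w ^ (m / 4) := Real.rpow_pos_of_pos hw _
  have hW0 : 0 < W := by
    have : 0 ≤ |μ| * δ := by positivity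
    have : 0 < δ / e := by positivity
    linarith
  -- the strip
  set S := Z.filter fun k => |f k - μ * z k - g0| ≤ w with hSdef
  have hSn : S.Nonempty := by
    rw [← card_pos]
    have : (0 : ℝ) < S.card := lt_of_lt_of_le (by positivity) hS
    exact_mod_cast this
  have hlev := level H hM hδ4 (S := S) (filter_subset _ _) hSn (q := qq μ g0 x c p) (W := W)
    (fun k hk l l' h1 h2 h3 =>
      (qq_close H h1 h2 h3 (mem_filter.1 hk).2).trans hW)
  set L' := L.filter fun l => (S.card : ℝ) / Z.card * e ^ (4 * M + 4) * L.card ≤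
    ((L.filter fun l' => |qq μ g0 x c p l' - qq μ g0 x c p l| ≤ W).card : ℝ) with hL'
  set s : ℝ := e ^ ((4 * M + 16) * M) * w ^ (1 / 4 : ℝ) with hsdef
  have hw4 : 0 < w ^ (1 / 4 : ℝ) := Real.rpow_pos_of_pos hw _
  have hs0 : 0 < s := by positivity
  have hs1 : s ≤ 1 := by
    have a1 : w ^ (1 / 4 : ℝ) ≤ 1 := Real.rpow_le_one hw.le hw1' (by norm_num)
    have a2 : e ^ ((4 * M + 16) * M) ≤ 1 := pow_le_one₀ he.le he1
    calc s ≤ 1 * 1 := mul_le_mul a2 a1 hw4.le zero_le_one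
      _ = 1 := one_mul 1
  obtain ⟨Z', hZ', hZ'c, hZ'k⟩ := spread H (L' := L') (filter_subset _ _) hlev
    (q := qq μ g0 x c p) (W := W) (τ := w ^ (m / 4) * e ^ (4 * M + 4)) (s := s) hW0
    (by positivity) (by
      intro l hl
      refine le_trans ?_ (mem_filter.1 hl).2
      refine mul_le_mul_of_nonneg_right ?_ hLc.le
      refine mul_le_mul_of_nonneg_right ?_ (by positivity)
      rw [le_div_iff₀ hZc]
      exact hS) hs (hs1.trans (by norm_num)) (by
      rw [hsdef, Real.mul_rpow (by positivity) hw4.le, ← Real.rpow_mul hw.le]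
      have a1 := pow_rpow_le he he1 hM (4 * M + 16)
      have a2 : (1 / 4 : ℝ) * m = m / 4 := by ring
      rw [a2]
      calc (e ^ ((4 * M + 16) * M)) ^ m * w ^ (m / 4) ≤ e ^ (4 * M + 16) * w ^ (m / 4) :=
            mul_le_mul_of_nonneg_right a1 hwm.le
        _ = _ := by ring)
  have hg : ∀ k ∈ Z', |f k - μ * z k - g0| ≤ w1 := by
    intro k hk
    obtain ⟨l, l', h1, h2, h3, h4, h5⟩ := hZ'k k hk
    refine (gk_le H h1 h2 h3 h4 hs0 h5).trans (le_trans ?_ hw1)
    refine div_le_div_of_nonneg_right ?_ hs0.le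
    linarith
  -- second configuration
  have hZ'c0 : (0 : ℝ) < Z'.card := by
    have : 0 < e ^ 6 * Z.card := by positivity
    linarith
  have hZ'n : Z'.Nonempty := card_pos.1 (by exact_mod_cast hZ'c0)
  have hraw := H.raw.res hδ he (Subset.refl L) hZ' (τ := e ^ 6) (by positivity)
    (pow_le_one₀ he.le he1) (by
      calc e ^ 6 * (L.card : ℝ) ≤ 1 * L.card :=
            mul_le_mul_of_nonneg_right (pow_le_one₀ he.le he1) hLc.le
        _ = _ := one_mul _) hZ'c
  have h7 : e * e ^ 6 ≤ 1 / 100 := by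
    calc e * e ^ 6 ≤ 1 / 100 * 1 :=
          mul_le_mul H.e1 (pow_le_one₀ he.le he1) (by positivity) (by norm_num)
      _ = _ := by ring
  have hdens : e * L.card * Z'.card ≤ ((res (res I L Z') L Z').card : ℝ) := by
    rw [res_card']
    calc e * (L.card : ℝ) * Z'.card = ∑ k ∈ Z', e * (L.card : ℝ) := by
          rw [sum_const, nsmul_eq_mul]; ring
      _ ≤ _ := sum_le_sum fun k hk => by
          refine (H.degZ k (hZ' hk)).trans ?_
          exact_mod_cast card_le_card fun l hl => by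
            rw [mem_filter] at hl ⊢
            exact ⟨hl.1, mem_res.2 ⟨⟨hl.1, hk⟩, hl.2⟩⟩
  obtain ⟨L2, hL2, Z2, hZ2, hL2c, hZ2c, H2⟩ := hraw.cfg hδ (by positivity) h7 H.m0 H.m1 H.nL hZ'n
    (d := e) (e' := e ^ 9) he he1 hdens (by positivity) (by
      have a1 : e ^ 9 = (e * e ^ 6 * e) * e := by ring
      rw [a1, div_eq_mul_inv]
      refine mul_le_mul_of_nonneg_left ?_ (by positivity)
      linarith [H.e1]) (by linarith)
  have hL2c0 : (0 : ℝ) < L2.card := by exact_mod_cast H2.nL.card_pos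
  have hZ2c0 : (0 : ℝ) < Z2.card := by exact_mod_cast H2.nZ.card_pos
  have hlev2 := level H2 hM hδ9 (S := Z2) (Subset.refl _) H2.nZ (q := qq μ g0 x c p) (W := W2)
    (fun k hk l l' h1 h2 h3 =>
      (qq_close H2 h1 h2 h3 (hg k (hZ2 hk))).trans hW2)
  obtain ⟨l0, hl0⟩ : (L2.filter fun l => (Z2.card : ℝ) / Z2.card * (e ^ 9) ^ (4 * M + 4) *
      L2.card ≤ ((L2.filter fun l' => |qq μ g0 x c p l' - qq μ g0 x c p l| ≤
        W2).card : ℝ)).Nonempty := by
    rw [← card_pos]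
    have : (0 : ℝ) < (e ^ 9) ^ 4 * L2.card := by positivity
    exact_mod_cast this.trans_le hlev2
  rw [mem_filter, div_self hZ2c0.ne', one_mul] at hl0
  set G := L2.filter fun l' => |qq μ g0 x c p l' - qq μ g0 x c p l0| ≤ W2 with hG
  refine ⟨qq μ g0 x c p l0, res (res (res I L Z') L2 Z2) G Z2, ?_, ?_, ?_, ?_⟩
  · intro q hq
    obtain ⟨l, k⟩ := q
    exact (mem_res.1 (mem_res.1 (mem_res.1 hq).2).2).2
  · rw [res_card]
    have h1 : (G.card : ℝ) * (e ^ 9 * Z2.card) ≤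
        ∑ l ∈ G, ((Z2.filter fun k => (l, k) ∈ res (res I L Z') L2 Z2).card : ℝ) := by
      calc (G.card : ℝ) * (e ^ 9 * Z2.card) = ∑ l ∈ G, e ^ 9 * (Z2.card : ℝ) := by
            rw [sum_const, nsmul_eq_mul]
        _ ≤ _ := sum_le_sum fun l hl => H2.degL l (mem_filter.1 hl).1
    refine le_trans ?_ h1
    have a1 : e ^ 2 * (L.card : ℝ) ≤ L2.card := by
      refine le_trans (mul_le_mul_of_nonneg_right ?_ hLc.le) hL2c
      have : e ^ 2 = e * e := by ring
      rw [this, div_eq_mul_inv]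
      exact mul_le_mul_of_nonneg_left (by linarith [H.e1]) he.le
    have a2 : e ^ 8 * (Z.card : ℝ) ≤ Z2.card := by
      have b1 : e ^ 2 * (Z'.card : ℝ) ≤ Z2.card := by
        refine le_trans (mul_le_mul_of_nonneg_right ?_ hZ'c0.le) hZ2c
        have : e ^ 2 = e * e := by ring
        rw [this, div_eq_mul_inv]
        exact mul_le_mul_of_nonneg_left (by linarith [H.e1]) he.le
      refine le_trans ?_ b1
      calc e ^ 8 * (Z.card : ℝ) = e ^ 2 * (e ^ 6 * Z.card) := by ring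
        _ ≤ _ := mul_le_mul_of_nonneg_left hZ'c (by positivity)
    calc e ^ (36 * M + 55) * L.card * Z.card
        = ((e ^ 9) ^ (4 * M + 4) * (e ^ 2 * L.card)) * (e ^ 9 * (e ^ 8 * Z.card)) := by ring
      _ ≤ ((e ^ 9) ^ (4 * M + 4) * L2.card) * (e ^ 9 * Z2.card) := by
          refine mul_le_mul (mul_le_mul_of_nonneg_left a1 (by positivity))
            (mul_le_mul_of_nonneg_left a2 (by positivity)) (by positivity) (by positivity)
      _ ≤ _ := mul_le_mul_of_nonneg_right hl0.2 (by positivity)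
  · -- bound of the slope
    obtain ⟨k1, hk1⟩ := H2.nZ
    have h1 := H2.hz k1 hk1 (e ^ 9 / 2) (by linarith) (by
      have : e ^ 9 ≤ 1 := pow_le_one₀ he.le he1
      linarith)
    have h2 : e ^ 9 / 2 / e ^ 9 * (Z2.card : ℝ) = Z2.card / 2 := by field_simp
    rw [h2] at h1
    obtain ⟨k2, hk2, hk12⟩ : ∃ k2 ∈ Z2, e ^ 9 / 2 < |z k2 - z k1| := by
      by_contra hcon
      push Not at hcon
      have : (Z2.filter fun k' => |z k' - z k1| ≤ e ^ 9 / 2) = Z2 :=
        filter_true_of_mem hcon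
      rw [this] at h1
      linarith
    have g1 := hg k1 (hZ2 hk1)
    have g2 := hg k2 (hZ2 hk2)
    have f1 := (H2.zf k1 hk1).2
    have f2 := (H2.zf k2 hk2).2
    have h3 : |μ| * |z k2 - z k1| ≤ 4 := by
      rw [← abs_mul]
      have e1 : μ * (z k2 - z k1) = (f k2 - f k1) - ((f k2 - μ * z k2 - g0) -
          (f k1 - μ * z k1 - g0)) := by ring
      rw [e1]
      have b1 := abs_sub (f k2 - f k1) ((f k2 - μ * z k2 - g0) - (f k1 - μ * z k1 - g0))
      have b2 := abs_sub (f k2) (f k1)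
      have b3 := abs_sub (f k2 - μ * z k2 - g0) (f k1 - μ * z k1 - g0)
      linarith
    have h4 : |μ| * (e ^ 9 / 2) ≤ 4 := (mul_le_mul_of_nonneg_left hk12.le (abs_nonneg _)).trans h3
    rw [← one_div, le_div_iff₀ (by positivity)]
    have h5 : |μ| * e ^ 9 ≤ 8 := by linarith
    calc |μ| * e ^ 10 = (|μ| * e ^ 9) * e := by ring
      _ ≤ 8 * (1 / 100) := mul_le_mul h5 H.e1 he.le (by norm_num)
      _ ≤ 1 := by norm_num
  · intro l k hlk
    have h1 := mem_res.1 hlk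
    refine ⟨hg k (hZ2 h1.1.2), ?_⟩
    exact (mem_filter.1 h1.1.1).2

end

end Crest.Agent.R136.LA501
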