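import Crest.Agent.R136.LW1_113
import Crest.Agent.R136.D2a_272

/-!
# R136, row D2: helper272's `DWin` at a window of helper413's `AeW` (helper113)

* `dwin_of_win` : `DWin`; `nu_b0` : the values of the profile;
* `dwin_of_wat` : pruned set with `DWin` and the values, from `WAt`, static data
  `stQ {0, 2, 3, 4} K T Ma`.
-/

set_option autoImplicit false
set_option linter.unusedSectionVars false
set_option linter.unusedVariables false

open Filter Topology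

namespace Crest.Agent.R136.LW113

open Finset Crest.Agent.R136.NetQ186 Crest.Agent.R136.Net191 Crest.Agent.R136.Qg926
open Crest.Agent.R136.Gf356 Crest.Agent.R136.Ev356 Crest.Agent.R136.Aw413
open Crest.Agent.R136.Wq400 Crest.Agent.R136.C2355 Crest.Agent.R136.Fe1355
open Crest.Agent.R136.Xd272 Crest.Agent.R136.Dg219
open Crest.Agent.R138.Ex926 (Base U)

variable {ι : ℕ → Type*} [∀ n, DecidableEq (ι n)] {W : Wnd 11 ι} {f : ∀ n, ι n → Fq4}
  {E : ∀ n, Finset (ι n)} {T K : ℝ}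

theorem cut_bxD0 (T ca cb p xa xb n : ℝ) :
    cut {0, 2, 3, 4} (bxD (fun _ => 0) ca cb p xa xb n) (fun _ => T) =
      bxT T ca cb p xa xb n := by
  funext j
  fin_cases j <;> simp [cut, bxD, bxT]

theorem legW_b0 (hw : WinL W K T) {ca cb p xa xb n : ℝ} (h5 : ca ∈ Set.Icc 0 T)
    (h6 : cb ∈ Set.Icc 0 T) (h7 : p ∈ Set.Icc 0 T) (h8 : xa ∈ Set.Icc 0 T)
    (h9 : xb ∈ Set.Icc 0 T) (h10 : n ∈ Set.Icc 0 T) :
    bxD (fun _ => 0) ca cb p xa xb n ∈ W.legW := by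
  obtain ⟨h1, h2⟩ := bxT_legal hw.T0.le h5.1 h5.2 h6.1 h6.2 h7.1 h7.2 h8.1 h8.2 h9.1 h9.2
    h10.1 h10.2
  refine ⟨?_, fun s hs => ?_⟩
  · rw [hw.S, hw.top, cut_bxD0, hw.R']
    exact ⟨legal_sub hw.mons h1, h2⟩
  · rw [hw.top]
    have h3 := h2 s
    rw [hw.S] at hs
    rw [← cut_bxD0, cut_of_notMem hs] at h3
    exact h3

/-- **values of the profile** -/
theorem nu_b0 (hw : WinL W K T) (ca cb p xa xb n : ℝ) :
    W.nu (bxD (fun _ => 0) ca cb p xa xb n) =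
      W.lam ![T, 0, T, T, T, ca, cb, p, xa, xb, n] - W.lam fun _ => T := by
  unfold Wnd.nu
  rw [hw.S, hw.top, cut_bxD0]
  rfl

/-- all coordinates are at most `1` -/
theorem rb_of_win (h : QWnd W f)
    (hc : ∀ᶠ n in (U : Filter ℕ), W.Good n ∧ E n ⊆ W.Cl n ∧ W.cfg E n = W.cfg0 n (E n))
    (hw : WinL W K T) : ∀ᶠ n in (U : Filter ℕ), ∀ k i l, (i, k) ∈ (W.cfg E n).I →
      (l, k) ∈ (W.cfg E n).I → ∀ s, |(W.cfg E n).rel k i l s| ≤ 1 := by
  have hK1 : 1 ≤ K := h.ok.K0_one.trans hw.K0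
  filter_upwards [hc] with n hn k i l h1 h2 s
  obtain ⟨g, hE, hcfg⟩ := hn
  rw [hcfg] at h1 h2
  rw [hcfg, rel_cfg0]
  split_ifs with hs
  · rw [abs_zero]; exact zero_le_one
  · refine (h.crd_le g (rep_of_mem hE h1).1 (rep_of_mem hE h2).1 s).trans ?_
    rw [div_le_one (h.ok.kap s), hw.kap]
    unfold kapQ
    have : K ^ 1 ≤ K ^ wtQ s := by
      refine pow_le_pow_right₀ hK1 ?_
      fin_cases s <;> simp [wtQ]
    rw [pow_one] at this
    exact hw.K0.trans this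

/-- **the window `DWin`** -/
theorem dwin_of_win (h : QWnd W f)
    (hc : ∀ᶠ n in (U : Filter ℕ), W.Good n ∧ E n ⊆ W.Cl n ∧ W.cfg E n = W.cfg0 n (E n))
    (hw : WinL W K T) (H : RModel W.B' (W.cfg E) 1 T W.legW W.nu W.Dc)
    (twE : RawTw W.B' (W.cfg E) fun n k k' => flg W n k' 2 - flg W n k 2)
    (twF : RawTw W.B' (W.cfg E) fun n k k' => flg W n k' 3 - flg W n k 3) :
    DWin W.B' (W.cfg E) W.legW W.nu T W.Dc (fun n k => flg W n k 2) (fun n k => flg W n k 4)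
      (fun n k => flg W n k 3) where
  H := H
  T0 := hw.T0
  W := by
    have h0 := lin_of_win h hc hw H.toRUnif
    refine ⟨h0.K1, h0.bd, ?_, h0.add, h0.mv⟩
    intro ε hε
    filter_upwards [rb_of_win h hc hw] with n hn i l k h3 h4 s
    refine (hn k i l h3 h4 s).trans ?_
    rw [H.base n]
    have hs : bxD (fun _ => 0) 0 0 0 0 0 0 s = 0 := by
      fin_cases s <;> simp [bxD]
    rw [hs, zero_sub]
    exact Real.one_le_rpow_of_pos_of_le_one_of_nonpos (W.B'.pos n) (W.B'.lt n).le (by linarith)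
  leg := fun ca cb p xa xb n g1 g2 g3 g4 g5 g6 => legW_b0 hw g1 g2 g3 g4 g5 g6
  rb := rb_of_win h hc hw
  twE := twE
  twF := twF

section wat

variable {B : Base} {I : ∀ n, Finset (ι n)} {co : ∀ n, ι n → ι n → Fin 11 → ℝ} {Ma : Mons 11}
  {C : ℝ} {lam : (Fin 11 → ℝ) → ℝ} {V Tw : Fin 11 → Prop}

/-- **`DWin` at a window of `AeW`** -/
theorem dwin_of_wat (h : WAt B I co monQ Ma C lam V Tw (stQ {0, 2, 3, 4} K T Ma) W)
    (hco : ∀ n, ∀ i ∈ I n, ∀ j ∈ I n, co n i j = coQ (f n i) (f n j))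
    (hM : MaQ Ma) (hsub : ∀ k, Ma.mon k ⊆ monQ.mon k) (hK : cK0 monQ C ≤ K) (hT : 0 < T)
    (hV : ∀ k, V k → k = 0 ∨ k = 2 ∨ k = 3 ∨ k = 4) (hT2 : Tw 2) (hT3 : Tw 3)
    (hden : (stQ {0, 2, 3, 4} K T Ma).Dens lam 1 T) :
    ∃ (E' : ∀ n, Finset (ι n)),
      DWin W.B' (W.cfg E') W.legW W.nu T W.Dc (fun n k => flg W n k 2)
        (fun n k => flg W n k 4) (fun n k => flg W n k 3) ∧
      ∀ ca cb p xa xb n : ℝ, W.nu (bxD (fun _ => 0) ca cb p xa xb n) =
        lam ![T, 0, T, T, T, ca, cb, p, xa, xb, n] - lam fun _ => T := by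
  obtain ⟨E', g, hP, -, H, htw⟩ := h.model (σ' := 1) (R := T) hden (fun _ _ _ => 0)
    (g₀ := fun n => n) (tendsto_natCast_atTop_atTop.mono_left
      Crest.Agent.R138.Ex926.U_le_atTop) (fun k hk => by
      left
      show k ∈ ({0, 2, 3, 4} : Finset (Fin 11))
      rcases hV k hk with rfl | rfl | rfl | rfl <;> decide)
  have hw := winL_of_wat h hM hsub hK hT
  have hq : QWnd W f := qwnd_of_wat h hco (by
    show ∀ s ∈ ({0, 2, 3, 4} : Finset (Fin 11)), _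
    decide)
  have hc := hcQ hq hP
  have tw : ∀ s : Fin 11, s = 2 ∨ s = 3 → Tw s →
      RawTw W.B' (W.cfg E') (fun n k k' => flg W n k' s - flg W n k s) := by
    intro s hs hTs
    refine C2w400.rawTw_of_rawL hq hc (s := s) (by
      rw [hw.S]; rcases hs with rfl | rfl <;> decide) (by tauto) hT (by rw [hw.top]) ?_
    refine htw s (by
      show s ∈ ({0, 2, 3, 4} : Finset (Fin 11))
      rcases hs with rfl | rfl <;> decide) hTs hT ⟨T, hT, ?_⟩
    show cut {0, 2, 3, 4} (fun _ => T) (Pi.single s T) ∈ coneM Ma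
    exact leg_cone (R := T) (Mw := Ma) (fun k => Finset.Subset.refl _)
      ⟨legal_sub hsub (single_legal hT.le hs).1, (single_legal hT.le hs).2⟩
  refine ⟨E', dwin_of_win hq hc hw H (tw 2 (Or.inl rfl) hT2) (tw 3 (Or.inr rfl) hT3), ?_⟩
  intro ca cb p xa xb n
  rw [nu_b0 hw, h.elam]

/-- the same, density and Frostman hypotheses spelled out -/
theorem dwin_of_wat' (h : WAt B I co monQ Ma C lam V Tw (stQ {0, 2, 3, 4} K T Ma) W)
    (hco : ∀ n, ∀ i ∈ I n, ∀ j ∈ I n, co n i j = coQ (f n i) (f n j))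
    (hM : MaQ Ma) (hsub : ∀ k, Ma.mon k ⊆ monQ.mon k) (hK : cK0 monQ C ≤ K) (hT : 0 < T)
    (hV : ∀ k, V k → k = 0 ∨ k = 2 ∨ k = 3 ∨ k = 4) (hT2 : Tw 2) (hT3 : Tw 3)
    (hdens : lam (fun _ => T) ≤ lam (cut {0, 2, 3, 4} (fun _ => T) 0) +
      lam (cut {0, 2, 3, 4} 0 fun _ => T))
    (hfr : ∀ y, 0 ≤ y → y ≤ T → lam (Pi.single 0 y) ≤ -y) :
    ∃ (E' : ∀ n, Finset (ι n)),
      DWin W.B' (W.cfg E') W.legW W.nu T W.Dc (fun n k => flg W n k 2)
        (fun n k => flg W n k 4) (fun n k => flg W n k 3) ∧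
      ∀ ca cb p xa xb n : ℝ, W.nu (bxD (fun _ => 0) ca cb p xa xb n) =
        lam ![T, 0, T, T, T, ca, cb, p, xa, xb, n] - lam fun _ => T :=
  dwin_of_wat h hco hM hsub hK hT hV hT2 hT3
    { dens := hdens
      σ0 := zero_le_one
      σ1 := le_rfl
      hR := le_rfl
      frost := fun y hy hyT => by
        rw [one_mul]; exact hfr y hy hyT }

end wat

end Crest.Agent.R136.LW113
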