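import Crest.Agent.R136.SZ2_480
import Crest.Agent.R136.Qgn5_887
import Crest.Agent.R136.Qh2_831
import Crest.Agent.R136.RL10_478

/-!
# R136, thin branch (helper697): the quadratic resonance, numbers for the final assembly
-/

set_option autoImplicit false
set_option linter.unusedVariables false

open Finset Filter Topology

namespace Crest.Agent.R136.LadG697

open Crest.Agent.R136.Net191
open Crest.Agent.R136.NetW191
open Crest.Agent.R136.PrW464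
open Crest.Agent.R136.NatW697
open Crest.Agent.R136.LadW697
open Crest.Agent.R136.LadT830
open Crest.Agent.R136.SZ480
open Crest.Agent.R136.RL478
open Crest.Agent.R136.Qh831

section

variable {θ : Fin 3 → ℝ} {V : Set (Fin 18)}

/-- the resonant weight and the dropped slots -/
theorem quad_b (h1 : 0 < θ 1) (hres : Res2 θ) : ∃ (b : ℤ) (D : Finset (Fin 18)),
    (1 - θ 0) + b * θ 1 = 2 ∧ (↑D : Set (Fin 18)) = DrR θ 2 ∧
    ((b = 4 ∧ D = {4, 5, 6, 8}) ∨ (b = 3 ∧ D = {4, 5, 6, 7, 8}) ∨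
      (b = 2 ∧ D = {4, 5, 6, 7, 8, 9})) := by
  have hd : ∀ k : Fin 18, k ∈ DrW ((2 : ℤ) : ℝ) ↔ k ∈ ({4, 5, 6, 8} : Finset (Fin 18)) := by
    intro k
    have e : k ∈ DrW ((2 : ℤ) : ℝ) ↔ 4 ≤ k ∧ 2 < alW k := by
      constructor
      · rintro ⟨h, h2⟩; exact ⟨h, by exact_mod_cast h2⟩
      · rintro ⟨h, h2⟩; exact ⟨h, by exact_mod_cast h2⟩
    rw [e]; clear e; revert k; decide
  rcases hres with h | h | h
  · refine ⟨4, {4, 5, 6, 8}, ?_, ?_, Or.inl ⟨rfl, rfl⟩⟩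
    · simp only [btW, grW, wz, wc, wn] at h
      simp at h
      push_cast
      linarith
    · ext k
      simp only [DrR, Set.mem_union, hd, mem_coe]
      have := jr7 h1 h k
      tauto
  · refine ⟨3, {4, 5, 6, 7, 8}, ?_, ?_, Or.inr (Or.inl ⟨rfl, rfl⟩)⟩
    · simp only [btW, grW, wz, wc, wn] at h
      simp at h
      push_cast
      linarith
    · ext k
      simp only [DrR, Set.mem_union, hd, mem_coe]
      rw [← jr9 h1 h k]
      revert k; decide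
  · refine ⟨2, {4, 5, 6, 7, 8, 9}, ?_, ?_, Or.inr (Or.inr ⟨rfl, rfl⟩)⟩
    · simp only [btW, grW, wz, wc, wn] at h
      simp at h
      push_cast
      linarith
    · ext k
      simp only [DrR, Set.mem_union, hd, mem_coe]
      rw [← jr10 h1 h k]
      revert k; decide

/-- **side facts of the quadratic resonance** (`D` = dropped slots) -/
theorem quad_side {b : ℤ} {D : Finset (Fin 18)}
    (h : (b = 4 ∧ D = {4, 5, 6, 8}) ∨ (b = 3 ∧ D = {4, 5, 6, 7, 8}) ∨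
      (b = 2 ∧ D = {4, 5, 6, 7, 8, 9})) :
    0 ≤ b ∧ b ≤ 4 ∧ (∀ k, 4 ≤ k → k ∉ D → 0 ≤ wc k + b) ∧ (∀ k ∈ D, 4 ≤ k ∧ k ≤ 9) ∧
      (∀ k, 4 ≤ k → k ∉ D → wc k + b = 0 → k ∈ JW 2 ∨ (b = 2 ∧ k = 14)) ∧
      (4 ∈ D ∧ 5 ∈ D ∧ 6 ∈ D ∧ 8 ∈ D) := by
  rcases h with ⟨rfl, rfl⟩ | ⟨rfl, rfl⟩ | ⟨rfl, rfl⟩ <;> decide

theorem btW_JW2 {b : ℤ} (hb : (1 - θ 0) + b * θ 1 = 2) {k : Fin 18} (hk : k ∈ JW 2) :
    btW θ k = -((wc k + b : ℤ) : ℝ) * θ 1 := by
  have h := mem_JW.1 hk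
  have hz : wz k = -2 := by
    have := h.2
    simp only [alW, if_pos h.1] at this
    omega
  have hn : wn k = 1 := (by decide : ∀ k : Fin 18, 4 ≤ k → wn k = 1) k h.1
  simp only [btW, grW, hz, hn]
  push_cast
  linarith

/-- visible slots are the slots of `A` and `B` -/
theorem vis_quad (vis : ∀ k ∈ V, (4 ≤ k ∧ k ≠ 13 ∧ k ≠ 16 ∧ k ≠ 17) ∧ 0 < btW θ k)
    (hs : ∀ k ∈ V, KW θ k < 2) : ∀ k ∈ V, k = 14 ∨ k = 15 := fun k hk =>
  affine_of_KW (vis k hk).1.1 (vis k hk).1.2.2.1 (vis k hk).1.2.2.2 (vis k hk).2 (hs k hk)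

end

end Crest.Agent.R136.LadG697
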