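import Crest.Agent.R136.QGb_312

/-!
# R136, thin branch (helper312): the law at the interior base in the units of the record window

`YI` = interior base, `XR` = record base, `natX YI k = natX XR k + w (c btW θ k)` in the slots of
weight `s`; `j` = one correction per incidence.
* `pair_rec` : pair law, precision `x` at `YI` ⊢ precision `K` at `XR`.
* `size_rec` : sizes at `YI` (dropped slots: precision `x`; slots with `btW θ k < 0`: natural at
  `t = 0`) ⊢ sizes at `XR`.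
-/

set_option autoImplicit false
set_option linter.unusedVariables false

open Finset Filter Topology

namespace Crest.Agent.R136.QG312

open Crest.Agent.R136.Net191
open Crest.Agent.R136.NetW191
open Crest.Agent.R136.PrW464
open Crest.Agent.R136.NatW697
open Crest.Agent.R136.LadW697
open Crest.Agent.R136.LadG697
open Crest.Agent.R138.Ex926

section law

variable {θ : Fin 3 → ℝ} {s : ℤ} {Dr : Set (Fin 18)} {B B' : Base} {J : ℕ → Finset (ℕ × ℝ)}
  {u : ℕ → Fin 18 → ℝ} {YI XR : ℕ → Fin 18 → ℝ} {w : ℕ → ℝ} {c K x : ℝ}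

/-- change of units -/
theorem unit_rec (hB : ∀ n, B'.d n = B.d n ^ w n)
    (hpos : ∀ n, ∀ k ∈ JW s, natX YI n k = natX XR n k + w n * (c * btW θ k)) {n : ℕ} {k : Fin 18}
    (hk : k ∈ JW s) {a b : ℝ} (hab : b ≤ c * btW θ k + a) :
    B.d n ^ natX YI n k * B'.d n ^ a ≤ B.d n ^ natX XR n k * B'.d n ^ b := by
  have hB0 := B.pos n
  have hB1 := B'.pos n
  have e1 : B.d n ^ (w n * (c * btW θ k)) = B'.d n ^ (c * btW θ k) := by
    rw [Real.rpow_mul hB0.le, ← hB]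
  rw [hpos n k hk, Real.rpow_add hB0, e1, mul_assoc, ← Real.rpow_add hB1]
  exact mul_le_mul_of_nonneg_left
    (Real.rpow_le_rpow_of_exponent_ge hB1 (B'.lt n).le hab) (Real.rpow_pos_of_pos hB0 _).le

/-- **pair law** -/
theorem pair_rec (hB : ∀ n, B'.d n = B.d n ^ w n)
    (hpos : ∀ n, ∀ k ∈ JW s, natX YI n k = natX XR n k + w n * (c * btW θ k))
    (hx : ∀ k ∈ JW s, K ≤ c * btW θ k + x)
    {R : ℕ → (ℕ × ℝ) → (ℕ × ℝ) → Prop} {Df : ℕ → (ℕ × ℝ) → (ℕ × ℝ) → Fin 14 → ℝ}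
    (h : ∀ ε : ℝ, 0 < ε → ∀ᶠ n in (U : Filter ℕ), ∀ i ∈ J n, ∀ i' ∈ J n, R n i i' →
      ∀ p : Fin 14, Fin.natAdd 4 p ∈ JW s → u n (Fin.natAdd 4 p) * |Df n i i' p| ≤
        B.d n ^ natX YI n (Fin.natAdd 4 p) * B'.d n ^ (x - ε)) :
    ∀ ε : ℝ, 0 < ε → ∀ᶠ n in (U : Filter ℕ), ∀ i ∈ J n, ∀ i' ∈ J n, R n i i' →
      ∀ p : Fin 14, Fin.natAdd 4 p ∈ JW s → u n (Fin.natAdd 4 p) * |Df n i i' p| ≤
        B.d n ^ natX XR n (Fin.natAdd 4 p) * B'.d n ^ (K - ε) := by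
  intro ε hε
  filter_upwards [h ε hε] with n hn i hi i' hi' hR p hp
  refine (hn i hi i' hi' hR p hp).trans (unit_rec hB hpos hp ?_)
  have := hx _ hp
  linarith

/-- **sizes** -/
theorem size_rec (hB : ∀ n, B'.d n = B.d n ^ w n)
    (hpos : ∀ n, ∀ k ∈ JW s, natX YI n k = natX XR n k + w n * (c * btW θ k))
    {Q : Finset (Fin 14)} (hQ : ∀ p ∈ Q, Fin.natAdd 4 p ∈ JW s)
    (hb : ∀ k ∈ JW s, k ∉ Dr → btW θ k ≤ 0)
    (hx : ∀ k ∈ JW s, max 0 (btW θ k) ≤ c * btW θ k + x)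
    {j : ℕ → ℕ × ℝ → Fin 14 → ℝ} (hsup : ∀ n i p, p ∉ Q → j n i p = 0)
    (h0 : ∀ p ∈ Q, Fin.natAdd 4 p ∉ Dr → btW θ (Fin.natAdd 4 p) = 0 → ∀ ε : ℝ, 0 < ε →
      ∀ᶠ n in (U : Filter ℕ), ∀ i ∈ J n, u n (Fin.natAdd 4 p) * |j n i p| ≤
        B.d n ^ natX YI n (Fin.natAdd 4 p) * B'.d n ^ (-ε))
    (h1 : ∀ p ∈ Q, Fin.natAdd 4 p ∈ Dr → ∀ ε : ℝ, 0 < ε →
      ∀ᶠ n in (U : Filter ℕ), ∀ i ∈ J n, u n (Fin.natAdd 4 p) * |j n i p| ≤
        B.d n ^ natX YI n (Fin.natAdd 4 p) * B'.d n ^ (x - ε))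
    (h2 : ∀ p ∈ Q, Fin.natAdd 4 p ∉ Dr → btW θ (Fin.natAdd 4 p) < 0 → ∀ ε : ℝ, 0 < ε →
      ∀ᶠ n in (U : Filter ℕ), ∀ i ∈ J n, u n (Fin.natAdd 4 p) * |j n i p| ≤
        B.d n ^ natX YI n (Fin.natAdd 4 p) *
          B'.d n ^ (-(c * btW θ (Fin.natAdd 4 p)) - ε)) :
    ∀ ε : ℝ, 0 < ε → ∀ᶠ n in (U : Filter ℕ), ∀ i ∈ J n, ∀ p : Fin 14,
      u n (Fin.natAdd 4 p) * |j n i p| ≤ B.d n ^ natX XR n (Fin.natAdd 4 p) *
        B'.d n ^ (max 0 (btW θ (Fin.natAdd 4 p)) - ε) := by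
  intro ε hε
  have key : ∀ p : Fin 14, ∀ᶠ n in (U : Filter ℕ), ∀ i ∈ J n,
      u n (Fin.natAdd 4 p) * |j n i p| ≤ B.d n ^ natX XR n (Fin.natAdd 4 p) *
        B'.d n ^ (max 0 (btW θ (Fin.natAdd 4 p)) - ε) := by
    intro p
    by_cases hp : p ∈ Q
    swap
    · refine Eventually.of_forall fun n i _ => ?_
      rw [hsup n i p hp, abs_zero, mul_zero]
      exact mul_nonneg (Real.rpow_pos_of_pos (B.pos n) _).le (Real.rpow_pos_of_pos (B'.pos n) _).le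
    have hpJ := hQ p hp
    by_cases hD : Fin.natAdd 4 p ∈ Dr
    · filter_upwards [h1 p hp hD ε hε] with n hn i hi
      refine (hn i hi).trans (unit_rec hB hpos hpJ ?_)
      have := hx _ hpJ
      linarith
    rcases (hb _ hpJ hD).eq_or_lt with h3 | h3
    · filter_upwards [h0 p hp hD h3 ε hε] with n hn i hi
      refine (hn i hi).trans (unit_rec hB hpos hpJ ?_)
      rw [h3, max_self, mul_zero]
      linarith
    · filter_upwards [h2 p hp hD h3 ε hε] with n hn i hi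
      refine (hn i hi).trans (unit_rec hB hpos hpJ ?_)
      rw [max_eq_left h3.le]
      linarith
  rw [← Filter.eventually_all] at key
  filter_upwards [key] with n hn i hi p
  exact hn p i hi

end law

/-- a precision which is large enough for all slots -/
theorem exists_prec (θ : Fin 3 → ℝ) (c K : ℝ) :
    ∃ x : ℝ, 1 ≤ x ∧ (∀ k, K ≤ c * btW θ k + x) ∧ ∀ k, max 0 (btW θ k) ≤ c * btW θ k + x := by
  refine ⟨1 + |K| + |c| * ‖btW θ‖ + ‖btW θ‖, ?_, fun k => ?_, fun k => ?_⟩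
  · have h1 := abs_nonneg K
    have h2 := mul_nonneg (abs_nonneg c) (norm_nonneg (btW θ))
    have h3 := norm_nonneg (btW θ)
    linarith
  all_goals
    have h0 := norm_le_pi_norm (btW θ) k
    rw [Real.norm_eq_abs] at h0
    have h1 : |c * btW θ k| ≤ |c| * ‖btW θ‖ := by
      rw [abs_mul]; exact mul_le_mul_of_nonneg_left h0 (abs_nonneg c)
    have h2 := (abs_le.1 h1).1
    have h3 := le_abs_self K
    have h4 := abs_nonneg K
    have h5 := norm_nonneg (btW θ)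
    have h6 := le_abs_self (btW θ k)
    first
    | linarith
    | (refine max_le ?_ ?_ <;> linarith)

end Crest.Agent.R136.QG312
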