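import Crest.Agent.R136.Qh2_831

/-!
# R136, thin branch (helper831): a relation on the interior classes gives the input of the gauge step

* `ownz_of` : own motion of the gauged chart.
* **`hasGau_of_law`** : record window with D-max, stage and `JLaw` give `HasGau`.
-/

set_option autoImplicit false
set_option linter.unusedVariables false

open Finset Filter Topology

namespace Crest.Agent.R136.Qh831

open Crest.Agent.R136.Net191
open Crest.Agent.R136.NetW191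
open Crest.Agent.R136.PrW464
open Crest.Agent.R136.NatW697
open Crest.Agent.R136.LadW697
open Crest.Agent.R136.LadG697
open Crest.Agent.R136.Top484
open Crest.Agent.R136.NatT550
open Crest.Agent.R136.ThS830
open Crest.Agent.R136.LadT830
open Crest.Agent.R136.Zpr779
open Crest.Agent.R136.Qg926
open Crest.Agent.R136.EvW938
open Crest.Agent.R136.GauW619
open Crest.Agent.R136.AwJ774
open Crest.Agent.R136.K2S774
open Crest.Agent.R136.RL66
open Crest.Agent.R136.RL478 (IWG GdU)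
open Crest.Agent.R136.RL626 (mvz new_pair coW_gau_two side_le)
open Crest.Agent.R138.Ex926
open Crest.Agent.R136.Gau66 (popular_fs few_labels sub_rpow zprof_refine)

section own

variable {θ : Fin 3 → ℝ} {V : Set (Fin 18)} {B B' : Base} {κ : ℕ → ℝ}
  {u : ℕ → Fin 18 → ℝ} {F : ℕ → ℕ × ℝ → FW} {X : ℕ → Fin 18 → ℝ} {R1 : ℝ}
  {E : ℕ → Finset (ℕ × ℝ)} {e : ℕ → ℕ × ℝ → Fin 14 → ℝ}

theorem exists_flag {k : Fin 18} (hk : 4 ≤ k) : ∃ q : Fin 14, k = Fin.natAdd 4 q := by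
  have h4 : (4 : ℕ) ≤ k.1 := hk
  refine ⟨⟨k.1 - 4, by omega⟩, ?_⟩
  ext
  simp only [Fin.natAdd_mk]
  omega

/-- **own motion in the gauged chart** -/
theorem ownz_of {Sp Js : Finset (Fin 14)} (hSp : Sp ⊆ Sq) (hSJ : Sp ⊆ Js) (hR : 0 < R1)
    (hu : ∀ n, GrU (u n)) (hκ : ∀ n, |κ n| ≤ 1) (hV : ∀ k ∈ V, (4 : Fin 18) ≤ k)
    (supp : ∀ n i p, p ∉ Sp → e n i p = 0)
    (size : ∀ ε : ℝ, 0 < ε → ∀ᶠ n in (U : Filter ℕ), ∀ i ∈ E n, ∀ p : Fin 14,
      u n (Fin.natAdd 4 p) * |e n i p| ≤ B'.d n ^ (-ε) * B.d n ^ natX X n (Fin.natAdd 4 p))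
    (ownc : ∀ ε : ℝ, 0 < ε → ∀ᶠ n in (U : Filter ℕ), ∀ i ∈ E n, ∀ j ∈ E n, i.1 = j.1 →
      ∀ k, |coU u κ F n i j k| ≤ B.d n ^ natX X n k * B'.d n ^ (ob0 V (20 * R1) k - ε))
    (zero : ∀ ε : ℝ, 0 < ε → ∀ᶠ n in (U : Filter ℕ), ∀ i ∈ E n, ∀ j ∈ E n, ∀ q ∈ Js,
      |coU u κ (fG κ e F) n i j (Fin.natAdd 4 q)| ≤
        B.d n ^ natX X n (Fin.natAdd 4 q) * B'.d n ^ (R1 - ε)) :
    ∀ ε : ℝ, 0 < ε → ∀ᶠ n in (U : Filter ℕ), ∀ i ∈ E n, ∀ j ∈ E n, i.1 = j.1 →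
      ∀ k, 4 ≤ k → k ∉ V → |coU u κ (fG κ e F) n i j k| ≤
        B.d n ^ natX X n k * B'.d n ^ (R1 - ε) := by
  intro ε hε
  set ε' : ℝ := min ε R1 / 8 with hε'
  have he0 : 0 < ε' := by positivity
  have he1 : ε' ≤ R1 / 8 := by
    rw [hε']; exact div_le_div_of_nonneg_right (min_le_right _ _) (by norm_num)
  have he2 : ε' ≤ ε / 8 := by
    rw [hε']; exact div_le_div_of_nonneg_right (min_le_left _ _) (by norm_num)
  filter_upwards [size ε' he0, ownc ε' he0, zero ε hε,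
    Crest.Agent.R136.Gf356.ev_const_le B' (t := ε / 2) (by positivity) 471]
    with n hsz hown hz hc i hi j hj hij k hk4 hkV
  have hdp : ∀ v : ℝ, 0 < B'.d n ^ v := fun v => Real.rpow_pos_of_pos (B'.pos n) _
  have hBp : ∀ v : ℝ, 0 < B.d n ^ v := fun v => Real.rpow_pos_of_pos (B.pos n) _
  have hmono : ∀ {v v' : ℝ}, v ≤ v' → B'.d n ^ v' ≤ B'.d n ^ v := fun {v v'} h =>
    Real.rpow_le_rpow_of_exponent_ge (B'.pos n) (B'.lt n).le h
  obtain ⟨q, rfl⟩ := exists_flag hk4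
  by_cases hqJ : q ∈ Js
  · exact hz i hi j hj q hqJ
  have hqS : q ∉ Sp := fun h => hqJ (hSJ h)
  have hK : 1 ≤ B'.d n ^ (-ε') := by
    have := hmono (v := -ε') (v' := 0) (by linarith)
    rwa [Real.rpow_zero] at this
  have hτ1 : B'.d n ^ (20 * R1) ≤ 1 := by
    have := hmono (v := 0) (v' := 20 * R1) (by linarith)
    rwa [Real.rpow_zero] at this
  have hKτ : B'.d n ^ (-ε') * B'.d n ^ (20 * R1) = B'.d n ^ (20 * R1 - ε') := by
    rw [← Real.rpow_add (B'.pos n)]; congr 1; ring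
  have hnot : ∀ i : Fin 4, i ≠ 0 → ob0 V (20 * R1) (Fin.castAdd 14 i) = 20 * R1 := by
    intro i hi0
    unfold ob0
    rw [if_neg]
    rintro (h | h)
    · apply hi0
      have := congrArg Fin.val h
      ext
      simpa using this
    · have h4 : (4 : ℕ) ≤ (Fin.castAdd 14 i : Fin 18).val := hV _ h
      simp only [Fin.val_castAdd] at h4
      omega
  have hob0 : ob0 V (20 * R1) 0 = 0 := by unfold ob0; rw [if_pos (Or.inl rfl)]
  have hv : |u n (Fin.natAdd 4 q) * coW (κ n) (F n i) (F n j) (Fin.natAdd 4 q) -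
      u n (Fin.natAdd 4 q) * mvz (κ n) (coW (κ n) (F n i) (F n j) 0) (e n i) q| ≤
      B'.d n ^ R1 * B.d n ^ grW (X n 0) (X n 1) (X n 17) (Fin.natAdd 4 q) := by
    have h0 : mvz (κ n) (coW (κ n) (F n i) (F n j) 0) (e n i) q = 0 :=
      mvz_Sq (fun p hp => supp n i p fun h => hp (hSp h)) q
    rw [h0, mul_zero, sub_zero]
    have h1 := hown i hi j hj hij (Fin.natAdd 4 q)
    have h2 : ob0 V (20 * R1) (Fin.natAdd 4 q) = 20 * R1 := by
      unfold ob0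
      rw [if_neg]
      rintro (h | h)
      · have := congrArg Fin.val h
        simp at this
      · exact hkV h
    rw [h2] at h1
    refine h1.trans ?_
    rw [mul_comm]
    exact mul_le_mul_of_nonneg_right (hmono (by linarith)) (hBp _).le
  have key := new_pair (d := B.d n) (κ := κ n) (B.pos n) (hκ n) (hu n) (ζ := X n 0) (χ := X n 1)
    (ν := X n 17) (K := B'.d n ^ (-ε')) (τ := B'.d n ^ (20 * R1)) hK (hdp _).le hτ1
    (e := e n i) (f := F n i) (f' := F n j) (fun p => hsz i hi p)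
    (by
      have h1 := hown i hi j hj hij 0
      rw [hob0, zero_sub, mul_comm] at h1
      exact h1)
    (fun a ha => by
      have h1 := hown i hi j hj hij (Fin.castAdd 14 a)
      rw [hnot a ha, mul_comm, ← hKτ] at h1
      exact h1) (q := q) (E := B'.d n ^ R1) hv
  have e1 : coU u κ (fG κ e F) n i j (Fin.natAdd 4 q) = u n (Fin.natAdd 4 q) *
      coW (κ n) (gau (κ n) (e n i) (F n i)) (gau (κ n) (e n i) (F n j)) (Fin.natAdd 4 q) := by
    unfold coU fG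
    rw [coW_gau_two, supp n i q hqS, supp n j q hqS]
    ring
  rw [e1]
  have h7 : (B'.d n ^ (-ε')) ^ 7 * B'.d n ^ (20 * R1) ≤ B'.d n ^ R1 := by
    rw [← Real.rpow_natCast, ← Real.rpow_mul (B'.pos n).le, ← Real.rpow_add (B'.pos n)]
    refine hmono ?_
    push_cast
    linarith
  have key2 : B'.d n ^ R1 + 470 * (B'.d n ^ (-ε')) ^ 7 * B'.d n ^ (20 * R1) ≤
      B'.d n ^ (R1 - ε) := by
    calc B'.d n ^ R1 + 470 * (B'.d n ^ (-ε')) ^ 7 * B'.d n ^ (20 * R1)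
        = B'.d n ^ R1 + 470 * ((B'.d n ^ (-ε')) ^ 7 * B'.d n ^ (20 * R1)) := by ring
      _ ≤ B'.d n ^ R1 + 470 * B'.d n ^ R1 := by gcongr
      _ = 471 * B'.d n ^ R1 := by ring
      _ ≤ B'.d n ^ (-(ε / 2)) * B'.d n ^ R1 := mul_le_mul_of_nonneg_right hc (hdp _).le
      _ = B'.d n ^ (R1 - ε / 2) := by rw [← Real.rpow_add (B'.pos n)]; congr 1; ring
      _ ≤ B'.d n ^ (R1 - ε) := hmono (by linarith)
  refine key.trans ?_
  have h9 := mul_le_mul_of_nonneg_right key2 (hBp (natX X n (Fin.natAdd 4 q))).le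
  have e9 : natX X n (Fin.natAdd 4 q) = grW (X n 0) (X n 1) (X n 17) (Fin.natAdd 4 q) := rfl
  rw [← e9, mul_comm (B.d n ^ natX X n (Fin.natAdd 4 q))]
  exact h9

end own

section

variable {θ : Fin 3 → ℝ} {g : ℝ} {q : Fin 3 → ℝ} {V Dr Z : Set (Fin 18)}
  {P : Set (Fin 18 → ℝ)} {ν own : (Fin 18 → ℝ) → ℝ} {r0 : Fin 18 → ℝ}
  {B B' : Base} {I0 J : ℕ → Finset (ℕ × ℝ)} {κ : ℕ → ℝ} {u : ℕ → Fin 18 → ℝ}
  {F : ℕ → ℕ × ℝ → FW} {X : ℕ → Fin 18 → ℝ} {w Tn To : ℕ → ℝ}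
  {lam lo : (Fin 18 → ℝ) → ℝ}

/-- **from the relation on the interior classes to the gauge input** -/
theorem hasGau_of_law
    (th1 : 0 < θ 1) (q1 : 0 < q 1) (q2 : 0 < q 2) (q0 : 0 ≤ q 0) (qg : 4 * q 0 < g)
    (qθ : 8 * (q 0 * (max (-(θ 0)) 0 + |θ 1| + |θ 2|)) ≤ g)
    (vis : ∀ k ∈ V, (4 ≤ k ∧ k ≠ 13 ∧ k ≠ 16 ∧ k ≠ 17) ∧ 0 < btW θ k)
    (dr4 : ∀ k ∈ Dr, 4 ≤ k ∧ k ≠ 17 ∧ k ∉ V) (capV : CapCl V)
    (u0 : ∀ n, GrU (u n)) (κ1 : ∀ n, |κ n| ≤ 1)
    (W : IWG θ g q B B' I0 J κ u F X w Dr Tn To lam lo)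
    (st : Stage QW P ν own 18 r0 (btW θ) (DlW g q) (QdW θ) Z V 0 (btW θ) 1 (actW Dr) Dr lam lo)
    {T1 w1 R1 : ℝ} (big : BigW θ w1 R1 T1) {b : ℤ} (b0 : 0 ≤ b) (b4 : b ≤ 4)
    (hlo : ∀ k, 4 ≤ k → k ∉ Dr → 0 ≤ wc k + b)
    (hlo0 : ∀ k, 4 ≤ k → k ∉ Dr → wc k + b = 0 → 0 ≤ btW θ k)
    {J1 : ℕ → Finset (ℕ × ℝ)} (hs1 : ∀ n, J1 n ⊆ J n) {Sd : ℕ → ℝ} (hSd : B'.Sub Sd)
    (hd : ∀ᶠ n in (U : Filter ℕ), ((J n).card : ℝ) ≤ Sd n * ((J1 n).card : ℝ))
    {YI : ℕ → Fin 18 → ℝ} (hleg : ∀ᶠ n in (U : Filter ℕ), Legal monW (YI n))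
    (hYI : ∀ᶠ n in (U : Filter ℕ), YI n ≤ X n + w n • bCq b w1)
    {Sp Js : Finset (Fin 14)} (hSp : Sp ⊆ Sq) (hSJ : Sp ⊆ Js)
    (hJV : ∀ q ∈ Js, Fin.natAdd 4 q ∉ V) {K : ℝ} (hK : R1 ≤ K)
    {j : ℕ → ℕ × ℝ → Fin 14 → ℝ} (L : JLaw θ B B' I0 J1 κ u F X YI Sp Js K j)
    {Zs : Set (Fin 18)}
    (hZs : ∀ k ∈ Zs, (∃ q ∈ Js, k = Fin.natAdd 4 q) ∨ (k ∈ Dr ∧ ∃ q, k = Fin.natAdd 4 q ∧
      q ∉ Sp ∧ ∀ t ∈ tms q, t.s ∉ Sp)) :
    HasGau θ g q V Zs := by
  classical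
  have hw1 : 0 ≤ w1 := by have := big.T0; have := big.w0T; linarith
  have hR1 : 1 ≤ R1 := by have := big.T0; have := big.R0; linarith
  have hR0 : 0 < R1 := by linarith
  have hV0 : ∀ k ∈ V, (4 : Fin 18) ≤ k := fun k hk => (vis k hk).1.1
  have hbK : ∀ k, bCq b w1 k ≤ ob0 V (20 * R1) k := by
    intro k
    by_cases hk : k = 0 ∨ k ∈ V
    · have e : ob0 V (20 * R1) k = 0 := by unfold ob0; exact if_pos hk
      rw [e]
      have hkD : k ∉ Dr := by
        rintro hD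
        rcases hk with rfl | hk
        · exact absurd (dr4 _ hD).1 (by decide)
        · exact (dr4 _ hD).2.2 hk
      exact bCq_nonpos hw1 fun h4 => hlo k h4 hkD
    · have e : ob0 V (20 * R1) k = 20 * R1 := by unfold ob0; exact if_neg hk
      rw [e]
      refine (bCq_le hw1 b0 k).trans ?_
      have := big.R0
      have := big.T0
      linarith
  obtain ⟨J', s₀, hsub, iw', hcls, hown, hpair⟩ := exists_part2 W.iw st hs1 hSd hd hleg capV
    (bCq_nat Dr b w1) (bCq_zero b w1) (K1 := 20 * R1) (by linarith) hbK hYI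
  set Cl : ℕ → Finset (ℕ × ℝ) := fun n => cls (J' n)
    (zlab B I0 (coU u κ F) monW 67 (fun n => X n + w n • bCq b w1) w n 0) (s₀ n) with hCl
  have hClJ1 : ∀ n, Cl n ⊆ J1 n := fun n i hi => hsub n (mem_cls.1 hi).1
  set e : ℕ → ℕ × ℝ → Fin 14 → ℝ := fun n i p => -j n i p with he
  have hsupp : ∀ n i p, p ∉ Sp → e n i p = 0 := fun n i p hp => by
    simp only [he, L.supp n i p hp, neg_zero]
  have hdp : ∀ n (v : ℝ), 0 < B'.d n ^ v := fun n v => Real.rpow_pos_of_pos (B'.pos n) _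
  have hBp : ∀ n (v : ℝ), 0 < B.d n ^ v := fun n v => Real.rpow_pos_of_pos (B.pos n) _
  have hmono : ∀ n {v v' : ℝ}, v ≤ v' → B'.d n ^ v' ≤ B'.d n ^ v := fun n {v v'} h =>
    Real.rpow_le_rpow_of_exponent_ge (B'.pos n) (B'.lt n).le h
  have hsize : ∀ ε : ℝ, 0 < ε → ∀ᶠ n in (U : Filter ℕ), ∀ i ∈ Cl n, ∀ p : Fin 14,
      u n (Fin.natAdd 4 p) * |e n i p| ≤ B.d n ^ natX X n (Fin.natAdd 4 p) *
        B'.d n ^ (max 0 (btW θ (Fin.natAdd 4 p)) - ε) := by
    intro ε hε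
    filter_upwards [L.size ε hε] with n hn i hi p
    by_cases hp : p ∈ Sp
    · have e1 : |e n i p| = |j n i p| := by simp only [he, abs_neg]
      rw [e1]
      exact hn i (hClJ1 n hi) p hp
    · rw [hsupp n i p hp, abs_zero, mul_zero]
      exact (mul_pos (hBp n _) (hdp n _)).le
  have hownc := ownc_of hV0 dr4 W.iw (E := Cl) (R := 20 * R1) (C0 := cK0 monW 67) (by linarith)
    (hpair.mono fun n hn i hi i' hi' hl k => (hn i hi i' hi').2.2 hl k)
  have hdrop := drop_of dr4 W.iw (E := Cl) (bC := bCq b w1) (C0 := cK0 monW 67)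
    (hpair.mono fun n hn i hi i' hi' k => (hn i hi i' hi').2.1 k) R1
  have hzero : ∀ ε : ℝ, 0 < ε → ∀ᶠ n in (U : Filter ℕ), ∀ i ∈ Cl n, ∀ i' ∈ Cl n, ∀ q ∈ Js,
      |coU u κ (fG κ e F) n i i' (Fin.natAdd 4 q)| ≤
        B.d n ^ natX X n (Fin.natAdd 4 q) * B'.d n ^ (R1 - ε) := by
    intro ε hε
    filter_upwards [L.pair ε hε, hpair] with n h1 h2 i hi i' hi' q hq
    have h3 := h1 i (hClJ1 n hi) i' (hClJ1 n hi') (h2 i hi i' hi').1 q hq
    have e1 : coU u κ (fG κ e F) n i i' (Fin.natAdd 4 q) = u n (Fin.natAdd 4 q) *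
        (coW (κ n) (F n i) (F n i') (Fin.natAdd 4 q) -
          (j n i' q - tr (κ n) (rel (κ n) (F n i).g (F n i').g) (j n i) q)) := by
      unfold coU fG
      rw [coW_gau2, tr_neg_apply]
      ring
    rw [e1, abs_mul, abs_of_pos ((u0 n).pos _)]
    exact h3.trans (mul_le_mul_of_nonneg_left (hmono n (by linarith)) (hBp n _).le)
  have hownz := ownz_of (E := Cl) (e := e) hSp hSJ hR0 u0 κ1 hV0 hsupp (fun ε hε => by
    filter_upwards [hsize ε hε] with n hn i hi p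
    refine (hn i hi p).trans ?_
    rw [mul_comm (B'.d n ^ (-ε))]
    refine mul_le_mul_of_nonneg_left (hmono n ?_) (hBp n _).le
    have := le_max_left 0 (btW θ (Fin.natAdd 4 p))
    linarith) hownc hzero
  have hS : ∀ p : Fin 14, p ∈ Sq → p ≠ 9 ∧ p ≠ 12 ∧ p ≠ 13 := by decide
  have h44 : ∀ q : Fin 14, (4 : Fin 18) ≤ Fin.natAdd 4 q := by decide
  obtain ⟨C, hC, hG⟩ := W.gdu
  exact ⟨V, Dr, P, ν, own, r0, B, B', I0, J', κ, u, F, X, w, Tn, To, lam, lo, w1, R1, T1, bCq b w1,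
    Cl, Cl, s₀, e,
    { th1 := th1
      q1 := q1
      q2 := q2
      q0 := q0
      qg := qg
      qθ := qθ
      vis := vis
      u0 := u0
      κ1 := κ1
      dr4 := dr4
      iw := iw'
      st := ⟨_, st⟩
      gd := gd_sub (fun n => (hsub n).trans (hs1 n)) ⟨C, hC, hG.gd⟩
      natpos := W.natpos
      card := by
        obtain ⟨Hc, h1, h2⟩ := W.card
        refine ⟨Hc, h1, h2.mono fun n hn => le_trans ?_ hn⟩
        have := Nat.log_mono_right (b := 2) (Finset.card_le_card ((hsub n).trans (hs1 n)))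
        have h3 : ((Nat.log 2 (J' n).card : ℕ) : ℝ) ≤ (Nat.log 2 (J n).card : ℕ) := by
          exact_mod_cast this
        linarith
      big := big
      capV := capV
      bnat := bCq_nat Dr b w1
      bz := bCq_zero b w1
      bc := bCq_one b w1
      blo := fun k _ => bCq_ge hw1 b4 k
      bhi := fun k hk v h0 h1 => bCq_hi big (fun h4 => hlo k h4 hk) (fun h4 => hlo0 k h4 hk) h0 h1
      cls := hcls
      esub := Eventually.of_forall fun n => Subset.refl _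
      edens := fun ε hε => by
        filter_upwards with n
        refine le_mul_of_one_le_left (Nat.cast_nonneg _) ?_
        exact Real.one_le_rpow_of_pos_of_le_one_of_nonpos (B'.pos n) (B'.lt n).le (by linarith)
      own := hown
      supp := fun n i => by
        refine ⟨hsupp n i 9 fun h => (hS 9 (hSp h)).1 rfl,
          hsupp n i 12 fun h => (hS 12 (hSp h)).2.1 rfl,
          hsupp n i 13 fun h => (hS 13 (hSp h)).2.2 rfl⟩
      size := hsize
      sub' := subset_rfl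
      ownc := hownc
      ownz := hownz
      zV := fun k hk => by
        rcases hZs k hk with ⟨q', hq', rfl⟩ | ⟨hD, -⟩
        · exact ⟨hJV q' hq', h44 q'⟩
        · exact ⟨(dr4 k hD).2.2, (dr4 k hD).1⟩
      zero := fun k hk ε hε => by
        rcases hZs k hk with ⟨q', hq', rfl⟩ | ⟨hD, q', rfl, hqS, hts⟩
        · filter_upwards [hzero ε hε] with n hn i hi i' hi'
          exact hn i hi i' hi' q' hq'
        · filter_upwards [hdrop] with n hn i hi i' hi'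
          have h1 := hn i hi i' hi' _ hD
          have e1 : coU u κ (fG κ e F) n i i' (Fin.natAdd 4 q') =
              coU u κ F n i i' (Fin.natAdd 4 q') := by
            unfold coU fG
            rw [coW_gau2, tr_unseen (hsupp n i q' hqS) fun t ht => hsupp n i _ (hts t ht),
              hsupp n i' q' hqS]
            ring
          rw [e1]
          exact h1.trans (mul_le_mul_of_nonneg_left (hmono n (by linarith)) (hBp n _).le) }⟩

end

end Crest.Agent.R136.Qh831
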