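import Crest.Agent.R136.LadG4_697
import Crest.Agent.R136.QGc_312
import Crest.Agent.R136.Qh3_831
import Crest.Agent.R136.Qgn4_887
import Crest.Agent.R136.Qgn5_887
import Crest.Agent.R136.Qi1_599

/-!
# R136, thin branch (helper697): the quadratic resonance, front of the final assembly
-/

set_option autoImplicit false
set_option linter.unusedVariables false

open Finset Filter Topology

namespace Crest.Agent.R136.LadG697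

open Crest.Agent.R136.Net191
open Crest.Agent.R136.NetW191
open Crest.Agent.R136.PrW464
open Crest.Agent.R136.NatW697
open Crest.Agent.R136.LadW697
open Crest.Agent.R136.LadT830
open Crest.Agent.R136.Zpr779
open Crest.Agent.R136.Qg926
open Crest.Agent.R136.EvW938
open Crest.Agent.R136.Bas938
open Crest.Agent.R136.AwJ774
open Crest.Agent.R136.K2S774
open Crest.Agent.R136.SZ480
open Crest.Agent.R136.RL478
open Crest.Agent.R136.Qh831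
open Crest.Agent.R136.ThS830
open Crest.Agent.R136.GauW619
open Crest.Agent.R136.Qgn887
open Crest.Agent.R136.QG312
open Crest.Agent.R138.Ex926

section

variable {θ : Fin 3 → ℝ} {V : Set (Fin 18)} {b : ℤ} {D : Finset (Fin 18)}

theorem quad_D3 (hDD : (↑D : Set (Fin 18)) = DrR θ 2)
    (h : (b = 4 ∧ D = {4, 5, 6, 8}) ∨ (b = 3 ∧ D = {4, 5, 6, 7, 8}) ∨
      (b = 2 ∧ D = {4, 5, 6, 7, 8, 9})) : Dr3 (DrR θ 2) := by
  rw [← hDD]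
  rcases h with ⟨-, rfl⟩ | ⟨-, rfl⟩ | ⟨-, rfl⟩ <;>
    exact ⟨by rw [mem_coe]; decide, by rw [mem_coe]; decide, by rw [mem_coe]; decide⟩

theorem DrR2_lo (θ : Fin 3 → ℝ) : ∀ k ∈ DrW 2, k ∈ DrR θ 2 := fun k hk =>
  Or.inl (by rw [two_cast]; exact hk)

/-- zeros of the ray -/
theorem TD_zero (hres : DrOk (DrR θ 2)) {k : Fin 18} (hk : TD (DrR θ 2) k = 0) :
    k = 1 ∨ (k ∈ JW 2 ∧ k ∉ DrR θ 2) := by
  by_cases hD : k ∈ DrR θ 2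
  · rw [TD_mem hD] at hk; exact absurd hk one_ne_zero
  · rw [TD_not hD, TW_of_not fun h => hD (DrR2_lo θ k h)] at hk
    have h1 : ∀ k : Fin 18, wz k + 2 * wn k = 0 → k = 1 ∨ k ∈ JW 2 := by decide
    have h2 : wz k + 2 * wn k = 0 := by
      have : ((wz k + 2 * wn k : ℤ) : ℝ) = 0 := by push_cast; simpa [saW] using hk
      exact_mod_cast this
    rcases h1 k h2 with h3 | h3
    · exact Or.inl h3
    · exact Or.inr ⟨h3, hD⟩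

/-- the record class of base `bCq b w` against the moved interior base -/
theorem ha_quad (h1 : 0 < θ 1) (hb : (1 - θ 0) + b * θ 1 = 2) (hok : DrOk (DrR θ 2)) (w : ℝ)
    (k : Fin 18) (hk : TD (DrR θ 2) k = 0) : w / θ 1 * btW θ k ≤ bCq b w k := by
  have hne : θ 1 ≠ 0 := h1.ne'
  rcases TD_zero hok hk with rfl | ⟨h2, -⟩
  · have e1 : btW θ 1 = -θ 1 := by simp [btW, grW, wz, wc, wn]
    have e2 : bCq b w 1 = -w := by simp [bCq, grW, wz, wc, wn]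
    rw [e1, e2]
    field_simp
    linarith
  · have e2 : bCq b w k = -((wc k + b : ℤ) : ℝ) * w := by
      have h := mem_JW.1 h2
      have hn : wn k = 1 := (by decide : ∀ k : Fin 18, 4 ≤ k → wn k = 1) k h.1
      simp only [bCq, grW, hn]
      push_cast
      ring
    rw [btW_JW2 hb h2, e2]
    refine le_of_eq ?_
    field_simp

theorem hlo0_quad (hb : (1 - θ 0) + b * θ 1 = 2) (hDD : (↑D : Set (Fin 18)) = DrR θ 2)
    (h : (b = 4 ∧ D = {4, 5, 6, 8}) ∨ (b = 3 ∧ D = {4, 5, 6, 7, 8}) ∨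
      (b = 2 ∧ D = {4, 5, 6, 7, 8, 9})) (k : Fin 18) (h4 : 4 ≤ k) (hk : k ∉ DrR θ 2)
    (h0 : wc k + b = 0) : 0 ≤ btW θ k := by
  rw [← hDD, mem_coe] at hk
  rcases (quad_side h).2.2.2.2.1 k h4 hk h0 with h2 | ⟨rfl, rfl⟩
  · rw [btW_JW2 hb h2, h0]; simp
  · have e : btW θ 14 = (1 - θ 0) - 1 + 2 * θ 1 := by
      simp [btW, grW, wz, wc, wn]; ring
    rw [e]
    push_cast at hb
    linarith

theorem dr4_quad (vis : ∀ k ∈ V, (4 ≤ k ∧ k ≠ 13 ∧ k ≠ 16 ∧ k ≠ 17) ∧ 0 < btW θ k)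
    (hs : ∀ k ∈ V, KW θ k < 2) (hDD : (↑D : Set (Fin 18)) = DrR θ 2)
    (h : (b = 4 ∧ D = {4, 5, 6, 8}) ∨ (b = 3 ∧ D = {4, 5, 6, 7, 8}) ∨
      (b = 2 ∧ D = {4, 5, 6, 7, 8, 9})) : ∀ k ∈ DrR θ 2, 4 ≤ k ∧ k ≠ 17 ∧ k ∉ V := by
  intro k hk
  rw [← hDD, mem_coe] at hk
  have h1 := (quad_side h).2.2.2.1 k hk
  have h2 : ∀ k : Fin 18, k ≤ 9 → k ≠ 17 ∧ k ≠ 14 ∧ k ≠ 15 := by decide
  have h3 := h2 k h1.2
  refine ⟨h1.1, h3.1, fun hV => ?_⟩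
  rcases vis_quad vis hs k hV with e | e
  · exact h3.2.1 e
  · exact h3.2.2 e

end

/-- **relation half** (480, 861, 329) : one window of `quad` -/
def RelQ : Prop :=
  ∀ (B B' : Base) (I J Gd E : ℕ → Finset (ℕ × ℝ)) (κ : ℕ → ℝ) (u : ℕ → Fin 18 → ℝ)
    (F : ℕ → ℕ × ℝ → FW) (Y : ℕ → Fin 18 → ℝ) (w Tz Mu : ℕ → ℝ) (D : Finset (Fin 18))
    (lam : (Fin 18 → ℝ) → ℝ) (mm x : ℝ) (s₀ : ℕ → ℕ × ℝ),
    ZWin B B' I J (coU u κ F) monW 67 Y w (cn QW (actW ↑D)) Tz lam →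
    AwZ146.BasX monW (mA monW (actW ↑D)) (mA monW (actW ↑D)) Y w →
    (∀ n, GrU (u n)) → (∀ n, |κ n| ≤ 1) → B'.Sub (fun n => |κ n|⁻¹) → DrOk ↑D →
    (∀ n, Gd n ⊆ J n) →
    QdWD D (Int599.iw B B' I J (coU u κ F) 67 Y w (mA monW (actW ↑D)) Tz lam {0} x Gd s₀)
      κ u F mm x →
    Wnd.EOk (Int599.iw B B' I J (coU u κ F) 67 Y w (mA monW (actW ↑D)) Tz lam {0} x Gd s₀) E Mu →
    ∀ ε : ℝ, 0 < ε → ∀ᶠ n in (U : Filter ℕ), ∃ G ⊆ E n,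
      B'.d n ^ ε * ((E n).card : ℝ) ≤ (G.card : ℝ) ∧
      Qi599.RelJ u κ F {3, 5, 6} {3, 5, 6, 7, 8, 9, 10, 11, 12} (Qi599.SzQ B B' Y ↑D x)
        (Qi599.ErQ B B' Y ↑D x) n ε G

section front

variable {θ : Fin 3 → ℝ} {g : ℝ} {q : Fin 3 → ℝ} {V T : Set (Fin 18)} {w0 R T0 : ℝ}
  {B B' : Base} {I0 I : ℕ → Finset (ℕ × ℝ)} {κ : ℕ → ℝ} {u : ℕ → Fin 18 → ℝ}
  {F : ℕ → ℕ × ℝ → FW} {X : ℕ → Fin 18 → ℝ} {w : ℕ → ℝ} {Tn To : ℕ → ℝ}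
  {PD : Set (Fin 18 → ℝ)} {ν own : (Fin 18 → ℝ) → ℝ} {c₀ : ℝ}

/-- **the relation on all interior classes of a dense part**, one correction per incidence -/
theorem quad_rel (hRel : RelQ) {B2 : Base} {D : Finset (Fin 18)} {Y : ℕ → Fin 18 → ℝ}
    {w' TI : ℕ → ℝ} {lamI : (Fin 18 → ℝ) → ℝ} {mm x : ℝ}
    (hZI : ZWin B B2 I0 I (coU u κ F) monW 67 Y w' (cn QW (actW ↑D)) TI lamI)
    (hbas : AwZ146.BasX monW (mA monW (actW ↑D)) (mA monW (actW ↑D)) Y w')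
    (u0 : ∀ n, GrU (u n)) (κ1 : ∀ n, |κ n| ≤ 1) (hkp : B2.Sub fun n => |κ n|⁻¹)
    (hD : DrOk ↑D) (hQ : QdN ↑D lamI mm) (hx : 0 < x) :
    ∃ J1 : ℕ → Finset (ℕ × ℝ), (∀ n, J1 n ⊆ I n) ∧ Crest.Agent.R138.Dp76.Dense B2 J1 I ∧
      ∃ j : ℕ → ℕ × ℝ → Fin 14 → ℝ, (∀ n i p, p ∉ ({3, 5, 6} : Set (Fin 14)) → j n i p = 0) ∧
        (∀ ε : ℝ, 0 < ε → ∀ᶠ n in (U : Filter ℕ), ∀ i ∈ J1 n, ∀ p,
          u n (Fin.natAdd 4 p) * |j n i p| ≤ Qi599.SzQ B B2 Y ↑D x n ε p) ∧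
        ∀ ε : ℝ, 0 < ε → ∀ᶠ n in (U : Filter ℕ), ∀ i ∈ J1 n, ∀ i' ∈ J1 n,
          zlab B I0 (coU u κ F) monW 67 Y w' n 0 i = zlab B I0 (coU u κ F) monW 67 Y w' n 0 i' →
          ∀ p ∈ ({3, 5, 6, 7, 8, 9, 10, 11, 12} : Set (Fin 14)), u n (Fin.natAdd 4 p) *
            |coW (κ n) (F n i) (F n i') (Fin.natAdd 4 p) -
              (j n i' p - tr (κ n) (rel (κ n) (F n i).g (F n i').g) (j n i) p)| ≤
            Qi599.ErQ B B2 Y ↑D x n ε p := by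
  obtain ⟨J1, h1, h2, h3⟩ := qd_core hZI hbas u0 κ1 hkp hD hQ hx
    (Qi599.RelJ u κ F {3, 5, 6} {3, 5, 6, 7, 8, 9, 10, 11, 12} (Qi599.SzQ B B2 Y ↑D x)
        (Qi599.ErQ B B2 Y ↑D x))
    (fun n ε G G' hG h => Qi599.RelJ.sub hG h)
    (fun n ε ε' G hε h => Qi599.RelJ.weak (fun n ε ε' p => Qi599.SzQ_mono n ε ε' p)
      (fun n ε ε' p => Qi599.ErQ_mono n ε ε' p) hε h)
    (fun Gd s₀ E Mu hGd hW hE => hRel B B2 I0 I Gd E κ u F Y w' TI Mu D lamI mm x s₀ hZI hbas u0 κ1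
      hkp hD hGd hW hE)
  obtain ⟨j, h4, h5, h6⟩ := Qi599.rel_one
    (fun n ε ε' p => Qi599.SzQ_mono n ε ε' p) (fun n ε ε' p => Qi599.ErQ_mono n ε ε' p) h3
  exact ⟨J1, h1, h2, j, h4, h5, h6⟩

end front

end Crest.Agent.R136.LadG697
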