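import Crest.Agent.R136.RL0_478
import Crest.Agent.R136.Gau4_66

/-!
# R136 (helper478): walls of the W-chart, positions of the windows

* `NatG Dr c` : natural off `Dr`; `BasX` of shifted windows (`basX_shift`), of the first record window
  (`basX_jt`).
* `IW.zoom` : zoom of a record window at record points.
-/

set_option autoImplicit false
set_option linter.unusedVariables false

open Finset Filter Topology

namespace Crest.Agent.R136.RL478

open Crest.Agent.R136.Net191
open Crest.Agent.R136.NetW191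
open Crest.Agent.R136.PrW464
open Crest.Agent.R136.NatW697
open Crest.Agent.R136.LadW697
open Crest.Agent.R136.LadG697
open Crest.Agent.R136.Zpr779
open Crest.Agent.R136.Qg926
open Crest.Agent.R136.EvW938
open Crest.Agent.R136.Bas938
open Crest.Agent.R136.AwJ774
open Crest.Agent.R136.K2S774
open Crest.Agent.R138.Ex926

/-- natural off `Dr` -/
def NatG (Dr : Set (Fin 18)) (c : Fin 18 → ℝ) : Prop :=
  ∀ k, k ∉ Dr → c k = grW (c 0) (c 1) (c 17) k

/-- the slots `z, c, N` are not dropped -/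
structure Dr3 (Dr : Set (Fin 18)) : Prop where
  h0 : (0 : Fin 18) ∉ Dr
  h1 : (1 : Fin 18) ∉ Dr
  h17 : (17 : Fin 18) ∉ Dr

theorem grW_0 (ζ χ ν : ℝ) : grW ζ χ ν 0 = ζ := by simp [grW, wz, wc, wn]
theorem grW_1 (ζ χ ν : ℝ) : grW ζ χ ν 1 = χ := by simp [grW, wz, wc, wn]
theorem grW_17 (ζ χ ν : ℝ) : grW ζ χ ν 17 = ν := by simp [grW, wz, wc, wn]

theorem grW_add (ζ χ ν ζ' χ' ν' : ℝ) (k : Fin 18) :
    grW (ζ + ζ') (χ + χ') (ν + ν') k = grW ζ χ ν k + grW ζ' χ' ν' k := by
  simp only [grW]; ring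

theorem grW_smul (t ζ χ ν : ℝ) (k : Fin 18) :
    grW (t * ζ) (t * χ) (t * ν) k = t * grW ζ χ ν k := by
  simp only [grW]; ring

section natG

variable {Dr : Set (Fin 18)} {c d : Fin 18 → ℝ}

theorem natG_of (hD : Dr3 Dr) {ζ χ ν : ℝ} (h : ∀ k, k ∉ Dr → c k = grW ζ χ ν k) : NatG Dr c := by
  intro k hk
  rw [h 0 hD.h0, h 1 hD.h1, h 17 hD.h17, grW_0, grW_1, grW_17]
  exact h k hk

theorem NatG.add (h : NatG Dr c) (h' : NatG Dr d) : NatG Dr (c + d) := by
  intro k hk
  simp only [Pi.add_apply]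
  rw [grW_add, ← h k hk, ← h' k hk]

theorem NatG.smul (h : NatG Dr c) (t : ℝ) : NatG Dr (t • c) := by
  intro k hk
  simp only [Pi.smul_apply, smul_eq_mul]
  rw [grW_smul, ← h k hk]

theorem NatG.list (h : NatG Dr c) {k : Fin 18} (hk : k ∉ Dr) {l : List (Fin 18)} (hl : l ∈ mlW k)
    (hs : ∀ s ∈ l, s ∉ Dr) : c k = (l.map c).sum := by
  rw [h k hk, ← grW_list _ _ _ k l hl]
  congr 1
  exact List.map_congr_left fun s hs' => (h s (hs s hs')).symm

theorem nat_list (h : Nat QW (actW Dr) c) {k : Fin 18} (hk : k ∉ Dr) {l : List (Fin 18)}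
    (hl : l ∈ mlW k) (hs : ∀ s ∈ l, s ∉ Dr) : c k = (l.map c).sum := by
  obtain ⟨w, rfl, h2, h3⟩ := list_wall hl
  rw [← h3]
  refine h w ⟨hk, fun s hsD => ?_⟩
  by_contra hne
  exact hs s ((co_ne h2 s).1 hne) hsD

theorem NatG.nat (h : NatG Dr c) : Nat QW (actW Dr) c := by
  intro w hw
  obtain ⟨l, hl, h2, h3⟩ := wall_list w
  rw [h3]
  exact h.list hw.1 hl fun s hs hsD => (co_ne h2 s).2 hs (hw.2 s hsD)

end natG

/-- monomials of `mA monW (actW Dr)` in list form -/
theorem mem_mAW {Dr : Set (Fin 18)} {k : Fin 18} {e : Fin 18 → ℕ} :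
    e ∈ (mA monW (actW Dr)).mon k ↔ k ∉ Dr ∧ ∃ l ∈ mlW k, (∀ s ∈ l, s ∉ Dr) ∧
      e = fun s => l.count s := (actM_mA Dr).iff k e

/-- all walls tight: natural -/
theorem natG_of_tight {c : Fin 18 → ℝ} (h : ∀ k, ∀ l ∈ mlW k, c k = (l.map c).sum) :
    NatG ∅ c := by
  intro k _
  have e2 : c 2 = c 1 + c 0 := by
    have := h 2 [1, 0] (by decide)
    simpa using this
  have e3 : c 3 = c 1 + (c 1 + c 0) := by
    have := h 3 [1, 1, 0] (by decide)
    simpa using this
  have key : ∀ k : Fin 18, 4 ≤ k → k ≠ 17 → ∃ l ∈ mlW 17, k ∈ l ∧ ∀ s ∈ l.erase k, s < 4 := by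
    decide
  have frame : ∀ s : Fin 18, s < 4 → c s = grW (c 0) (c 1) (c 17) s := by
    intro s hs
    have : s = 0 ∨ s = 1 ∨ s = 2 ∨ s = 3 := by
      revert s; decide
    rcases this with rfl | rfl | rfl | rfl
    · rw [grW_0]
    · rw [grW_1]
    · rw [e2]; simp [grW, wz, wc, wn]; ring
    · rw [e3]; simp [grW, wz, wc, wn]; ring
  by_cases h4 : 4 ≤ k
  · by_cases h17 : k = 17
    · subst h17; rw [grW_17]
    · obtain ⟨l, hl, hkl, hs⟩ := key k h4 h17
      have h1 := h 17 l hl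
      have h2 := grW_list (c 0) (c 1) (c 17) 17 l hl
      rw [grW_17] at h2
      have hp := (List.perm_cons_erase hkl).map c
      have hp' := (List.perm_cons_erase hkl).map (grW (c 0) (c 1) (c 17))
      have e1 : (l.map c).sum = c k + ((l.erase k).map c).sum := by
        rw [hp.sum_eq]; simp
      have e4 : (l.map (grW (c 0) (c 1) (c 17))).sum = grW (c 0) (c 1) (c 17) k +
          ((l.erase k).map (grW (c 0) (c 1) (c 17))).sum := by
        rw [hp'.sum_eq]; simp
      have e5 : ((l.erase k).map c).sum = ((l.erase k).map (grW (c 0) (c 1) (c 17))).sum := by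
        congr 1
        exact List.map_congr_left fun s hs' => frame s (hs s hs')
      linarith
  · exact frame k (not_le.1 h4)

/-! ### positions -/

section basx

variable {Dr : Set (Fin 18)} {X : ℕ → Fin 18 → ℝ} {w : ℕ → ℝ}

theorem basX_shift (h : AwZ146.BasX monW (mA monW (actW Dr)) (mA monW (actW Dr)) X w)
    (hw : ∀ n, 0 < w n) {y : ℕ → Fin 18 → ℝ} (hy : ∀ n, Nat QW (actW Dr) (y n)) {b : ℝ}
    (hb : ∀ n, ‖y n‖ ≤ b) {v : ℕ → ℝ} (hv0 : ∀ n, 0 < v n) (hv : Tendsto v U (𝓝 0)) :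
    AwZ146.BasX monW (mA monW (actW Dr)) (mA monW (actW Dr)) (fun n => X n + w n • y n)
      (fun n => w n * v n) where
  sub := h.sub
  act := fun k e he n => by
    obtain ⟨hk, l, hl, hs, rfl⟩ := mem_mAW.1 he
    have h1 := h.act k _ he n
    rw [← sum_count] at h1 ⊢
    rw [sum_add']
    have e1 : (l.map (w n • y n)).sum = w n * (l.map (y n)).sum := by
      clear he hl h1 hs
      induction l with
      | nil => simp
      | cons a l ih =>
        simp only [List.map_cons, List.sum_cons, ih, Pi.smul_apply, smul_eq_mul]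
        ring
    rw [e1, ← nat_list (hy n) hk hl hs, ← h1]
    simp
  gap := fun k e he he' R => by
    obtain ⟨l, hl, rfl⟩ := mem_monW.1 he
    filter_upwards [h.gap k _ he he' (|R| + b + l.length * b),
      hv.eventually_lt_const (show (0:ℝ) < 1 by norm_num)] with n h1 h2
    rw [← sum_count] at h1 ⊢
    rw [sum_add']
    have hyb : ∀ s, |y n s| ≤ b := fun s => by
      have := norm_le_pi_norm (y n) s
      rw [Real.norm_eq_abs] at this
      exact this.trans (hb n)
    have hb0 : 0 ≤ b := (abs_nonneg _).trans (hyb 0)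
    have e1 : -(l.length * b * w n) ≤ (l.map (w n • y n)).sum := by
      clear he he' hl h1
      induction l with
      | nil => simp
      | cons a l ih =>
        simp only [List.map_cons, List.sum_cons, Pi.smul_apply, smul_eq_mul, List.length_cons,
          Nat.cast_add, Nat.cast_one]
        have := mul_le_mul_of_nonneg_left (neg_le_of_abs_le (hyb a)) (hw n).le
        linarith
    have e2 : w n * y n k ≤ w n * b :=
      mul_le_mul_of_nonneg_left ((le_abs_self _).trans (hyb k)) (hw n).le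
    have e3 : R * (w n * v n) ≤ |R| * w n := by
      have h3 : R * (w n * v n) ≤ |R| * (w n * v n) :=
        mul_le_mul_of_nonneg_right (le_abs_self R) (mul_nonneg (hw n).le (hv0 n).le)
      have h4 : |R| * (w n * v n) ≤ |R| * (w n * 1) :=
        mul_le_mul_of_nonneg_left (mul_le_mul_of_nonneg_left h2.le (hw n).le) (abs_nonneg R)
      rw [mul_one] at h4
      linarith
    simp only [Pi.add_apply, Pi.smul_apply, smul_eq_mul]
    linarith

/-- the first record window -/
theorem basX_jt (h : AwZ146.BasX monW monW monW X w) (hw : ∀ n, 0 < w n)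
    {P : Set (Fin 18 → ℝ)} {ν own : (Fin 18 → ℝ) → ℝ} {r0 : Fin 18 → ℝ} {x : ℕ → Fin 18 → ℝ}
    {hh : ℕ → ℝ} {lam lo : (Fin 18 → ℝ) → ℝ}
    (hJ : JT QW (actW Dr) P ν own r0 x hh lam lo) {k : ℕ → ℕ} (hk : Tendsto k U atTop) :
    AwZ146.BasX monW (mA monW (actW Dr)) (mA monW (actW Dr)) (fun n => X n + w n • x (k n))
      (fun n => w n * hh (k n)) where
  sub := fun k => mA_sub k
  act := fun k' e he n => by
    obtain ⟨hk', l, hl, hs, rfl⟩ := mem_mAW.1 he
    have h1 := h.act k' _ (mem_monW.2 ⟨l, hl, rfl⟩) n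
    rw [← sum_count] at h1 ⊢
    rw [sum_add']
    have e1 : (l.map (w n • x (k n))).sum = w n * (l.map (x (k n))).sum := by
      clear he hl h1 hs
      induction l with
      | nil => simp
      | cons a l ih =>
        simp only [List.map_cons, List.sum_cons, ih, Pi.smul_apply, smul_eq_mul]
        ring
    obtain ⟨w', h5, h2, h3⟩ := list_wall hl
    have h4 := hJ.nat (k n) w' ⟨by rw [h5]; exact hk', fun s hsD => by
      by_contra hne
      exact hs s ((co_ne h2 s).1 hne) hsD⟩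
    rw [h5, h3, cst_QW, add_zero] at h4
    rw [e1, ← h4, ← h1]
    simp
  gap := fun k' e he he' R => by
    obtain ⟨l, hl, rfl⟩ := mem_monW.1 he
    obtain ⟨w', h5, h2, h3⟩ := list_wall hl
    have hA : ¬ actW Dr w' := by
      intro hA
      refine he' (mem_mAW.2 ⟨by rw [← h5]; exact hA.1, l, hl, fun s hs hsD => ?_, rfl⟩)
      exact (co_ne h2 s).2 hs (hA.2 s hsD)
    have hg := hJ.gap w' hA R
    filter_upwards [hk.eventually hg] with n hn
    rw [h5, h3, cst_QW, add_zero] at hn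
    have h1 := h.act k' _ he n
    rw [← sum_count] at h1 ⊢
    rw [sum_add']
    have e1 : (l.map (w n • x (k n))).sum = w n * (l.map (x (k n))).sum := by
      clear he he' hl h1 hn h3 h2 hA hg
      induction l with
      | nil => simp
      | cons a l ih =>
        simp only [List.map_cons, List.sum_cons, ih, Pi.smul_apply, smul_eq_mul]
        ring
    rw [e1, ← h1]
    have := mul_le_mul_of_nonneg_left hn (hw n).le
    simp only [Pi.add_apply, Pi.smul_apply, smul_eq_mul]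
    linarith

end basx

/-! ### zoom of a record window -/

theorem NatG.of_IW {B B' : Base} {I0 J : ℕ → Finset (ℕ × ℝ)} {κ : ℕ → ℝ} {u : ℕ → Fin 18 → ℝ}
    {F : ℕ → ℕ × ℝ → FW} {X : ℕ → Fin 18 → ℝ} {w : ℕ → ℝ} {Dr : Set (Fin 18)} {Tn To : ℕ → ℝ}
    {lam lo : (Fin 18 → ℝ) → ℝ} (W : IW B B' I0 J κ u F X w Dr Tn To lam lo) (n : ℕ) :
    NatG Dr (X n) := fun k hk => W.nat n k hk

theorem natG_btW {Dr : Set (Fin 18)} (hD : Dr3 Dr) (θ : Fin 3 → ℝ) : NatG Dr (btW θ) :=
  natG_of hD fun k _ => rfl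

/-- the interior direction -/
theorem natG_y {s : ℝ} (hD : Dr3 (DrW s)) (θ : Fin 3 → ℝ) (z : ℝ × ℝ) :
    NatG (DrW s) (Dg262.X 0 (TW s) (btW θ) z) := by
  rw [X_zero]
  refine NatG.add (NatG.smul ?_ _) ((natG_btW hD θ).smul _)
  exact natG_of hD fun k hk => by rw [TW_of_not hk, saW_grW]

theorem _root_.Crest.Agent.R136.LadG697.IW.zoom {B B₁ B' : Base} {I0 J J' : ℕ → Finset (ℕ × ℝ)}
    {κ : ℕ → ℝ} {u : ℕ → Fin 18 → ℝ} {F : ℕ → ℕ × ℝ → FW} {X : ℕ → Fin 18 → ℝ} {w : ℕ → ℝ}
    {Dr : Set (Fin 18)} {Tn To Tn' To' : ℕ → ℝ} {lam lo lam' lo' : (Fin 18 → ℝ) → ℝ}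
    (W : IW B B₁ I0 J κ u F X w Dr Tn To lam lo) {y : ℕ → Fin 18 → ℝ}
    (hy : ∀ n, NatG Dr (y n)) {b : ℝ} (hb : ∀ n, ‖y n‖ ≤ b) {v : ℕ → ℝ} (hv0 : ∀ n, 0 < v n)
    (hv : Tendsto v U (𝓝 0)) (hTo : ∀ n, 0 < To' n)
    (hZ : ZWin B B' I0 J' (coU u κ F) monW 67 (fun n => X n + w n • y n)
      (fun n => w n * v n) (cn QW (actW Dr)) Tn' lam')
    (hO : ZProf B' J' (fun n a => zolb B I0 (coU u κ F) monW 67 X w n (y n + v n • a))
      (cn QW (actW Dr)) To' lo') (hκ : B'.Sub fun n => |κ n|⁻¹) :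
    IW B B' I0 J' κ u F (fun n => X n + w n • y n) (fun n => w n * v n) Dr Tn' To' lam' lo' where
  bas := basX_shift W.bas W.win.w0 (fun n => (hy n).nat) hb hv0 hv
  nat := fun n k hk => ((NatG.of_IW W n).add ((hy n).smul (w n))) k hk
  win := hZ
  own := by
    have e1 : (fun n a => zolb B I0 (coU u κ F) monW 67 X w n (y n + v n • a)) =
        zolb B I0 (coU u κ F) monW 67 (fun n => X n + w n • y n) (fun n => w n * v n) := by
      funext n a x
      unfold zolb zlab
      rw [← zoom_zoom]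
    rw [e1] at hO
    exact hO
  To0 := hTo
  kap := hκ

end Crest.Agent.R136.RL478
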