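import Crest.Agent.R136.Qj1_289
import Crest.Agent.R136.Js_893
import Crest.Agent.R136.RL1_478

/-!
# R136, thin branch, quad / lin (helper289): natural size of the correction, moving record point

* `ind_tan` : the profile of an interior point of a stage does not see the dropped slots.
* `size_quad2`, `size_lin2` : sizes from far pairs, any natural exponents, any pair label.
* `size_up_quad` : interior window at `Y`, relation on its classes ⊢ sizes at the finer box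
  `p = X 0 (TD Dr) (btW θ) (c, -c)`.
-/

set_option autoImplicit false
set_option linter.unusedVariables false

open Finset Filter Topology

namespace Crest.Agent.R136.Qj289

open Crest.Agent.R136.Net191
open Crest.Agent.R136.NetW191
open Crest.Agent.R136.PrW464
open Crest.Agent.R136.NatW697
open Crest.Agent.R136.LadW697
open Crest.Agent.R136.LadG697
open Crest.Agent.R136.EvW938
open Crest.Agent.R136.GauW619
open Crest.Agent.R136.AwJ774
open Crest.Agent.R136.K2S774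
open Crest.Agent.R136.Qg926
open Crest.Agent.R136.QdH887
open Crest.Agent.R136.Qgn887
open Crest.Agent.R136.RL478
open Crest.Agent.R138.Ex926
open Crest.Agent.R138.Dp76 (Dense)

/-! ### dropped slots at an interior point -/

/-- **the profile of an interior point does not see the dropped slots** -/
theorem ind_tan {P : Set (Fin 18 → ℝ)} {ν own : (Fin 18 → ℝ) → ℝ} {K : ℝ} {r0 ρ : Fin 18 → ℝ}
    {Dl : (Fin 18 → ℝ) →ₗ[ℝ] ℝ} {Qd : Set (Fin 18 → ℝ)} {Z Tie : Set (Fin 18)}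
    {kz : Fin 18} {o : Fin 18 → ℝ} {τ : ℝ} {Dr : Set (Fin 18)} {lam lo lamI : (Fin 18 → ℝ) → ℝ}
    (S0 : Stage QW P ν own K r0 ρ Dl Qd Z Tie kz o τ (actW Dr) Dr lam lo)
    {y : Fin 18 → ℝ} {t : ℝ} (hyZ : ∀ i ∈ Z, y i = t * ρ i) {k : ℕ → ℝ}
    (kpos : ∀ l, 0 < k l) (tI : IsTan (cn QW (actW Dr)) (cn QW (actW Dr)) lam (fun _ => y) k lamI)
    {c c' : Fin 18 → ℝ} (hc : c ∈ cn QW (actW Dr)) (hc' : c' ∈ cn QW (actW Dr))
    (he : ∀ i, i ∉ Dr → c i = c' i) (hσ : ∃ σ : ℝ, ∀ i ∈ Z, σ * ρ i ≤ c i) :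
    lamI c = lamI c' := by
  obtain ⟨σ, hσ⟩ := hσ
  have key : ∀ ε : ℝ, 0 < ε → |lamI c - lamI c'| ≤ 2 * ε := by
    intro ε hε
    obtain ⟨l, hl⟩ := (tI (max ‖c‖ ‖c'‖) ε hε).exists
    obtain ⟨m1, b1⟩ := hl c hc (le_max_left _ _)
    obtain ⟨m2, b2⟩ := hl c' hc' (le_max_right _ _)
    have hk := kpos l
    have e1 : lam (y + k l • c) = lam (y + k l • c') := by
      refine S0.ind _ m1 _ m2 (fun i hi => ?_) ⟨t + k l * σ, fun i hi => ?_⟩
      · simp only [Pi.add_apply, Pi.smul_apply, smul_eq_mul, he i hi]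
      · simp only [Pi.add_apply, Pi.smul_apply, smul_eq_mul]
        rw [hyZ i hi]
        have := mul_le_mul_of_nonneg_left (hσ i hi) hk.le
        linarith
    rw [e1] at b1
    have h1 := abs_le.1 b1
    have h2 := abs_le.1 b2
    have h3 : |k l * (lamI c - lamI c')| ≤ k l * (2 * ε) := by
      rw [abs_le]
      constructor <;> nlinarith [h1.1, h1.2, h2.1, h2.2]
    rw [abs_mul, abs_of_pos hk] at h3
    exact le_of_mul_le_mul_left h3 hk
  have h0 : |lamI c - lamI c'| ≤ 0 := by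
    refine le_of_forall_pos_le_add fun ε hε => ?_
    have := key (ε / 2) (by positivity)
    linarith
  exact sub_eq_zero.1 (abs_eq_zero.1 (le_antisymm h0 (abs_nonneg _)))

/-! ### sizes from far pairs -/

section

variable {B B' : Base} {I0 J1 J2 : ℕ → Finset (ℕ × ℝ)} {κ : ℕ → ℝ}
  {u : ℕ → Fin 18 → ℝ} {F : ℕ → ℕ × ℝ → FW} {N : ℕ → Fin 18 → ℝ}
  {j : ℕ → ℕ × ℝ → Fin 14 → ℝ} {Lb : ℕ → ℕ × ℝ → ℕ × ℝ → Prop} {C0 : ℝ}

theorem powN {ζ χ ν : ℕ → ℝ} (hN : ∀ n k, N n k = grW (ζ n) (χ n) (ν n) k) (n : ℕ) (k : Fin 18)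
    (l : List (Fin 18)) (hl : l ∈ mlW k) : B.d n ^ N n k = (l.map fun s => B.d n ^ N n s).prod := by
  have h1 : N n k = (l.map (N n)).sum := by
    have e : N n = grW (ζ n) (χ n) (ν n) := funext (hN n)
    rw [e, grW_list _ _ _ k l hl]
  rw [h1]
  clear h1 hl
  induction l with
  | nil => simp
  | cons s l ih =>
    simp only [List.map_cons, List.sum_cons, List.prod_cons]
    rw [Real.rpow_add (B.pos n), ih]

/-- **sizes from far pairs, quad** -/
theorem size_quad2 {ζ χ ν : ℕ → ℝ} (hN : ∀ n k, N n k = grW (ζ n) (χ n) (ν n) k)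
    (u0 : ∀ n, GrU (u n)) (κ1 : ∀ n, |κ n| ≤ 1) (hC0 : 1 ≤ C0)
    (hsub : ∀ n, J2 n ⊆ J1 n)
    (supp : ∀ n i p, p ∉ ({3, 5, 6} : Finset (Fin 14)) → j n i p = 0)
    (s7 : ∀ ε : ℝ, 0 < ε → ∀ᶠ n in (U : Filter ℕ), ∀ i ∈ J1 n,
      u n 7 * |j n i 3| ≤ B.d n ^ N n 7 * B'.d n ^ (-ε))
    (pair : ∀ ε : ℝ, 0 < ε → ∀ᶠ n in (U : Filter ℕ), ∀ i ∈ J1 n, ∀ i' ∈ J1 n, Lb n i i' →
      ∀ p : Fin 14, p = 10 ∨ p = 11 → u n (Fin.natAdd 4 p) *
        |coW (κ n) (F n i) (F n i') (Fin.natAdd 4 p) - (j n i' p -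
          tr (κ n) (rel (κ n) (F n i).g (F n i').g) (j n i) p)| ≤
            B.d n ^ N n (Fin.natAdd 4 p) * B'.d n ^ (-ε))
    (far : ∀ k : ℕ, ∀ᶠ n in (U : Filter ℕ), ∀ i ∈ J2 n, ∃ i' ∈ J1 n, Lb n i i' ∧
      (∀ s : Fin 18, s = 1 ∨ s = 3 ∨ s = 14 ∨ s = 15 →
        |coU u κ F n i i' s| ≤ C0 * B.d n ^ N n s) ∧
      C0 * (B.d n ^ N n 2 * B'.d n ^ (1 / ((k : ℝ) + 1))) ≤ |coU u κ F n i i' 2|) :
    ∀ ε : ℝ, 0 < ε → ∀ᶠ n in (U : Filter ℕ), ∀ i ∈ J2 n, ∀ p : Fin 14, p = 5 ∨ p = 6 →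
      u n (Fin.natAdd 4 p) * |j n i p| ≤ B.d n ^ N n (Fin.natAdd 4 p) * B'.d n ^ (-ε) := by
  intro ε hε
  obtain ⟨k, hk⟩ := exists_nat_one_div_lt (show 0 < ε / 8 by positivity)
  set δ : ℝ := 1 / ((k : ℝ) + 1) with hδ
  have hδ0 : 0 < δ := by positivity
  filter_upwards [far k, s7 (ε / 4) (by positivity), pair (ε / 4) (by positivity),
    Crest.Agent.R136.Gf356.ev_const_le B' (t := ε / 2) (by positivity) (10 * C0)]
    with n hfar h7 hpair hc i hi p hp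
  obtain ⟨i', hi', hlab, hw1, hw2⟩ := hfar i hi
  have hiJ := hsub n hi
  have hdp : ∀ v : ℝ, 0 < B'.d n ^ v := fun v => Real.rpow_pos_of_pos (B'.pos n) _
  have hBp : ∀ v : ℝ, 0 < B.d n ^ v := fun v => Real.rpow_pos_of_pos (B.pos n) _
  have hmono : ∀ {v v' : ℝ}, v ≤ v' → B'.d n ^ v' ≤ B'.d n ^ v := fun {v v'} h =>
    Real.rpow_le_rpow_of_exponent_ge (B'.pos n) (B'.lt n).le h
  have hM : 1 ≤ B'.d n ^ (-(ε / 4)) := by
    have := hmono (v := -(ε / 4)) (v' := 0) (by linarith)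
    rwa [Real.rpow_zero] at this
  have ht1 : B'.d n ^ δ ≤ 1 := by
    have := hmono (v := 0) (v' := δ) hδ0.le
    rwa [Real.rpow_zero] at this
  set P : Fin 18 → ℝ := fun s => B.d n ^ N n s with hP
  have hco : ∀ s : Fin 18, |coU u κ F n i i' s| = u n s * |coW (κ n) (F n i) (F n i') s| :=
    fun s => by
    unfold coU
    rw [abs_mul, abs_of_pos ((u0 n).pos s)]
  have hbox : ∀ s : Fin 18, s = 1 ∨ s = 3 ∨ s = 14 ∨ s = 15 →
      u n s * |coW (κ n) (F n i) (F n i') s| ≤ C0 * P s := fun s hs => by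
    rw [← hco]; exact hw1 s hs
  have hfr : ∀ q : Fin 4, coW (κ n) (F n i) (F n i') (Fin.castAdd 14 q) =
      rel (κ n) (F n i).g (F n i').g q := fun q => coW_left _ _ _ _
  have h2 : C0 * P 2 * B'.d n ^ δ ≤ u n 2 * |rel (κ n) (F n i).g (F n i').g 2| := by
    have e : |coU u κ F n i i' 2| = u n 2 * |rel (κ n) (F n i).g (F n i').g 2| := by
      rw [hco, show (2 : Fin 18) = Fin.castAdd 14 2 from rfl, hfr]
    rw [← e, mul_assoc]
    exact hw2
  have e14 : (Fin.natAdd 4 (10 : Fin 14) : Fin 18) = 14 := rfl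
  have e15 : (Fin.natAdd 4 (11 : Fin 14) : Fin 18) = 15 := rfl
  have z10 : j n i' 10 = 0 := supp n i' 10 (by decide)
  have z11 : j n i' 11 = 0 := supp n i' 11 (by decide)
  have r14 := hpair i hiJ i' hi' hlab 10 (Or.inl rfl)
  have r15 := hpair i hiJ i' hi' hlab 11 (Or.inr rfl)
  rw [z10, zero_sub, sub_neg_eq_add, e14] at r14
  rw [z11, zero_sub, sub_neg_eq_add, e15] at r15
  have pw := powN (B := B) hN n
  have key := far_alg (u := u n) (u0 n) (κ1 n) (P := P) (fun s => hBp _)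
    (by have := pw 14 [3, 7] (by decide); simpa using this)
    (by have := pw 14 [2, 9] (by decide); simpa using this)
    (by have := pw 15 [3, 9] (by decide); simpa using this)
    (by have := pw 15 [2, 10] (by decide); simpa using this)
    (by have := pw 15 [1, 14] (by decide); simpa using this)
    hC0 hM (hdp δ) ht1 (e := j n i) (fun p hp => supp n i p hp)
    (h := rel (κ n) (F n i).g (F n i').g)
    (c14 := coW (κ n) (F n i) (F n i') 14) (c15 := coW (κ n) (F n i) (F n i') 15)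
    (by
      have := hbox 1 (by decide)
      rwa [show (1 : Fin 18) = Fin.castAdd 14 1 from rfl, hfr] at this)
    h2
    (by
      have := hbox 3 (by decide)
      rwa [show (3 : Fin 18) = Fin.castAdd 14 3 from rfl, hfr] at this)
    (h7 i hiJ) (hbox 14 (by decide)) (hbox 15 (by decide)) r14 r15
  have hfin : 10 * C0 * B'.d n ^ (-(ε / 4)) / (B'.d n ^ δ) ^ 2 ≤ B'.d n ^ (-ε) := by
    rw [div_le_iff₀ (pow_pos (hdp δ) 2), ← Real.rpow_natCast, ← Real.rpow_mul (B'.pos n).le,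
      ← Real.rpow_add (B'.pos n)]
    calc 10 * C0 * B'.d n ^ (-(ε / 4)) ≤ B'.d n ^ (-(ε / 2)) * B'.d n ^ (-(ε / 4)) :=
          mul_le_mul_of_nonneg_right hc (hdp _).le
      _ = B'.d n ^ (-(ε / 2) + -(ε / 4)) := (Real.rpow_add (B'.pos n) _ _).symm
      _ ≤ _ := hmono (by push_cast; linarith)
  have hfin4 : 4 * B'.d n ^ (-(ε / 4)) / B'.d n ^ δ ≤ B'.d n ^ (-ε) := by
    rw [div_le_iff₀ (hdp δ), ← Real.rpow_add (B'.pos n)]
    have h4 : (4 : ℝ) ≤ B'.d n ^ (-(ε / 2)) := le_trans (by linarith) hc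
    calc 4 * B'.d n ^ (-(ε / 4)) ≤ B'.d n ^ (-(ε / 2)) * B'.d n ^ (-(ε / 4)) :=
          mul_le_mul_of_nonneg_right h4 (hdp _).le
      _ = B'.d n ^ (-(ε / 2) + -(ε / 4)) := (Real.rpow_add (B'.pos n) _ _).symm
      _ ≤ _ := hmono (by linarith)
  rcases hp with rfl | rfl
  · exact key.1.trans (mul_le_mul_of_nonneg_left hfin4 (hBp _).le)
  · exact key.2.trans (mul_le_mul_of_nonneg_left hfin (hBp _).le)

/-- **sizes from far pairs, lin** -/
theorem size_lin2 {ζ χ ν : ℕ → ℝ} (hN : ∀ n k, N n k = grW (ζ n) (χ n) (ν n) k)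
    (u0 : ∀ n, GrU (u n)) (κ1 : ∀ n, |κ n| ≤ 1) (hC0 : 1 ≤ C0)
    (hsub : ∀ n, J2 n ⊆ J1 n)
    (supp : ∀ n i p, p ∉ ({10, 11} : Finset (Fin 14)) → j n i p = 0)
    (s14 : ∀ ε : ℝ, 0 < ε → ∀ᶠ n in (U : Filter ℕ), ∀ i ∈ J1 n,
      u n 14 * |j n i 10| ≤ B.d n ^ N n 14 * B'.d n ^ (-ε))
    (pair : ∀ ε : ℝ, 0 < ε → ∀ᶠ n in (U : Filter ℕ), ∀ i ∈ J1 n, ∀ i' ∈ J1 n, Lb n i i' →
      u n 16 * |coW (κ n) (F n i) (F n i') 16 - (j n i' 12 -
          tr (κ n) (rel (κ n) (F n i).g (F n i').g) (j n i) 12)| ≤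
            B.d n ^ N n 16 * B'.d n ^ (-ε))
    (far : ∀ k : ℕ, ∀ᶠ n in (U : Filter ℕ), ∀ i ∈ J2 n, ∃ i' ∈ J1 n, Lb n i i' ∧
      |coU u κ F n i i' 1| ≤ C0 * B.d n ^ N n 1 ∧ |coU u κ F n i i' 16| ≤ C0 * B.d n ^ N n 16 ∧
      C0 * (B.d n ^ N n 1 * B'.d n ^ (1 / ((k : ℝ) + 1))) ≤ |coU u κ F n i i' 1|) :
    ∀ ε : ℝ, 0 < ε → ∀ᶠ n in (U : Filter ℕ), ∀ i ∈ J2 n,
      u n 15 * |j n i 11| ≤ B.d n ^ N n 15 * B'.d n ^ (-ε) := by
  intro ε hε
  obtain ⟨k, hk⟩ := exists_nat_one_div_lt (show 0 < ε / 8 by positivity)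
  set δ : ℝ := 1 / ((k : ℝ) + 1) with hδ
  have hδ0 : 0 < δ := by positivity
  filter_upwards [far k, s14 (ε / 4) (by positivity), pair (ε / 4) (by positivity),
    Crest.Agent.R136.Gf356.ev_const_le B' (t := ε / 2) (by positivity) (3 * C0)]
    with n hfar h14 hpair hc i hi
  obtain ⟨i', hi', hlab, hw1, hw16, hw2⟩ := hfar i hi
  have hiJ := hsub n hi
  have hdp : ∀ v : ℝ, 0 < B'.d n ^ v := fun v => Real.rpow_pos_of_pos (B'.pos n) _
  have hBp : ∀ v : ℝ, 0 < B.d n ^ v := fun v => Real.rpow_pos_of_pos (B.pos n) _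
  have hmono : ∀ {v v' : ℝ}, v ≤ v' → B'.d n ^ v' ≤ B'.d n ^ v := fun {v v'} h =>
    Real.rpow_le_rpow_of_exponent_ge (B'.pos n) (B'.lt n).le h
  have hM : 1 ≤ B'.d n ^ (-(ε / 4)) := by
    have := hmono (v := -(ε / 4)) (v' := 0) (by linarith)
    rwa [Real.rpow_zero] at this
  have ht1 : B'.d n ^ δ ≤ 1 := by
    have := hmono (v := 0) (v' := δ) hδ0.le
    rwa [Real.rpow_zero] at this
  set P : Fin 18 → ℝ := fun s => B.d n ^ N n s with hP
  have hco : ∀ s : Fin 18, |coU u κ F n i i' s| = u n s * |coW (κ n) (F n i) (F n i') s| :=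
    fun s => by
    unfold coU
    rw [abs_mul, abs_of_pos ((u0 n).pos s)]
  have hfr : ∀ q : Fin 4, coW (κ n) (F n i) (F n i') (Fin.castAdd 14 q) =
      rel (κ n) (F n i).g (F n i').g q := fun q => coW_left _ _ _ _
  have e1 : |coU u κ F n i i' 1| = u n 1 * |rel (κ n) (F n i).g (F n i').g 1| := by
    rw [hco, show (1 : Fin 18) = Fin.castAdd 14 1 from rfl, hfr]
  have z12 : j n i' 12 = 0 := supp n i' 12 (by decide)
  have r16 := hpair i hiJ i' hi' hlab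
  rw [z12, zero_sub, sub_neg_eq_add] at r16
  have pw := powN (B := B) hN n
  have key := far_algL (u := u n) (u0 n) (κ1 n) (P := P) (fun s => hBp _)
    (by have := pw 15 [1, 14] (by decide); simpa using this)
    (by have := pw 16 [1, 15] (by decide); simpa using this)
    hC0 hM (hdp δ) ht1 (e := j n i) (fun p hp => supp n i p hp)
    (h := rel (κ n) (F n i).g (F n i').g)
    (c16 := coW (κ n) (F n i) (F n i') 16)
    (by rw [← e1]; exact hw1) (by rw [← e1, mul_assoc]; exact hw2) (h14 i hiJ)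
    (by rw [← hco]; exact hw16) r16
  have hfin : 3 * C0 * B'.d n ^ (-(ε / 4)) / B'.d n ^ δ ≤ B'.d n ^ (-ε) := by
    rw [div_le_iff₀ (hdp δ), ← Real.rpow_add (B'.pos n)]
    calc 3 * C0 * B'.d n ^ (-(ε / 4)) ≤ B'.d n ^ (-(ε / 2)) * B'.d n ^ (-(ε / 4)) :=
          mul_le_mul_of_nonneg_right hc (hdp _).le
      _ = B'.d n ^ (-(ε / 2) + -(ε / 4)) := (Real.rpow_add (B'.pos n) _ _).symm
      _ ≤ _ := hmono (by linarith)
  exact key.trans (mul_le_mul_of_nonneg_left hfin (hBp _).le)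

end

/-! ### the moving record point -/

/-- the finer box `c (T - ρ)` off the dropped slots -/
theorem X_off {Dr : Set (Fin 18)} (hD : DrOk Dr) (θ : Fin 3 → ℝ) (c : ℝ) {k : Fin 18}
    (hk : k ∉ Dr) :
    Dg262.X 0 (TD Dr) (btW θ) (c, -c) k = grW 0 (c * θ 1) (c * (1 + θ 0)) k := by
  have h1 : k ∉ DrW 2 := fun h => hk (hD.lo k ((mem_D2 k).1 h))
  simp only [Dg262.X, Pi.zero_apply, TD_not hk, TW_of_not h1, saW, btW, grW]
  ring

theorem X_nonneg {Dr : Set (Fin 18)} (hD : DrOk Dr) {θ : Fin 3 → ℝ} (hθ : 0 < θ 1)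
    (hneg : ∀ k ∈ JW 2, k ∉ Dr → btW θ k ≤ 0) {c : ℝ} (hc : 0 ≤ c) {k : Fin 18} (hk : k ∉ Dr) :
    0 ≤ Dg262.X 0 (TD Dr) (btW θ) (c, -c) k := by
  rw [X_off hD θ c hk]
  have e : grW 0 (c * θ 1) (c * (1 + θ 0)) k = c * grW 0 (θ 1) (1 + θ 0) k := by
    simp only [grW]; ring
  rw [e]
  refine mul_nonneg hc ?_
  have h10 := hneg 10 (by rw [JW2]; decide) (hD.not (by decide))
  have hb : ∀ k : Fin 18, k ∈ JW 2 → k ∉ Dr → 0 ≤ grW 0 (θ 1) (1 + θ 0) k := by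
    intro k hk hkD
    have h1 := hneg k hk hkD
    rw [JW2] at hk
    have h2 : ∀ k ∈ ({7, 9, 10, 11, 12, 13} : Finset (Fin 18)), 2 * wn k + wz k = 0 := by decide
    have h3 : ((2 * wn k + wz k : ℤ) : ℝ) = 0 := by exact_mod_cast h2 k hk
    push_cast at h3
    have h4 : btW θ k + grW 0 (θ 1) (1 + θ 0) k = 0 := by
      simp only [btW, grW]
      linarith
    linarith
  have h10' : 2 * θ 1 ≤ 1 + θ 0 := by
    have h5 := hb 10 (by rw [JW2]; decide) (hD.not (by decide))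
    have h6 : grW 0 (θ 1) (1 + θ 0) 10 = (1 + θ 0) - 2 * θ 1 := by
      simp [grW, wz, wc, wn]; ring
    rw [h6] at h5
    linarith
  by_cases hJ : k ∈ JW 2
  · exact hb k hJ hk
  · rw [JW2] at hJ
    have h4 : k ∉ D2 := fun h => hk (hD.lo k h)
    have key : ∀ k : Fin 18, k ∉ ({7, 9, 10, 11, 12, 13} : Finset (Fin 18)) → k ∉ D2 →
        k = 0 ∨ k = 1 ∨ k = 2 ∨ k = 3 ∨ k = 14 ∨ k = 15 ∨ k = 16 ∨ k = 17 := by decide
    rcases key k hJ h4 with rfl | rfl | rfl | rfl | rfl | rfl | rfl | rfl <;>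
      simp [grW, wz, wc, wn] <;> linarith

/-- **SIZES FROM BELOW THE WINDOW**, quad, at a moving record point -/
theorem size_up_quad {Dr : Set (Fin 18)} (hD : DrOk Dr) {θ : Fin 3 → ℝ} (hθ : 0 < θ 1)
    (hneg : ∀ k ∈ JW 2, k ∉ Dr → btW θ k ≤ 0) {c : ℝ} (hc : 0 ≤ c)
    {P : Set (Fin 18 → ℝ)} {ν own : (Fin 18 → ℝ) → ℝ} {K : ℝ} {r0 : Fin 18 → ℝ} {g : ℝ}
    {q : Fin 3 → ℝ} {V Z : Set (Fin 18)} {lam lo lamI : (Fin 18 → ℝ) → ℝ}
    (hZe : ∀ k ∈ Z, k = 1 ∨ (k ∈ JW 2 ∧ k ∉ Dr))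
    (S0 : Stage QW P ν own K r0 (btW θ) (DlW g q) (QdW θ) Z V 0 (btW θ) 1 (actW Dr) Dr lam lo)
    {z : ℝ × ℝ} {k : ℕ → ℝ} (kpos : ∀ l, 0 < k l)
    (tI : IsTan (cn QW (actW Dr)) (cn QW (actW Dr)) lam
      (fun _ => Dg262.X 0 (TD Dr) (btW θ) z) k lamI) {mm : ℝ}
    (hN : Qgn887.QdN Dr (fun p => lamI (Dg262.X 0 (TD Dr) (btW θ) (c, -c) + p) -
      lamI (Dg262.X 0 (TD Dr) (btW θ) (c, -c))) mm)
    {B B' : Base} {I0 J J1 : ℕ → Finset (ℕ × ℝ)} {κ : ℕ → ℝ} {u : ℕ → Fin 18 → ℝ}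
    {F : ℕ → ℕ × ℝ → FW} {Y : ℕ → Fin 18 → ℝ} {w TI : ℕ → ℝ}
    (hZ : ZWin B B' I0 J (coU u κ F) monW 67 Y w (cn QW (actW Dr)) TI lamI)
    (nat : ∀ n, NatG Dr (Y n)) (u0 : ∀ n, GrU (u n)) (κ1 : ∀ n, |κ n| ≤ 1)
    (hJ1 : Dense B' J1 J) {j : ℕ → ℕ × ℝ → Fin 14 → ℝ}
    (supp : ∀ n i p, p ∉ ({3, 5, 6} : Finset (Fin 14)) → j n i p = 0)
    (s7 : ∀ ε : ℝ, 0 < ε → ∀ᶠ n in (U : Filter ℕ), ∀ i ∈ J1 n,
      u n 7 * |j n i 3| ≤ B.d n ^ natX Y n 7 * B'.d n ^ (-(c * btW θ 7) - ε))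
    {x : ℝ} (hx : c * (1 + θ 0 - θ 1) ≤ x)
    (pair : ∀ ε : ℝ, 0 < ε → ∀ᶠ n in (U : Filter ℕ), ∀ i ∈ J1 n, ∀ i' ∈ J1 n,
      zlab B I0 (coU u κ F) monW 67 Y w n 0 i' = zlab B I0 (coU u κ F) monW 67 Y w n 0 i →
      ∀ p : Fin 14, p = 10 ∨ p = 11 → u n (Fin.natAdd 4 p) *
        |coW (κ n) (F n i) (F n i') (Fin.natAdd 4 p) - (j n i' p -
          tr (κ n) (rel (κ n) (F n i).g (F n i').g) (j n i) p)| ≤
            B.d n ^ natX Y n (Fin.natAdd 4 p) * B'.d n ^ (x - ε)) :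
    ∃ J2 : ℕ → Finset (ℕ × ℝ), (∀ n, J2 n ⊆ J1 n) ∧ Dense B' J2 J ∧
      ∀ ε : ℝ, 0 < ε → ∀ᶠ n in (U : Filter ℕ), ∀ i ∈ J2 n, ∀ p : Fin 14, p = 5 ∨ p = 6 →
        u n (Fin.natAdd 4 p) * |j n i p| ≤
          B.d n ^ natX Y n (Fin.natAdd 4 p) * B'.d n ^ (-(c * btW θ (Fin.natAdd 4 p)) - ε) := by
  classical
  have D3 : Dr3 Dr := ⟨hD.not (by decide), hD.not (by decide), hD.not (by decide)⟩
  set Pt : Fin 18 → ℝ := Dg262.X 0 (TD Dr) (btW θ) (c, -c) with hPt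
  set a1 : ℝ := c * θ 1 with ha1
  set a2 : ℝ := c * (1 + θ 0) with ha2
  have Poff : ∀ k, k ∉ Dr → Pt k = grW 0 a1 a2 k := fun k hk => X_off hD θ c hk
  have P0 : ∀ k, k ∉ Dr → 0 ≤ Pt k := fun k hk => X_nonneg hD hθ hneg hc hk
  set pP : Fin 18 → ℝ := fun k => |Pt k| with hpP
  have pPoff : ∀ k, k ∉ Dr → pP k = Pt k := fun k hk => abs_of_nonneg (P0 k hk)
  have natPt : Nat QW (actW Dr) Pt := (natG_of D3 Poff).nat
  have natpP : Nat QW (actW Dr) pP :=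
    (natG_of D3 (fun k hk => (pPoff k hk).trans (Poff k hk))).nat
  have memP : ∀ {d : Fin 18 → ℝ}, d ∈ cn QW (actW Dr) → Pt + d ∈ cn QW (actW Dr) := fun {d} hd => by
    have := cn_nat_add natPt hd zero_le_one
    rwa [one_smul] at this
  have mempP : ∀ {d : Fin 18 → ℝ}, d ∈ cn QW (actW Dr) → pP + d ∈ cn QW (actW Dr) :=
    fun {d} hd => by
    have := cn_nat_add natpP hd zero_le_one
    rwa [one_smul] at this
  have TZ : ∀ i ∈ Z, TD Dr i = 0 := by
    intro i hi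
    rcases hZe i hi with h | ⟨h, h'⟩
    · subst h
      rw [TD_not (hD.not (by decide)), TW_c]
    · rw [TD_not h']
      refine TW2_0 i ?_
      rw [JW2] at h
      have : ∀ i ∈ ({7, 9, 10, 11, 12, 13} : Finset (Fin 18)),
        i ∈ ({1, 7, 9, 10, 11, 12, 13} : Finset (Fin 18)) := by decide
      exact this i h
  have hyZ : ∀ i ∈ Z, Dg262.X 0 (TD Dr) (btW θ) z i = z.2 * btW θ i := by
    intro i hi
    simp only [Dg262.X, Pi.zero_apply, TZ i hi]
    ring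
  -- the profile does not see the dropped slots
  have eq1 : ∀ {d : Fin 18 → ℝ}, d ∈ cn QW (actW Dr) → (∀ s, 0 ≤ d s) →
      lamI (pP + d) = lamI (Pt + d) := by
    intro d hd hd0
    refine ind_tan S0 hyZ kpos tI (mempP hd) (memP hd) (fun i hi => ?_) ⟨-c, fun i hi => ?_⟩
    · simp only [Pi.add_apply, pPoff i hi]
    · have e : Pt i = -c * btW θ i := by
        rw [hPt]
        simp only [Dg262.X, Pi.zero_apply, TZ i hi]
        ring
      simp only [Pi.add_apply]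
      have h1 : Pt i ≤ pP i := le_abs_self _
      have h2 := hd0 i
      linarith
  have bv0 : ∀ {δ : ℝ}, 0 ≤ δ → ∀ (Q : Finset (Fin 18)) (s : Fin 18), 0 ≤ bv δ Q s := by
    intro δ hδ Q s
    unfold bv
    split_ifs <;> [exact hδ; exact le_rfl]
  have dpos : ∀ k : ℕ, 0 < 1 / ((k : ℝ) + 1) := fun k => by positivity
  have hC0 : (1 : ℝ) ≤ cK0 monW 67 := cK0_one (by norm_num)
  obtain ⟨J2, h1, h2, h3⟩ := Js893.far_dense hZ hJ1 (a := 0) (by
      have := (nat_btW (actW Dr) θ).smul 0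
      rw [zero_smul] at this
      exact this.mem)
    (fun k => pP + bv (1 / ((k : ℝ) + 1)) {0}) (fun k => pP + bv (1 / ((k : ℝ) + 1)) {0, 2})
    (fun k => mempP (bvm0 (dpos k).le Dr)) (fun k => mempP (bvm02 (dpos k).le Dr))
    (fun k s => by
      simp only [Pi.add_apply, Pi.zero_apply]
      exact add_nonneg (abs_nonneg _) (bv0 (dpos k).le _ _))
    (fun k => by
      show lamI (pP + bv (1 / ((k : ℝ) + 1)) {0, 2}) < lamI (pP + bv (1 / ((k : ℝ) + 1)) {0})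
      rw [eq1 (bvm02 (dpos k).le Dr) (bv0 (dpos k).le _), eq1 (bvm0 (dpos k).le Dr)
        (bv0 (dpos k).le _)]
      have := num_quad hN (dpos k)
      have := dpos k
      linarith)
  refine ⟨J2, h1, h2, ?_⟩
  -- exponents
  have hbw : ∀ n (t : ℝ), B'.d n ^ t = B.d n ^ (w n * t) := fun n t => by
    rw [hZ.base n, ← Real.rpow_mul (B.pos n).le]
  set N : ℕ → Fin 18 → ℝ := fun n s => natX Y n s + w n * grW 0 a1 a2 s with hNd
  have eN : ∀ n s, B.d n ^ N n s = B.d n ^ natX Y n s * B'.d n ^ grW 0 a1 a2 s := fun n s => by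
    rw [hbw, ← Real.rpow_add (B.pos n)]
  have bx : ∀ n s, s ∉ Dr → B.d n ^ Y n s * B'.d n ^ pP s = B.d n ^ N n s := fun n s hs => by
    rw [eN, nat n s hs, pPoff s hs, Poff s hs]
    rfl
  have g2 : ∀ s ∈ ({7, 9, 10} : Finset (Fin 18)), grW 0 a1 a2 s = -(c * btW θ s) := by
    intro s hs
    simp only [mem_insert, mem_singleton] at hs
    rcases hs with rfl | rfl | rfl <;> simp [grW, btW, wz, wc, wn, ha1, ha2] <;> ring
  have spl : ∀ n (s : Fin 18) (t : ℝ), B.d n ^ natX Y n s * B'.d n ^ (grW 0 a1 a2 s + t) =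
      B.d n ^ N n s * B'.d n ^ t := fun n s t => by
    rw [Real.rpow_add (B'.pos n), eN, mul_assoc]
  have key := size_quad2 (B := B) (B' := B') (κ := κ) (u := u) (F := F) (j := j) (N := N)
    (J1 := J1) (J2 := J2)
    (Lb := fun n i i' => zlab B I0 (coU u κ F) monW 67 Y w n 0 i' =
      zlab B I0 (coU u κ F) monW 67 Y w n 0 i) (C0 := cK0 monW 67)
    (ζ := fun n => Y n 0 + w n * 0) (χ := fun n => Y n 1 + w n * a1)
    (ν := fun n => Y n 17 + w n * a2)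
    (fun n s => by
      simp only [hNd, natX]
      rw [grW_add, grW_smul]) u0 κ1 hC0 h1 supp
    (fun ε hε => by
      filter_upwards [s7 ε hε] with n hn i hi
      have := hn i hi
      rw [← g2 7 (by decide), sub_eq_add_neg, spl] at this
      exact this)
    (fun ε hε => by
      filter_upwards [pair ε hε] with n hn i hi i' hi' hl p hp
      refine (hn i hi i' hi' hl p hp).trans ?_
      rw [← spl]
      refine mul_le_mul_of_nonneg_left ?_ (Real.rpow_pos_of_pos (B.pos n) _).le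
      refine Real.rpow_le_rpow_of_exponent_ge (B'.pos n) (B'.lt n).le ?_
      have hθc : 0 ≤ c * θ 1 := mul_nonneg hc hθ.le
      rcases hp with rfl | rfl
      · have : grW 0 a1 a2 (Fin.natAdd 4 (10 : Fin 14)) = c * (1 + θ 0) - 2 * (c * θ 1) := by
          rw [show (Fin.natAdd 4 (10 : Fin 14) : Fin 18) = 14 from rfl]
          simp [grW, wz, wc, wn, ha1, ha2]; ring
        rw [this]
        linarith
      · have : grW 0 a1 a2 (Fin.natAdd 4 (11 : Fin 14)) = c * (1 + θ 0) - c * θ 1 := by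
          rw [show (Fin.natAdd 4 (11 : Fin 14) : Fin 18) = 15 from rfl]
          simp [grW, wz, wc, wn, ha1, ha2]; ring
        rw [this]
        linarith)
    (fun l => by
      filter_upwards [h3 l] with n hn i hi
      obtain ⟨i', hi', hl, hw1, hw2⟩ := hn i hi
      refine ⟨i', hi', hl, fun s hs => ?_, ?_⟩
      · have h5 := hw1 s
        have hs0 : s ∉ ({0} : Finset (Fin 18)) := by
          rcases hs with rfl | rfl | rfl | rfl <;> decide
        have hsD : s ∉ Dr := by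
          rcases hs with rfl | rfl | rfl | rfl <;> exact hD.not (by decide)
        simp only [Pi.add_apply] at h5
        rw [bv_out hs0, add_zero, bx n s hsD] at h5
        exact h5
      · unfold wbox at hw2
        push Not at hw2
        obtain ⟨s, hs⟩ := hw2
        by_cases h : s = 2
        · subst h
          simp only [Pi.add_apply] at hs
          rw [bv_in (by decide), Real.rpow_add (B'.pos n), ← mul_assoc (B.d n ^ Y n 2),
            bx n 2 (hD.not (by decide))] at hs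
          exact hs.le
        · exfalso
          have h6 := hw1 s
          have e : bv (1 / ((l : ℝ) + 1)) ({0, 2} : Finset (Fin 18)) s =
              bv (1 / ((l : ℝ) + 1)) ({0} : Finset (Fin 18)) s := by
            unfold bv
            have : s ∈ ({0, 2} : Finset (Fin 18)) ↔ s ∈ ({0} : Finset (Fin 18)) := by
              simp only [mem_insert, mem_singleton, h, or_false]
            simp only [this]
          simp only [Pi.add_apply] at h6 hs
          rw [e] at hs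
          exact absurd h6 (not_le.2 hs))
  intro ε hε
  filter_upwards [key ε hε] with n hn i hi p hp
  have h7 := hn i hi p hp
  rw [← spl] at h7
  have e : (Fin.natAdd 4 p : Fin 18) ∈ ({7, 9, 10} : Finset (Fin 18)) := by
    rcases hp with rfl | rfl <;> decide
  rw [g2 _ e, ← sub_eq_add_neg] at h7
  exact h7

end Crest.Agent.R136.Qj289
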