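import Crest.Agent.R136.LadG5_697
import Crest.Agent.R136.SZ3_480
import Crest.Agent.R136.Js_893
import Crest.Agent.R136.Qj2_289
import Crest.Agent.R136.QGd_312
import Crest.Agent.R136.Qh3_831
import Crest.Agent.R136.Qi2_599

/-!
# R136, thin branch (helper697): the quadratic resonance, final assembly
-/

set_option autoImplicit false
set_option linter.unusedVariables false

open Finset Filter Topology

namespace Crest.Agent.R136.LadG697

open Crest.Agent.R136.Net191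
open Crest.Agent.R136.NetW191
open Crest.Agent.R136.PrW464
open Crest.Agent.R136.NatW697
open Crest.Agent.R136.LadW697
open Crest.Agent.R136.LadT830
open Crest.Agent.R136.Zpr779
open Crest.Agent.R136.Qg926
open Crest.Agent.R136.EvW938
open Crest.Agent.R136.Bas938
open Crest.Agent.R136.AwJ774
open Crest.Agent.R136.K2S774
open Crest.Agent.R136.SZ480
open Crest.Agent.R136.RL478
open Crest.Agent.R136.Qh831
open Crest.Agent.R136.ThS830
open Crest.Agent.R136.GauW619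
open Crest.Agent.R136.Qgn887
open Crest.Agent.R136.QG312
open Crest.Agent.R138.Ex926

section

variable {θ : Fin 3 → ℝ} {g : ℝ} {q : Fin 3 → ℝ} {V T : Set (Fin 18)} {w0 R T0 : ℝ}
  {B B' : Base} {I0 I : ℕ → Finset (ℕ × ℝ)} {κ : ℕ → ℝ} {u : ℕ → Fin 18 → ℝ}
  {F : ℕ → ℕ × ℝ → FW} {X : ℕ → Fin 18 → ℝ} {w : ℕ → ℝ} {Tn To : ℕ → ℝ}
  {PD : Set (Fin 18 → ℝ)} {ν own : (Fin 18 → ℝ) → ℝ} {c₀ : ℝ}

/-- **the gauge input of the quadratic resonance**, from an object -/
theorem quad_final (hR : RowsC)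
    (H : ZW θ g q V T w0 R T0 B B' I0 I κ u F X w Tn To PD ν own c₀) (hcap : CapCl V)
    (hS : SlotOkW θ (fun k => k ∈ V) (fun k => k ∈ T)) (hs : ∀ k ∈ V, KW θ k < 2)
    (hres : Res2 θ) : HasGau θ g q V ↑(JW 2) := by
  classical
  obtain ⟨b, D, hb, hDD, hcas⟩ := quad_b H.th1 hres
  obtain ⟨hb0, hb4, hlo, hD49, hlo0, hm4, hm5, hm6, hm8⟩ := quad_side hcas
  have h1h : (1 / 2 : ℝ) < 1 := by norm_num
  have h0h : (0 : ℝ) < 1 / 2 := by norm_num
  obtain ⟨C, lam, lo, hst, z, hz, k, kpos, k0, lamI, loI, mm, A, φ, r, tI, tIo, hO, hA5, hown,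
    hQ, hQv⟩ := ob_quadA hR H hS hs hres h0h h1h
  have hD3 : Dr3 (DrR θ 2) := quad_D3 hDD hcas
  have hDok : DrOk (DrR θ 2) := drR2_ok H.th1 hres
  have hmem : ∀ k, k ∈ DrR θ 2 ↔ k ∈ D := fun k => by rw [← hDD, mem_coe]
  obtain ⟨T1, w1, R1, big⟩ := exists_bigW θ
  have hw1 : 0 ≤ w1 := by have := big.T0; have := big.w0T; linarith
  have hR1 : 1 ≤ R1 := by have := big.T0; have := big.R0; linarith
  set c : ℝ := w1 / θ 1 with hc
  have hc0 : 0 ≤ c := div_nonneg hw1 H.th1.le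
  obtain ⟨B2, X1, v1, h, TI, ToI, TR, ToR, lamR, loR, hv1, hh, hh0, hB2, hX1, hBas, hZI, hPI, hTo,
    W2, S2⟩ := front_winM H h0h h1h hD3 hst z.2 c
      (natG_yD (s := 2) hD3 (DrR2_lo θ) θ z) kpos k0 tI tIo
  rw [TDs_two] at hBas hZI hPI
  obtain ⟨x0, hx1, hxK, hxM⟩ := exists_prec θ c R1
  set x : ℝ := x0 + |c * (1 + θ 0 - θ 1)| with hx
  have hxx : x0 ≤ x := le_add_of_nonneg_right (abs_nonneg _)
  have hxp : 0 < x := by linarith
  set YI : ℕ → Fin 18 → ℝ := fun n => X1 n + v1 n • Dg262.X 0 (TD (DrR θ 2)) (btW θ) z with hYI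
  set XR : ℕ → Fin 18 → ℝ := fun n => X1 n + v1 n • ((z.2 - c * h n) • btW θ) with hXR
  have hpos : ∀ n, ∀ k ∈ JW 2, natX YI n k = natX XR n k + v1 n * h n * (c * btW θ k) := by
    intro n k hk
    have h1 := mem_JW.1 hk
    have h2 := natX_posM (X1 := X1) (w1 := v1) (h := h) (T := TD (DrR θ 2)) (z := z) (c := c)
      (θ := θ) n k
    have h3 := grW_TDs hD3 (s := 2) (DrR2_lo θ) h1.1 (by exact_mod_cast congrArg (Int.cast (R := ℝ)) h1.2)
    rw [TDs_two] at h3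
    rw [h3, mul_zero, mul_zero, add_zero] at h2
    exact h2
  have hYnat : ∀ n, NatG (DrR θ 2) (YI n) := fun n =>
    NatG.add (hX1 n) ((natG_yD (s := 2) hD3 (DrR2_lo θ) θ z).smul _)
  have hYn : ∀ n k, k ∉ DrR θ 2 → YI n k = natX YI n k := fun n k hk => hYnat n k hk
  have h97 : (9 : Fin 18) ∈ D → (7 : Fin 18) ∈ D := by
    rcases hcas with ⟨-, rfl⟩ | ⟨-, rfl⟩ | ⟨-, rfl⟩ <;> decide
  -- the relation
  have hone := Qi599.quad_one (Dr := D) (Y := YI) (w := fun n => v1 n * h n) (Tz := TI)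
    (lam := lamI) (mm := mm) (x := x) (by rw [hDD]; exact hZI) (by rw [hDD]; exact hBas) H.u0 H.κ1
    W2.iw.kap (by rw [hDD]; exact hDok) h97 (by rw [hDD]; exact hQ) hxp
  rw [hDD] at hone
  obtain ⟨J1, hJ1, hJd, j, hsup, hsz, hpr⟩ := hone
  have hneg : ∀ k ∈ JW 2, k ∉ DrR θ 2 → btW θ k ≤ 0 := by
    intro k hk hkD
    rw [btW_JW2 hb hk]
    have h1 := hlo k (mem_JW.1 hk).1 (fun h => hkD ((hmem k).2 h))
    have h2 : (0 : ℝ) ≤ ((wc k + b : ℤ) : ℝ) := by exact_mod_cast h1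
    have h3 := mul_nonneg h2 H.th1.le
    linarith
  have h7D : (7 : Fin 18) ∉ DrR θ 2 → btW θ 7 = 0 := by
    intro h7
    have h7' : (7 : Fin 18) ∉ D := fun h => h7 ((hmem 7).2 h)
    rw [btW_JW2 hb (by decide : (7 : Fin 18) ∈ JW 2)]
    have : wc 7 + b = 0 := by
      rcases hcas with ⟨rfl, -⟩ | ⟨-, rfl⟩ | ⟨-, rfl⟩
      · decide
      · exact absurd (by decide) h7'
      · exact absurd (by decide) h7'
    rw [this]; simp
  have hdp : ∀ n (v : ℝ), 0 < B2.d n ^ v := fun n v => Real.rpow_pos_of_pos (B2.pos n) _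
  have hBp : ∀ n (v : ℝ), 0 < B.d n ^ v := fun n v => Real.rpow_pos_of_pos (B.pos n) _
  have hmono : ∀ n {v v' : ℝ}, v ≤ v' → B2.d n ^ v' ≤ B2.d n ^ v := fun n {v v'} h =>
    Real.rpow_le_rpow_of_exponent_ge (B2.pos n) (B2.lt n).le h
  have hs7 : ∀ ε : ℝ, 0 < ε → ∀ᶠ n in (U : Filter ℕ), ∀ i ∈ J1 n,
      u n 7 * |j n i 3| ≤ B.d n ^ natX YI n 7 * B2.d n ^ (-(c * btW θ 7) - ε) := by
    intro ε hε
    filter_upwards [hsz ε hε] with n hn i hi
    have h1 := hn i hi 3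
    have e7 : (Fin.natAdd 4 (3 : Fin 14) : Fin 18) = 7 := rfl
    by_cases h7 : (7 : Fin 18) ∈ DrR θ 2
    · rw [(szQ_le hYn).1 (by rw [e7]; exact h7), e7] at h1
      refine h1.trans (mul_le_mul_of_nonneg_left (hmono n ?_) (hBp n _).le)
      have h2 := hxM 7
      have h3 := le_max_left 0 (btW θ 7)
      linarith
    · rw [(szQ_le hYn).2 (by rw [e7]; exact h7), e7] at h1
      rw [h7D h7, mul_zero, neg_zero, zero_sub]
      exact h1
  have hpr2 : ∀ ε : ℝ, 0 < ε → ∀ᶠ n in (U : Filter ℕ), ∀ i ∈ J1 n, ∀ i' ∈ J1 n,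
      zlab B I0 (coU u κ F) monW 67 YI (fun n => v1 n * h n) n 0 i' =
        zlab B I0 (coU u κ F) monW 67 YI (fun n => v1 n * h n) n 0 i →
      ∀ p : Fin 14, p = 10 ∨ p = 11 → u n (Fin.natAdd 4 p) *
        |coW (κ n) (F n i) (F n i') (Fin.natAdd 4 p) - (j n i' p -
          tr (κ n) (rel (κ n) (F n i).g (F n i').g) (j n i) p)| ≤
            B.d n ^ natX YI n (Fin.natAdd 4 p) * B2.d n ^ (x - ε) := by
    intro ε hε
    filter_upwards [hpr ε hε] with n hn i hi i' hi' hl p hp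
    have h1 := hn i hi i' hi' hl.symm p (by rcases hp with rfl | rfl <;> simp)
    rwa [erQ_eq hYn] at h1
  obtain ⟨J2, hJ2, hJ2d, hsz2⟩ := Qj289.size_up_quad hDok H.th1 hneg hc0 (Z := ZR θ 2)
    (fun k hk => hk) hst kpos tI (hQv (c, -c)) hZI hYnat H.u0 H.κ1 hJd (j := j)
    (fun n i p hp => hsup n i p (by simpa using hp)) hs7 (x := x)
    ((le_abs_self _).trans (le_add_of_nonneg_left (by linarith))) hpr2
  -- the law at the record base
  have L : JLaw θ B B2 I0 J2 κ u F XR YI ({3, 5, 6} : Finset (Fin 14))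
      ({3, 5, 6, 7, 8, 9} : Finset (Fin 14)) R1 j := by
    refine jlaw_of (s := 2) (Dr := DrR θ 2) (J1 := J1) (c := c) (x := x)
      (Qp := {3, 5, 6, 7, 8, 9, 10, 11, 12}) hB2 hpos hYn (by decide) (by decide) ?_ hneg
      (fun k _ => (hxK k).trans (by linarith)) (fun k _ => (hxM k).trans (by linarith))
      (fun n i p hp => hsup n i p (by simpa using hp)) hsz hpr hJ2 ?_
    · intro p hp
      simp only [mem_insert, mem_singleton, Set.mem_insert_iff, Set.mem_singleton_iff] at hp ⊢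
      tauto
    · intro p hp hD hlt ε hε
      have hp' : p = 3 ∨ p = 5 ∨ p = 6 := by simpa using hp
      have hpJ : Fin.natAdd 4 p ∈ JW 2 := by
        rcases hp' with rfl | rfl | rfl <;> decide
      rcases hp' with rfl | h56
      · exact absurd (h7D hD) hlt.ne
      · filter_upwards [hsz2 ε hε] with n hn i hi
        refine (hn i hi p h56).trans (unit_rec hB2 hpos hpJ ?_)
        linarith
  -- a dense part
  obtain ⟨Sd, hSd, hd⟩ := dense_sub hJ2d
  have hleg : ∀ᶠ n in (U : Filter ℕ), Legal monW (YI n) := by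
    filter_upwards [hZI.legal 0] with n hn
    have h1 := hn 0 hZI.zero (by rw [norm_zero])
    rwa [smul_zero, add_zero] at h1
  have hYI2 : ∀ᶠ n in (U : Filter ℕ), YI n ≤ XR n + (v1 n * h n) • bCq b w1 := by
    filter_upwards [posM_le (b := btW θ) (c := c) (bC := bCq b w1) hv1 hh hh0 hz
      (TD_nonneg (DrR θ 2)) (fun k hk => ha_quad H.th1 hb hDok w1 k hk)] with n hn k
    have h1 := hn k
    simp only [Pi.add_apply, Pi.smul_apply, smul_eq_mul] at h1 ⊢
    exact h1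
  refine hasGau_of_law H.th1 H.q1 H.q2 H.q0 H.qg H.qθ H.vis (dr4_quad H.vis hs hDD hcas) hcap
    H.u0 H.κ1 W2 S2 big hb0 hb4 (fun k h4 hk => hlo k h4 fun h => hk ((hmem k).2 h))
    (hlo0_quad hb hDD hcas) (fun n => (hJ2 n).trans (hJ1 n)) hSd hd hleg hYI2
    (Sp := {3, 5, 6}) (Js := {3, 5, 6, 7, 8, 9}) (by decide) (by decide) ?_ le_rfl L ?_
  · intro p hp hV
    have h0 : ∀ p ∈ ({3, 5, 6, 7, 8, 9} : Finset (Fin 14)), (Fin.natAdd 4 p : Fin 18) ≠ 14 ∧
        (Fin.natAdd 4 p : Fin 18) ≠ 15 := by decide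
    have h1 := h0 p hp
    rcases vis_quad H.vis hs _ hV with e | e
    · exact h1.1 e
    · exact h1.2 e
  · intro k hk
    left
    have h1 : ∀ k ∈ JW 2, ∃ q ∈ ({3, 5, 6, 7, 8, 9} : Finset (Fin 14)), k = Fin.natAdd 4 q := by
      decide
    exact h1 k (by simpa using hk)

end

/-- **the quadratic resonance** -/
theorem seamQuadG (hR : RowsC) : SeamQuadG := by
  intro θ g q V T hcap hOb hS hs hres
  obtain ⟨w0, R, T0, B, B', I0, I, κ, u, F, X, w, Tn, To, PD, ν, own, c₀, H, -⟩ := hOb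
  exact quad_final hR H hcap hS hs hres

end Crest.Agent.R136.LadG697
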