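import Crest.Agent.R136.LdF7_511
import Crest.Agent.R136.LadA_115
import Crest.Agent.R136.K2C_146
import Crest.Agent.R136.Lift_146
import Crest.Agent.R136.Fe2_355

/-!
# R136, case F, rung `s = 1` (helper146): numbers

* `bq` : boxes `(z, F_a, P, X_a, X_b, N)`, `memL` : legal directions of `AF {3}`
* `PlF` : the plane of the rung; `lossN`, `lossX`, `lossF` : losses by groups
* **`claimN`** : `N` is full up to a constant, given `z, F_a`
* **`tot_F2`** : the total
-/

set_option autoImplicit false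
set_option linter.unusedVariables false

open Finset Filter Topology

namespace Crest.Agent.R136.LdF6146

open Crest.Agent.R138.Ex926 (Base U IsTan)
open Crest.Agent.R136.Net191
open Crest.Agent.R136.NetQ186
open Crest.Agent.R136.Gf356
open Crest.Agent.R136.Wq638
open Crest.Agent.R136.GeoQ186 (scl)
open Crest.Agent.R136.NatT550
open Crest.Agent.R136.NatR550 (nL)
open Crest.Agent.R136.Top484
open Crest.Agent.R136.LdF511
open Crest.Agent.R136.LdF3511
open Crest.Agent.R136.LdF4511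
open Crest.Agent.R136.LdF5511
open Crest.Agent.R136.LdF7511
open Crest.Agent.R136.Dl667
open Crest.Agent.R136.Tb628 (oS oS_eq)
open Crest.Agent.R136.K2S774 (cn Prf JT Stage RecD RungD BaseOk ind1 A2)
open Crest.Agent.R136.K2A146 (FLemA)
open Crest.Agent.R136.AwJ774 (mA mem_mA coneM_mA)
open Crest.Agent.R136.Aw413 (coneM AeW)
open Crest.Agent.R136.Dg219 (Walls mw gC dhC nC OutS gC_zero gC_eq gset mem_gset)
open Crest.Agent.R136.Rc146 (OutA)
open Crest.Agent.R136.Dg262 (X)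

/-! ### boxes -/

/-- box `(z, F_a, P, X_a, X_b, N)` -/
def bq (z fa P xa xb n : ℝ) : Fin 11 → ℝ := ![z, 0, 0, 0, fa, 0, 0, P, xa, xb, n]

theorem bq_app (z fa P xa xb n : ℝ) (i : Fin 11) : bq z fa P xa xb n i =
    if i = 0 then z else if i = 4 then fa else if i = 7 then P else if i = 8 then xa else
    if i = 9 then xb else if i = 10 then n else 0 := by
  fin_cases i <;> rfl

theorem bq_smul (s z fa P xa xb n : ℝ) :
    s • bq z fa P xa xb n = bq (s * z) (s * fa) (s * P) (s * xa) (s * xb) (s * n) := by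
  funext i
  fin_cases i <;> simp [bq]

theorem mon1 : ∀ e, e ∉ monQ.mon 1 := by
  intro e he
  have : monQ.mon 1 = ∅ := by decide
  rw [this] at he
  exact absurd he (Finset.notMem_empty _)

/-- **legal directions** after `F_b` is dropped -/
theorem memL {c : Fin 11 → ℝ} (h0 : ∀ k, 0 ≤ c k) (h6 : c 6 ≤ c 2 + c 5) (h7 : c 7 ≤ c 4 + c 5)
    (h8 : c 8 ≤ c 0 + c 5) (h9 : c 9 ≤ c 0 + c 6) (h9' : c 9 ≤ c 2 + c 8)
    (h10 : c 10 ≤ c 0 + c 7) (h10' : c 10 ≤ c 4 + c 8) : c ∈ cn (mw monQ) (AF {3}) := by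
  set S : ℝ := c 4 + c 7 + c 10 with hS
  have hS0 : 0 ≤ S := by have := h0 4; have := h0 7; have := h0 10; linarith
  set c' : Fin 11 → ℝ := fun k => if k = 1 ∨ k = 3 then S else c k with hc'
  have e : ∀ k : Fin 11, k ≠ 1 → k ≠ 3 → c' k = c k := fun k h1 h3 => by
    simp only [hc', h1, h3, or_self, if_false]
  have e1 : c' 1 = S := by simp [hc']
  have e3 : c' 3 = S := by simp [hc']
  have hl : Legal monQ c' := by
    refine legalQ_iff.2 ⟨fun k => ?_, ?_, ?_, ?_, ?_, ?_, ?_, ?_, ?_, ?_, ?_, ?_⟩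
    · simp only [hc']
      split_ifs
      · exact hS0
      · exact h0 k
    all_goals
      simp only [e 0 (by decide) (by decide), e 2 (by decide) (by decide),
        e 4 (by decide) (by decide), e 5 (by decide) (by decide), e 6 (by decide) (by decide),
        e 7 (by decide) (by decide), e 8 (by decide) (by decide), e 9 (by decide) (by decide),
        e 10 (by decide) (by decide), e1, e3]
      linarith [h0 0, h0 1, h0 2, h0 3, h0 4, h0 5, h0 6, h0 7, h0 8, h0 9, h0 10]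
  intro w hw
  obtain ⟨w1, w2, w3⟩ := hw
  have h := hl.wall w.1 w.2.1 w.2.2
  have hd3 : w.1 ≠ 3 := fun h => w2 (by show w.1 ∈ _; rw [h]; simp)
  have hd1 : w.1 ≠ 1 := by
    obtain ⟨k, e, he⟩ := w
    intro h'
    have h'' : k = 1 := h'
    subst h''
    exact mon1 _ he
  have hc1 : w.2.1 1 = 0 := w1
  have hc3 : w.2.1 3 = 0 := w3 3 (by simp)
  rw [e _ hd1 hd3] at h
  refine h.trans (le_of_eq (Finset.sum_congr rfl fun s _ => ?_))
  by_cases s1 : s = 1
  · subst s1; simp [mw, hc1]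
  by_cases s3 : s = 3
  · subst s3; simp [mw, hc3]
  rw [e s s1 s3]; rfl

theorem bq_mem {z fa P xa xb n : ℝ} (hz : 0 ≤ z) (hf : 0 ≤ fa) (hP : 0 ≤ P) (hxa : 0 ≤ xa)
    (hxb : 0 ≤ xb) (hn : 0 ≤ n) (h7 : P ≤ fa) (h8 : xa ≤ z) (h9 : xb ≤ z) (h9' : xb ≤ xa)
    (h10 : n ≤ z + P) (h10' : n ≤ fa + xa) : bq z fa P xa xb n ∈ cn (mw monQ) (AF {3}) := by
  refine memL (fun k => ?_) ?_ ?_ ?_ ?_ ?_ ?_ ?_
  · rw [bq_app]; split_ifs <;> first | assumption | exact le_rfl
  all_goals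
    simp [bq]
    try linarith

theorem bq_le {z fa P xa xb n z' fa' P' xa' xb' n' : ℝ} (h1 : z ≤ z') (h2 : fa ≤ fa')
    (h3 : P ≤ P') (h4 : xa ≤ xa') (h5 : xb ≤ xb') (h6 : n ≤ n') :
    bq z fa P xa xb n ≤ bq z' fa' P' xa' xb' n' := by
  intro i
  rw [bq_app, bq_app]
  split_ifs <;> first | assumption | exact le_rfl

theorem sum_bq (z fa P xa xb n z' fa' P' xa' xb' n' : ℝ) :
    ∑ i, (bq z' fa' P' xa' xb' n' i - bq z fa P xa xb n i) =
      (z' - z) + (fa' - fa) + (P' - P) + (xa' - xa) + (xb' - xb) + (n' - n) := by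
  simp [Fin.sum_univ_succ, bq]
  ring

/-! ### the plane of the rung -/

/-- plane of the rung `s = 1`: `F_a, P` have slope `0`, `N ∦ X_a` -/
structure PlF (a b : Fin 11 → ℝ) (κ : ℝ) : Prop extends PlE a b κ where
  a4 : a 4 = 0
  a7 : a 7 = 0
  a10 : a 10 = 1
  b10 : b 10 ≠ b 8

theorem plF_TF {θ : Fin 3 → ℝ} (hκ : 0 < θ 1 - θ 2) (h1 : 0 < θ 1) (h01 : θ 0 ≠ θ 1)
    {x b : Fin 11 → ℝ} (hx : 0 < x 3) (hb : ∀ i, i ∉ ({3} : Finset (Fin 11)) → b i = rhoF θ i) :
    PlF (TF {3} (θ 1 - θ 2) 1 x) b (θ 1 - θ 2) where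
  toPlE := plE_TF hκ h1 (by decide) (TF_ii hκ hx).1 hb
  a4 := by rw [← TF_off (by decide), TpF_val]; simp
  a7 := by rw [← TF_off (by decide), TpF_val]; simp
  a10 := by rw [← TF_off (by decide), TpF_val]; simp
  b10 := by
    rw [hb 10 (by decide), hb 8 (by decide)]
    simp only [rhoF, nL, Matrix.cons_val]
    intro h
    apply h01
    linarith

namespace PlF

variable {a b : Fin 11 → ℝ} {κ : ℝ} (h : PlF a b κ)

include h

theorem n10 : a 10 ≠ 0 := by rw [h.a10]; exact one_ne_zero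
theorem g10 : gC a b 10 ≠ 0 := fun e => h.n10 (gC_zero.1 e)
theorem g4 : gC a b 4 = 0 := gC_zero.2 h.a4
theorem g7 : gC a b 7 = 0 := gC_zero.2 h.a7
theorem g810 : gC a b 8 ≠ gC a b 10 := by
  rw [Ne, gC_eq h.n8 h.n10, h.a8, h.a10, div_one, div_one]
  exact fun e => h.b10 e.symm

end PlF

/-! ### losses -/

section loss

variable {a b : Fin 11 → ℝ} {κ : ℝ} {lam : (Fin 11 → ℝ) → ℝ} {A : ℝ × ℝ}
  {φ : ℕ → (Fin 11 → ℝ) → ℝ} {r : ℕ → ℝ}

/-- loss of `N` -/
theorem lossN (PF : PlF a b κ)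
    (H : OutS (gC a b) (cn (mw monQ) (AF {3})) (dhC a b) (nC a b) lam A φ r)
    {z fa P xa xb n n' : ℝ} (h1 : bq z fa P xa xb n ∈ cn (mw monQ) (AF {3}))
    (h2 : bq z fa P xa xb n' ∈ cn (mw monQ) (AF {3})) :
    lam (bq z fa P xa xb n) - lam (bq z fa P xa xb n') =
      φ (gC a b 10) (bq z 0 0 0 xb n) - φ (gC a b 10) (bq z 0 0 0 xb n') := by
  have key : ∀ m : ℝ, φ (gC a b 10) (bq z fa P xa xb m) = φ (gC a b 10) (bq z 0 0 0 xb m) := by
    intro m
    refine H.loc _ _ _ fun i hi => ?_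
    by_cases e4 : i = 4
    · subst e4; exact absurd (hi.symm.trans PF.g4) PF.g10
    by_cases e7 : i = 7
    · subst e7; exact absurd (hi.symm.trans PF.g7) PF.g10
    by_cases e8 : i = 8
    · subst e8; exact absurd hi PF.g810
    rw [bq_app, bq_app]
    simp only [e4, e7, e8, if_false]
  rw [one_grp H h1 h2 (gC a b 10) fun i hi => ?_, key, key]
  have e10 : i ≠ 10 := fun e => hi (by rw [e])
  rw [bq_app, bq_app]
  simp only [e10, if_false]

/-- loss of `X_a` -/
theorem lossX (PF : PlF a b κ)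
    (H : OutS (gC a b) (cn (mw monQ) (AF {3})) (dhC a b) (nC a b) lam A φ r)
    {z fa P xa xa' xb n : ℝ} (h1 : bq z fa P xa xb n ∈ cn (mw monQ) (AF {3}))
    (h2 : bq z fa P xa' xb n ∈ cn (mw monQ) (AF {3})) :
    lam (bq z fa P xa xb n) - lam (bq z fa P xa' xb n) =
      φ (gC a b 8) (Pi.single 8 xa) - φ (gC a b 8) (Pi.single 8 xa') := by
  have key : ∀ m : ℝ, φ (gC a b 8) (bq z fa P m xb n) = φ (gC a b 8) (Pi.single 8 m) := by
    intro m
    refine H.loc _ _ _ fun i hi => ?_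
    by_cases e0 : i = 0
    · subst e0; exact absurd hi PF.g08
    by_cases e4 : i = 4
    · subst e4; exact absurd (hi.symm.trans PF.g4) PF.g8
    by_cases e7 : i = 7
    · subst e7; exact absurd (hi.symm.trans PF.g7) PF.g8
    by_cases e9 : i = 9
    · subst e9; exact absurd hi.symm PF.g89
    by_cases e10 : i = 10
    · subst e10; exact absurd hi.symm PF.g810
    rw [bq_app, Pi.single_apply]
    simp only [e0, e4, e7, e9, e10, if_false]
  rw [one_grp H h1 h2 (gC a b 8) fun i hi => ?_, key, key]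
  have e8 : i ≠ 8 := fun e => hi (by rw [e])
  rw [bq_app, bq_app]
  simp only [e8, if_false]

/-- loss of `F_a, P` -/
theorem lossF (PF : PlF a b κ)
    (H : OutS (gC a b) (cn (mw monQ) (AF {3})) (dhC a b) (nC a b) lam A φ r)
    {z fa P xa xb n fa' P' : ℝ} (h1 : bq z fa P xa xb n ∈ cn (mw monQ) (AF {3}))
    (h2 : bq z fa' P' xa xb n ∈ cn (mw monQ) (AF {3}))
    (h3 : bq 0 fa P 0 0 0 ∈ cn (mw monQ) (AF {3}))
    (h4 : bq 0 fa' P' 0 0 0 ∈ cn (mw monQ) (AF {3})) :
    lam (bq z fa P xa xb n) - lam (bq z fa' P' xa xb n) =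
      lam (bq 0 fa P 0 0 0) - lam (bq 0 fa' P' 0 0 0) := by
  have key : ∀ f p : ℝ, φ 0 (bq z f p xa xb n) = φ 0 (bq 0 f p 0 0 0) := by
    intro f p
    refine H.loc _ _ _ fun i hi => ?_
    by_cases e0 : i = 0
    · subst e0; exact absurd hi PF.g0
    by_cases e8 : i = 8
    · subst e8; exact absurd hi PF.g8
    by_cases e9 : i = 9
    · subst e9; exact absurd hi PF.g9
    by_cases e10 : i = 10
    · subst e10; exact absurd hi PF.g10
    rw [bq_app, bq_app]
    simp only [e0, e8, e9, e10, if_false]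
  have d : ∀ z' xa' xb' n' : ℝ, ∀ i, gC a b i ≠ 0 →
      bq z' fa P xa' xb' n' i = bq z' fa' P' xa' xb' n' i := by
    intro z' xa' xb' n' i hi
    have e4 : i ≠ 4 := fun e => hi (by rw [e]; exact PF.g4)
    have e7 : i ≠ 7 := fun e => hi (by rw [e]; exact PF.g7)
    rw [bq_app, bq_app]
    simp only [e4, e7, if_false]
  rw [one_grp H h1 h2 0 (d _ _ _ _), one_grp H h3 h4 0 (d _ _ _ _), key, key]

/-- **`N` is full up to a constant**, given `z, F_a` -/
theorem claimN (PF : PlF a b κ)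
    (H : OutS (gC a b) (cn (mw monQ) (AF {3})) (dhC a b) (nC a b) lam A φ r)
    {lo : (Fin 11 → ℝ) → ℝ} {K : ℝ} (hP : Prf (cn (mw monQ) (AF {3})) lam lo K) (h0 : lam 0 = 0)
    (hX8 : ∀ x : ℝ, 0 ≤ x → φ (gC a b 8) (Pi.single 8 x) ≤ -x)
    (hα : ∀ x j : ℝ, 0 ≤ j → j ≤ x → 0 < x →
      lam (bq x x 0 x 0 x) ≤ lam (bq x x 0 0 0 x) - x →
      lam (bq x x 0 (x - j) 0 x) ≤ lam (bq x x 0 0 0 x) - (x - j) →
      lam (bq x j 0 x 0 x) < lam (bq x 0 0 x 0 x) →
      lam (bq x 0 0 x 0 x) ≤ lam (bq x 0 0 0 0 0) - (2 * x - j))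
    (hβ : ∀ x : ℝ, 0 < x → ∀ N : ℕ, 0 < N → ∃ j ≤ N,
      lam (bq x x 0 0 0 0) - lam (bq x x (x * j / N) 0 0 (x * j / N)) + (x - x * (j + 1) / N) ≤
        lam (bq x x 0 0 0 0) - lam (bq x x 0 0 0 x))
    (vis : lam (ind1 {4, 7}) < 0) :
    ∃ j : ℝ, 1 ≤ j ∧ ∀ x : ℝ, j ≤ x →
      lam (bq x x 0 0 0 x) ≤ lam (bq x x 0 0 0 0) - (x - j) := by
  have hz8 : φ (gC a b 8) (Pi.single 8 0) = 0 := H.zero _ _ fun i _ => by simp
  have b0 : bq 0 0 0 0 0 0 = 0 := by
    funext i; rw [bq_app]; simp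
  have m0 : (0 : Fin 11 → ℝ) ∈ cn (mw monQ) (AF {3}) := by
    rw [← b0]
    exact bq_mem le_rfl le_rfl le_rfl le_rfl le_rfl le_rfl le_rfl le_rfl le_rfl le_rfl
      (by simp) (by simp)
  by_cases hF : ∃ j : ℝ, 0 < j ∧ lam (bq 0 j 0 0 0 0) < 0
  · -- `F_a` is visible
    obtain ⟨j, hj, hjl⟩ := hF
    refine ⟨j + 1, by linarith, fun x hx => ?_⟩
    have hx0 : 0 < x := by linarith
    have hjx : j ≤ x := by linarith
    have m1 : ∀ f xa n : ℝ, 0 ≤ f → 0 ≤ xa → xa ≤ x → 0 ≤ n → n ≤ x → n ≤ f + xa →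
        bq x f 0 xa 0 n ∈ cn (mw monQ) (AF {3}) := fun f xa n hf h1 h2 h3 h4 h5 =>
      bq_mem hx0.le hf le_rfl h1 le_rfl h3 hf h2 hx0.le h1 (by linarith) h5
    have mf : ∀ f : ℝ, 0 ≤ f → bq 0 f 0 0 0 0 ∈ cn (mw monQ) (AF {3}) := fun f hf =>
      bq_mem le_rfl hf le_rfl le_rfl le_rfl le_rfl hf le_rfl le_rfl le_rfl (by simp) (by linarith)
    have k1 := lossX PF H (m1 x x x hx0.le hx0.le le_rfl hx0.le le_rfl (by linarith))
      (m1 x 0 x hx0.le le_rfl hx0.le hx0.le le_rfl (by linarith))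
    have k2 := lossX PF H (m1 x (x - j) x hx0.le (by linarith) (by linarith) hx0.le le_rfl
      (by linarith)) (m1 x 0 x hx0.le le_rfl hx0.le hx0.le le_rfl (by linarith))
    have k3 := lossF PF H (m1 j x x hj.le hx0.le le_rfl hx0.le le_rfl (by linarith))
      (m1 0 x x le_rfl hx0.le le_rfl hx0.le le_rfl (by linarith)) (mf j hj.le) (mf 0 le_rfl)
    have k4 := hX8 x hx0.le
    have k5 := hX8 (x - j) (by linarith)
    rw [hz8] at k1 k2
    rw [b0, h0] at k3
    have k6 := hα x j hj.le hjx hx0 (by linarith) (by linarith) (by linarith)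
    -- `X_a` loses at most `x`
    have k7 := lossX PF H (m1 0 x 0 le_rfl hx0.le le_rfl le_rfl hx0.le (by linarith))
      (m1 0 0 0 le_rfl le_rfl hx0.le le_rfl hx0.le (by simp))
    have k8 := hP.sharp _ (m1 0 0 0 le_rfl le_rfl hx0.le le_rfl hx0.le (by simp)) _
      (m1 0 x 0 le_rfl hx0.le le_rfl le_rfl hx0.le (by linarith))
      (bq_le le_rfl le_rfl le_rfl hx0.le le_rfl le_rfl)
    rw [sum_bq] at k8
    have k9 := lossN PF H (m1 0 x x le_rfl hx0.le le_rfl hx0.le le_rfl (by linarith))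
      (m1 0 x 0 le_rfl hx0.le le_rfl le_rfl hx0.le (by linarith))
    have k10 := lossN PF H (m1 x 0 x hx0.le le_rfl hx0.le hx0.le le_rfl (by linarith))
      (m1 x 0 0 hx0.le le_rfl hx0.le le_rfl hx0.le (by linarith))
    linarith
  · -- `F_a` is free, `P` is visible
    push Not at hF
    have mf : ∀ f p : ℝ, 0 ≤ p → p ≤ f → bq 0 f p 0 0 0 ∈ cn (mw monQ) (AF {3}) := fun f p hp hf =>
      bq_mem le_rfl (hp.trans hf) hp le_rfl le_rfl le_rfl hf le_rfl le_rfl le_rfl
        (by linarith) (by linarith)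
    have f0 : ∀ f : ℝ, 0 ≤ f → lam (bq 0 f 0 0 0 0) = 0 := by
      intro f hf
      refine le_antisymm ?_ ?_
      · have := hP.mono _ m0 _ (mf f 0 le_rfl hf) (by
          rw [← b0]; exact bq_le le_rfl hf le_rfl le_rfl le_rfl le_rfl)
        rwa [h0] at this
      · rcases hf.eq_or_lt with rfl | hf'
        · rw [b0, h0]
        · exact hF f hf'
    set δ : ℝ := -lam (bq 0 1 1 0 0 0) with hδ
    have hvis : ind1 {4, 7} = bq 0 1 1 0 0 0 := by
      funext i
      rw [bq_app]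
      fin_cases i <;> simp [ind1]
    have hδ0 : 0 < δ := by rw [hδ, ← hvis]; linarith
    refine ⟨2, by norm_num, fun x hx => ?_⟩
    have hx0 : 0 < x := by linarith
    obtain ⟨N, hN⟩ := exists_nat_gt (max (x / δ) x)
    have hNr : (0:ℝ) < N := lt_of_lt_of_le hx0 ((le_max_right _ _).trans hN.le)
    have hN0 : 0 < N := by exact_mod_cast hNr
    obtain ⟨j, hj, hk⟩ := hβ x hx0 N hN0
    set t : ℝ := x * j / N with ht
    have ht0 : 0 ≤ t := by positivity
    have htx : t ≤ x := by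
      rw [ht, div_le_iff₀ hNr]
      have : (j:ℝ) ≤ N := by exact_mod_cast hj
      exact mul_le_mul_of_nonneg_left this hx0.le
    have e1 : x * ((j:ℝ) + 1) / N = t + x / N := by rw [ht]; field_simp
    have hxN : x / N < δ := by
      rw [div_lt_iff₀ hNr]
      have := (le_max_left (x / δ) x).trans_lt hN
      rw [div_lt_iff₀ hδ0] at this
      linarith
    have hxN1 : x / N ≤ 1 := by
      rw [div_le_one hNr]; exact (le_max_right _ _).trans hN.le
    rw [e1] at hk
    have m1 : ∀ p n : ℝ, 0 ≤ p → p ≤ x → 0 ≤ n → n ≤ x →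
        bq x x p 0 0 n ∈ cn (mw monQ) (AF {3}) := fun p n h1 h2 h3 h4 =>
      bq_mem hx0.le hx0.le h1 le_rfl le_rfl h3 h2 hx0.le hx0.le le_rfl (by linarith) (by linarith)
    -- loss of `N` from `t` to `x`
    have k1 := hP.sharp _ (m1 0 t le_rfl hx0.le ht0 htx) _ (m1 0 x le_rfl hx0.le hx0.le le_rfl)
      (bq_le le_rfl le_rfl le_rfl le_rfl le_rfl htx)
    rw [sum_bq] at k1
    -- loss of `P`
    have k2 := lossF PF H (m1 t t ht0 htx ht0 htx) (m1 0 t le_rfl hx0.le ht0 htx)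
      (mf x t ht0 htx) (mf x 0 le_rfl hx0.le)
    rw [f0 x hx0.le, sub_zero] at k2
    have k3 : lam (bq 0 x t 0 0 0) ≤ 0 := by
      have := hP.mono _ m0 _ (mf x t ht0 htx) (by
        rw [← b0]; exact bq_le le_rfl hx0.le ht0 le_rfl le_rfl le_rfl)
      rwa [h0] at this
    have k5 := hP.mono _ (m1 0 0 le_rfl hx0.le le_rfl hx0.le) _ (m1 0 t le_rfl hx0.le ht0 htx)
      (bq_le le_rfl le_rfl le_rfl le_rfl le_rfl ht0)
    by_cases h1t : 1 ≤ t
    · have k4 := hP.mono _ (mf 1 1 zero_le_one le_rfl) _ (mf x t ht0 htx)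
        (bq_le le_rfl (by linarith) h1t le_rfl le_rfl le_rfl)
      exfalso
      have : lam (bq 0 1 1 0 0 0) = -δ := by rw [hδ]; ring
      linarith
    · push Not at h1t
      linarith

/-- own loss of `z` in its group -/
theorem own_z (PF : PlF a b κ)
    (H : OutS (gC a b) (cn (mw monQ) (AF {3})) (dhC a b) (nC a b) lam A φ r)
    (h1 : lam (bq 1 0 0 0 0 0) ≤ -1) (h0 : lam 0 = 0) :
    φ (gC a b 0) (bq 1 0 0 0 0 0) ≤ -1 := by
  have b0 : bq 0 0 0 0 0 0 = 0 := by
    funext i; rw [bq_app]; simp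
  have m0 : (0 : Fin 11 → ℝ) ∈ cn (mw monQ) (AF {3}) := by
    rw [← b0]
    exact bq_mem le_rfl le_rfl le_rfl le_rfl le_rfl le_rfl le_rfl le_rfl le_rfl le_rfl
      (by simp) (by simp)
  have m1 : bq 1 0 0 0 0 0 ∈ cn (mw monQ) (AF {3}) :=
    bq_mem zero_le_one le_rfl le_rfl le_rfl le_rfl le_rfl le_rfl zero_le_one zero_le_one le_rfl
      (by simp) (by simp)
  have k := one_grp H m1 m0 (gC a b 0) fun i hi => by
    have e0 : i ≠ 0 := fun e => hi (by rw [e])
    rw [bq_app]; simp [e0]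
  rw [h0, H.zero _ 0 fun i _ => rfl] at k
  linarith

/-- **the total of the rung `s = 1`** -/
theorem tot_F2 (PF : PlF a b κ) (haL : a ∈ cn (mw monQ) (AF {3}))
    (H : OutS (gC a b) (cn (mw monQ) (AF {3})) (dhC a b) (nC a b) lam A φ r)
    (hom : ∀ k, k ≠ 0 → ∀ c ∈ cn (mw monQ) (AF {3}), ∀ s : ℝ, 0 ≤ s → φ k (s • c) = s * φ k c)
    (h0 : lam 0 = 0) (hz : lam (bq 1 0 0 0 0 0) ≤ -1)
    (r0 : 1 ≤ r (gC a b 0)) (r8 : 1 ≤ r (gC a b 8)) (r9 : 1 + κ ≤ r (gC a b 9))
    (hN : lam (bq 1 1 0 0 0 1) ≤ lam (bq 1 1 0 0 0 0) - 1)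
    (hXb : gC a b 9 = gC a b 10 → φ (gC a b 10) (Pi.single 10 1) ≤ -1 →
      φ (gC a b 9) (Pi.single 9 1 + Pi.single 10 1) ≤ -2) : 4 + κ ≤ -A.1 := by
  have hκ := PF.κ0
  have mN : bq 1 1 0 0 0 1 ∈ cn (mw monQ) (AF {3}) :=
    bq_mem zero_le_one zero_le_one le_rfl le_rfl le_rfl zero_le_one zero_le_one zero_le_one
      zero_le_one le_rfl (by simp) (by simp)
  have m0 : bq 1 1 0 0 0 0 ∈ cn (mw monQ) (AF {3}) :=
    bq_mem zero_le_one zero_le_one le_rfl le_rfl le_rfl le_rfl zero_le_one zero_le_one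
      zero_le_one le_rfl (by simp) (by simp)
  have k := lossN PF H m0 mN
  have u1 : (1:ℝ) • a ∈ cn (mw monQ) (AF {3}) := by rwa [one_smul]
  -- the slots of the group of `N` inside a box
  have key : φ (gC a b 10) (bq 1 0 0 0 0 1) = φ (gC a b 10) (bq 1 1 0 0 0 1) := by
    refine H.loc _ _ _ fun i hi => ?_
    have e4 : i ≠ 4 := fun e => by
      subst e; exact absurd (hi.symm.trans PF.g4) PF.g10
    rw [bq_app, bq_app]; simp only [e4, if_false]
  have hA := H.r_nonneg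
  by_cases e0 : gC a b 10 = gC a b 0
  · -- `N ∥ z`
    have hz' := own_z PF H hz h0
    rw [e0] at k key
    have k2 := rt_ge H PF.nn (k := gC a b 0) PF.g0 haL mN u1 (u := 1) fun i hi => by
      rw [one_mul, bq_app]
      split_ifs with i0 i4 i7 i8 i9 i10
      · subst i0; rw [PF.a0]
      · subst i4; exact absurd (hi.symm.trans PF.g4) PF.g0
      · exact PF.nn i
      · exact PF.nn i
      · exact PF.nn i
      · subst i10; rw [PF.a10]
      · exact PF.nn i
    rw [← key, mul_one] at k2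
    have k3 : 2 ≤ r (gC a b 0) := by linarith
    have := tot3 H PF.nn PF.n0 PF.n8 PF.n9 PF.g08 PF.g09 PF.g89
    linarith
  · by_cases e9 : gC a b 9 = gC a b 10
    · -- `N ∥ X_b`
      have z1 : φ (gC a b 10) (bq 1 0 0 0 0 1) = φ (gC a b 10) (Pi.single 10 1) := by
        refine H.loc _ _ _ fun i hi => ?_
        have e1 : i ≠ 0 := fun e => by subst e; exact e0 hi.symm
        clear hi
        revert e1
        fin_cases i <;> simp [bq]
      have z2 : φ (gC a b 10) (bq 1 0 0 0 0 0) = 0 := by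
        refine H.zero _ _ fun i hi => ?_
        have e1 : i ≠ 0 := fun e => by subst e; exact e0 hi.symm
        rw [bq_app]; simp only [e1, if_false]
        split_ifs <;> rfl
      rw [z1, z2] at k
      have k1 := hXb e9 (by linarith)
      have y0 : (0:ℝ) ≤ 1 + κ := by linarith
      have mc : bq 1 0 0 1 1 1 ∈ cn (mw monQ) (AF {3}) :=
        bq_mem zero_le_one le_rfl le_rfl zero_le_one zero_le_one zero_le_one le_rfl le_rfl
          le_rfl le_rfl (by simp) (by simp)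
      have k2 := hom (gC a b 9) PF.g9 _ mc (1 + κ) y0
      rw [bq_smul] at k2
      have z3 : φ (gC a b 9) (bq 1 0 0 1 1 1) = φ (gC a b 9) (Pi.single 9 1 + Pi.single 10 1) := by
        refine H.loc _ _ _ fun i hi => ?_
        have e1 : i ≠ 0 := fun e => by subst e; exact PF.g09 hi
        have e8 : i ≠ 8 := fun e => by subst e; exact PF.g89 hi
        rw [bq_app, Pi.add_apply, Pi.single_apply, Pi.single_apply]
        simp only [e1, e8, if_false]
        by_cases i9 : i = 9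
        · subst i9; simp
        · by_cases i10 : i = 10
          · subst i10; simp
          · simp only [i9, i10, if_false]; split_ifs <;> simp
      rw [z3] at k2
      have mc1 : bq (1 + κ) 0 0 (1 + κ) (1 + κ) (1 + κ) ∈ cn (mw monQ) (AF {3}) :=
        bq_mem y0 le_rfl le_rfl y0 y0 y0 le_rfl le_rfl le_rfl le_rfl (by simp) (by simp)
      have mc2 : bq (1 + κ) 0 0 (1 + κ) (1 + κ) 1 ∈ cn (mw monQ) (AF {3}) :=
        bq_mem y0 le_rfl le_rfl y0 y0 zero_le_one le_rfl le_rfl le_rfl le_rfl (by linarith)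
          (by linarith)
      have e2 : bq ((1 + κ) * 1) ((1 + κ) * 0) ((1 + κ) * 0) ((1 + κ) * 1) ((1 + κ) * 1)
          ((1 + κ) * 1) = bq (1 + κ) 0 0 (1 + κ) (1 + κ) (1 + κ) := by simp
      rw [e2] at k2
      have k3 := (H.mono (gC a b 9) _ mc2 _ mc1 fun i _ =>
        bq_le le_rfl le_rfl le_rfl le_rfl le_rfl (by linarith) i).2
      have k4 : ∑ i ∈ Finset.univ.filter (fun i => gC a b i = gC a b 9),
          (bq (1 + κ) 0 0 (1 + κ) (1 + κ) (1 + κ) i - bq (1 + κ) 0 0 (1 + κ) (1 + κ) 1 i) ≤ κ := by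
        have h1 := Finset.sum_le_sum_of_subset_of_nonneg
          (f := fun i => bq (1 + κ) 0 0 (1 + κ) (1 + κ) (1 + κ) i -
            bq (1 + κ) 0 0 (1 + κ) (1 + κ) 1 i)
          (Finset.filter_subset (fun i => gC a b i = gC a b 9) Finset.univ) fun i _ _ =>
          sub_nonneg.2 (bq_le le_rfl le_rfl le_rfl le_rfl le_rfl (by linarith) i)
        refine h1.trans ?_
        rw [sum_bq]
        linarith
      have k5 := rt_ge H PF.nn (k := gC a b 9) PF.g9 haL mc2 u1 (u := 1) fun i hi => by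
        rw [one_mul, bq_app]
        split_ifs with i0 i4 i7 i8 i9 i10
        · subst i0; exact absurd hi PF.g09
        · exact PF.nn i
        · exact PF.nn i
        · subst i8; exact absurd hi PF.g89
        · subst i9; rw [PF.a9]
        · subst i10; rw [PF.a10]
        · exact PF.nn i
      have k6 : 2 + κ ≤ r (gC a b 9) := by
        have : (1 + κ) * φ (gC a b 9) (Pi.single 9 1 + Pi.single 10 1) ≤ (1 + κ) * -2 :=
          mul_le_mul_of_nonneg_left k1 y0
        linarith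
      have := tot3 H PF.nn PF.n0 PF.n8 PF.n9 PF.g08 PF.g09 PF.g89
      linarith
    · -- `N` alone
      have z2 : φ (gC a b 10) (bq 1 0 0 0 0 0) = 0 := by
        refine H.zero _ _ fun i hi => ?_
        have e1 : i ≠ 0 := fun e => by subst e; exact e0 hi.symm
        rw [bq_app]; simp only [e1, if_false]
        split_ifs <;> rfl
      have k2 := rt_ge H PF.nn (k := gC a b 10) PF.g10 haL mN u1 (u := 1) fun i hi => by
        rw [one_mul, bq_app]
        split_ifs with i0 i4 i7 i8 i9 i10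
        · subst i0; exact absurd hi.symm e0
        · subst i4; exact absurd (hi.symm.trans PF.g4) PF.g10
        · exact PF.nn i
        · exact PF.nn i
        · exact PF.nn i
        · subst i10; rw [PF.a10]
        · exact PF.nn i
      rw [← key, mul_one] at k2
      have := tot4 H PF.nn PF.n0 PF.n8 PF.n9 PF.n10 PF.g08 PF.g09 PF.g89 (fun e => e0 e.symm)
        PF.g810 e9
      linarith

end loss

end Crest.Agent.R136.LdF6146
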