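import Crest.Agent.R136.LdF9_511
import Crest.Agent.R136.K2C_146

/-!
# R136, case F: zoom at infinity and the total of the rung `F_a, P` (helper511)

* **`ptV_inf`** : 667's `PtV` at a homogeneous zoom at infinity of any tangent of a stage, with the
  same slopes and rates; asymptotic inequalities along rays become exact
* `bzn` : the box `z, X_a, N : x`
* **`tot_N`** : `lam (z, X_a, N : 1) ≤ -3` ⊢ `4 + κ ≤ -A.1` (every position of `N`; if `N` is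
  parallel to `X_b` : the pair `(X_b, N)` is full)
* `F2_num` : the number of the rung `s = 1`
-/

set_option autoImplicit false
set_option linter.unusedVariables false
set_option linter.unusedSectionVars false

open Finset Filter Topology

namespace Crest.Agent.R136.LdFa511

open Crest.Agent.R138.Ex926 (Base U IsTan)
open Crest.Agent.R136.Net191
open Crest.Agent.R136.NetQ186
open Crest.Agent.R136.Wq638
open Crest.Agent.R136.NatT550
open Crest.Agent.R136.NatR550 (nL)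
open Crest.Agent.R136.Top484
open Crest.Agent.R136.LdF511
open Crest.Agent.R136.LdF3511
open Crest.Agent.R136.LdF4511
open Crest.Agent.R136.LdF5511
open Crest.Agent.R136.LdF7511
open Crest.Agent.R136.LdF9511
open Crest.Agent.R136.Dl667
open Crest.Agent.R136.Tb628 (oS oS_eq)
open Crest.Agent.R136.K2S774 (cn Prf JT Stage RecD RungD BaseOk ind1 A2)
open Crest.Agent.R136.AwJ774
open Crest.Agent.R136.Aw413
open Crest.Agent.R136.Dg219 (Walls mw gC dhC nC OutS gC_zero gset mem_gset)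
open Crest.Agent.R136.Rc146 (OutA)
open Crest.Agent.R136.Dg262 (X)

/-! ### zoom at infinity -/

section inf

variable {η : ℝ} {p : Par4} {D : Dat4} {I1 : ℕ → Finset (ℕ × ℝ)} {π : Equiv.Perm (Fin 3)}
  {eE fA fB : ℕ → ℕ × ℝ → ℝ} {V T : Fin 11 → Prop} {w0 R T0 : ℝ} {PD : Set (Fin 11 → ℝ)}
  {ν own : (Fin 11 → ℝ) → ℝ} {c₀ : ℝ}

/-- **the facts at one point of a rung, homogeneous zoom at infinity with the same slopes and
rates** -/
theorem ptV_inf (h : Thick η p D I1 π eE fA fB V T w0 R T0 PD ν own c₀) {v : ℝ} (h0 : 0 < v)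
    (h1 : v < 1) {Jd : Finset (Fin 11)} {s : ℝ} {x b : Fin 11 → ℝ}
    (a0 : ∀ i, 0 ≤ TF Jd (p.θ 1 - p.θ 2) s x i)
    (hb : ∀ i, i ∉ Jd → b i = rhoF p.θ i)
    (hTie : ∀ k, V k → oS p.θ k * TF Jd (p.θ 1 - p.θ 2) s x 0 ≤ TF Jd (p.θ 1 - p.θ 2) s x k)
    {Qd : Set (Fin 11 → ℝ)} (hQ : QdOk p.θ V Jd Qd)
    {lam lo : (Fin 11 → ℝ) → ℝ} (hst : StVQ Qd p V ν own w0 R v Jd lam lo) {z : ℝ × ℝ}
    (hz : z.1 < 0) {k : ℕ → ℝ} {lam' lo' : (Fin 11 → ℝ) → ℝ} (kpos : ∀ l, 0 < k l)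
    (k0 : Tendsto k atTop (𝓝 0))
    (H1 : IsTan (cn (mw monQ) (AF Jd)) (cn (mw monQ) (AF Jd)) lam
      (fun _ => X 0 (TF Jd (p.θ 1 - p.θ 2) s x) b z) k lam')
    (H2 : IsTan (cn (mw monQ) (AF Jd)) (cn (mw monQ) (AF Jd)) lo
      (fun _ => X 0 (TF Jd (p.θ 1 - p.θ 2) s x) b z) k lo')
    {x' : ℕ → Fin 11 → ℝ} {h' : ℕ → ℝ}
    (hJ : JT (mw monQ) (AF Jd) (Leg monQ R) ν own (recF p.θ w0 (R - 1) v) x' h' lam' lo')
    (hB : BaseOk {k | V k} 0 (oS p.θ) (TF Jd (p.θ 1 - p.θ 2) s x) (recF p.θ w0 (R - 1) v) x' h')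
    {A : ℝ × ℝ} {φ : ℕ → (Fin 11 → ℝ) → ℝ} {rt : ℕ → ℝ}
    (hO : OutA (gC (TF Jd (p.θ 1 - p.θ 2) s x) b) (cn (mw monQ) (AF Jd))
      (TF Jd (p.θ 1 - p.θ 2) s x) b (dhC (TF Jd (p.θ 1 - p.θ 2) s x) b)
      (nC (TF Jd (p.θ 1 - p.θ 2) s x) b) lam' A φ rt) :
    ∃ (lam2 lo2 : (Fin 11 → ℝ) → ℝ) (x2 : ℕ → Fin 11 → ℝ) (h2 : ℕ → ℝ)
      (φ2 : ℕ → (Fin 11 → ℝ) → ℝ),
      JT (mw monQ) (AF Jd) (Leg monQ R) ν own (recF p.θ w0 (R - 1) v) x2 h2 lam2 lo2 ∧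
      BaseOk {k | V k} 0 (oS p.θ) (TF Jd (p.θ 1 - p.θ 2) s x) (recF p.θ w0 (R - 1) v) x2 h2 ∧
      PtV D.B D.I I1 (couQ D.B D.lev D.w w0 (incQ π D.L eE fA fB)) p V T Jd
        (TF Jd (p.θ 1 - p.θ 2) s x) b lam2 lo2 A φ2 rt ∧
      HomV Jd (TF Jd (p.θ 1 - p.θ 2) s x) b φ2 ∧
      (∀ c ∈ cn (mw monQ) (AF Jd), ∀ c' ∈ cn (mw monQ) (AF Jd), ∀ C e y0 : ℝ,
        (∀ y, y0 ≤ y → C + lam' (y • c) ≤ lam' (y • c') + e * y) → lam2 c ≤ lam2 c' + e) ∧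
      ∀ k ∈ gset (gC (TF Jd (p.θ 1 - p.θ 2) s x) b), ∀ c ∈ cn (mw monQ) (AF Jd),
        ∀ c' ∈ cn (mw monQ) (AF Jd), ∀ C e y0 : ℝ,
        (∀ y, y0 ≤ y → C + φ k (y • c) ≤ φ k (y • c') + e * y) → φ2 k c ≤ φ2 k c' + e := by
  have z5 : (5 : Fin 11) ∉ Jd := fun h5 => hst.ZD 5 (by simp) (by simpa using h5)
  have z1 : (1 : Fin 11) ∉ Jd := fun h5 => hst.ZD 1 (by simp) (by simpa using h5)
  have a5 : TF Jd (p.θ 1 - p.θ 2) s x 5 = 0 := by
    rw [← TF_off z5, TpF_val]; simp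
  have a1 : TF Jd (p.θ 1 - p.θ 2) s x 1 = 0 := by
    rw [← TF_off z1, TpF_val]; simp
  have ha : K2S774.Nat (mw monQ) (AF Jd) (TF Jd (p.θ 1 - p.θ 2) s x) :=
    fun w hw => natTF _ _ _ hw
  have hP' := hst.prf.tan kpos H1 H2
  obtain ⟨lam2, lo2, x2, h2, φ2, hJ2, hB2, hP2, hO2, hhom, hl, -, hφ⟩ :=
    K2C146.exists_hom_inf (fun w hw => AF_full hw) a0 ha
      (hst.nat_b hQ.rd.nat fun i hi => hb i (by simpa using hi)) hJ hP' hB hO
  have hA := aew_of_jt (src_thick h h0 h1)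
    (Tw := fun k => T k ∧ V k ∧ TF Jd (p.θ 1 - p.θ 2) s x k =
      oS p.θ k * TF Jd (p.θ 1 - p.θ 2) s x 0) hJ2 hB2 (fun i hi => hTie i hi)
    (fun k hk => ⟨hk.1, hk.2.1, hk.2.2⟩) (fun hk => vis0 h.tp.slots hk.2.1) hO2.toOutS
  rw [sub_zero] at hA
  have S := swI_of_stage h.tp.ok.θ1 hQ hst a0 ha (fun i hi => hb i (by simpa using hi)) a5 a1 hz
    kpos k0 H1
  refine ⟨lam2, lo2, x2, h2, φ2, hJ2, hB2,
    { sw := fun u hu u67 u0 c hc σ t ht hcu hT hs => ?_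
      ind := fun c hc c' hc' hcc hc1 => ?_
      aew := hA
      out := hO2
      prf := hP2 }, hhom, hl, hφ⟩
  · have := hl (c + t • u) hcu c hc 0 (DlF p u * t) 0 fun y hy => by
      have h3 := S.sw u hu u67 u0 (y • c) (K2S774.cn_smul hc hy) (y * σ) (y * t)
        (mul_nonneg hy ht) (by
          have := K2S774.cn_smul (A := AF Jd) hcu hy
          rwa [smul_add, smul_smul] at this) (fun i hi h0 => by
          have := mul_le_mul_of_nonneg_left (hT i hi h0) hy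
          rw [Pi.smul_apply, smul_eq_mul, mul_assoc]; exact this) (fun i hi h0 => by
          obtain ⟨g1, g2⟩ := hs i hi h0
          refine ⟨g1, ?_⟩
          rw [Pi.smul_apply, smul_eq_mul, g2, mul_assoc])
      have e1 : y • (c + t • u) = y • c + (y * t) • u := by rw [smul_add, smul_smul]
      rw [e1, zero_add]
      have e2 : -(DlF p u) * (y * t) = -(DlF p u * t * y) := by ring
      linarith
    linarith
  · have key : ∀ y : ℝ, 0 ≤ y → lam' (y • c) = lam' (y • c') := fun y hy =>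
      S.ind _ (K2S774.cn_smul hc hy) _ (K2S774.cn_smul hc' hy) (fun i hi => by
        rw [Pi.smul_apply, Pi.smul_apply, hcc i hi]) (by
        rw [Pi.smul_apply, smul_eq_mul]; exact mul_nonneg hy hc1)
    have g1 := hl c hc c' hc' 0 0 0 fun y hy => by rw [key y hy]; simp
    have g2 := hl c' hc' c hc 0 0 0 fun y hy => by rw [key y hy]; simp
    linarith

end inf

/-! ### the total -/

/-- the box `z, X_a, N : x` -/
def bzn (x : ℝ) : Fin 11 → ℝ := ![x, 0, 0, 0, 0, 0, 0, 0, x, 0, x]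

/-- the box `z, X_a : x` -/
def bza (x : ℝ) : Fin 11 → ℝ := ![x, 0, 0, 0, 0, 0, 0, 0, x, 0, 0]

/-- the box `X_b : u`, `N : x` with room -/
def bxn (u x : ℝ) : Fin 11 → ℝ := ![u + x, 0, u + x, 0, 0, 0, u, 0, u + x, u, x]

theorem smul_bzn (y x : ℝ) : y • bzn x = bzn (y * x) := by
  funext j; fin_cases j <;> simp [bzn]

theorem bzn_mem {x : ℝ} (hx : 0 ≤ x) : bzn x ∈ cn (mw monQ) (AF {3}) := by
  rw [← cnF_cn, cn_W7]
  refine ⟨?_, ?_, ?_, ?_, ?_, ?_, ?_⟩ <;> simp [bzn] <;> linarith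

theorem bza_mem {x : ℝ} (hx : 0 ≤ x) : bza x ∈ cn (mw monQ) (AF {3}) := by
  rw [← cnF_cn, cn_W7]
  refine ⟨?_, ?_, ?_, ?_, ?_, ?_, ?_⟩ <;> simp [bza] <;> linarith

theorem bxn_mem {u x : ℝ} (hu : 0 ≤ u) (hx : 0 ≤ x) : bxn u x ∈ cn (mw monQ) (AF {3}) := by
  rw [← cnF_cn, cn_W7]
  refine ⟨?_, ?_, ?_, ?_, ?_, ?_, ?_⟩ <;> simp [bxn] <;> linarith

section tot

variable {a b : Fin 11 → ℝ} {κ : ℝ} {lam : (Fin 11 → ℝ) → ℝ} {A : ℝ × ℝ}
  {φ : ℕ → (Fin 11 → ℝ) → ℝ} {r : ℕ → ℝ}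

/-- **total of the rung `F_a, P`** -/
theorem tot_N (O : OutS (gC a b) (cn (mw monQ) (AF {3})) (dhC a b) (nC a b) lam A φ r)
    (P : PlE a b κ) (a10 : a 10 = 1) (haL : a ∈ cn (mw monQ) (AF {3})) (l0 : lam 0 = 0)
    (sharp : ∀ c ∈ cn (mw monQ) (AF {3}), ∀ c' ∈ cn (mw monQ) (AF {3}), c ≤ c' →
      lam c - lam c' ≤ ∑ s, (c' s - c s))
    (r0 : 1 ≤ r (gC a b 0)) (r8 : 1 ≤ r (gC a b 8)) (r9 : 1 + κ ≤ r (gC a b 9))
    (h8 : φ (gC a b 8) (Pi.single 8 1) ≤ -1)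
    (own : ∀ c ∈ cn (mw monQ) (AF {3}), ∀ c' ∈ cn (mw monQ) (AF {3}), c ≤ c' → (∀ i, c i = 0) →
      c' 0 - c 0 ≤ lam c - lam c')
    (hN : lam (bzn 1) ≤ -3)
    (hX : gC a b 10 = gC a b 9 → φ (gC a b 9) (bxn (1 + κ) (1 + κ)) ≤ -(2 * (1 + κ))) :
    4 + κ ≤ -A.1 := by
  have hκ := P.κ0
  have n10 : a 10 ≠ 0 := by rw [a10]; exact one_ne_zero
  have m0 : (0 : Fin 11 → ℝ) ∈ cn (mw monQ) (AF {3}) := K2S774.cn_zero
  have mza := bza_mem zero_le_one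
  have mzn := bzn_mem zero_le_one
  have a1 : (1:ℝ) • a ∈ cn (mw monQ) (AF {3}) := by rw [one_smul]; exact haL
  have l1 : bza 1 ≤ bzn 1 := by
    intro i; fin_cases i <;> simp [bza, bzn]
  -- the loss of `N`
  have e1 := one_grp O mza mzn (gC a b 10) (fun i hi => by
    have h10 : i ≠ 10 := fun e => hi (by rw [e])
    fin_cases i <;> simp [bza, bzn] at h10 ⊢)
  have e2 : -2 ≤ lam (bza 1) := by
    have h1 := sharp 0 m0 _ mza (by intro i; fin_cases i <;> simp [bza])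
    rw [l0] at h1
    have h2 : ∑ s, (bza 1 s - (0 : Fin 11 → ℝ) s) = 2 := by
      simp [Fin.sum_univ_succ, bza]; norm_num
    rw [h2] at h1
    linarith
  have e3 : φ (gC a b 10) (bzn 1) ≤ φ (gC a b 10) (bza 1) - 1 := by linarith
  have hge : ∀ {k : ℕ}, k ≠ 0 → -φ k (bzn 1) ≤ r k := fun {k} hk => by
    have h2 := rt_ge O P.nn hk haL mzn (u := 1) a1 (fun i hi => by
      rw [one_mul]
      by_cases hi0 : i = 0
      · subst hi0; rw [P.a0]; simp [bzn]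
      by_cases hi8 : i = 8
      · subst hi8; rw [P.a8]; simp [bzn]
      by_cases hi10 : i = 10
      · subst hi10; rw [a10]; simp [bzn]
      refine le_trans (le_of_eq ?_) (P.nn i)
      fin_cases i <;> simp [bzn] at hi0 hi8 hi10 ⊢)
    linarith
  by_cases h0 : gC a b 10 = gC a b 0
  · -- `N` parallel to `z`
    have e4 : φ (gC a b 0) (bza 1) ≤ -1 := by
      have e0 : (Pi.single 0 1 : Fin 11 → ℝ) ∈ cn (mw monQ) (AF {3}) := by
        rw [← cnF_cn, cn_W7]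
        refine ⟨?_, ?_, ?_, ?_, ?_, ?_, ?_⟩ <;> simp [Pi.single_apply]
      have h1 := own 0 m0 _ e0 (by
        intro k
        by_cases hk : k = 0
        · subst hk; simp
        · rw [Pi.single_eq_of_ne hk]; exact le_rfl) (fun _ => rfl)
      rw [one_grp O m0 e0 (gC a b 0) (fun i hi => by
        have : i ≠ 0 := fun e => hi (by rw [e])
        rw [Pi.single_eq_of_ne this]; rfl), O.zero _ 0 (fun i _ => rfl)] at h1
      have h2 : φ (gC a b 0) (bza 1) = φ (gC a b 0) (Pi.single 0 1) := O.loc _ _ _ fun i hi => by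
        have h8' : i ≠ 8 := fun e => P.g08 (by rw [← e, hi])
        fin_cases i <;> simp [bza] at h8' ⊢
      simp at h1
      linarith
    rw [h0] at e3
    have e5 := hge (k := gC a b 0) P.g0
    have := tot3 O P.nn P.n0 P.n8 P.n9 P.g08 P.g09 P.g89
    linarith
  by_cases h8' : gC a b 10 = gC a b 8
  · -- `N` parallel to `X_a`
    have e4 : φ (gC a b 8) (bza 1) ≤ -1 := by
      have h2 : φ (gC a b 8) (bza 1) = φ (gC a b 8) (Pi.single 8 1) := O.loc _ _ _ fun i hi => by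
        have h0' : i ≠ 0 := fun e => P.g08 (by rw [← e, hi])
        fin_cases i <;> simp [bza] at h0' ⊢
      rw [h2]; exact h8
    rw [h8'] at e3
    have e5 := hge (k := gC a b 8) P.g8
    have := tot3 O P.nn P.n0 P.n8 P.n9 P.g08 P.g09 P.g89
    linarith
  by_cases h9 : gC a b 10 = gC a b 9
  · -- `N` parallel to `X_b`
    have e4 := hX h9
    have m1 := bxn_mem (u := 1 + κ) (x := 1 + κ) (by linarith) (by linarith)
    have m2 := bxn_mem (u := 1 + κ) (x := 1) (by linarith) zero_le_one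
    -- removing `κ` of `N`
    have key : φ (gC a b 9) (bxn (1 + κ) 1) ≤ -(2 + κ) := by
      set c1 : Fin 11 → ℝ := ![1 + κ + (1 + κ), 0, 1 + κ + (1 + κ), 0, 0, 0, 1 + κ, 0,
        1 + κ + (1 + κ), 1 + κ, 1] with hc1
      have m3 : c1 ∈ cn (mw monQ) (AF {3}) := by
        rw [← cnF_cn, cn_W7]
        refine ⟨?_, ?_, ?_, ?_, ?_, ?_, ?_⟩ <;> simp [hc1] <;> linarith
      have h1 := sharp c1 m3 _ m1 (by
        intro i; fin_cases i <;> simp [hc1, bxn] <;> linarith)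
      have h2 : ∑ s, (bxn (1 + κ) (1 + κ) s - c1 s) = κ := by
        simp [Fin.sum_univ_succ, bxn, hc1]
      rw [h2, one_grp O m3 m1 (gC a b 9) (fun i hi => by
        have h10 : i ≠ 10 := fun e => hi (by rw [e, h9])
        fin_cases i <;> simp [hc1, bxn] at h10 ⊢)] at h1
      have h3 : φ (gC a b 9) (bxn (1 + κ) 1) = φ (gC a b 9) c1 := O.loc _ _ _ fun i hi => by
        have h0' : i ≠ 0 := fun e => P.g09 (by rw [← e, hi])
        have h2' : i ≠ 2 := fun e => P.g09 (by rw [P.g02, ← e, hi])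
        have h8'' : i ≠ 8 := fun e => P.g89 (by rw [← e, hi])
        fin_cases i <;> simp [hc1, bxn] at h0' h2' h8'' ⊢
      linarith
    have h2 := rt_ge O P.nn P.g9 haL m2 (u := 1) a1 (fun i hi => by
      rw [one_mul]
      have h0' : i ≠ 0 := fun e => P.g09 (by rw [← e, hi])
      have h2' : i ≠ 2 := fun e => P.g09 (by rw [P.g02, ← e, hi])
      have h8'' : i ≠ 8 := fun e => P.g89 (by rw [← e, hi])
      have h6'' : i ≠ 6 := fun e => P.g69 (by rw [← e, hi])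
      by_cases hi9 : i = 9
      · subst hi9; rw [P.a9]; simp [bxn]
      by_cases hi10 : i = 10
      · subst hi10; rw [a10]; simp [bxn]
      refine le_trans (le_of_eq ?_) (P.nn i)
      fin_cases i <;> simp [bxn] at h0' h2' h8'' h6'' hi9 hi10 ⊢)
    have := tot3 O P.nn P.n0 P.n8 P.n9 P.g08 P.g09 P.g89
    linarith
  · -- `N` alone
    have g10 : gC a b 10 ≠ 0 := fun e => n10 (gC_zero.1 e)
    have e4 : φ (gC a b 10) (bza 1) = 0 := O.zero _ _ fun i hi => by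
      have k0 : i ≠ 0 := fun e => h0 (by rw [← hi, e])
      have k8 : i ≠ 8 := fun e => h8' (by rw [← hi, e])
      fin_cases i <;> simp [bza] at k0 k8 ⊢
    have e5 := hge (k := gC a b 10) g10
    have := tot4 O P.nn P.n0 P.n8 P.n9 n10 P.g08 P.g09 P.g89 (Ne.symm h0) (Ne.symm h8')
      (Ne.symm h9)
    linarith

end tot

/-! ### the number of the rung -/

section num

variable {η : ℝ} {p : Par4} {D : Dat4} {I1 : ℕ → Finset (ℕ × ℝ)} {π : Equiv.Perm (Fin 3)}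
  {eE fA fB : ℕ → ℕ × ℝ → ℝ} {V T : Fin 11 → Prop} {w0 R T0 : ℝ} {PD : Set (Fin 11 → ℝ)}
  {ν own : (Fin 11 → ℝ) → ℝ} {c₀ : ℝ} {x b : Fin 11 → ℝ}
  {lam lo : (Fin 11 → ℝ) → ℝ} {A : ℝ × ℝ} {φ : ℕ → (Fin 11 → ℝ) → ℝ} {r : ℕ → ℝ}

/-- **total of the rung `F_a, P` at a homogeneous zoom** -/
theorem F2_tot (h : Thick η p D I1 π eE fA fB V T w0 R T0 PD ν own c₀)
    (hκ : 0 < p.θ 1 - p.θ 2) (hV2 : V 2) (a0 : ∀ i, 0 ≤ TF {3} (p.θ 1 - p.θ 2) 1 x i)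
    (hb : ∀ i, i ∉ ({3} : Finset (Fin 11)) → b i = rhoF p.θ i)
    (hP : PtV D.B D.I I1 (couQ D.B D.lev D.w w0 (incQ π D.L eE fA fB)) p V T {3}
      (TF {3} (p.θ 1 - p.θ 2) 1 x) b lam lo A φ r)
    (hH : HomV {3} (TF {3} (p.θ 1 - p.θ 2) 1 x) b φ) (hN : lam (bzn 1) ≤ -3)
    (hX : gC (TF {3} (p.θ 1 - p.θ 2) 1 x) b 10 = gC (TF {3} (p.θ 1 - p.θ 2) 1 x) b 9 →
      ∀ y : ℝ, 0 ≤ y → φ (gC (TF {3} (p.θ 1 - p.θ 2) 1 x) b 9)
        (Pi.single 9 y + Pi.single 10 y) ≤ -(2 * y)) : 4 + (p.θ 1 - p.θ 2) ≤ -A.1 := by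
  have hJ : ({3} : Finset (Fin 11)) ⊆ {3, 4, 7} := by decide
  have P := plE_TF hκ h.tp.ok.θ1 hJ a0 hb
  obtain ⟨r0, r8, r9, f8, f9⟩ := base_pt h hκ hV2 hJ a0 hb hP hH
  have e := coneM_mA (M := monQ) (A := AF {3})
  refine tot_N hP.out.toOutS P ?_ (fun w hw => (natTF _ _ _ hw).le) hP.aew.zero ?_ r0 r8 r9 f8 ?_
    hN ?_
  · rw [← TF_off (by decide), TpF_val]; rfl
  · intro c hc c' hc' hcc
    rw [← e] at hc hc'
    exact hP.aew.sharp c hc c' hc' hcc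
  · intro c hc c' hc' hcc h0
    rw [← e] at hc hc'
    have := hP.aew.own c hc c' hc' hcc fun k _ => by rw [h0, h0, mul_zero]
    linarith
  · intro hg
    refine le_trans (le_of_eq ?_) (hX hg (1 + (p.θ 1 - p.θ 2)) (by linarith))
    refine hP.out.loc _ _ _ fun i hi => ?_
    have h0' : i ≠ 0 := fun e => P.g09 (by rw [← e, hi])
    have h2' : i ≠ 2 := fun e => P.g09 (by rw [P.g02, ← e, hi])
    have h8'' : i ≠ 8 := fun e => P.g89 (by rw [← e, hi])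
    have h6'' : i ≠ 6 := fun e => P.g69 (by rw [← e, hi])
    fin_cases i <;> simp [bxn] at h0' h2' h8'' h6'' ⊢

/-- the gap on the rung `s = 1` -/
theorem gap2 (ok : ParOk η p) (hη : η ≤ 1 / 8) :
    p.g / 2 ≤ 4 + (p.θ 1 - p.θ 2) + DlF p (TpF (p.θ 1 - p.θ 2) 1) := by
  have e : DlF p (TpF (p.θ 1 - p.θ 2) 1) = _ := DlF_ray p (p.θ 1 - p.θ 2) 1
  rw [e]
  have hg := ok.g0.1
  have b1 := LdF7511.slack_q2 ok
  have b3 : η * p.g ≤ 1 / 8 * p.g := mul_le_mul_of_nonneg_right hη hg.le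
  linarith

/-- **the number of the rung `F_a, P`** -/
theorem F2_num (h : Thick η p D I1 π eE fA fB V T w0 R T0 PD ν own c₀) (hη : η ≤ 1 / 8)
    (hκ : 0 < p.θ 1 - p.θ 2) (hV2 : V 2) (a0 : ∀ i, 0 ≤ TF {3} (p.θ 1 - p.θ 2) 1 x i)
    (hb : ∀ i, i ∉ ({3} : Finset (Fin 11)) → b i = rhoF p.θ i)
    (hP : PtV D.B D.I I1 (couQ D.B D.lev D.w w0 (incQ π D.L eE fA fB)) p V T {3}
      (TF {3} (p.θ 1 - p.θ 2) 1 x) b lam lo A φ r)
    (hH : HomV {3} (TF {3} (p.θ 1 - p.θ 2) 1 x) b φ) (hN : lam (bzn 1) ≤ -3)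
    (hX : gC (TF {3} (p.θ 1 - p.θ 2) 1 x) b 10 = gC (TF {3} (p.θ 1 - p.θ 2) 1 x) b 9 →
      ∀ y : ℝ, 0 ≤ y → φ (gC (TF {3} (p.θ 1 - p.θ 2) 1 x) b 9)
        (Pi.single 9 y + Pi.single 10 y) ≤ -(2 * y)) :
    p.g / 2 ≤ -A.1 + DlF p (TpF (p.θ 1 - p.θ 2) 1) := by
  have h1 := F2_tot h hκ hV2 a0 hb hP hH hN hX
  have h2 := gap2 h.tp.ok hη
  linarith

end num

end Crest.Agent.R136.LdFa511
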