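import Crest.Agent.R136.Xb2_403
import Crest.Agent.R136.Ev13_356

/-!
# R136: the base row for `21` tied in a window of helper413, partial resolution (helper403)

* `ne_of_pq` : `NE` from 356's `PQ`.
* **`ne_of_wat`** : `WAt` with static data `stP S Rs (4 * cK0 monQ C) T Ma`, `2 ∈ S` ⊢ pruned set,
  `NE`, raw twist of `E`.
* `bwT_val` : the boxes for `S = {0, 2}`, `Rs = {0, 2, 5, 6, 8, 9}`.
-/

set_option autoImplicit false
set_option linter.unusedVariables false
set_option linter.unusedSectionVars false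

open Filter Topology

namespace Crest.Agent.R136.Xb403

open Finset Crest.Agent.R136.NetQ186 Crest.Agent.R136.Net191 Crest.Agent.R136.Qg926
open Crest.Agent.R136.Gf356 Crest.Agent.R136.Ev356 Crest.Agent.R136.Aw413
open Crest.Agent.R136.Wq400 Crest.Agent.R136.Fe1355
open Crest.Agent.R138.Ex926 (Base U)

variable {ι : ℕ → Type*} [∀ n, DecidableEq (ι n)]

section prod

variable {W : Wnd 11 ι} {f : ∀ n, ι n → Fq4} {E : ∀ n, Finset (ι n)} {T : ℝ}

/-- **`NE` in a window of 356's class `PQ`** -/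
theorem ne_of_pq {Rs : Finset (Fin 11)} {Ma : Mons 11} (P : PQ W f Rs T fun _ => chi Ma)
    (hM : MaE Ma) (hkz : W.kz = 0) (h2S : (2 : Fin 11) ∈ W.S)
    (hRs : (5 : Fin 11) ∈ Rs ∧ (6 : Fin 11) ∈ Rs ∧ (8 : Fin 11) ∈ Rs ∧ (9 : Fin 11) ∈ Rs)
    (hc : ∀ᶠ n in (U : Filter ℕ), W.Good n ∧ E n ⊆ W.Cl n ∧ W.cfg E n = W.cfg0 n (E n))
    (T0 : 0 < T)
    (leg : ∀ ca cb xa xb : ℝ, 0 ≤ ca → ca ≤ T → 0 ≤ cb → cb ≤ T → 0 ≤ xa → xa ≤ T → 0 ≤ xb →
      xb ≤ T → bw ca cb xa xb ∈ W.legW)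
    (H : RModel W.B' (W.cfg E) 1 T W.legW W.nu W.Dc) :
    NE W.B' (W.cfg E) W.legW W.nu T W.Dc (fun n k => flg W n k 2) := by
  have hK0 := P.q.ok.K0_one
  refine ne_of_ev P.q hkz P.S0 h2S (fun s => by have := P.kap4 s; linarith) hc T0 leg H
    (χ := chi Ma) (if_pos hM.m256) (if_pos hM.m058) (if_pos hM.m069) (if_pos hM.m289) ?_
  intro ε hε
  filter_upwards [P.evo hc hε] with n hn k₀ k i l h1 h2 h3 h4 s hs
  have hsR : s ∈ Rs := by
    rcases hs with rfl | rfl | rfl | rfl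
    exacts [hRs.1, hRs.2.1, hRs.2.2.1, hRs.2.2.2]
  refine hn k₀ k i l h1 h2 h3 h4 s hsR (P.q.notMem ?_)
  rcases hs with rfl | rfl | rfl | rfl <;> simp

end prod

section wat

variable {W : Wnd 11 ι} {f : ∀ n, ι n → Fq4} {T : ℝ} {B : Base} {I : ∀ n, Finset (ι n)}
  {co : ∀ n, ι n → ι n → Fin 11 → ℝ} {Ma : Mons 11} {C : ℝ} {lam : (Fin 11 → ℝ) → ℝ}
  {V Tw : Fin 11 → Prop} {S Rs : Finset (Fin 11)}

/-- **the base row in a window of `AeW`** -/
theorem ne_of_wat (hSR : POk S Rs)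
    (hRs : (5 : Fin 11) ∈ Rs ∧ (6 : Fin 11) ∈ Rs ∧ (8 : Fin 11) ∈ Rs ∧ (9 : Fin 11) ∈ Rs)
    (h2S : (2 : Fin 11) ∈ S)
    (h : WAt B I co monQ Ma C lam V Tw (stP S Rs (4 * cK0 monQ C) T Ma) W)
    (hco : ∀ n, ∀ i ∈ I n, ∀ j ∈ I n, co n i j = coQ (f n i) (f n j))
    (hM : MaE Ma) (hsub : ∀ k, Ma.mon k ⊆ monQ.mon k) (hclo : CloM Rs Ma) (hT : 0 < T)
    (hV : ∀ k, V k → k ∈ S ∨ k ∉ Rs) (hTw : Tw 2)
    (hdens : lam (fun s => if s ∈ Rs then T else 0) ≤
      lam (cut S (fun s => if s ∈ Rs then T else 0) 0) +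
        lam (cut S 0 fun s => if s ∈ Rs then T else 0))
    (hfr : ∀ y, 0 ≤ y → y ≤ T → lam (Pi.single 0 y) ≤ -y) :
    ∃ (E' : ∀ n, Finset (ι n)),
      NE W.B' (W.cfg E') W.legW W.nu T W.Dc (fun n k => flg W n k 2) ∧
      RawTw W.B' (W.cfg E') (fun n k k' => flg W n k' 2 - flg W n k 2) := by
  have hT0 := hT.le
  have h0R : (0 : Fin 11) ∈ Rs := hSR.SR hSR.h0
  have h2R : (2 : Fin 11) ∈ Rs := hSR.SR h2S
  have hden : (stP S Rs (4 * cK0 monQ C) T Ma).Dens lam 1 T :=
    { dens := hdens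
      σ0 := zero_le_one
      σ1 := le_rfl
      hR := by
        show T ≤ if (0 : Fin 11) ∈ Rs then T else 0
        rw [if_pos h0R]
      frost := fun y hy hyT => by
        rw [one_mul]; exact hfr y hy hyT }
  have hVt : ∀ k, V k → k ∈ (stP S Rs (4 * cK0 monQ C) T Ma).S ∨
      (stP S Rs (4 * cK0 monQ C) T Ma).top k = 0 := fun k hk => (hV k hk).imp id fun hk' => if_neg hk'
  obtain ⟨E', g, hP, -, H, htw⟩ := h.model (σ' := 1) (R := T) hden (fun _ _ _ => 0)
    (g₀ := fun n => n) (tendsto_natCast_atTop_atTop.mono_left Crest.Agent.R138.Ex926.U_le_atTop)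
    hVt
  have hq : QWnd W f := qwnd_of_wat h hco hSR.sub
  have hc := hcQ hq hP
  have eS : W.S = S := h.eS
  have etop : W.top = fun s => if s ∈ Rs then T else 0 := h.etop
  have hA : QAt W f Ma := QAt.of_wat h hq hSR.h0 (fun s => by
    fin_cases s <;> rfl) hM.r
  have hsT : ∀ s ∈ Rs, T ≤ W.top s := fun s hs => by
    rw [etop]
    show T ≤ if s ∈ Rs then T else 0
    rw [if_pos hs]
  have hPQ : PQ W f Rs T fun _ => chi Ma := PQ.of_at hA hT0 (by rw [eS]; exact hSR.SR) hsT hclo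
  have t0 : W.top 0 = T := by rw [etop]; exact if_pos h0R
  have t2 : W.top 2 = T := by rw [etop]; exact if_pos h2R
  refine ⟨E', ne_of_pq hPQ hM h.ekz (by rw [eS]; exact h2S) hRs hc hT ?_ H, ?_⟩
  · intro ca cb xa xb ca0 ca1 cb0 cb1 xa0 xa1 xb0 xb1
    refine legW_bw (T := T) (by rw [eS]; exact hSR.h0) (by rw [eS]; exact h2S)
      (by rw [eS]; exact hSR.sub) t0 t2 h.ok.lev_leg (hsT 5 hRs.1) (hsT 6 hRs.2.1)
      (hsT 8 hRs.2.2.1) (hsT 9 hRs.2.2.2) (fun s => ?_) ?_ ?_ ca0 ca1 cb0 cb1 xa0 xa1 xb0 xb1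
    · rw [etop]
      show 0 ≤ if s ∈ Rs then T else 0
      split_ifs
      · exact hT0
      · exact le_rfl
    · rw [h.eR]; exact le_rfl
    · rw [h.eMw]; exact hsub
  · refine Crest.Agent.R136.C2w400.rawTw_of_rawL hq hc (s := 2) (by rw [eS]; exact h2S) (by simp)
      hT (hsT 2 h2R) (htw 2 h2S hTw (by
        show 0 < if (2 : Fin 11) ∈ Rs then T else 0
        rw [if_pos h2R]; exact hT) ⟨T, hT, ?_⟩)
    show cut S (fun s => if s ∈ Rs then T else 0) (Pi.single 2 T) ∈ coneM Ma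
    intro k e he
    have hv : ∀ s, 0 ≤ cut S (fun s => if s ∈ Rs then T else 0) (Pi.single (2 : Fin 11) T) s ∧
        cut S (fun s => if s ∈ Rs then T else 0) (Pi.single (2 : Fin 11) T) s ≤ T := fun s => by
      by_cases hs : s ∈ S
      · rw [cut_of_mem hs]
        by_cases hs2 : s = 2
        · subst hs2; rw [Pi.single_eq_same]; exact ⟨hT0, le_rfl⟩
        · rw [Pi.single_eq_of_ne hs2]; exact ⟨le_rfl, hT0⟩
      · rw [cut_of_notMem hs]
        show 0 ≤ (if s ∈ Rs then T else 0) ∧ (if s ∈ Rs then T else 0) ≤ T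
        split_ifs <;> constructor <;> linarith
    by_cases hk : k ∈ Rs ∧ k ∉ S
    · obtain ⟨s, hs, hsS, hs'⟩ := hSR.lin k e (hsub k he) hk.1 hk.2
      refine (hv k).2.trans (wall_of (fun s => (hv s).1) hs' ?_)
      rw [cut_of_notMem hsS]
      show T ≤ if s ∈ Rs then T else 0
      rw [if_pos hs]
    · have hz : cut S (fun s => if s ∈ Rs then T else 0) (Pi.single (2 : Fin 11) T) k = 0 := by
        by_cases hkS : k ∈ S
        · rw [cut_of_mem hkS]
          refine Pi.single_eq_of_ne ?_ _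
          rintro rfl
          have h2e : monQ.mon 2 = ∅ := rfl
          have := hsub 2 he
          rw [h2e] at this
          exact absurd this (Finset.notMem_empty e)
        · rw [cut_of_notMem hkS]
          exact if_neg fun hk' => hk ⟨hk', hkS⟩
      rw [hz]
      exact wall_zero fun s => (hv s).1

end wat

/-- the resolution for the base row -/
theorem top_base (T : ℝ) : (fun s : Fin 11 => if s ∈ ({0, 2, 5, 6, 8, 9} : Finset (Fin 11)) then T
    else 0) = ![T, 0, T, 0, 0, T, T, 0, T, T, 0] := by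
  funext s; fin_cases s <;> simp

/-- the boxes of the base row -/
theorem bwT_base (T ca cb xa xb : ℝ) : bwT {0, 2}
    (fun s : Fin 11 => if s ∈ ({0, 2, 5, 6, 8, 9} : Finset (Fin 11)) then T else 0) ca cb xa xb =
      ![T, 0, T, 0, 0, ca, cb, 0, xa, xb, 0] := by
  funext s; fin_cases s <;> simp [bwT, cut, bw]

/-- cuts of the resolution for the base row -/
theorem cut_base (T : ℝ) : cut {0, 2}
    (fun s : Fin 11 => if s ∈ ({0, 2, 5, 6, 8, 9} : Finset (Fin 11)) then T else 0) 0 =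
      ![0, 0, 0, 0, 0, T, T, 0, T, T, 0] := by
  funext s; fin_cases s <;> simp [cut]

theorem cut_base' (T : ℝ) : cut {0, 2} 0
    (fun s : Fin 11 => if s ∈ ({0, 2, 5, 6, 8, 9} : Finset (Fin 11)) then T else 0) =
      ![T, 0, T, 0, 0, 0, 0, 0, 0, 0, 0] := by
  funext s; fin_cases s <;> simp [cut]

/-- the four walls are closed in the resolved slots -/
theorem cloM_base (Ma : Mons 11) : CloM {0, 2, 5, 6, 8, 9} Ma where
  w4 := fun h => absurd h (by decide)
  w6 := fun _ => Or.inr (by decide)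
  w7a := fun h => absurd h (by decide)
  w7b := fun h => absurd h (by decide)
  w8 := fun _ => Or.inr (by decide)
  w9a := fun _ => Or.inr (by decide)
  w9b := fun _ => Or.inr (by decide)
  w10a := fun h => absurd h (by decide)
  w10b := fun h => absurd h (by decide)
  w10c := fun h => absurd h (by decide)

/-- all flags level: the wall `F_a ≤ E + F_b` has resolved factors -/
theorem cloM_base4 (Ma : Mons 11) : CloM {0, 2, 3, 4, 5, 6, 8, 9} Ma where
  w4 := fun _ => Or.inr (by decide)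
  w6 := fun _ => Or.inr (by decide)
  w7a := fun h => absurd h (by decide)
  w7b := fun h => absurd h (by decide)
  w8 := fun _ => Or.inr (by decide)
  w9a := fun _ => Or.inr (by decide)
  w9b := fun _ => Or.inr (by decide)
  w10a := fun h => absurd h (by decide)
  w10b := fun h => absurd h (by decide)
  w10c := fun h => absurd h (by decide)

end Crest.Agent.R136.Xb403
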