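import Crest.Agent.R136.LadB_115
import Crest.Agent.R136.Xb3_403
import Crest.Agent.R136.LdF7_511

/-!
# R136, case F, rung (ii): `X_b` given `N` (helper403)

Chart without the walls of `F_b`, window with level slots `z, E` (helper115's `ze_of_aew`), all
slots resolved.  `F_a, P, N` propagate: `F_a' = F_a`, `P' = P`, `N' = N + u P`.

* `NF` : the window model, `nf_of_aew` : producer, with the raw twist of `E`
* **`NF.xb_shift`** : loss of `X_a` given `(F_a, P, N, C_a, C_b, X_b)` is at most the loss of `X_b`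
  given `(F_a, P, N, C_a, C_b)`
* **`xb_given_N_ne`** : `N ∥ X_b`, `κ ≠ 1`.
-/

set_option autoImplicit false
set_option linter.unusedSectionVars false
set_option linter.unusedVariables false

open Filter Topology

namespace Crest.Agent.R136.LdX403

open Finset Crest.Agent.R136.NetQ186 Crest.Agent.R136.Net191 Crest.Agent.R136.Qg926
open Crest.Agent.R136.Gf356 Crest.Agent.R136.Ev356 Crest.Agent.R136.Aw413
open Crest.Agent.R136.Wq400 Crest.Agent.R136.Fe1355 Crest.Agent.R136.LadA115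
open Crest.Agent.R136.Xb403 (MaE bd_of)
open Crest.Agent.R138.Ex926 (Base U)

/-- box vector: `F_a, C_a, C_b, P, X_a, X_b, N` -/
def bz (fa ca cb p xa xb n : ℝ) : Fin 11 → ℝ := ![0, 0, 0, 0, fa, ca, cb, p, xa, xb, n]

/-- the same with `z, E` at `x` -/
def lz (x fa ca cb p xa xb n : ℝ) : Fin 11 → ℝ := ![x, 0, x, 0, fa, ca, cb, p, xa, xb, n]

theorem cze_bz (x fa ca cb p xa xb n : ℝ) :
    cze x (bz fa ca cb p xa xb n) = lz x fa ca cb p xa xb n := by
  funext j
  fin_cases j <;> simp [cze, bz, lz, Function.update]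

/-- evolution of the slots `F_a, C_a, C_b, P, X_a, X_b, N`, error `δ` -/
structure EvF (δ u φ q : ℝ) (r r' : Fin 11 → ℝ) : Prop where
  e4 : |r' 4 - r 4| ≤ δ
  e5 : |r' 5 - r 5| ≤ δ
  e6 : |r' 6 - (r 6 - φ * r 5)| ≤ δ
  e7 : |r' 7 - r 7| ≤ δ
  e8 : |r' 8 - (r 8 + u * r 5)| ≤ δ
  e9 : |r' 9 - (r 9 + u * r 6 - φ * (r 8 + u * r 5))| ≤ δ
  e10 : |r' 10 - (r 10 + q * (u * r 7))| ≤ δ

/-- **window with level slots `z`, `E`, without the walls of `F_b`** -/
structure NF (B : Base) (G : ℕ → RCfg (Fin 11)) (Leg : Set (Fin 11 → ℝ))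
    (ν : (Fin 11 → ℝ) → ℝ) (T D : ℝ) (f : ℕ → ℕ → ℝ) (q : ℝ) : Prop where
  H : RModel B G 1 T Leg ν D
  T0 : 0 < T
  q1 : |q| ≤ 1
  leg : ∀ fa ca cb p xa xb n : ℝ, 0 ≤ fa → fa ≤ T → 0 ≤ ca → ca ≤ T → 0 ≤ cb → cb ≤ T →
    0 ≤ p → p ≤ T → 0 ≤ xa → xa ≤ T → 0 ≤ xb → xb ≤ T → 0 ≤ n → n ≤ T → p ≤ fa + ca →
    n ≤ fa + xa → bz fa ca cb p xa xb n ∈ Leg
  zb : ∀ᶠ n in (U : Filter ℕ), ∀ k ∈ (G n).Z, |(G n).z k| ≤ 1 ∧ |f n k| ≤ 1
  rb : ∀ᶠ n in (U : Filter ℕ), ∀ k i l, (i, k) ∈ (G n).I → (l, k) ∈ (G n).I → ∀ s,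
    |(G n).rel k i l s| ≤ 1
  ev : ∀ ε : ℝ, 0 < ε → ∀ᶠ n in (U : Filter ℕ), ∀ k k' i l, (i, k) ∈ (G n).I →
    (l, k) ∈ (G n).I → (i, k') ∈ (G n).I → (l, k') ∈ (G n).I →
    EvF (B.d n ^ (T - ε)) ((G n).z k' - (G n).z k) (f n k' - f n k) q ((G n).rel k i l)
      ((G n).rel k' i l)

variable {B : Base} {G : ℕ → RCfg (Fin 11)} {Leg : Set (Fin 11 → ℝ)} {ν : (Fin 11 → ℝ) → ℝ}
  {T D q : ℝ} {f : ℕ → ℕ → ℝ}

namespace NF

variable (h : NF B G Leg ν T D f q)

include h

/-- bounds of the differences -/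
theorem db : ∀ᶠ n in (U : Filter ℕ), ∀ k ∈ (G n).Z, ∀ k' ∈ (G n).Z,
    |(G n).z k' - (G n).z k| ≤ 2 ∧ |f n k' - f n k| ≤ 2 := by
  filter_upwards [h.zb] with n hn k hk k' hk'
  constructor
  · refine (abs_sub _ _).trans ?_
    linarith [(hn k hk).1, (hn k' hk').1]
  · refine (abs_sub _ _).trans ?_
    linarith [(hn k hk).2, (hn k' hk').2]

/-- **visible shift**: loss of `X_a` given `(F_a, P, N, C_a, C_b, X_b : y)` is at most the loss of
`X_b` given `(F_a, P, N, C_a, C_b : y)` -/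
theorem xb_shift (htw : RawTw B G fun n k k' => f n k' - f n k) {y : ℝ} (hy : 0 ≤ y)
    (hyT : y ≤ T) : ν (bz y y y y 0 y y) - ν (bz y y y y y y y) ≤
      ν (bz y y y y 0 0 y) - ν (bz y y y y 0 y y) := by
  have hT := h.T0.le
  have m0 : bz y y y y 0 y y ∈ Leg := h.leg y y y y 0 y y hy hyT hy hyT hy hyT hy hyT le_rfl hT
    hy hyT hy hyT (by linarith) (by linarith)
  have m1 : bz y y y y y y y ∈ Leg := h.leg y y y y y y y hy hyT hy hyT hy hyT hy hyT hy hyT
    hy hyT hy hyT (by linarith) (by linarith)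
  have m2 : bz y y y y 0 0 y ∈ Leg := h.leg y y y y 0 0 y hy hyT hy hyT hy hyT hy hyT le_rfl hT
    le_rfl hT hy hyT (by linarith) (by linarith)
  refine shift_R h.H (bz y y y y 0 y y) (bz y y y y y y y) (bz y y y y 0 0 y) (bz y y y y 0 y y)
    m0 m1 m2 m0 (fun j => by fin_cases j <;> simp [bz, hy]) 8 9 (y := y)
    (by simp [bz]) (fun j hj => by fin_cases j <;> simp [bz] at hj ⊢) (by simp [bz])
    (fun n k k' => -(f n k' - f n k)) (by
      intro ε hε
      filter_upwards [htw ε hε] with n hn i hi T hT hq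
      refine hn i hi T hT fun q hq' => ?_
      have := hq q hq'
      rwa [abs_neg] at this) (by
      intro C0 hC0
      refine ⟨C0 + 2, by positivity, fun ε hε => ?_⟩
      filter_upwards [h.ev ε hε, h.rb, h.db, ev_const_le B hε 10] with n hev hrb hdb h8
        k hk k' hk' i i' hi hi' hl hl' hlo
      obtain ⟨hu, hg⟩ := hdb k hk k' hk'
      have E := hev k k' i i' hi hl hi' hl'
      have hpow : ∀ t : ℝ, 0 < B.d n ^ t := fun t => rpos B n t
      have hC0ε : 0 < C0 * ε := by positivity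
      set b := B.d n ^ (y - (C0 + 1) * ε) with hb
      have hb0 : 0 < b := hpow _
      have k1 : B.d n ^ (T - ε) ≤ b := rpow_anti B n (by nlinarith)
      have k2 : B.d n ^ (y - C0 * ε) ≤ b := rpow_anti B n (by nlinarith)
      have g4 := hlo 4
      have g5 := hlo 5
      have g6 := hlo 6
      have g7 := hlo 7
      have g9 := hlo 9
      have g10 := hlo 10
      rw [h.H.base n] at g4 g5 g6 g7 g9 g10
      have v4 : bz y y y y 0 y y 4 = y := by simp [bz]
      have v5 : bz y y y y 0 y y 5 = y := by simp [bz]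
      have v6 : bz y y y y 0 y y 6 = y := by simp [bz]
      have v7 : bz y y y y 0 y y 7 = y := by simp [bz]
      have v9 : bz y y y y 0 y y 9 = y := by simp [bz]
      have v10 : bz y y y y 0 y y 10 = y := by simp [bz]
      rw [v4] at g4
      rw [v5] at g5
      rw [v6] at g6
      rw [v7] at g7
      rw [v9] at g9
      rw [v10] at g10
      have hA : b * 10 ≤ B.d n ^ (y - (C0 + 2) * ε) := by
        have e1 : B.d n ^ (y - (C0 + 2) * ε) = B.d n ^ (-ε) * b := by
          rw [hb, ← rpow_add']; congr 1; ring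
        rw [e1]
        nlinarith
      set u := (G n).z k' - (G n).z k
      set φ := f n k' - f n k
      set r := (G n).rel k i i'
      set r' := (G n).rel k' i i'
      have hu5 : |u * r 5| ≤ 2 * b := by
        rw [abs_mul]; exact mul_le_mul hu (g5.trans k2) (abs_nonneg _) (by norm_num)
      have hu6 : |u * r 6| ≤ 2 * b := by
        rw [abs_mul]; exact mul_le_mul hu (g6.trans k2) (abs_nonneg _) (by norm_num)
      have hu7 : |u * r 7| ≤ 2 * b := by
        rw [abs_mul]; exact mul_le_mul hu (g7.trans k2) (abs_nonneg _) (by norm_num)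
      have hqu7 : |q * (u * r 7)| ≤ 2 * b := by
        rw [abs_mul]
        have := mul_le_mul h.q1 hu7 (abs_nonneg _) zero_le_one
        linarith
      have hφ5 : |φ * r 5| ≤ 2 * b := by
        rw [abs_mul]; exact mul_le_mul hg (g5.trans k2) (abs_nonneg _) (by norm_num)
      have hφu5 : |φ * (u * r 5)| ≤ 4 * b := by
        rw [abs_mul]
        calc |φ| * |u * r 5| ≤ 2 * (2 * b) :=
              mul_le_mul hg hu5 (abs_nonneg _) (by norm_num)
          _ = 4 * b := by ring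
      have s4 : |r' 4| ≤ 10 * b := by
        have e : r' 4 = (r' 4 - r 4) + r 4 := by ring
        rw [e]
        have := abs_add_le (r' 4 - r 4) (r 4)
        linarith [E.e4.trans k1, g4.trans k2]
      have s5 : |r' 5| ≤ 10 * b := by
        have e : r' 5 = (r' 5 - r 5) + r 5 := by ring
        rw [e]
        have := abs_add_le (r' 5 - r 5) (r 5)
        linarith [E.e5.trans k1, g5.trans k2]
      have s6 : |r' 6| ≤ 10 * b := by
        have e : r' 6 = (r' 6 - (r 6 - φ * r 5)) + (r 6 - φ * r 5) := by ring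
        rw [e]
        have t1 := abs_add_le (r' 6 - (r 6 - φ * r 5)) (r 6 - φ * r 5)
        have t2 := abs_sub (r 6) (φ * r 5)
        linarith [E.e6.trans k1, g6.trans k2]
      have s7 : |r' 7| ≤ 10 * b := by
        have e : r' 7 = (r' 7 - r 7) + r 7 := by ring
        rw [e]
        have := abs_add_le (r' 7 - r 7) (r 7)
        linarith [E.e7.trans k1, g7.trans k2]
      have s10 : |r' 10| ≤ 10 * b := by
        have e : r' 10 = (r' 10 - (r 10 + q * (u * r 7))) + (r 10 + q * (u * r 7)) := by ring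
        rw [e]
        have t1 := abs_add_le (r' 10 - (r 10 + q * (u * r 7))) (r 10 + q * (u * r 7))
        have t2 := abs_add_le (r 10) (q * (u * r 7))
        linarith [E.e10.trans k1, g10.trans k2]
      have s9 : |r' 9 - -φ * r 8| ≤ 10 * b := by
        have e : r' 9 - -φ * r 8 = (r' 9 - (r 9 + u * r 6 - φ * (r 8 + u * r 5))) +
            (r 9 + u * r 6 - φ * (u * r 5)) := by ring
        rw [e]
        have t1 := abs_add_le (r' 9 - (r 9 + u * r 6 - φ * (r 8 + u * r 5)))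
          (r 9 + u * r 6 - φ * (u * r 5))
        have t2 := abs_sub (r 9 + u * r 6) (φ * (u * r 5))
        have t3 := abs_add_le (r 9) (u * r 6)
        linarith [E.e9.trans k1, g9.trans k2]
      refine ⟨fun j => ?_, ?_⟩
      · rw [h.H.base n]
        have hz : ∀ j, bz y y y y 0 0 y j = 0 → |(G n).rel k' i i' j| ≤
            B.d n ^ (bz y y y y 0 0 y j - (C0 + 2) * ε) := by
          intro j hj
          rw [hj]
          refine (hrb k' i i' hi' hl' j).trans ?_
          have : (1 : ℝ) ≤ B.d n ^ (-ε) := by linarith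
          refine this.trans (rpow_anti B n (by nlinarith))
        have c4 : bz y y y y 0 0 y 4 = y := by simp [bz]
        have c5 : bz y y y y 0 0 y 5 = y := by simp [bz]
        have c6 : bz y y y y 0 0 y 6 = y := by simp [bz]
        have c7 : bz y y y y 0 0 y 7 = y := by simp [bz]
        have c10 : bz y y y y 0 0 y 10 = y := by simp [bz]
        by_cases j4 : j = 4
        · subst j4; rw [c4]; exact s4.trans (by linarith)
        by_cases j5 : j = 5
        · subst j5; rw [c5]; exact s5.trans (by linarith)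
        by_cases j6 : j = 6
        · subst j6; rw [c6]; exact s6.trans (by linarith)
        by_cases j7 : j = 7
        · subst j7; rw [c7]; exact s7.trans (by linarith)
        by_cases j10 : j = 10
        · subst j10; rw [c10]; exact s10.trans (by linarith)
        refine hz j ?_
        fin_cases j <;> simp [bz] at j4 j5 j6 j7 j10 ⊢
      · exact s9.trans (by linarith))

end NF

/-! ### the producer -/

section prod

variable {ι : ℕ → Type*} [∀ n, DecidableEq (ι n)] {W : Wnd 11 ι} {F : ∀ n, ι n → Fq4}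
  {Ma : Mons 11} {E : ∀ n, Finset (ι n)} {lam : (Fin 11 → ℝ) → ℝ} {x : ℝ}

/-- the boxes of the window -/
theorem leg_lw (hW : LW Ma F lam {0, 2} (fun _ => x) x W E)
    (hsub : ∀ k, Ma.mon k ⊆ monQ.mon k) (no3 : ∀ k, ∀ e ∈ Ma.mon k, e 3 = 0) (hx : 0 ≤ x)
    {fa ca cb p xa xb n : ℝ} (f0 : 0 ≤ fa) (f1 : fa ≤ x) (ca0 : 0 ≤ ca) (ca1 : ca ≤ x)
    (cb0 : 0 ≤ cb) (cb1 : cb ≤ x) (p0 : 0 ≤ p) (p1 : p ≤ x) (xa0 : 0 ≤ xa) (xa1 : xa ≤ x)
    (xb0 : 0 ≤ xb) (xb1 : xb ≤ x) (n0 : 0 ≤ n) (n1 : n ≤ x) (hp : p ≤ fa + ca)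
    (hn : n ≤ fa + xa) : bz fa ca cb p xa xb n ∈ W.legW := by
  have hb : ∀ s, bz fa ca cb p xa xb n s ≤ x := by
    intro s
    fin_cases s <;> simp only [bz, Matrix.cons_val, Fin.zero_eta, Fin.mk_one, Fin.reduceFinMk] <;>
      assumption
  have hq : ∀ s, 0 ≤ lz x fa ca cb p xa xb n s ∧ lz x fa ca cb p xa xb n s ≤ x := by
    intro s
    fin_cases s <;> simp only [lz, Matrix.cons_val, Fin.zero_eta, Fin.mk_one, Fin.reduceFinMk] <;>
      constructor <;> first
        | assumption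
        | exact le_rfl
  refine ⟨?_, fun s _ => by rw [hW.etop]; exact hb s⟩
  rw [hW.eS, hW.etop, hW.eMw, hW.eR, cut_cze, cze_bz]
  refine ⟨legal3 hsub no3 (fun s => (hq s).1) ?_ ?_ ?_ ?_ ?_ ?_ ?_ ?_, fun s => (hq s).2⟩
  all_goals
    simp only [lz, Matrix.cons_val]
    linarith

/-- **the model** of a window of helper115 -/
theorem nf_of_lw (hW : LW Ma F lam {0, 2} (fun _ => x) x W E)
    (hsub : ∀ k, Ma.mon k ⊆ monQ.mon k) (no3 : ∀ k, ∀ e ∈ Ma.mon k, e 3 = 0) (hM : MaE Ma)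
    (hx : 0 < x) :
    NF W.B' (W.cfg E) W.legW W.nu x W.Dc (fun n k => flg W n k 2) (chi Ma 0 7 10) where
  H := hW.H
  T0 := hx
  q1 := chi_abs 0 7 10
  leg := fun fa ca cb p xa xb n f0 f1 ca0 ca1 cb0 cb1 p0 p1 xa0 xa1 xb0 xb1 n0 n1 hp hn =>
    leg_lw hW hsub no3 hx.le f0 f1 ca0 ca1 cb0 cb1 p0 p1 xa0 xa1 xb0 xb1 n0 n1 hp hn
  zb := by
    have hK0 := hW.qa.q.ok.K0_one
    filter_upwards [bd_of hW.qa.q (fun s => by have := hW.qa.kap4 s; linarith) hW.hc,
      hW.qa.q.z_eq hW.ekz hW.hc] with n hn hz k hk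
    rw [hz k]
    exact ⟨hn.2 k hk 0, hn.2 k hk 2⟩
  rb := by
    have hK0 := hW.qa.q.ok.K0_one
    exact (bd_of hW.qa.q (fun s => by have := hW.qa.kap4 s; linarith) hW.hc).mono
      fun n hn => hn.1
  ev := fun ε hε => by
    have h0S : (0 : Fin 11) ∈ W.S := by rw [hW.eS]; decide
    have h2S : (2 : Fin 11) ∈ W.S := by rw [hW.eS]; decide
    have h3S : (3 : Fin 11) ∉ W.S := by rw [hW.eS]; decide
    have h4S : (4 : Fin 11) ∉ W.S := by rw [hW.eS]; decide
    have ht : ∀ s, x ≤ W.top s := fun s => by rw [hW.etop]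
    filter_upwards [hW.qa.evoX hW.hc hx.le ht hε, hW.qa.q.z_eq hW.ekz hW.hc,
      hW.qa.q.mot_eq hW.hc] with n hev hz hmot k k' i l h1 h2 h3 h4
    have hkZ : k ∈ (W.cfg E n).Z := hW.H.memZ h1
    have hkZ' : k' ∈ (W.cfg E n).Z := hW.H.memZ h3
    have key := hev k k' i l h1 h3 h2 h4
    set a := ownC (chi Ma) W n k k' (fsl W n i k 2) (fsl W n i k 3) with ha
    have m0 : a 0 = (W.cfg E n).z k' - (W.cfg E n).z k := by
      rw [ha, hz k, hz k']
      unfold ownC mot
      rw [if_neg (by decide), if_pos h0S]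
      exact (hmot k hkZ k' hkZ').1 0 (by simp)
    have m2 : a 2 = flg W n k' 2 - flg W n k 2 := by
      rw [ha]
      unfold ownC mot
      rw [if_neg (by decide), if_pos h2S]
      exact (hmot k hkZ k' hkZ').1 2 (by simp)
    have m3 : a 3 = 0 := by
      rw [ha]
      unfold ownC mot
      rw [if_neg (by decide), if_neg h3S]
    have m4 : a 4 = 0 := by
      rw [ha]
      unfold ownC
      rw [if_pos rfl, if_neg h4S]
    have c234 : chi Ma 2 3 4 = 0 := if_neg fun hh => absurd (no3 4 _ hh) (by decide)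
    have c017 : chi Ma 0 1 7 = 0 := if_neg hM.r
    have c256 : chi Ma 2 5 6 = 1 := if_pos hM.m256
    have c058 : chi Ma 0 5 8 = 1 := if_pos hM.m058
    have c069 : chi Ma 0 6 9 = 1 := if_pos hM.m069
    have c289 : chi Ma 2 8 9 = 1 := if_pos hM.m289
    have ns : ∀ s : Fin 11, s = 4 ∨ s = 5 ∨ s = 6 ∨ s = 7 ∨ s = 8 ∨ s = 9 ∨ s = 10 →
        s ∉ W.S := by
      intro s hs
      rw [hW.eS]
      rcases hs with rfl | rfl | rfl | rfl | rfl | rfl | rfl <;> decide
    rw [← m0, ← m2]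
    refine ⟨?_, ?_, ?_, ?_, ?_, ?_, ?_⟩
    · have := key 4 (ns 4 (by simp))
      simpa only [evoC, Matrix.cons_val, c234, zero_mul, add_zero] using this
    · have := key 5 (ns 5 (by simp))
      simpa only [evoC, Matrix.cons_val] using this
    · have := key 6 (ns 6 (by simp))
      simpa only [evoC, Matrix.cons_val, c256, one_mul] using this
    · have := key 7 (ns 7 (by simp))
      simpa only [evoC, Matrix.cons_val, c017, m3, m4, zero_mul, mul_zero, add_zero, sub_zero]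
        using this
    · have := key 8 (ns 8 (by simp))
      simpa only [evoC, Matrix.cons_val, c058, one_mul] using this
    · have := key 9 (ns 9 (by simp))
      simpa only [evoC, Matrix.cons_val, c058, c069, c289, one_mul] using this
    · have := key 10 (ns 10 (by simp))
      simpa only [evoC, Matrix.cons_val, c017, m3, m4, zero_mul, mul_zero, add_zero, sub_zero]
        using this

end prod

section aew

variable {ι : ℕ → Type*} [∀ n, DecidableEq (ι n)] {F : ∀ n, ι n → Fq4}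
  {Ma : Mons 11} {B Bo : Base} {I J : ∀ n, Finset (ι n)} {co : ∀ n, ι n → ι n → Fin 11 → ℝ}
  {C : ℝ} {lam : (Fin 11 → ℝ) → ℝ} {a b' : Fin 11 → ℝ} {A : ℝ × ℝ}
  {φ : ℕ → (Fin 11 → ℝ) → ℝ} {r : ℕ → ℝ} {κ : Fin 11 → ℝ} {V Tw : Fin 11 → Prop}

/-- **the window with the level slots `z, E` and the raw twist of `E`** -/
theorem nf_of_aew (h : AeW B Bo I J co monQ Ma C lam a b' A φ r 0 1 κ V Tw) (hC : 0 ≤ C)
    (hco : ∀ n, ∀ i ∈ I n, ∀ j ∈ I n, co n i j = coQ (F n i) (F n j))
    (hne : ∀ᶠ n in (U : Filter ℕ), (J n).Nonempty) (hM : MaE Ma)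
    (no3 : ∀ k, ∀ e ∈ Ma.mon k, e 3 = 0)
    (hV : ∀ k, V k → k = 2) (hTw : Tw 2) {x : ℝ} (hx : 0 < x)
    (hden : lam (fun _ => x) ≤ lam (cut {0, 2} (fun _ => x) 0) + lam (cut {0, 2} 0 fun _ => x)) :
    ∃ (W : Wnd 11 ι) (E : ∀ n, Finset (ι n)), LW Ma F lam {0, 2} (fun _ => x) x W E ∧
      NF W.B' (W.cfg E) W.legW W.nu x W.Dc (fun n k => flg W n k 2) (chi Ma 0 7 10) ∧
      RawTw W.B' (W.cfg E) (fun n k k' => flg W n k' 2 - flg W n k 2) := by
  have hK0 : 1 ≤ cK0 monQ C := cK0_one hC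
  have hok := stQ_ok (K := 4 * cK0 monQ C) (T := x) sok_e (by linarith) hx.le h.sub
  set st : WSt 11 := stQ {0, 2} (4 * cK0 monQ C) x Ma with hst
  obtain ⟨W, hW, -, -⟩ := h.wnd st rfl hok (fun _ _ => 1)
    (fun _ => Crest.Agent.R138.Ex926.Base.Sub.const one_pos) J (fun _ => 1)
    (Eventually.of_forall fun n => Finset.Subset.refl _) hne
    (Crest.Agent.R138.Ex926.Base.Sub.const one_pos)
    (Eventually.of_forall fun n => by rw [one_mul])
  have hsing : ∀ y : ℝ, 0 ≤ y → Pi.single (0 : Fin 11) y ∈ coneM Ma := fun y hy k e he => by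
    have hk : k ≠ 0 := by
      rintro rfl
      have := h.sub 0 he
      simp [monQ, mfQ] at this
    rw [Pi.single_eq_of_ne hk]
    refine sum_nonneg fun s _ => mul_nonneg (Nat.cast_nonneg _) ?_
    by_cases hs : s = 0
    · subst hs; simpa using hy
    · rw [Pi.single_eq_of_ne hs]
  have hden' : st.Dens lam 1 x :=
    ⟨hden, zero_le_one, le_rfl, le_rfl, fun y h0 h1 => by
      have := h.frostO (c0 := 0) zero_mem (fun k _ => by simp) h0
        (by rw [zero_add]; exact hsing y h0)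
      rw [zero_add, h.zero, sub_zero] at this
      exact this⟩
  obtain ⟨E, g, hP, -, H, htw⟩ := hW.model hden' (fun _ _ _ => 0) (g₀ := fun n => n)
    (tendsto_natCast_atTop_atTop.mono_left Crest.Agent.R138.Ex926.U_le_atTop)
    (fun k hk => Or.inl (by
      rw [hV k hk]
      exact (show (2 : Fin 11) ∈ ({0, 2} : Finset (Fin 11)) by decide)))
  have hq : QWnd W F := qwnd_of_wat hW hco (show ∀ s ∈ ({0, 2} : Finset (Fin 11)),
    s = 0 ∨ s = 2 ∨ s = 3 ∨ s = 4 by decide)
  have hc := hcQ hq hP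
  have hqa : QAt W F Ma := QAt.of_wat hW hq hok.kzS (fun s => rfl) hM.r
  have hLW : LW Ma F lam {0, 2} (fun _ => x) x W E :=
    ⟨hW.elam, hW.eS, hW.etop, hW.eMw, hW.eR, hW.ekz, hqa, hc, H⟩
  refine ⟨W, E, hLW, nf_of_lw hLW h.sub no3 hM hx, ?_⟩
  have eS : W.S = {0, 2} := hW.eS
  have et : ∀ s, x ≤ W.top s := fun s => by rw [hLW.etop]
  refine Crest.Agent.R136.C2w400.rawTw_of_rawL hq hc (s := 2) (by rw [eS]; decide) (by simp)
    hx (et 2) (htw 2 (show (2 : Fin 11) ∈ ({0, 2} : Finset (Fin 11)) by decide) hTw hx ⟨x, hx, ?_⟩)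
  show cut {0, 2} (fun _ => x) (Pi.single 2 x) ∈ coneM Ma
  have e1 : cut {0, 2} (fun _ => x) (Pi.single (2 : Fin 11) x) =
      ![0, x, x, x, x, x, x, x, x, x, x] := by
    funext s
    fin_cases s <;> simp [cut]
  rw [e1]
  intro k e he
  refine (legalQ_iff.2 ?_).wall k e (h.sub k he)
  refine ⟨fun k => ?_, ?_, ?_, ?_, ?_, ?_, ?_, ?_, ?_, ?_, ?_, ?_⟩
  · fin_cases k <;>
      simp only [Matrix.cons_val, Fin.zero_eta, Fin.mk_one, Fin.reduceFinMk, Fin.isValue] <;>
      linarith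
  all_goals
    simp only [Matrix.cons_val, Fin.isValue]
    linarith

end aew

end Crest.Agent.R136.LdX403
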