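import Crest.Agent.R136.LdX1_403

/-!
# R136, case F, rung (ii): `X_b` given `N`, groups, `κ ≠ 1` (helper403)

* `dens_x` : density of the window with the level slots `z, E`
* **`xb_ne`** : `N ∥ X_b`, `C_b ∦ X_a` (`κ ≠ 1`)
* **`xb_given_N_ne`** : over helper667's `PtV`.
-/

set_option autoImplicit false
set_option linter.unusedSectionVars false
set_option linter.unusedVariables false

open Filter Topology

namespace Crest.Agent.R136.LdX403

open Finset Crest.Agent.R136.NetQ186 Crest.Agent.R136.Net191 Crest.Agent.R136.Qg926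
open Crest.Agent.R136.Gf356 Crest.Agent.R136.Ev356 Crest.Agent.R136.Aw413
open Crest.Agent.R136.Wq400 Crest.Agent.R136.Fe1355 Crest.Agent.R136.LadA115
open Crest.Agent.R136.Xb403 (MaE bd_of)
open Crest.Agent.R136.LdF5511 (PlE one_grp split2)
open Crest.Agent.R136.Dg219 (mw Walls Tn OutS gC dhC nC gset lf mem_gset gC_zero gC_eq nC_zero
  nC_of)
open Crest.Agent.R138.Ex926 (Base U)

/-- plane of rung (ii) with `N ∥ X_b` -/
structure PlX (a b : Fin 11 → ℝ) (κ : ℝ) : Prop extends PlE a b κ where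
  a1 : a 1 = 0
  a4 : a 4 = 0
  a7 : a 7 = 0
  g10 : gC a b 10 = gC a b 9

namespace PlX

variable {a b : Fin 11 → ℝ} {κ : ℝ} (h : PlX a b κ)

include h

/-- the other slots of the group of `z` : none besides `E` (and `F_b`) -/
theorem grp0 {i : Fin 11} (hi : gC a b i = gC a b 0) : i = 0 ∨ i = 2 ∨ i = 3 := by
  have P := h.toPlE
  have n1 : i ≠ 1 := fun e => P.g0 (by rw [← hi, e]; exact gC_zero.2 h.a1)
  have n4 : i ≠ 4 := fun e => P.g0 (by rw [← hi, e]; exact gC_zero.2 h.a4)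
  have n5 : i ≠ 5 := fun e => P.g0 (by rw [← hi, e]; exact P.g5)
  have n7 : i ≠ 7 := fun e => P.g0 (by rw [← hi, e]; exact gC_zero.2 h.a7)
  have n6 : i ≠ 6 := fun e => P.g06 (by rw [← hi, e])
  have n8 : i ≠ 8 := fun e => P.g08 (by rw [← hi, e])
  have n9 : i ≠ 9 := fun e => P.g09 (by rw [← hi, e])
  have n10 : i ≠ 10 := fun e => P.g09 (by rw [← hi, e, h.g10])
  fin_cases i <;> simp at n1 n4 n5 n6 n7 n8 n9 n10 ⊢

/-- the group of `X_b` -/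
theorem grp9 {i : Fin 11} (hi : gC a b i = gC a b 9) : i = 9 ∨ i = 10 ∨ i = 3 := by
  have P := h.toPlE
  have n0 : i ≠ 0 := fun e => P.g09 (by rw [← hi, e])
  have n2 : i ≠ 2 := fun e => P.g09 (by rw [P.g02, ← hi, e])
  have n1 : i ≠ 1 := fun e => P.g9 (by rw [← hi, e]; exact gC_zero.2 h.a1)
  have n4 : i ≠ 4 := fun e => P.g9 (by rw [← hi, e]; exact gC_zero.2 h.a4)
  have n5 : i ≠ 5 := fun e => P.g9 (by rw [← hi, e]; exact P.g5)
  have n7 : i ≠ 7 := fun e => P.g9 (by rw [← hi, e]; exact gC_zero.2 h.a7)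
  have n6 : i ≠ 6 := fun e => P.g69 (by rw [← hi, e])
  have n8 : i ≠ 8 := fun e => P.g89 (by rw [← hi, e])
  fin_cases i <;> simp at n0 n1 n2 n4 n5 n6 n7 n8 ⊢

/-- the group of `X_a` -/
theorem grp8 {i : Fin 11} (hi : gC a b i = gC a b 8) : i = 8 ∨ i = 6 ∨ i = 3 := by
  have P := h.toPlE
  have n0 : i ≠ 0 := fun e => P.g08 (by rw [← hi, e])
  have n2 : i ≠ 2 := fun e => P.g08 (by rw [P.g02, ← hi, e])
  have n1 : i ≠ 1 := fun e => P.g8 (by rw [← hi, e]; exact gC_zero.2 h.a1)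
  have n4 : i ≠ 4 := fun e => P.g8 (by rw [← hi, e]; exact gC_zero.2 h.a4)
  have n5 : i ≠ 5 := fun e => P.g8 (by rw [← hi, e]; exact P.g5)
  have n7 : i ≠ 7 := fun e => P.g8 (by rw [← hi, e]; exact gC_zero.2 h.a7)
  have n9 : i ≠ 9 := fun e => P.g89 (by rw [← hi, e])
  have n10 : i ≠ 10 := fun e => P.g89 (by rw [← hi, e, h.g10])
  fin_cases i <;> simp at n0 n1 n2 n4 n5 n7 n9 n10 ⊢

/-- the slots `R, F_a, C_a, P` are constant along the ray -/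
theorem grpz {i : Fin 11} (hi : gC a b i = 0) : i = 1 ∨ i = 4 ∨ i = 5 ∨ i = 7 ∨ i = 3 := by
  have P := h.toPlE
  have n0 : i ≠ 0 := fun e => P.g0 (by rw [← hi, e])
  have n2 : i ≠ 2 := fun e => P.g0 (by rw [P.g02, ← hi, e])
  have n6 : i ≠ 6 := fun e => P.g6 (by rw [← hi, e])
  have n8 : i ≠ 8 := fun e => P.g8 (by rw [← hi, e])
  have n9 : i ≠ 9 := fun e => P.g9 (by rw [← hi, e])
  have n10 : i ≠ 10 := fun e => P.g9 (by rw [← h.g10, ← hi, e])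
  fin_cases i <;> simp at n0 n2 n6 n8 n9 n10 ⊢

end PlX

/-- `C_b ∦ X_a` if `κ ≠ 1` -/
theorem g68_ne {a b : Fin 11 → ℝ} {κ : ℝ} (P : PlE a b κ) (h1 : κ ≠ 1) :
    gC a b 6 ≠ gC a b 8 := by
  rw [Ne, gC_eq P.n6 P.n8, P.a6, P.a8, P.b8, P.b6, P.b2]
  have hκ := P.κ0
  intro e
  have h2 : (κ - 1) * b 5 = 0 := by
    field_simp at e
    linarith
  rcases mul_eq_zero.1 h2 with h3 | h3
  · exact h1 (by linarith)
  · exact P.b5 h3

/-- `C_b ∥ X_a` if `κ = 1` -/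
theorem g68_eq {a b : Fin 11 → ℝ} (P : PlE a b 1) : gC a b 6 = gC a b 8 := by
  rw [gC_eq P.n6 P.n8, P.a6, P.a8, P.b8, P.b6, P.b2]
  ring

section mem

variable {Ma : Mons 11} (hsub : ∀ k, Ma.mon k ⊆ monQ.mon k)
  (no3 : ∀ k, ∀ e ∈ Ma.mon k, e 3 = 0)

include hsub no3

/-- boxes of the cone -/
theorem mem3 {c : Fin 11 → ℝ} (h0 : ∀ s, 0 ≤ c s)
    (w625 : c 6 ≤ c 2 + c 5) (w701 : c 7 ≤ c 0 + c 1)
    (w745 : c 7 ≤ c 4 + c 5) (w805 : c 8 ≤ c 0 + c 5) (w906 : c 9 ≤ c 0 + c 6)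
    (w928 : c 9 ≤ c 2 + c 8) (w107 : c 10 ≤ c 0 + c 7) (w148 : c 10 ≤ c 4 + c 8) :
    c ∈ coneM Ma :=
  fun k e he => (legal3 hsub no3 h0 w625 w701 w745 w805 w906 w928 w107 w148).wall k e he

/-- the boxes `lz` -/
theorem mem_lz {x fa ca cb p xa xb n : ℝ} (hx : 0 ≤ x) (f0 : 0 ≤ fa) (ca0 : 0 ≤ ca)
    (cb0 : 0 ≤ cb) (cb1 : cb ≤ x) (p0 : 0 ≤ p) (p1 : p ≤ x) (xa0 : 0 ≤ xa) (xa1 : xa ≤ x)
    (xb0 : 0 ≤ xb) (xb1 : xb ≤ x) (n0 : 0 ≤ n) (n1 : n ≤ x) (hp : p ≤ fa + ca)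
    (hn : n ≤ fa + xa) : lz x fa ca cb p xa xb n ∈ coneM Ma := by
  refine mem3 hsub no3 (fun s => ?_) ?_ ?_ ?_ ?_ ?_ ?_ ?_ ?_
  · fin_cases s <;> simp only [lz, Matrix.cons_val, Fin.zero_eta, Fin.mk_one, Fin.reduceFinMk,
      Fin.isValue] <;> first
        | assumption
        | exact le_rfl
  all_goals
    simp only [lz, Matrix.cons_val]
    linarith

end mem

section arith

variable {Ma : Mons 11} {a b : Fin 11 → ℝ} {κ : ℝ} {lam : (Fin 11 → ℝ) → ℝ} {A : ℝ × ℝ}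
  {φ : ℕ → (Fin 11 → ℝ) → ℝ} {r : ℕ → ℝ}

/-- **density** of the window with the level slots `z, E` -/
theorem dens_x (hsub : ∀ k, Ma.mon k ⊆ monQ.mon k) (no3 : ∀ k, ∀ e ∈ Ma.mon k, e 3 = 0)
    (h : OutS (gC a b) (coneM Ma) (dhC a b) (nC a b) lam A φ r) (P : PlX a b κ)
    (h0 : lam 0 = 0)
    (hind : ∀ c ∈ coneM Ma, ∀ c' ∈ coneM Ma, (∀ i, i ≠ 3 → c i = c' i) → 0 ≤ c 1 → lam c = lam c')
    {x : ℝ} (hx : 0 ≤ x) :
    lam (fun _ => x) ≤ lam (cut {0, 2} (fun _ => x) 0) + lam (cut {0, 2} 0 fun _ => x) := by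
  have e1 : cut {0, 2} (fun _ => x) (0 : Fin 11 → ℝ) = ![0, x, 0, x, x, x, x, x, x, x, x] := by
    funext s
    fin_cases s <;> simp [cut]
  have e2 : cut {0, 2} (0 : Fin 11 → ℝ) (fun _ => x) = ![x, 0, x, 0, 0, 0, 0, 0, 0, 0, 0] := by
    funext s
    fin_cases s <;> simp [cut]
  rw [e1, e2]
  have m1 : (fun _ => x : Fin 11 → ℝ) ∈ coneM Ma :=
    mem3 hsub no3 (fun _ => hx) (by linarith) (by linarith) (by linarith) (by linarith)
      (by linarith) (by linarith) (by linarith) (by linarith)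
  have m1' : (![x, x, x, 0, x, x, x, x, x, x, x] : Fin 11 → ℝ) ∈ coneM Ma := by
    refine mem3 hsub no3 (fun s => ?_) ?_ ?_ ?_ ?_ ?_ ?_ ?_ ?_
    · fin_cases s <;> simp <;> exact hx
    all_goals
      simp only [Matrix.cons_val]
      linarith
  have m2 : (![0, x, 0, x, x, x, x, x, x, x, x] : Fin 11 → ℝ) ∈ coneM Ma := by
    refine mem3 hsub no3 (fun s => ?_) ?_ ?_ ?_ ?_ ?_ ?_ ?_ ?_
    · fin_cases s <;> simp <;> exact hx
    all_goals
      simp only [Matrix.cons_val]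
      linarith
  have m2' : (![0, x, 0, 0, x, x, x, x, x, x, x] : Fin 11 → ℝ) ∈ coneM Ma := by
    refine mem3 hsub no3 (fun s => ?_) ?_ ?_ ?_ ?_ ?_ ?_ ?_ ?_
    · fin_cases s <;> simp <;> exact hx
    all_goals
      simp only [Matrix.cons_val]
      linarith
  have m3 : (![x, 0, x, 0, 0, 0, 0, 0, 0, 0, 0] : Fin 11 → ℝ) ∈ coneM Ma := by
    refine mem3 hsub no3 (fun s => ?_) ?_ ?_ ?_ ?_ ?_ ?_ ?_ ?_
    · fin_cases s <;> simp <;> exact hx
    all_goals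
      simp only [Matrix.cons_val]
      linarith
  have f1 : lam (fun _ => x) = lam ![x, x, x, 0, x, x, x, x, x, x, x] :=
    hind _ m1 _ m1' (fun i hi => by fin_cases i <;> simp at hi ⊢) hx
  have f2 : lam ![0, x, 0, x, x, x, x, x, x, x, x] = lam ![0, x, 0, 0, x, x, x, x, x, x, x] :=
    hind _ m2 _ m2' (fun i hi => by fin_cases i <;> simp at hi ⊢) (by simpa using hx)
  have hs := split2 h (zero_mem (Ma := Ma)) m2' m3 m1' (by
    intro k
    by_cases hk : k = gC a b 0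
    · left
      intro i hi
      rw [hk] at hi
      rcases P.grp0 hi with rfl | rfl | rfl <;> simp
    · right
      intro i hi
      have n0 : i ≠ 0 := fun e => hk (by rw [← hi, e])
      have n2 : i ≠ 2 := fun e => hk (by rw [← hi, e, P.g02])
      fin_cases i <;> simp at n0 n2 ⊢)
  rw [h0] at hs
  rw [f1, f2]
  linarith

/-- homogeneity of `X_b, N` in their group -/
theorem hom910 (hsub : ∀ k, Ma.mon k ⊆ monQ.mon k) (no3 : ∀ k, ∀ e ∈ Ma.mon k, e 3 = 0)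
    (h : OutS (gC a b) (coneM Ma) (dhC a b) (nC a b) lam A φ r) (P : PlX a b κ)
    (hom : ∀ c ∈ coneM Ma, ∀ s : ℝ, 0 ≤ s → φ (gC a b 9) (s • c) = s * φ (gC a b 9) c)
    {y : ℝ} (hy : 0 ≤ y) : φ (gC a b 9) (Pi.single 9 y + Pi.single 10 y) =
      y * φ (gC a b 9) (Pi.single 9 1 + Pi.single 10 1) := by
  have m1 : lz 1 1 0 0 0 0 1 1 ∈ coneM Ma := mem_lz hsub no3 zero_le_one zero_le_one le_rfl le_rfl
    zero_le_one le_rfl zero_le_one le_rfl zero_le_one zero_le_one le_rfl zero_le_one le_rfl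
    (by norm_num) (by norm_num)
  have e1 : φ (gC a b 9) (Pi.single 9 1 + Pi.single 10 1) = φ (gC a b 9) (lz 1 1 0 0 0 0 1 1) :=
    h.loc _ _ _ fun i hi => by
      rcases P.grp9 hi with rfl | rfl | rfl <;> simp [lz]
  have e2 : φ (gC a b 9) (Pi.single 9 y + Pi.single 10 y) =
      φ (gC a b 9) (y • lz 1 1 0 0 0 0 1 1) :=
    h.loc _ _ _ fun i hi => by
      rcases P.grp9 hi with rfl | rfl | rfl <;> simp [lz]
  rw [e1, e2, hom _ m1 y hy]

end arith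

section aew

variable {ι : ℕ → Type*} [∀ n, DecidableEq (ι n)] {F : ∀ n, ι n → Fq4}
  {Ma : Mons 11} {B Bo : Base} {I J : ∀ n, Finset (ι n)} {co : ∀ n, ι n → ι n → Fin 11 → ℝ}
  {C : ℝ} {lam : (Fin 11 → ℝ) → ℝ} {a b : Fin 11 → ℝ} {κ : ℝ} {A : ℝ × ℝ}
  {φ : ℕ → (Fin 11 → ℝ) → ℝ} {r : ℕ → ℝ} {κo : Fin 11 → ℝ} {V Tw : Fin 11 → Prop}

/-- value of `ν` -/
theorem nu_lw {W : Wnd 11 ι} {E : ∀ n, Finset (ι n)} {x : ℝ}
    (hW : LW Ma F lam {0, 2} (fun _ => x) x W E) (fa ca cb p xa xb n : ℝ) :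
    W.nu (bz fa ca cb p xa xb n) = lam (lz x fa ca cb p xa xb n) - lam fun _ => x := by
  unfold Wnd.nu
  rw [hW.eS, hW.etop, hW.lamE, cut_cze, cze_bz]

/-- **`X_b` given `N`**, `C_b ∦ X_a` -/
theorem xb_ne (h : AeW B Bo I J co monQ Ma C lam a b A φ r 0 1 κo V Tw) (hC : 0 ≤ C)
    (hco : ∀ n, ∀ i ∈ I n, ∀ j ∈ I n, co n i j = coQ (F n i) (F n j))
    (hne : ∀ᶠ n in (U : Filter ℕ), (J n).Nonempty) (hM : MaE Ma)
    (no3 : ∀ k, ∀ e ∈ Ma.mon k, e 3 = 0)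
    (hV : ∀ k, V k → k = 2) (hTw : Tw 2) (P : PlX a b κ) (g68 : gC a b 6 ≠ gC a b 8)
    (hind : ∀ c ∈ coneM Ma, ∀ c' ∈ coneM Ma, (∀ i, i ≠ 3 → c i = c' i) → 0 ≤ c 1 → lam c = lam c')
    (hom : ∀ c ∈ coneM Ma, ∀ s : ℝ, 0 ≤ s → φ (gC a b 9) (s • c) = s * φ (gC a b 9) c)
    (h8 : φ (gC a b 8) (Pi.single 8 1) ≤ -1)
    (hN : ∀ y, 0 ≤ y → φ (gC a b 10) (Pi.single 10 y) ≤ -y) {y : ℝ} (hy : 0 ≤ y) :
    φ (gC a b 9) (Pi.single 9 y + Pi.single 10 y) ≤ -(2 * y) := by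
  obtain ⟨W, E, hW, hNF, htw⟩ := nf_of_aew h hC hco hne hM no3 hV hTw one_pos
    (dens_x h.sub no3 h.out P h.zero hind zero_le_one)
  have key := hNF.xb_shift htw zero_le_one le_rfl
  rw [nu_lw hW, nu_lw hW, nu_lw hW] at key
  have m : ∀ xa xb : ℝ, 0 ≤ xa → xa ≤ 1 → 0 ≤ xb → xb ≤ 1 →
      lz 1 1 1 1 1 xa xb 1 ∈ coneM Ma := fun xa xb h1 h2 h3 h4 =>
    mem_lz h.sub no3 zero_le_one zero_le_one zero_le_one zero_le_one le_rfl zero_le_one le_rfl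
      h1 h2 h3 h4 zero_le_one le_rfl (by norm_num) (by linarith)
  have m01 := m 0 1 le_rfl zero_le_one zero_le_one le_rfl
  have m11 := m 1 1 zero_le_one le_rfl zero_le_one le_rfl
  have m00 := m 0 0 le_rfl zero_le_one le_rfl zero_le_one
  -- `X_a` alone
  have k8 : lam (lz 1 1 1 1 1 0 1 1) - lam (lz 1 1 1 1 1 1 1 1) =
      -φ (gC a b 8) (Pi.single 8 1) := by
    rw [one_grp h.out m01 m11 (gC a b 8) (fun i hi => by
      have n8 : i ≠ 8 := fun e => hi (by rw [e])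
      fin_cases i <;> simp [lz] at n8 ⊢)]
    have hz : φ (gC a b 8) (lz 1 1 1 1 1 0 1 1) = 0 := h.out.zero _ _ fun i hi => by
      rcases P.grp8 hi with rfl | rfl | rfl
      · simp [lz]
      · exact absurd hi g68
      · simp [lz]
    have he : φ (gC a b 8) (lz 1 1 1 1 1 1 1 1) = φ (gC a b 8) (Pi.single 8 1) :=
      h.out.loc _ _ _ fun i hi => by
        rcases P.grp8 hi with rfl | rfl | rfl
        · simp [lz]
        · exact absurd hi g68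
        · simp [lz]
    rw [hz, he]
    ring
  -- `X_b` given `N`
  have k9 : lam (lz 1 1 1 1 1 0 0 1) - lam (lz 1 1 1 1 1 0 1 1) =
      φ (gC a b 9) (Pi.single 10 1) - φ (gC a b 9) (Pi.single 9 1 + Pi.single 10 1) := by
    rw [one_grp h.out m00 m01 (gC a b 9) (fun i hi => by
      have n9 : i ≠ 9 := fun e => hi (by rw [e])
      fin_cases i <;> simp [lz] at n9 ⊢)]
    have h1 : φ (gC a b 9) (lz 1 1 1 1 1 0 0 1) = φ (gC a b 9) (Pi.single 10 1) :=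
      h.out.loc _ _ _ fun i hi => by
        rcases P.grp9 hi with rfl | rfl | rfl <;> simp [lz]
    have h2 : φ (gC a b 9) (lz 1 1 1 1 1 0 1 1) =
        φ (gC a b 9) (Pi.single 9 1 + Pi.single 10 1) :=
      h.out.loc _ _ _ fun i hi => by
        rcases P.grp9 hi with rfl | rfl | rfl <;> simp [lz]
    rw [h1, h2]
  have hN1 := hN 1 zero_le_one
  rw [P.g10] at hN1
  have h9 : φ (gC a b 9) (Pi.single 9 1 + Pi.single 10 1) ≤ -2 := by linarith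
  rw [hom910 h.sub no3 h.out P hom hy]
  nlinarith

end aew

end Crest.Agent.R136.LdX403
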