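import Crest.Agent.R136.LdX2_403

/-!
# R136, case F, rung (ii): `X_b` given `N`, the double resonance `κ = 1`, data (helper403)

* `bx_bz` : the boxes of helper366 / helper544 (frozen slots `F_a, P, N`)
* `NF.ev_K`, `add_lw` : evolution of the frozen slots, composition of `C_b`, `X_a`
* `phi_no3`, **`phi9_lin`** : the loss of `X_b : n` given `N : y` is `(r - 1) / 2 * n`, `n ≤ 2 y`
-/

set_option autoImplicit false
set_option linter.unusedSectionVars false
set_option linter.unusedVariables false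

open Filter Topology

namespace Crest.Agent.R136.LdX403

open Finset Crest.Agent.R136.NetQ186 Crest.Agent.R136.Net191 Crest.Agent.R136.Qg926
open Crest.Agent.R136.Gf356 Crest.Agent.R136.Ev356 Crest.Agent.R136.Aw413
open Crest.Agent.R136.Wq400 Crest.Agent.R136.Fe1355 Crest.Agent.R136.LadA115
open Crest.Agent.R136.Xb403 (MaE bd_of)
open Crest.Agent.R136.LdF5511 (PlE one_grp split2)
open Crest.Agent.R136.Dg219 (mw Walls Tn OutS gC dhC nC gset lf mem_gset gC_zero gC_eq nC_zero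
  nC_of)
open Crest.Agent.R136.Rc146 (OutA)
open Crest.Agent.R138.Ex926 (Base U)

/-- frozen slots -/
def Fr : Finset (Fin 11) := {4, 7, 10}

theorem bx_bz (y n p x c : ℝ) : CD366.bx Fr 9 6 8 5 y n p x c = bz y c p y x n y := by
  funext j
  fin_cases j <;> simp [CD366.bx, bz, Fr]

theorem bx0_bz (p x c : ℝ) : CD366.bx (∅ : Finset (Fin 11)) 9 6 8 5 0 0 p x c =
    bz 0 c p 0 x 0 0 := by
  funext j
  fin_cases j <;> simp [CD366.bx, bz]

theorem bz_zero : bz 0 0 0 0 0 0 0 = 0 := by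
  funext j
  fin_cases j <;> simp [bz]

section model

variable {B : Base} {G : ℕ → RCfg (Fin 11)} {Leg : Set (Fin 11 → ℝ)} {ν : (Fin 11 → ℝ) → ℝ}
  {T D q : ℝ} {f : ℕ → ℕ → ℝ}

/-- the frozen slots propagate -/
theorem NF.ev_K (h : NF B G Leg ν T D f q) {y : ℝ} (hy : 0 ≤ y) (hyT : y ≤ T) {ε : ℝ}
    (hε : 0 < ε) : ∀ᶠ n in (U : Filter ℕ), ∀ k₀ k i i',
    (i, k₀) ∈ (G n).I → (i', k₀) ∈ (G n).I → (i, k) ∈ (G n).I → (i', k) ∈ (G n).I →
    (G n).loose (bz y 0 0 y 0 0 y) ε k₀ i i' →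
    (G n).loose (bz y 0 0 y 0 0 y) (4 * ε) k i i' ∧
    |(G n).rel k i i' 9 - ((G n).rel k₀ i i' 9 + ((G n).z k - (G n).z k₀) * (G n).rel k₀ i i' 6
      - (f n k - f n k₀) * ((G n).rel k₀ i i' 8 +
        ((G n).z k - (G n).z k₀) * (G n).rel k₀ i i' 5))| ≤ B.d n ^ (y - 4 * ε) := by
  filter_upwards [h.ev ε hε, h.rb, h.db, ev_const_le B hε 4] with n hev hrb hdb h4
    k₀ k i i' hi hi' hk hk' hlo
  have hkZ : k₀ ∈ (G n).Z := h.H.memZ hi
  have hkZ' : k ∈ (G n).Z := h.H.memZ hk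
  obtain ⟨hu, hg⟩ := hdb k₀ hkZ k hkZ'
  have E := hev k₀ k i i' hi hi' hk hk'
  have hpow : ∀ t : ℝ, 0 < B.d n ^ t := fun t => rpos B n t
  set b := B.d n ^ (y - ε) with hb
  have hb0 : 0 < b := hpow _
  have k1 : B.d n ^ (T - ε) ≤ b := rpow_anti B n (by linarith)
  have hA : b * 4 ≤ B.d n ^ (y - 4 * ε) := by
    have e1 : B.d n ^ (y - 2 * ε) = B.d n ^ (-ε) * b := by
      rw [hb, ← rpow_add']; congr 1; ring
    have e2 : B.d n ^ (y - 2 * ε) ≤ B.d n ^ (y - 4 * ε) := rpow_anti B n (by linarith)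
    nlinarith
  have g4 := hlo 4
  have g7 := hlo 7
  have g10 := hlo 10
  rw [h.H.base n] at g4 g7 g10
  have v4 : bz y 0 0 y 0 0 y 4 = y := by simp [bz]
  have v7 : bz y 0 0 y 0 0 y 7 = y := by simp [bz]
  have v10 : bz y 0 0 y 0 0 y 10 = y := by simp [bz]
  rw [v4] at g4
  rw [v7] at g7
  rw [v10] at g10
  set u := (G n).z k - (G n).z k₀
  set r := (G n).rel k₀ i i'
  set r' := (G n).rel k i i'
  have hu7 : |u * r 7| ≤ 2 * b := by
    rw [abs_mul]; exact mul_le_mul hu g7 (abs_nonneg _) (by norm_num)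
  have hqu7 : |q * (u * r 7)| ≤ 2 * b := by
    rw [abs_mul]
    have := mul_le_mul h.q1 hu7 (abs_nonneg _) zero_le_one
    linarith
  have s4 : |r' 4| ≤ b * 4 := by
    have e : r' 4 = (r' 4 - r 4) + r 4 := by ring
    rw [e]
    have := abs_add_le (r' 4 - r 4) (r 4)
    linarith [E.e4.trans k1, g4]
  have s7 : |r' 7| ≤ b * 4 := by
    have e : r' 7 = (r' 7 - r 7) + r 7 := by ring
    rw [e]
    have := abs_add_le (r' 7 - r 7) (r 7)
    linarith [E.e7.trans k1, g7]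
  have s10 : |r' 10| ≤ b * 4 := by
    have e : r' 10 = (r' 10 - (r 10 + q * (u * r 7))) + (r 10 + q * (u * r 7)) := by ring
    rw [e]
    have t1 := abs_add_le (r' 10 - (r 10 + q * (u * r 7))) (r 10 + q * (u * r 7))
    have t2 := abs_add_le (r 10) (q * (u * r 7))
    linarith [E.e10.trans k1, g10]
  refine ⟨fun j => ?_, E.e9.trans (rpow_anti B n (by linarith))⟩
  rw [h.H.base n]
  have hz : ∀ j, bz y 0 0 y 0 0 y j = 0 → |(G n).rel k i i' j| ≤
      B.d n ^ (bz y 0 0 y 0 0 y j - 4 * ε) := by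
    intro j hj
    rw [hj]
    refine (hrb k i i' hk hk' j).trans ?_
    exact Real.one_le_rpow_of_pos_of_le_one_of_nonpos (B.pos n) (B.lt n).le (by linarith)
  by_cases j4 : j = 4
  · subst j4; rw [v4]; exact s4.trans hA
  by_cases j7 : j = 7
  · subst j7; rw [v7]; exact s7.trans hA
  by_cases j10 : j = 10
  · subst j10; rw [v10]; exact s10.trans hA
  refine hz j ?_
  fin_cases j <;> simp [bz] at j4 j7 j10 ⊢

end model

section prod

variable {ι : ℕ → Type*} [∀ n, DecidableEq (ι n)] {W : Wnd 11 ι} {F : ∀ n, ι n → Fq4}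
  {Ma : Mons 11} {E : ∀ n, Finset (ι n)} {lam : (Fin 11 → ℝ) → ℝ} {x : ℝ}

/-- composition of `C_b` and `X_a` -/
theorem add_lw (hW : LW Ma F lam {0, 2} (fun _ => x) x W E) (hx : 0 ≤ x) {ε : ℝ} (hε : 0 < ε) :
    ∀ᶠ n in (U : Filter ℕ), ∀ k i e l, (i, k) ∈ (W.cfg E n).I →
      (e, k) ∈ (W.cfg E n).I → (l, k) ∈ (W.cfg E n).I → ∀ s : Fin 11, s = 6 ∨ s = 8 →
      |(W.cfg E n).rel k i l s - (W.cfg E n).rel k i e s - (W.cfg E n).rel k e l s| ≤
        W.B'.d n ^ (x - ε) := by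
  have hS : W.S ⊆ {0, 2} := by rw [hW.eS]
  have htop : ∀ s ∈ W.S, x ≤ W.top s := fun s _ => by rw [hW.etop]
  have h2S : (2 : Fin 11) ∈ W.S := by rw [hW.eS]; decide
  filter_upwards [(pq_lev hW.qa hS hx htop).comp hW.hc hε, rel_lev hW.qa hW.hc] with
    n hn hr k i e l h1 h2 h3 s hs
  rcases hs with rfl | rfl
  · have := hn k i e l h1 h2 h3 6 (hW.qa.q.notMem (by simp))
    simp only [compC, Matrix.cons_val] at this
    rw [hr k i e 2 h2S, zero_mul, mul_zero, add_zero] at this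
    rwa [sub_sub]
  · have := hn k i e l h1 h2 h3 8 (hW.qa.q.notMem (by simp))
    simp only [compC, Matrix.cons_val] at this
    rwa [sub_sub]

end prod

section arith

variable {Ma : Mons 11} {a b : Fin 11 → ℝ} {κ : ℝ} {lam : (Fin 11 → ℝ) → ℝ} {A : ℝ × ℝ}
  {φ : ℕ → (Fin 11 → ℝ) → ℝ} {r : ℕ → ℝ}

/-- the slot `F_b` is in no wall -/
theorem mem_upd (hsub : ∀ k, Ma.mon k ⊆ monQ.mon k) (no3 : ∀ k, ∀ e ∈ Ma.mon k, e 3 = 0)
    {c : Fin 11 → ℝ} (hc : c ∈ coneM Ma) (v : ℝ) : Function.update c 3 v ∈ coneM Ma := by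
  intro k e he
  have hk : k ≠ 3 := by
    rintro rfl
    have h3 : monQ.mon 3 = ∅ := rfl
    have := hsub 3 he
    rw [h3] at this
    exact absurd this (Finset.notMem_empty e)
  rw [Function.update_of_ne hk]
  refine (hc k e he).trans (le_of_eq (Finset.sum_congr rfl fun s _ => ?_))
  by_cases hs : s = 3
  · subst hs; rw [no3 k e he]; simp
  · rw [Function.update_of_ne hs]

/-- the group functions do not depend on `F_b` -/
theorem phi_no3 (hsub : ∀ k, Ma.mon k ⊆ monQ.mon k) (no3 : ∀ k, ∀ e ∈ Ma.mon k, e 3 = 0)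
    (h : OutS (gC a b) (coneM Ma) (dhC a b) (nC a b) lam A φ r)
    (hind : ∀ c ∈ coneM Ma, ∀ c' ∈ coneM Ma, (∀ i, i ≠ 3 → c i = c' i) → 0 ≤ c 1 → lam c = lam c')
    {c : Fin 11 → ℝ} (hc : c ∈ coneM Ma) (c1 : 0 ≤ c 1) (k : ℕ) :
    φ k c = φ k (Function.update c 3 0) := by
  have m := mem_upd hsub no3 hc 0
  by_cases hk : gC a b 3 = k
  · have h1 := hind c hc _ m (fun i hi => by rw [Function.update_of_ne hi]) c1
    have h2 := one_grp h hc m k (fun i hi => by
      have h3 : i ≠ 3 := fun e => hi (by rw [e, hk])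
      rw [Function.update_of_ne h3])
    linarith
  · refine h.loc k _ _ fun i hi => ?_
    have h3 : i ≠ 3 := fun e => hk (by rw [← e, hi])
    rw [Function.update_of_ne h3]

/-- **the loss of `X_b` given `N` is linear** -/
theorem phi9_lin (hsub : ∀ k, Ma.mon k ⊆ monQ.mon k) (no3 : ∀ k, ∀ e ∈ Ma.mon k, e 3 = 0)
    (h : OutA (gC a b) (coneM Ma) a b (dhC a b) (nC a b) lam A φ r) (P : PlX a b 1)
    (a10 : a 10 = 1) (haL : a ∈ coneM Ma)
    (sharp : ∀ c ∈ coneM Ma, ∀ c' ∈ coneM Ma, c ≤ c' → lam c - lam c' ≤ ∑ s, (c' s - c s))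
    (hind : ∀ c ∈ coneM Ma, ∀ c' ∈ coneM Ma, (∀ i, i ≠ 3 → c i = c' i) → 0 ≤ c 1 → lam c = lam c')
    (hdh : ∀ i, gC a b i = gC a b 9 → 0 < dhC a b i)
    (hN : ∀ y, 0 ≤ y → φ (gC a b 10) (Pi.single 10 y) ≤ -y) {n y : ℝ} (hn : 0 ≤ n)
    (hny : n ≤ 2 * y) : φ (gC a b 9) (Pi.single 9 n + Pi.single 10 y) =
      -y - (r (gC a b 9) - 1) / 2 * n := by
  have hy : 0 ≤ y := by linarith
  rw [P.g10] at hN
  have hO := h.toOutS
  -- `N` is exactly full
  have full : ∀ t, 0 ≤ t → φ (gC a b 9) (Pi.single 10 t) = -t := by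
    intro t ht
    refine le_antisymm (hN t ht) ?_
    have m0 : lz t t 0 0 0 0 0 0 ∈ coneM Ma := mem_lz hsub no3 ht ht le_rfl le_rfl ht le_rfl ht
      le_rfl ht le_rfl ht le_rfl ht (by linarith) (by linarith)
    have m1 : lz t t 0 0 0 0 0 t ∈ coneM Ma := mem_lz hsub no3 ht ht le_rfl le_rfl ht le_rfl ht
      le_rfl ht le_rfl ht ht le_rfl (by linarith) (by linarith)
    have s1 := sharp _ m0 _ m1 (by intro i; fin_cases i <;> simp [lz, ht])
    rw [one_grp hO m0 m1 (gC a b 9) (fun i hi => by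
      have n10 : i ≠ 10 := fun e => hi (by rw [e, P.g10])
      fin_cases i <;> simp [lz] at n10 ⊢)] at s1
    have e0 : φ (gC a b 9) (lz t t 0 0 0 0 0 0) = 0 := hO.zero _ _ fun i hi => by
      rcases P.grp9 hi with rfl | rfl | rfl <;> simp [lz]
    have e1 : φ (gC a b 9) (lz t t 0 0 0 0 0 t) = φ (gC a b 9) (Pi.single 10 t) :=
      hO.loc _ _ _ fun i hi => by
        rcases P.grp9 hi with rfl | rfl | rfl <;> simp [lz]
    have e2 : ∑ s, (lz t t 0 0 0 0 0 t s - lz t t 0 0 0 0 0 0 s) = t := by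
      simp [Fin.sum_univ_succ, lz]
    rw [e0, e1, e2] at s1
    linarith
  have hp : 0 ≤ y - n / 2 := by linarith
  set c : Fin 11 → ℝ := lz y y 0 0 0 0 0 (y - n / 2) with hc
  have mc : c ∈ coneM Ma := mem_lz hsub no3 hy hy le_rfl le_rfl hy le_rfl hy
    le_rfl hy le_rfl hy hp (by linarith) (by linarith) (by linarith)
  have ez : Tn a b (n / 2, 0) = (n / 2) • a := by
    funext i
    simp [Tn]
    ring
  have mz : (n / 2) • a ∈ coneM Ma := by
    intro k e he
    have h1 := haL k e he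
    have h2 : (0 : ℝ) ≤ n / 2 := by linarith
    simp only [Pi.smul_apply, smul_eq_mul]
    calc n / 2 * a k ≤ n / 2 * ∑ s, (e s : ℝ) * a s := mul_le_mul_of_nonneg_left h1 h2
      _ = ∑ s, (e s : ℝ) * (n / 2 * a s) := by
          rw [Finset.mul_sum]; exact Finset.sum_congr rfl fun s _ => by ring
  have key := h.add (gC a b 9) hdh (n / 2, 0) c mc
  rw [ez] at key
  have r1 : φ (gC a b 9) ((n / 2) • a) = -(r (gC a b 9) * (n / 2)) :=
    hO.rate _ _ mz (n / 2) fun i hi => by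
      have ha : a i ≠ 0 := fun e => P.g9 (by rw [← hi]; exact gC_zero.2 e)
      unfold dhC
      rw [if_neg ha]
      rfl
  have r2 : φ (gC a b 9) c = -(y - n / 2) := by
    rw [← full _ hp]
    exact hO.loc _ _ _ fun i hi => by
      rcases P.grp9 hi with rfl | rfl | rfl <;> simp [hc, lz]
  have ms : (n / 2) • a + c ∈ coneM Ma := by
    intro k e he
    have h1 := mz k e he
    have h2 := mc k e he
    simp only [Pi.add_apply, mul_add, Finset.sum_add_distrib]
    linarith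
  have c1 : 0 ≤ ((n / 2) • a + c) 1 := by
    simp [hc, lz, P.a1]
  have a9 : a 9 = 2 := by rw [P.a9]; norm_num
  have r3 : φ (gC a b 9) ((n / 2) • a + c) =
      φ (gC a b 9) (Pi.single 9 n + Pi.single 10 y) := by
    rw [phi_no3 hsub no3 hO hind ms c1]
    refine hO.loc _ _ _ fun i hi => ?_
    rcases P.grp9 hi with rfl | rfl | rfl
    · rw [Function.update_of_ne (by decide)]
      simp [hc, lz, a9]
    · rw [Function.update_of_ne (by decide)]
      simp [hc, lz, a10]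
    · rw [Function.update_self]
      simp
  rw [r3, r1, r2] at key
  rw [key]
  ring

end arith

end Crest.Agent.R136.LdX403
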