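import Crest.Agent.R136.NsF1_544

/-!
# R136, row F, double resonance, part 2 (helper544): the data `K1F`, the two halves of the argument

* `K1F` : `N` with loss `g` (linear up to `dl`), `(P, X)` decoupled from the frozen slots, `C` with a
  positive rate only in the unfrozen window.
* `cells_F` : frozen -> unfrozen transfer at one incidence.
* `spread_F` : `P' = P - μ X` is not concentrated at a dense set of incidences over a heavy set.
-/

set_option autoImplicit false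
set_option linter.unusedVariables false
set_option linter.unusedSectionVars false

open Filter Topology Finset

namespace Crest.Agent.R136.NsF544

open Crest.Agent.R138.Ex926 (Base U)
open Crest.Agent.R138.TwC501 (root_lin)
open Crest.Agent.R136.Gf356
open Crest.Agent.R136.CD366
open Crest.Agent.R136.C1s940 (K3w K3core_w)
open Crest.Agent.R136.Fe1355 (RawTw shift_R)

variable {κ : Type} [DecidableEq κ] {B : Base} {G : ℕ → RCfg κ} {Leg : Set (κ → ℝ)}
  {ν : (κ → ℝ) → ℝ} {σ R D : ℝ} {Fz : Finset κ} {sN sP sX sC : κ} {f : ℕ → ℕ → ℝ}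
  {R0 C1 a dl m : ℝ} {g : ℝ → ℝ → ℝ} {β : ℝ → ℝ → ℝ} {γ : ℝ → ℝ → ℝ} {γ0 : ℝ → ℝ}

/-- **the data of `kappa_one_F`** -/
structure K1F (B : Base) (G : ℕ → RCfg κ) (Leg : Set (κ → ℝ)) (ν : (κ → ℝ) → ℝ) (Fz : Finset κ)
    (sN sP sX sC : κ) (f : ℕ → ℕ → ℝ) (R0 C1 a dl m : ℝ) (g : ℝ → ℝ → ℝ) (β : ℝ → ℝ → ℝ)
    (γ : ℝ → ℝ → ℝ) (γ0 : ℝ → ℝ) : Prop where
  R0_pos : 0 < R0
  C1_one : 1 ≤ C1
  m_pos : 0 < m
  a0 : 0 ≤ a
  dl0 : 0 ≤ dl
  NP : sN ≠ sP
  NX : sN ≠ sX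
  NC : sN ≠ sC
  PX : sP ≠ sX
  PC : sP ≠ sC
  XC : sX ≠ sC
  leg : ∀ y n p x c' : ℝ, 0 ≤ y → y ≤ R0 → 0 ≤ n → n ≤ y → 0 ≤ p → p ≤ y → 0 ≤ x → x ≤ y →
    0 ≤ c' → c' ≤ y → bx Fz sN sP sX sC y n p x c' ∈ Leg
  leg0 : ∀ p x c' : ℝ, 0 ≤ p → p ≤ R0 → 0 ≤ x → x ≤ R0 → 0 ≤ c' → c' ≤ R0 →
    bx ∅ sN sP sX sC 0 0 p x c' ∈ Leg
  bd : ∀ᶠ n in (U : Filter ℕ), ∀ k ∈ (G n).Z, |(G n).z k| ≤ 1 ∧ |f n k| ≤ 1
  ev : ∀ y : ℝ, 0 ≤ y → y ≤ R0 → ∀ ε : ℝ, 0 < ε → ∀ᶠ n in (U : Filter ℕ), ∀ k₀ k i i',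
    (i, k₀) ∈ (G n).I → (i', k₀) ∈ (G n).I → (i, k) ∈ (G n).I → (i', k) ∈ (G n).I →
    (G n).loose (bx Fz sN sP sX sC y 0 0 0 0) ε k₀ i i' →
    (G n).loose (bx Fz sN sP sX sC y 0 0 0 0) (C1 * ε) k i i' ∧
    |(G n).rel k i i' sN - ((G n).rel k₀ i i' sN + ((G n).z k - (G n).z k₀) * (G n).rel k₀ i i' sP
      - (f n k - f n k₀) * ((G n).rel k₀ i i' sX +
        ((G n).z k - (G n).z k₀) * (G n).rel k₀ i i' sC))| ≤ B.d n ^ (y - C1 * ε)
  evP : ∀ ε : ℝ, 0 < ε → ∀ᶠ n in (U : Filter ℕ), ∀ k₀ k i i',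
    (i, k₀) ∈ (G n).I → (i', k₀) ∈ (G n).I → (i, k) ∈ (G n).I → (i', k) ∈ (G n).I →
    |(G n).rel k i i' sP - ((G n).rel k₀ i i' sP - (f n k - f n k₀) * (G n).rel k₀ i i' sC)| ≤
      B.d n ^ (R0 - ε)
  evX : ∀ ε : ℝ, 0 < ε → ∀ᶠ n in (U : Filter ℕ), ∀ k₀ k i i',
    (i, k₀) ∈ (G n).I → (i', k₀) ∈ (G n).I → (i, k) ∈ (G n).I → (i', k) ∈ (G n).I →
    |(G n).rel k i i' sX - ((G n).rel k₀ i i' sX + ((G n).z k - (G n).z k₀) *
      (G n).rel k₀ i i' sC)| ≤ B.d n ^ (R0 - ε)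
  bd1 : ∀ ε : ℝ, 0 < ε → ∀ᶠ n in (U : Filter ℕ), ∀ k i i', (i, k) ∈ (G n).I →
    (i', k) ∈ (G n).I → ∀ s, |(G n).rel k i i' s| ≤ B.d n ^ (-ε)
  add : ∀ ε : ℝ, 0 < ε → ∀ᶠ n in (U : Filter ℕ), ∀ k i e l, (i, k) ∈ (G n).I →
    (e, k) ∈ (G n).I → (l, k) ∈ (G n).I → ∀ s, s = sP ∨ s = sX →
    |(G n).rel k i l s - (G n).rel k i e s - (G n).rel k e l s| ≤ B.d n ^ (R0 - ε)
  /-- splitting in the frozen window -/
  nu : ∀ y n p x c' : ℝ, 0 ≤ y → y ≤ R0 → 0 ≤ n → n ≤ y → 0 ≤ p → p ≤ y → 0 ≤ x → x ≤ y →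
    0 ≤ c' → c' ≤ y → ν (bx Fz sN sP sX sC y n p x c') =
      ν (bx Fz sN sP sX sC y 0 0 0 0) - g y n - β p x - γ y c'
  /-- splitting in the unfrozen window, same `β` -/
  nu0 : ∀ p x c' : ℝ, 0 ≤ p → p ≤ R0 → 0 ≤ x → x ≤ R0 → 0 ≤ c' → c' ≤ R0 →
    ν (bx ∅ sN sP sX sC 0 0 p x c') = ν 0 - β p x - γ0 c'
  g_zero : ∀ y : ℝ, 0 ≤ y → y ≤ R0 → g y 0 = 0
  g_low : ∀ y t : ℝ, 0 ≤ t → t ≤ y → y ≤ R0 → a * t ≤ g y t
  g_up : ∀ y : ℝ, 0 ≤ y → y ≤ R0 → g y y ≤ (a + dl) * y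
  X_full : ∀ t : ℝ, 0 ≤ t → t ≤ R0 → t ≤ β 0 t
  C_rate0 : ∀ t : ℝ, 0 ≤ t → t ≤ R0 → m * t ≤ γ0 t

theorem bx_empty : bx (∅ : Finset κ) sN sP sX sC 0 0 0 0 0 = 0 := by
  funext s
  unfold bx
  split_ifs <;> rfl

section basic

variable (K : K1F B G Leg ν Fz sN sP sX sC f R0 C1 a dl m g β γ γ0)

include K

theorem K1F.b00 : β 0 0 = 0 := by
  have hR := K.R0_pos
  have h1 := K.nu0 0 0 0 le_rfl hR.le le_rfl hR.le le_rfl hR.le
  rw [bx_empty] at h1
  have h2 := K.X_full 0 le_rfl hR.le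
  have h3 := K.C_rate0 0 le_rfl hR.le
  linarith

theorem K1F.g00 : γ0 0 = 0 := by
  have hR := K.R0_pos
  have h1 := K.nu0 0 0 0 le_rfl hR.le le_rfl hR.le le_rfl hR.le
  rw [bx_empty] at h1
  have h2 := K.b00
  linarith

theorem K1F.gy0 {y : ℝ} (h0 : 0 ≤ y) (h1 : y ≤ R0) : γ y 0 = 0 := by
  have h2 := K.nu y 0 0 0 0 h0 h1 le_rfl h0 le_rfl h0 le_rfl h0 le_rfl h0
  have h3 := K.b00
  have h4 := K.g_zero y h0 h1
  linarith

end basic

/-- **the visible shift inside `K1F`** -/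
theorem K1F.shift (H : RModel B G σ R Leg ν D)
    (K : K1F B G Leg ν Fz sN sP sX sC f R0 C1 a dl m g β γ γ0)
    (htw : RawTw B G fun n k k' => f n k' - f n k) {t : ℝ} (ht : 0 ≤ t)
    (hy : t ≤ R0) : β t t - β t 0 ≤ g t t := by
  have hC1 := K.C1_one
  have hC10 : 0 < C1 := by linarith
  have key := shift_R H (bx Fz sN sP sX sC t t t 0 t) (bx Fz sN sP sX sC t t t t t)
    (bx Fz sN sP sX sC t 0 0 0 0) (bx Fz sN sP sX sC t t 0 0 0)
    (K.leg t t t 0 t ht hy ht le_rfl ht le_rfl le_rfl ht ht le_rfl)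
    (K.leg t t t t t ht hy ht le_rfl ht le_rfl ht le_rfl ht le_rfl)
    (K.leg t 0 0 0 0 ht hy le_rfl ht le_rfl ht le_rfl ht le_rfl ht)
    (K.leg t t 0 0 0 ht hy ht le_rfl le_rfl ht le_rfl ht le_rfl ht)
    (fun s => bx_mono le_rfl ht le_rfl le_rfl le_rfl s) sX sN (y := t)
    (by rw [bx_X K.NX K.PX])
    (by
      intro s hs
      unfold bx
      by_cases h1 : s = sN
      · rw [if_pos h1, if_pos h1]
      · rw [if_neg h1, if_neg h1]
        by_cases h2 : s = sP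
        · rw [if_pos h2, if_pos h2]
        · rw [if_neg h2, if_neg h2, if_neg hs, if_neg hs])
    (by rw [bx_N]) (fun n k k' => -(f n k' - f n k)) (by
      intro ε hε
      filter_upwards [htw ε hε] with n hn i hi T hT hq
      refine hn i hi T hT fun q hq' => ?_
      have := hq q hq'
      rwa [abs_neg] at this) (by
      intro C0 hC0
      refine ⟨(C1 * C0 + C0 + 1), by positivity, fun ε hε => ?_⟩
      have hC0ε : 0 < C0 * ε := by positivity
      filter_upwards [K.ev t ht hy (C0 * ε) hC0ε, K.bd, ev_const_le B hε 8] with n hev hbd hc8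
        k hk k' hk' i i' hi hi' hl hl' hlo
      have hpow : ∀ t : ℝ, 0 < B.d n ^ t := fun t => rpos B n t
      have hlo0 : (G n).loose (bx Fz sN sP sX sC t 0 0 0 0) (C0 * ε) k i i' :=
        H.loose_mono (fun s => bx_mono le_rfl ht ht le_rfl ht s) le_rfl hlo
      obtain ⟨g1, g2⟩ := hev k k' i i' hi hl hi' hl' hlo0
      refine ⟨H.loose_mono (fun _ => le_rfl) (by nlinarith) g1, ?_⟩
      have gN := hlo sN
      have gP := hlo sP
      have gC := hlo sC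
      rw [bx_N, H.base n] at gN
      rw [bx_P K.NP, H.base n] at gP
      rw [bx_C K.NC K.PC K.XC, H.base n] at gC
      have hu : |(G n).z k' - (G n).z k| ≤ 2 := by
        refine (abs_sub _ _).trans ?_
        have := (hbd k' hk').1; have := (hbd k hk).1; linarith
      have hg : |f n k' - f n k| ≤ 2 := by
        refine (abs_sub _ _).trans ?_
        have := (hbd k' hk').2; have := (hbd k hk).2; linarith
      set b := B.d n ^ (t - (C1 * C0 + C0) * ε) with hb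
      have hb0 : 0 < b := hpow _
      have hCC : 0 ≤ C1 * C0 * ε := by positivity
      have k1 : B.d n ^ (t - C1 * (C0 * ε)) ≤ b := rpow_anti B n (by
        have : 0 ≤ C0 * ε := hC0ε.le
        nlinarith)
      have k2 : B.d n ^ (t - C0 * ε) ≤ b := rpow_anti B n (by nlinarith)
      have m1 : |((G n).z k' - (G n).z k) * (G n).rel k i i' sP| ≤ 2 * b := by
        rw [abs_mul]
        exact mul_le_mul hu (gP.trans k2) (abs_nonneg _) (by norm_num)
      have m2 : |(f n k' - f n k) * (((G n).z k' - (G n).z k) * (G n).rel k i i' sC)| ≤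
          4 * b := by
        rw [abs_mul, abs_mul]
        calc |f n k' - f n k| * (|(G n).z k' - (G n).z k| * |(G n).rel k i i' sC|)
            ≤ 2 * (2 * b) := by
              refine mul_le_mul hg ?_ (by positivity) (by norm_num)
              exact mul_le_mul hu (gC.trans k2) (abs_nonneg _) (by norm_num)
          _ = 4 * b := by ring
      have m3 : |(G n).rel k' i i' sN - -(f n k' - f n k) * (G n).rel k i i' sX| ≤ 8 * b := by
        have e1 : (G n).rel k' i i' sN - -(f n k' - f n k) * (G n).rel k i i' sX =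
            ((G n).rel k' i i' sN - ((G n).rel k i i' sN +
              ((G n).z k' - (G n).z k) * (G n).rel k i i' sP - (f n k' - f n k) *
              ((G n).rel k i i' sX + ((G n).z k' - (G n).z k) * (G n).rel k i i' sC))) +
            (G n).rel k i i' sN + ((G n).z k' - (G n).z k) * (G n).rel k i i' sP -
            (f n k' - f n k) * (((G n).z k' - (G n).z k) * (G n).rel k i i' sC) := by ring
        rw [e1]
        have n1 := abs_le.1 (g2.trans k1)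
        have n2 := abs_le.1 (gN.trans k2)
        have n3 := abs_le.1 m1
        have n4 := abs_le.1 m2
        rw [abs_le]
        constructor <;> linarith [n1.1, n1.2, n2.1, n2.2, n3.1, n3.2, n4.1, n4.2]
      refine m3.trans (absorb B ?_)
      have e : -(t - (C1 * C0 + C0) * ε - (t - (C1 * C0 + C0 + 1) * ε)) = -ε := by ring
      rw [e]
      exact hc8)
  rw [K.nu t t t 0 t ht hy ht le_rfl ht le_rfl le_rfl ht ht le_rfl,
    K.nu t t t t t ht hy ht le_rfl ht le_rfl ht le_rfl ht le_rfl,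
    K.nu t t 0 0 0 ht hy ht le_rfl le_rfl ht le_rfl ht le_rfl ht] at key
  have h0 := K.b00
  have h1 := K.gy0 ht hy
  linarith

open Classical in
set_option maxHeartbeats 800000 in
/-- **frozen -> unfrozen**: a set `T` of lines in one frozen box meets many cells of `(P, X)`, the
unfrozen cells around them are disjoint and full. -/
theorem cells_F (H : RModel B G σ R Leg ν D)
    (K : K1F B G Leg ν Fz sN sP sX sC f R0 C1 a dl m g β γ γ0) {y xJ : ℝ} (hy0 : 0 ≤ y)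
    (hyR : y ≤ R0) (hx0 : 0 ≤ xJ) (hxy : xJ ≤ y) {ε : ℝ} (hε : 0 < ε) :
    ∀ᶠ n in (U : Filter ℕ), ∀ k i₀ i, (i₀, k) ∈ (G n).I →
      i ∈ (G n).box (bx Fz sN sP sX sC y 0 0 0 y) ε i₀ k →
      ∀ T ⊆ (G n).box (bx Fz sN sP sX sC y 0 0 0 y) ε i₀ k,
      (∀ t ∈ T, |(G n).rel k i t sN| ≤ B.d n ^ (xJ - D ^ 2 * ε)) →
      ∃ W ⊆ (G n).slice k,
        (∀ l ∈ W, ∃ e ∈ T, |(G n).rel k e l sP| ≤ B.d n ^ (y - ε) ∧
          |(G n).rel k e l sX| ≤ B.d n ^ (y - ε)) ∧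
        (T.card : ℝ) * B.d n ^ (ν (bx Fz sN sP sX sC y xJ y y y) - ν (bx ∅ sN sP sX sC 0 0 y y 0)
          + (D ^ 6 + 2 * D ^ 2 + 1) * ε) ≤ W.card := by
  have hD := H.D1
  have hD0 : 0 < D := by linarith
  set pS : κ → ℝ := bx Fz sN sP sX sC y 0 0 0 y with hpS
  set pN : κ → ℝ := bx Fz sN sP sX sC y xJ 0 0 y with hpN
  set r1 : κ → ℝ := bx Fz sN sP sX sC y xJ y y y with hr1
  set r0 : κ → ℝ := bx ∅ sN sP sX sC 0 0 y y 0 with hr0
  have lS : pS ∈ Leg := K.leg y 0 0 0 y hy0 hyR le_rfl hy0 le_rfl hy0 le_rfl hy0 hy0 le_rfl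
  have lN : pN ∈ Leg := K.leg y xJ 0 0 y hy0 hyR hx0 hxy le_rfl hy0 le_rfl hy0 hy0 le_rfl
  have l1 : r1 ∈ Leg := K.leg y xJ y y y hy0 hyR hx0 hxy hy0 le_rfl hy0 le_rfl hy0 le_rfl
  have l0 : r0 ∈ Leg := K.leg0 y y 0 hy0 hyR hy0 hyR le_rfl K.R0_pos.le
  set c : ℝ := D ^ 4 + 2 with hc
  have hc0 : 0 < c := by positivity
  have hcε : 0 < c * ε := by positivity
  have hDc : 0 < D * (c * ε) := by positivity
  have hD2ε : 0 < D ^ 2 * ε := by positivity
  have hD3ε : 0 < D ^ 3 * ε := by positivity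
  filter_upwards [box_pair H.toRUnif pS lS hε, H.symm pN lN (D ^ 2 * ε) hD2ε,
    H.tri pN lN (D ^ 3 * ε) hD3ε, H.symm r1 l1 (c * ε) hcε, H.up r1 l1 (D * (c * ε)) hDc,
    H.low r0 l0 ε hε, K.add ε hε, K.bd1 ε hε, ev_const_le B hε 4] with n hpair hsy htr hs1 hup
    hlow hadd hbd1 hc4 k i₀ i hI0 hi T hT hTN
  have hpow : ∀ t : ℝ, 0 < B.d n ^ t := fun t => rpos B n t
  have hTI : ∀ t ∈ T, (t, k) ∈ (G n).I := fun t ht =>
    H.memSlice.1 (RCfg.box_subset_slice (hT ht))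
  have hiI : (i, k) ∈ (G n).I := H.memSlice.1 (RCfg.box_subset_slice hi)
  obtain ⟨E, hET, hE1, hE2⟩ := exists_indep T (fun e t => (G n).loose r1 (c * ε) k e t)
  -- loose `pN` of the points of `T`
  have hiN : ∀ t ∈ T, (G n).loose pN (D ^ 2 * ε) k i t := by
    intro t ht s
    by_cases hs : s = sN
    · subst hs
      rw [hpN, bx_N, H.base n]
      exact hTN t ht
    · refine (hpair k i₀ i t hI0 hi (hT ht) s).trans (le_of_eq ?_)
      simp only [hpS, hpN, bx, if_neg hs]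
  have hNN : ∀ t ∈ T, ∀ t' ∈ T, (G n).loose pN (D ^ 4 * ε) k t t' := by
    intro t ht t' ht'
    have h1 := hsy k i t hiI (hTI t ht) (hiN t ht)
    have e1 : D * (D ^ 2 * ε) = D ^ 3 * ε := by ring
    rw [e1] at h1
    have h2 : (G n).loose pN (D ^ 3 * ε) k i t' := H.loose_mono (fun _ => le_rfl) (by
      have : D ^ 2 ≤ D ^ 3 := pow_le_pow_right₀ hD (by norm_num)
      exact mul_le_mul_of_nonneg_right this hε.le) (hiN t' ht')
    have h3 := htr k t i t' (hTI t ht) hiI (hTI t' ht') h1 h2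
    have e2 : D * (D ^ 3 * ε) = D ^ 4 * ε := by ring
    rwa [e2] at h3
  -- two points of `E` differ in `P` or `X`
  have hfar : ∀ e ∈ E, ∀ e' ∈ E, e ≠ e' → B.d n ^ (y - c * ε) < |(G n).rel k e e' sP| ∨
      B.d n ^ (y - c * ε) < |(G n).rel k e e' sX| := by
    intro e he e' he' hne
    by_contra hcon
    push Not at hcon
    refine hE1 e he e' he' hne fun s => ?_
    have h1 := hNN e (hET he) e' (hET he') s
    have hle : D ^ 4 * ε ≤ c * ε := mul_le_mul_of_nonneg_right (by rw [hc]; linarith) hε.le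
    rw [H.base n] at h1 ⊢
    by_cases hsP : s = sP
    · subst hsP
      rw [hr1, bx_P K.NP]
      exact hcon.1
    · by_cases hsX : s = sX
      · subst hsX
        rw [hr1, bx_X K.NX K.PX]
        exact hcon.2
      · have e1 : r1 s = pN s := by simp only [hr1, hpN, bx, if_neg hsP, if_neg hsX]
        rw [e1]
        exact h1.trans (rpow_anti B n (by linarith))
  -- the unfrozen cells
  have hr0P : r0 sP = y := by rw [hr0, bx_P K.NP]
  have hr0X : r0 sX = y := by rw [hr0, bx_X K.NX K.PX]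
  have hcell : ∀ e l, l ∈ (G n).box r0 ε e k → |(G n).rel k e l sP| ≤ B.d n ^ (y - ε) ∧
      |(G n).rel k e l sX| ≤ B.d n ^ (y - ε) := by
    intro e l hl
    have h1 := (RCfg.mem_box.1 hl).2
    have h2 := h1 sP
    have h3 := h1 sX
    rw [H.base n, hr0P] at h2
    rw [H.base n, hr0X] at h3
    exact ⟨h2, h3⟩
  have hdisj : ∀ e ∈ E, ∀ e' ∈ E, e ≠ e' →
      Disjoint ((G n).box r0 ε e k) ((G n).box r0 ε e' k) := by
    intro e he e' he' hne
    rw [Finset.disjoint_left]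
    intro l hl hl'
    have heI := hTI e (hET he)
    have heI' := hTI e' (hET he')
    have hlI : (l, k) ∈ (G n).I := H.memSlice.1 (RCfg.box_subset_slice hl)
    obtain ⟨a1, a2⟩ := hcell e l hl
    obtain ⟨b1, b2⟩ := hcell e' l hl'
    have hsmall : ∀ s, s = sP ∨ s = sX → |(G n).rel k e l s| ≤ B.d n ^ (y - ε) →
        |(G n).rel k e' l s| ≤ B.d n ^ (y - ε) → |(G n).rel k e e' s| ≤ B.d n ^ (y - c * ε) := by
      intro s hs h1 h2
      have h3 := hadd k e l e' heI hlI heI' s hs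
      have h4 := hadd k e' l e' heI' hlI heI' s hs
      rw [H.refl n k e' heI' s] at h4
      have h5 : B.d n ^ (R0 - ε) ≤ B.d n ^ (y - ε) := rpow_anti B n (by linarith)
      have h6 : |(G n).rel k e e' s| ≤ 4 * B.d n ^ (y - ε) := by
        have n1 := abs_le.1 (h3.trans h5)
        have n2 := abs_le.1 (h4.trans h5)
        have n3 := abs_le.1 h1
        have n4 := abs_le.1 h2
        rw [abs_le]
        constructor <;> linarith [n1.1, n1.2, n2.1, n2.2, n3.1, n3.2, n4.1, n4.2]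
      refine h6.trans ((absorb B (t := y - 2 * ε) ?_).trans (rpow_anti B n ?_))
      · have e : -(y - ε - (y - 2 * ε)) = -ε := by ring
        rw [e]
        exact hc4
      · rw [hc]
        have : 0 ≤ D ^ 4 * ε := by positivity
        nlinarith
    rcases hfar e he e' he' hne with h | h
    · exact absurd (hsmall sP (Or.inl rfl) a1 b1) (not_le.2 h)
    · exact absurd (hsmall sX (Or.inr rfl) a2 b2) (not_le.2 h)
  refine ⟨E.biUnion fun e => (G n).box r0 ε e k, ?_, ?_, ?_⟩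
  · intro l hl
    obtain ⟨e, he, hl1⟩ := Finset.mem_biUnion.1 hl
    exact RCfg.box_subset_slice hl1
  · intro l hl
    obtain ⟨e, he, hl1⟩ := Finset.mem_biUnion.1 hl
    exact ⟨e, hET he, hcell e l hl1⟩
  · -- counts
    have hcov : (T.card : ℝ) ≤ E.card * B.d n ^ (-ν r1 - D * (D * (c * ε))) := by
      have h1 : T ⊆ E.biUnion fun e => (G n).box r1 (D * (c * ε)) e k := by
        intro t ht
        rw [Finset.mem_biUnion]
        by_cases htE : t ∈ E
        · exact ⟨t, htE, H.self_mem_box _ _ (hTI t ht)⟩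
        · obtain ⟨e, he, h | h⟩ := hE2 t ht htE
          · refine ⟨e, he, RCfg.mem_box.2 ⟨H.memSlice.2 (hTI t ht),
              H.loose_mono (fun _ => le_rfl) ?_ h⟩⟩
            nlinarith
          · exact ⟨e, he, RCfg.mem_box.2 ⟨H.memSlice.2 (hTI t ht),
              hs1 k t e (hTI t ht) (hTI e (hET he)) h⟩⟩
      have h2 : (T.card : ℝ) ≤ ∑ e ∈ E, (((G n).box r1 (D * (c * ε)) e k).card : ℝ) := by
        exact_mod_cast (card_le_card h1).trans card_biUnion_le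
      refine h2.trans ((sum_le_sum fun e he => hup e k (hTI e (hET he))).trans (le_of_eq ?_))
      rw [sum_const, nsmul_eq_mul]
    have hW : (E.card : ℝ) * B.d n ^ (-ν r0 + ε) ≤
        ((E.biUnion fun e => (G n).box r0 ε e k).card : ℝ) := by
      rw [card_biUnion hdisj]
      push_cast
      calc (E.card : ℝ) * B.d n ^ (-ν r0 + ε) = ∑ e ∈ E, B.d n ^ (-ν r0 + ε) := by
            rw [sum_const, nsmul_eq_mul]
        _ ≤ _ := sum_le_sum fun e he => hlow e k (hTI e (hET he))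
    refine le_trans ?_ hW
    have e1 : (D ^ 6 + 2 * D ^ 2 + 1) * ε = D * (D * (c * ε)) + ε := by rw [hc]; ring
    calc (T.card : ℝ) * B.d n ^ (ν r1 - ν r0 + (D ^ 6 + 2 * D ^ 2 + 1) * ε)
        ≤ E.card * B.d n ^ (-ν r1 - D * (D * (c * ε))) *
          B.d n ^ (ν r1 - ν r0 + (D ^ 6 + 2 * D ^ 2 + 1) * ε) :=
          mul_le_mul_of_nonneg_right hcov (hpow _).le
      _ = E.card * B.d n ^ (-ν r0 + ε) := by
          rw [mul_assoc, ← rpow_add', e1]
          congr 2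
          ring

end Crest.Agent.R136.NsF544
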