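import Crest.Agent.R136.LdX3_403
import Crest.Agent.R136.NsF2_544
import Crest.Agent.R136.LdFb_511

/-!
# R136, case F, rung (ii): `X_b` given `N`, the double resonance `κ = 1` (helper403)

* **`k1f_of`** : helper544's `K1F` from the window model
* `KappaF` : the statement of `kappa_one_F` for linear losses
* **`xb_eq`** : `N ∥ X_b`, `C_b ∥ X_a` (`κ = 1`), from `KappaF`
* **`xbN_of`** : helper511's `XbN`, from `KappaF`.
-/

set_option autoImplicit false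
set_option linter.unusedSectionVars false
set_option linter.unusedVariables false

open Filter Topology

namespace Crest.Agent.R136.LdX403

open Finset Crest.Agent.R136.NetQ186 Crest.Agent.R136.Net191 Crest.Agent.R136.Qg926
open Crest.Agent.R136.Gf356 Crest.Agent.R136.Ev356 Crest.Agent.R136.Aw413
open Crest.Agent.R136.Wq400 Crest.Agent.R136.Fe1355 Crest.Agent.R136.LadA115
open Crest.Agent.R136.Xb403 (MaE bd_of)
open Crest.Agent.R136.LdF5511 (PlE one_grp split2)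
open Crest.Agent.R136.Dg219 (mw Walls Tn OutS gC dhC nC gset lf mem_gset gC_zero gC_eq nC_zero
  nC_of)
open Crest.Agent.R136.Rc146 (OutA)
open Crest.Agent.R138.Ex926 (Base U)

section model

variable {B : Base} {G : ℕ → RCfg (Fin 11)} {Leg : Set (Fin 11 → ℝ)} {ν : (Fin 11 → ℝ) → ℝ}
  {T D q : ℝ} {f : ℕ → ℕ → ℝ}

/-- **helper544's data from the window model** -/
theorem k1f_of (h : NF B G Leg ν T D f q) {a m : ℝ} {β γ : ℝ → ℝ → ℝ} {γ0 : ℝ → ℝ}
    (ha : 0 ≤ a) (hm : 0 < m)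
    (hadd : ∀ ε : ℝ, 0 < ε → ∀ᶠ n in (U : Filter ℕ), ∀ k i e l, (i, k) ∈ (G n).I →
      (e, k) ∈ (G n).I → (l, k) ∈ (G n).I → ∀ s : Fin 11, s = 6 ∨ s = 8 →
      |(G n).rel k i l s - (G n).rel k i e s - (G n).rel k e l s| ≤ B.d n ^ (T - ε))
    (nu : ∀ y n p x c' : ℝ, 0 ≤ y → y ≤ T → 0 ≤ n → n ≤ y → 0 ≤ p → p ≤ y → 0 ≤ x → x ≤ y →
      0 ≤ c' → c' ≤ y → ν (bz y c' p y x n y) = ν (bz y 0 0 y 0 0 y) - a * n - β p x - γ y c')
    (nu0 : ∀ p x c' : ℝ, 0 ≤ p → p ≤ T → 0 ≤ x → x ≤ T → 0 ≤ c' → c' ≤ T →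
      ν (bz 0 c' p 0 x 0 0) = ν 0 - β p x - γ0 c')
    (Xf : ∀ t : ℝ, 0 ≤ t → t ≤ T → t ≤ β 0 t) (Cr : ∀ t : ℝ, 0 ≤ t → t ≤ T → m * t ≤ γ0 t) :
    NsF544.K1F B G Leg ν Fr 9 6 8 5 f T 4 a 0 m (fun _ n => a * n) β γ γ0 where
  R0_pos := h.T0
  C1_one := by norm_num
  m_pos := hm
  a0 := ha
  dl0 := le_rfl
  NP := by decide
  NX := by decide
  NC := by decide
  PX := by decide
  PC := by decide
  XC := by decide
  leg := by
    intro y n p x c' hy hyT hn hny hp hpy hx hxy hc hcy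
    rw [bx_bz]
    exact h.leg y c' p y x n y hy hyT hc (hcy.trans hyT) hp (hpy.trans hyT) hy hyT hx
      (hxy.trans hyT) hn (hny.trans hyT) hy hyT (by linarith) (by linarith)
  leg0 := by
    intro p x c' hp hpT hx hxT hc hcT
    rw [bx0_bz]
    have hT := h.T0.le
    exact h.leg 0 c' p 0 x 0 0 le_rfl hT hc hcT hp hpT le_rfl hT hx hxT le_rfl hT le_rfl hT
      (by linarith) (by linarith)
  bd := h.zb
  ev := by
    intro y hy hyT ε hε
    filter_upwards [h.ev_K hy hyT hε] with n hn k₀ k i i' h1 h2 h3 h4 hlo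
    rw [bx_bz] at hlo ⊢
    exact hn k₀ k i i' h1 h2 h3 h4 hlo
  evP := by
    intro ε hε
    filter_upwards [h.ev ε hε] with n hn k₀ k i i' h1 h2 h3 h4
    exact (hn k₀ k i i' h1 h2 h3 h4).e6
  evX := by
    intro ε hε
    filter_upwards [h.ev ε hε] with n hn k₀ k i i' h1 h2 h3 h4
    exact (hn k₀ k i i' h1 h2 h3 h4).e8
  bd1 := by
    intro ε hε
    filter_upwards [h.rb] with n hn k i i' h1 h2 s
    exact (hn k i i' h1 h2 s).trans
      (Real.one_le_rpow_of_pos_of_le_one_of_nonpos (B.pos n) (B.lt n).le (by linarith))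
  add := hadd
  nu := by
    intro y n p x c' hy hyT hn hny hp hpy hx hxy hc hcy
    rw [bx_bz, bx_bz]
    exact nu y n p x c' hy hyT hn hny hp hpy hx hxy hc hcy
  nu0 := by
    intro p x c' hp hpT hx hxT hc hcT
    rw [bx0_bz]
    exact nu0 p x c' hp hpT hx hxT hc hcT
  g_zero := fun y _ _ => mul_zero a
  g_low := fun y t _ _ _ => le_rfl
  g_up := fun y _ _ => by rw [add_zero]
  X_full := Xf
  C_rate0 := Cr

end model

/-- **`kappa_one_F`** for linear losses (level `1`) -/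
def KappaF : Prop :=
  ∀ (B : Base) (G : ℕ → RCfg (Fin 11)) (Leg : Set (Fin 11 → ℝ)) (ν : (Fin 11 → ℝ) → ℝ)
    (D : ℝ) (f : ℕ → ℕ → ℝ) (a m : ℝ) (β γ : ℝ → ℝ → ℝ) (γ0 : ℝ → ℝ),
    RModel B G 1 1 Leg ν D →
    NsF544.K1F B G Leg ν Fr 9 6 8 5 f 1 4 a 0 m (fun _ n => a * n) β γ γ0 →
    RawTw B G (fun n k k' => f n k' - f n k) → 1 ≤ a

section aew

variable {ι : ℕ → Type*} [∀ n, DecidableEq (ι n)] {F : ∀ n, ι n → Fq4}
  {Ma : Mons 11} {B Bo : Base} {I J : ∀ n, Finset (ι n)} {co : ∀ n, ι n → ι n → Fin 11 → ℝ}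
  {C : ℝ} {lam : (Fin 11 → ℝ) → ℝ} {a b : Fin 11 → ℝ} {A : ℝ × ℝ}
  {φ : ℕ → (Fin 11 → ℝ) → ℝ} {r : ℕ → ℝ} {κo : Fin 11 → ℝ} {V Tw : Fin 11 → Prop}

/-- **`X_b` given `N`**, `C_b ∥ X_a` -/
theorem xb_eq (KF : KappaF) (h : AeW B Bo I J co monQ Ma C lam a b A φ r 0 1 κo V Tw)
    (hO : OutA (gC a b) (coneM Ma) a b (dhC a b) (nC a b) lam A φ r) (hC : 0 ≤ C)
    (hco : ∀ n, ∀ i ∈ I n, ∀ j ∈ I n, co n i j = coQ (F n i) (F n j))
    (hne : ∀ᶠ n in (U : Filter ℕ), (J n).Nonempty) (hM : MaE Ma)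
    (no3 : ∀ k, ∀ e ∈ Ma.mon k, e 3 = 0)
    (hV : ∀ k, V k → k = 2) (hTw : Tw 2) (P : PlX a b 1) (a10 : a 10 = 1) (haL : a ∈ coneM Ma)
    (hdh : ∀ i, gC a b i = gC a b 9 → 0 < dhC a b i)
    (hind : ∀ c ∈ coneM Ma, ∀ c' ∈ coneM Ma, (∀ i, i ≠ 3 → c i = c' i) → 0 ≤ c 1 → lam c = lam c')
    (hom8 : ∀ c ∈ coneM Ma, ∀ s : ℝ, 0 ≤ s → φ (gC a b 8) (s • c) = s * φ (gC a b 8) c)
    (h8 : φ (gC a b 8) (Pi.single 8 1) ≤ -1)
    (hN : ∀ y, 0 ≤ y → φ (gC a b 10) (Pi.single 10 y) ≤ -y) {m : ℝ} (hm : 0 < m)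
    (sw : ∀ t : ℝ, 0 ≤ t → t ≤ 1 →
      m * t ≤ lam (lz 1 0 0 0 0 0 0 0) - lam (lz 1 0 t 0 0 0 0 0)) {y : ℝ} (hy : 0 ≤ y) :
    φ (gC a b 9) (Pi.single 9 y + Pi.single 10 y) ≤ -(2 * y) := by
  obtain ⟨W, E, hW, hNF, htw⟩ := nf_of_aew h hC hco hne hM no3 hV hTw one_pos
    (dens_x h.sub no3 h.out P h.zero hind zero_le_one)
  have hO' := hO.toOutS
  have g68 := g68_eq P.toPlE
  set a9 : ℝ := (r (gC a b 9) - 1) / 2 with ha9
  have lin : ∀ n y : ℝ, 0 ≤ n → n ≤ 2 * y →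
      φ (gC a b 9) (Pi.single 9 n + Pi.single 10 y) = -y - a9 * n := fun n y hn hny =>
    phi9_lin h.sub no3 hO P a10 haL h.sharp hind hdh hN hn hny
  have ml : ∀ fa ca cb p xa xb n : ℝ, 0 ≤ fa → 0 ≤ ca → 0 ≤ cb → cb ≤ 1 → 0 ≤ p → p ≤ 1 →
      0 ≤ xa → xa ≤ 1 → 0 ≤ xb → xb ≤ 1 → 0 ≤ n → n ≤ 1 → p ≤ fa + ca → n ≤ fa + xa →
      lz 1 fa ca cb p xa xb n ∈ coneM Ma :=
    fun fa ca cb p xa xb n h1 h2 h3 h4 h5 h6 h7 h8 h9 h10 h11 h12 h13 h14 =>
      mem_lz h.sub no3 zero_le_one h1 h2 h3 h4 h5 h6 h7 h8 h9 h10 h11 h12 h13 h14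
  -- the four bounds from `bz` boxes
  have hν : ∀ fa ca cb p xa xb n : ℝ, W.nu (bz fa ca cb p xa xb n) =
      lam (lz 1 fa ca cb p xa xb n) - lam fun _ => (1 : ℝ) := fun fa ca cb p xa xb n =>
    nu_lw hW fa ca cb p xa xb n
  have hν0 : W.nu 0 = lam (lz 1 0 0 0 0 0 0 0) - lam fun _ => (1 : ℝ) := by
    rw [← bz_zero, hν]
  -- homogeneity of `X_a`
  have hom8' : ∀ t : ℝ, 0 ≤ t → φ (gC a b 8) (Pi.single 8 t) =
      t * φ (gC a b 8) (Pi.single 8 1) := by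
    intro t ht
    have m1 := ml 0 0 0 0 1 0 0 le_rfl le_rfl le_rfl zero_le_one le_rfl zero_le_one zero_le_one
      le_rfl le_rfl zero_le_one le_rfl zero_le_one (by norm_num) (by norm_num)
    have e1 : φ (gC a b 8) (Pi.single 8 1) = φ (gC a b 8) (lz 1 0 0 0 0 1 0 0) :=
      hO'.loc _ _ _ fun i hi => by
        rcases P.grp8 hi with rfl | rfl | rfl <;> simp [lz]
    have e2 : φ (gC a b 8) (Pi.single 8 t) = φ (gC a b 8) (t • lz 1 0 0 0 0 1 0 0) :=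
      hO'.loc _ _ _ fun i hi => by
        rcases P.grp8 hi with rfl | rfl | rfl <;> simp [lz]
    rw [e1, e2, hom8 _ m1 t ht]
  -- `X_b` given `N`
  have s9 : ∀ y n p x c' : ℝ, 0 ≤ y → y ≤ 1 → 0 ≤ n → n ≤ y → 0 ≤ p → p ≤ y → 0 ≤ x → x ≤ y →
      0 ≤ c' → c' ≤ y → lam (lz 1 y c' p y x n y) = lam (lz 1 y c' p y x 0 y) - a9 * n := by
    intro y n p x c' hy hyT hn hny hp hpy hx hxy hc hcy
    have m1 := ml y c' p y x n y hy hc hp (hpy.trans hyT) hy hyT hx (hxy.trans hyT) hn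
      (hny.trans hyT) hy hyT (by linarith) (by linarith)
    have m2 := ml y c' p y x 0 y hy hc hp (hpy.trans hyT) hy hyT hx (hxy.trans hyT) le_rfl
      zero_le_one hy hyT (by linarith) (by linarith)
    have e := one_grp hO' m1 m2 (gC a b 9) (fun i hi => by
      have n9 : i ≠ 9 := fun e => hi (by rw [e])
      fin_cases i <;> simp [lz] at n9 ⊢)
    have e1 : φ (gC a b 9) (lz 1 y c' p y x n y) =
        φ (gC a b 9) (Pi.single 9 n + Pi.single 10 y) :=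
      hO'.loc _ _ _ fun i hi => by
        rcases P.grp9 hi with rfl | rfl | rfl <;> simp [lz]
    have e2 : φ (gC a b 9) (lz 1 y c' p y x 0 y) =
        φ (gC a b 9) (Pi.single 9 0 + Pi.single 10 y) :=
      hO'.loc _ _ _ fun i hi => by
        rcases P.grp9 hi with rfl | rfl | rfl <;> simp [lz]
    rw [e1, e2, lin n y hn (by linarith), lin 0 y le_rfl (by linarith)] at e
    linarith
  -- `(C_b, X_a)`
  have s8 : ∀ y p x c' : ℝ, 0 ≤ y → y ≤ 1 → 0 ≤ p → p ≤ 1 → 0 ≤ x → x ≤ 1 →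
      0 ≤ c' → lam (lz 1 y c' p y x 0 y) = lam (lz 1 y c' 0 y 0 0 y) +
        φ (gC a b 8) (Pi.single 6 p + Pi.single 8 x) := by
    intro y p x c' hy hyT hp hpT hx hxT hc
    have m1 := ml y c' p y x 0 y hy hc hp hpT hy hyT hx hxT le_rfl
      zero_le_one hy hyT (by linarith) (by linarith)
    have m2 := ml y c' 0 y 0 0 y hy hc le_rfl zero_le_one hy hyT le_rfl zero_le_one le_rfl
      zero_le_one hy hyT (by linarith) (by linarith)
    have e := one_grp hO' m1 m2 (gC a b 8) (fun i hi => by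
      have n8 : i ≠ 8 := fun e => hi (by rw [e])
      have n6 : i ≠ 6 := fun e => hi (by rw [e, g68])
      fin_cases i <;> simp [lz] at n8 n6 ⊢)
    have e1 : φ (gC a b 8) (lz 1 y c' p y x 0 y) =
        φ (gC a b 8) (Pi.single 6 p + Pi.single 8 x) :=
      hO'.loc _ _ _ fun i hi => by
        rcases P.grp8 hi with rfl | rfl | rfl <;> simp [lz]
    have e2 : φ (gC a b 8) (lz 1 y c' 0 y 0 0 y) = 0 :=
      hO'.zero _ _ fun i hi => by
        rcases P.grp8 hi with rfl | rfl | rfl <;> simp [lz]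
    rw [e1, e2] at e
    linarith
  have ha0 : 0 ≤ a9 := by
    have m1 := ml 1 0 0 0 0 1 1 zero_le_one le_rfl le_rfl zero_le_one le_rfl zero_le_one le_rfl
      zero_le_one zero_le_one le_rfl zero_le_one le_rfl (by norm_num) (by norm_num)
    have m2 := ml 1 0 0 0 0 0 1 zero_le_one le_rfl le_rfl zero_le_one le_rfl zero_le_one le_rfl
      zero_le_one le_rfl zero_le_one zero_le_one le_rfl (by norm_num) (by norm_num)
    have h1 := (hO'.mono (gC a b 9) _ m2 _ m1 (fun i _ => by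
      fin_cases i <;> simp [lz])).1
    have e1 : φ (gC a b 9) (lz 1 1 0 0 0 0 1 1) =
        φ (gC a b 9) (Pi.single 9 1 + Pi.single 10 1) :=
      hO'.loc _ _ _ fun i hi => by
        rcases P.grp9 hi with rfl | rfl | rfl <;> simp [lz]
    have e2 : φ (gC a b 9) (lz 1 1 0 0 0 0 0 1) =
        φ (gC a b 9) (Pi.single 9 0 + Pi.single 10 1) :=
      hO'.loc _ _ _ fun i hi => by
        rcases P.grp9 hi with rfl | rfl | rfl <;> simp [lz]
    rw [e1, e2, lin 1 1 zero_le_one (by norm_num), lin 0 1 le_rfl (by norm_num)] at h1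
    linarith
  have key := KF W.B' (W.cfg E) W.legW W.nu W.Dc (fun n k => flg W n k 2) a9 m
    (fun p x => -φ (gC a b 8) (Pi.single 6 p + Pi.single 8 x))
    (fun y c => lam (lz 1 y 0 0 y 0 0 y) - lam (lz 1 y c 0 y 0 0 y))
    (fun c => lam (lz 1 0 0 0 0 0 0 0) - lam (lz 1 0 c 0 0 0 0 0)) hNF.H
    (k1f_of hNF ha0 hm (fun ε hε => add_lw hW zero_le_one hε) (by
      intro y n p x c' hy hyT hn hny hp hpy hx hxy hc hcy
      rw [hν, hν, s9 y n p x c' hy hyT hn hny hp hpy hx hxy hc hcy,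
        s8 y p x c' hy hyT hp (hpy.trans hyT) hx (hxy.trans hyT) hc]
      ring) (by
      intro p x c' hp hpT hx hxT hc hcT
      rw [hν, hν0, s8 0 p x c' le_rfl zero_le_one hp hpT hx hxT hc]
      ring) (by
      intro t ht ht1
      show t ≤ -φ (gC a b 8) (Pi.single 6 0 + Pi.single 8 t)
      rw [Pi.single_zero, zero_add, hom8' t ht]
      nlinarith) (fun t ht ht1 => sw t ht ht1)) htw
  have hy2 := lin y y hy (by linarith)
  rw [hy2]
  nlinarith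

end aew

end Crest.Agent.R136.LdX403
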