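import Crest.Agent.R136.LdX5_403
import Crest.Agent.R136.NsF8_544

/-!
# R136, row F, double resonance, part 9 (helper544): `KappaF` of helper403
-/

set_option autoImplicit false
set_option linter.unusedVariables false

open Filter Topology

namespace Crest.Agent.R136.NsF544

/-- **`KappaF`** -/
theorem kappaF : LdX403.KappaF := fun _ _ _ _ _ _ _ _ _ _ _ H K htw =>
  kappa_one_lin H K htw le_rfl

end Crest.Agent.R136.NsF544
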