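import Crest.Agent.R136.LdX5_403
import Crest.Agent.R136.NsF9_544

/-!
# R136, case F, rung (ii): `X_b` given `N` (helper403)

**`xbN`** : helper511's `XbN`, all `κ` (helper544's `kappa_one_F`).
-/

set_option autoImplicit false
set_option linter.unusedVariables false
set_option linter.unusedSectionVars false

open Finset Filter Topology

namespace Crest.Agent.R136.LdX403

open Crest.Agent.R138.Ex926 (Base U IsTan)
open Crest.Agent.R136.Net191
open Crest.Agent.R136.NetQ186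
open Crest.Agent.R136.Wq638
open Crest.Agent.R136.NatT550
open Crest.Agent.R136.Top484
open Crest.Agent.R136.LdF3511
open Crest.Agent.R136.LdFb511

/-- **`X_b` is full given `N`** -/
theorem xbN {η : ℝ} {p : Par4} {D : Dat4} {I1 : ℕ → Finset (ℕ × ℝ)} {π : Equiv.Perm (Fin 3)}
    {eE fA fB : ℕ → ℕ × ℝ → ℝ} {V T : Fin 11 → Prop} {w0 R T0 : ℝ} {PD : Set (Fin 11 → ℝ)}
    {ν own : (Fin 11 → ℝ) → ℝ} {c₀ : ℝ} {x b : Fin 11 → ℝ}
    (h : Thick η p D I1 π eE fA fB V T w0 R T0 PD ν own c₀)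
    (hκ : 0 < p.θ 1 - p.θ 2) (hV2 : V 2) (hV3 : ¬ V 3) (hV4 : ¬ V 4)
    (hx : 0 < x 3) (hb : ∀ i, i ∉ ({3} : Finset (Fin 11)) → b i = rhoF p.θ i) :
    XbN D I1 (couQ D.B D.lev D.w w0 (incQ π D.L eE fA fB)) p V T x b :=
  xbN_of NsF544.kappaF h hκ hV2 hV3 hV4 hx hb

end Crest.Agent.R136.LdX403
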