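import Crest.Agent.R136.LinF2_403
import Crest.Agent.R136.LnS_619
import Crest.Agent.R136.LnX_619
import Crest.Agent.R136.QGd_312
import Crest.Agent.R136.QGb_312
import Crest.Agent.R136.Qh3_831
import Crest.Agent.R136.SZ2_480
import Crest.Agent.R136.RL10_478

/-!
# R136, thin branch (helper403): the rung `1`, from the relation on windows to `SeamLinG`

* `RelH Dq Uq Qj` : 560's relation on every window of `lin`
* `LCase` : static data of the two resonances (`btW 14 = 0`: `b = 2`; `btW 15 = 0`: `b = 1`)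
* **`lin_case`** : object, stage, interior point and relation give the gauge input
* **`seamLinG_of`** : `SeamLinG` from the rows and the two relations
-/

set_option autoImplicit false
set_option linter.unusedSectionVars false
set_option linter.unusedVariables false

open Filter Topology

namespace Crest.Agent.R136.LinF403

open Finset Crest.Agent.R138.Ex926 Crest.Agent.R136.Net191 Crest.Agent.R136.Gf356
open Crest.Agent.R136.Qg926 Crest.Agent.R136.Dg219 Crest.Agent.R136.Aw413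
open Crest.Agent.R136.NetW191 Crest.Agent.R136.EvW938 Crest.Agent.R136.PrW464
open Crest.Agent.R136.LadW697 Crest.Agent.R136.AwJ774 Crest.Agent.R136.Bas938
open Crest.Agent.R136.LadG697 Crest.Agent.R136.NatW697 Crest.Agent.R136.LadT830
open Crest.Agent.R136.ThS830 Crest.Agent.R136.Top484
open Crest.Agent.R136.K2S774
open Crest.Agent.R136.RL478 (NatG Dr3 natG_of grW_0 grW_1 grW_17 dense_sub natG_btW)
open Crest.Agent.R136.QG312
open Crest.Agent.R136.Qh831 (JLaw bCq hasGau_of_law Sq)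
open Crest.Agent.R136.Qi599 (SzQ ErQ)
open Crest.Agent.R136.Qgn887 (TDs TDs_not TDs_mem TDs_nonneg StgOk)
open Crest.Agent.R136.Ln619 (LnS D11 D12 mem_D11 sweepS)
open Crest.Agent.R138.Dp76 (Dense)

/-- **560's relation** on every window of `lin` -/
def RelH (Dq Uq : Finset (Fin 18)) (Qj : Finset (Fin 14)) : Prop :=
  ∀ (κ : ℕ → ℝ) (u : ℕ → Fin 18 → ℝ) (f : ℕ → ℕ × ℝ → FW) (mm σ K : ℝ), 0 < mm → 0 < σ →
    ∃ x : ℝ, 0 < x ∧ ∀ W : Wnd 18 fun _ => ℕ × ℝ, Lin560.LnW Dq Uq W κ u f mm σ x →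
      ∀ ε : ℝ, 0 < ε → ∀ᶠ n in (U : Filter ℕ), ∃ G ⊆ W.Cl n,
        W.B'.d n ^ ε * ((W.Cl n).card : ℝ) ≤ (G.card : ℝ) ∧
        Lin560.LinRel Qj W κ u f n ε (K - ε) G

/-- **static data** of a resonance of the rung `1` -/
structure LCase (Dq : Finset (Fin 18)) (Qj : Finset (Fin 14)) (b : ℤ) : Prop where
  b0 : 0 < b
  b4 : b ≤ 4
  d4 : ∀ k ∈ Dq, 4 ≤ k ∧ k ≠ 17
  d11 : ∀ k ∈ D11, k ∈ Dq
  wcb : ∀ k, 4 ≤ k → k ∉ Dq → 0 ≤ wc k + b
  wc0 : ∀ k, 4 ≤ k → k ∉ Dq → wc k + b = 0 → k ∈ JW 1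
  d15 : (15 : Fin 18) ∉ Dq
  d16 : (16 : Fin 18) ∉ Dq
  q1 : Qj ⊆ {10, 11}
  q2 : ∀ p ∈ Qj ∪ {12}, Fin.natAdd 4 p ∉ Dq ∧ Fin.natAdd 4 p ∈ JW 1
  q3 : ∀ k ∈ JW 1, k ∉ Dq → ∃ q ∈ Qj ∪ {12}, k = Fin.natAdd 4 q
  q4 : ∀ k ∈ JW 1 ∪ JW 2, k ∈ Dq → ∃ q, k = Fin.natAdd 4 q ∧ q ∉ Qj ∧ ∀ t ∈ tms q, t.s ∉ Qj
  j2 : ∀ k ∈ JW 2, k ∈ Dq
  cs : (b = 2 ∧ Qj = {10, 11} ∧ (14 : Fin 18) ∉ Dq) ∨ (b = 1 ∧ Qj = {11})

theorem lcase2 : LCase D11 {10, 11} 2 where
  b0 := by decide
  b4 := by decide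
  d4 := by decide
  d11 := by decide
  wcb := by decide
  wc0 := by decide
  d15 := by decide
  d16 := by decide
  q1 := by decide
  q2 := by decide
  q3 := by decide
  q4 := by decide
  j2 := by decide
  cs := Or.inl (by decide)

theorem lcase1 : LCase D12 {11} 1 where
  b0 := by decide
  b4 := by decide
  d4 := by decide
  d11 := by decide
  wcb := by decide
  wc0 := by decide
  d15 := by decide
  d16 := by decide
  q1 := by decide
  q2 := by decide
  q3 := by decide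
  q4 := by decide
  j2 := by decide
  cs := Or.inr (by decide)

/-- values of the record direction on the slots of weight `1` -/
theorem btW_JW1 {θ : Fin 3 → ℝ} {b : ℤ} (hb : θ 0 = b * θ 1) {k : Fin 18} (hk : k ∈ JW 1) :
    btW θ k = -(θ 1 * ((wc k : ℝ) + b)) := by
  have h1 : ∀ k ∈ JW 1, wz k = -1 ∧ wn k = 1 := by decide
  obtain ⟨e1, e2⟩ := h1 k hk
  simp only [btW, grW, e1, e2]
  push_cast
  rw [hb]; ring

theorem bCq_JW1 {b : ℤ} {W1 : ℝ} {k : Fin 18} (hk : k ∈ JW 1) :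
    bCq b W1 k = -(W1 * ((wc k : ℝ) + b)) := by
  have h1 : ∀ k ∈ JW 1, wn k = 1 := by decide
  simp only [bCq, grW, h1 k hk]
  push_cast
  ring

/-- slots where the ray vanishes -/
theorem TDs_zero {Dr : Set (Fin 18)} (hlo : ∀ k ∈ DrW 1, k ∈ Dr) {k : Fin 18}
    (h : TDs 1 Dr k = 0) : k ∉ Dr ∧ (k = 1 ∨ k ∈ JW 1) := by
  have hk : k ∉ Dr := fun hD => by rw [TDs_mem hD] at h; exact one_ne_zero h
  refine ⟨hk, ?_⟩
  have hT : TW 1 k = 0 := by rw [← TDs_not hk]; exact h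
  have c1 : ∀ k : Fin 18, k ∈ D11 ∨ (k = 1 ∨ k ∈ JW 1) ∨ k ∈ ({0, 2, 3, 17} : Finset (Fin 18)) := by
    decide
  rcases c1 k with h1 | h1 | h1
  · exact absurd (hlo k ((mem_D11 k).2 h1)) hk
  · exact h1
  · rw [Ln619.TW1_1 k h1] at hT
    exact absurd hT one_ne_zero

/-- the ray is not zero off `c` and the slots of weight `1` -/
theorem capCl_empty : CapCl (∅ : Set (Fin 18)) := by
  rintro k ⟨l, hl, h⟩
  exfalso
  have key : ∀ k : Fin 18, ∀ l ∈ mlW k, ∃ t ∈ l, t ≠ 0 := by decide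
  obtain ⟨t, ht, h0⟩ := key k l hl
  rcases h t ht with h1 | h1
  · exact h0 h1
  · exact h1

section main

variable {θ : Fin 3 → ℝ} {g : ℝ} {q : Fin 3 → ℝ} {w0 R T0 : ℝ}
  {B B' : Base} {I0 I : ℕ → Finset (ℕ × ℝ)} {κ : ℕ → ℝ} {u : ℕ → Fin 18 → ℝ}
  {F : ℕ → ℕ × ℝ → FW} {X' : ℕ → Fin 18 → ℝ} {w : ℕ → ℝ} {Tn To : ℕ → ℝ}
  {PD : Set (Fin 18 → ℝ)} {ν own : (Fin 18 → ℝ) → ℝ} {c₀ : ℝ}
  {Dq Uq : Finset (Fin 18)} {Qj : Finset (Fin 14)} {Dr Z : Set (Fin 18)}
  {lam lo lamI loI : (Fin 18 → ℝ) → ℝ} {b : ℤ}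

/-- **one resonance of the rung `1`** -/
theorem lin_case (hL : LCase Dq Qj b) (hrel : RelH Dq Uq Qj)
    (H : ZW θ g q ∅ ∅ w0 R T0 B B' I0 I κ u F X' w Tn To PD ν own c₀)
    {v1 : ℝ} (h0 : 0 < v1) (h1 : v1 < 1) (hb : θ 0 = b * θ 1) (hDr : ∀ k, k ∈ Dr ↔ k ∈ Dq)
    (hSt : StgOk 1 Dr Z)
    (S : Stage QW (Leg monW R) ν own 18 (pathW θ w0 v1) (btW θ) (DlW g q) (QdW θ) Z ∅ 0 (btW θ) 1
      (actW Dr) Dr lam lo)
    {z : ℝ × ℝ} (hz : z.1 < 0) {k : ℕ → ℝ} (kpos : ∀ l, 0 < k l) (k0 : Tendsto k atTop (𝓝 0))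
    (tI : IsTan (cn QW (actW Dr)) (cn QW (actW Dr)) lam (fun _ => Dg262.X 0 (TDs 1 Dr) (btW θ) z)
      k lamI)
    (tIo : IsTan (cn QW (actW Dr)) (cn QW (actW Dr)) lo (fun _ => Dg262.X 0 (TDs 1 Dr) (btW θ) z)
      k loI)
    {mm σ : ℝ} (N : LnS Dr Uq lamI mm σ) {Zs : Set (Fin 18)} (hZs : ∀ k ∈ Zs, k ∈ JW 2) :
    HasGau θ g q ∅ (Zs ∪ ↑(JW 1)) := by
  classical
  have ht1 := H.th1
  have hD3 : Dr3 Dr := ⟨fun h => absurd (hL.d4 _ ((hDr _).1 h)).1 (by decide),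
    fun h => absurd (hL.d4 _ ((hDr _).1 h)).1 (by decide),
    fun h => (hL.d4 _ ((hDr _).1 h)).2 rfl⟩
  have hlo := hSt.lo
  obtain ⟨T1, W1, R1, big⟩ := exists_bigW θ
  have hW1 : 0 ≤ W1 := by have := big.T0; have := big.w0T; linarith
  have hW1' : 0 < W1 := by have := big.T0; have := big.w0T; linarith
  set c : ℝ := W1 / θ 1 with hc
  have hcθ : c * θ 1 = W1 := by rw [hc]; field_simp
  obtain ⟨x, hx1, hxK, hxm⟩ := exists_prec θ c R1
  -- twin windows
  obtain ⟨B2, X1, w1, h, TI, ToI, TR, ToR, lamR, loR, w1p, hp, hh, hbase, hX1, hbas, hZW, -, -, hIW,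
    hSR⟩ := front_winM H h0 h1 hD3 S z.2 c (natG_yD hD3 hlo θ z) kpos k0 tI tIo
  set y : Fin 18 → ℝ := Dg262.X 0 (TDs 1 Dr) (btW θ) z with hy
  set YI : ℕ → Fin 18 → ℝ := fun n => X1 n + w1 n • y with hYI
  set XR : ℕ → Fin 18 → ℝ := fun n => X1 n + w1 n • ((z.2 - c * h n) • btW θ) with hXR
  set ww : ℕ → ℝ := fun n => w1 n * h n with hww
  -- the relation
  obtain ⟨xr, hxr, hR⟩ := hrel κ u F mm σ (x + 2 * W1) N.m0 N.s0
  have hZW' := hZW
  rw [← coneM_mA (M := monW) (A := actW Dr)] at hZW'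
  obtain ⟨J1, s1, s2, j, jsup, jsz, jpr⟩ := lin_front hZW' hbas (actM_mA Dr) hDr H.u0 H.κ1
    hIW.iw.kap hxr N.m0 N.s0 (N.dn xr hxr) (N.num xr hxr) (K := x + 2 * W1) hR
  -- positions
  have hNG : ∀ n, NatG Dr (YI n) := fun n => (hX1 n).add ((natG_yD hD3 hlo θ z).smul _)
  have hnat : ∀ n k, k ∉ Dr → YI n k = natX YI n k := fun n k hk => hNG n k hk
  have hpos : ∀ n, ∀ k ∈ JW 1, natX YI n k = natX XR n k + ww n * (c * btW θ k) := by
    intro n k hk
    have h2 := natX_posM (X1 := X1) (w1 := w1) (h := h) (T := TDs 1 Dr) (z := z) (c := c)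
      (θ := θ) n k
    rw [grW_TDs hD3 hlo (mem_JW.1 hk).1 (by rw [(mem_JW.1 hk).2]; norm_num), mul_zero, mul_zero,
      add_zero] at h2
    exact h2
  have hnotD : ∀ {k : Fin 18}, k ∉ Dq → k ∉ Dr := fun hk h => hk ((hDr _).1 h)
  have hQD : ∀ p ∈ Qj ∪ {12}, Fin.natAdd 4 p ∉ Dr := fun p hp => hnotD (hL.q2 p hp).1
  have hQJ : ∀ p ∈ Qj ∪ {12}, Fin.natAdd 4 p ∈ JW 1 := fun p hp => (hL.q2 p hp).2
  have hcb : ∀ k ∈ JW 1, c * btW θ k = -(W1 * ((wc k : ℝ) + b)) := fun k hk => by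
    rw [btW_JW1 hb hk, ← hcθ]; ring
  have hwcb : ∀ k ∈ JW 1, k ∉ Dr → 0 ≤ (wc k : ℝ) + b := fun k hk hkD => by
    have := hL.wcb k (mem_JW.1 hk).1 fun h => hkD ((hDr k).2 h)
    exact_mod_cast this
  -- size of the slot `15`
  have hJ2 : ∃ J2 : ℕ → Finset (ℕ × ℝ), (∀ n, J2 n ⊆ J1 n) ∧ Dense B2 J2 I ∧
      ∀ p ∈ Qj, Fin.natAdd 4 p ∉ Dr → btW θ (Fin.natAdd 4 p) < 0 → ∀ ε : ℝ, 0 < ε →
      ∀ᶠ n in (U : Filter ℕ), ∀ i ∈ J2 n, u n (Fin.natAdd 4 p) * |j n i p| ≤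
        B.d n ^ natX XR n (Fin.natAdd 4 p) * B2.d n ^ (-ε) := by
    rcases hL.cs with ⟨hb2, hQ, h14⟩ | ⟨hb1, hQ⟩
    · have hb2' : ((b : ℤ) : ℝ) = 2 := by rw [hb2]; norm_num
      set p : Fin 18 → ℝ := fun k => if k ∈ Dr then 0 else grW 0 W1 (2 * W1) k with hpdef
      have poff : ∀ k, k ∉ Dr → p k = grW 0 W1 (2 * W1) k := fun k hk => if_neg hk
      have pon : ∀ k, k ∈ Dr → p k = 0 := fun k hk => if_pos hk
      have hpc : p ∈ cn QW (actW Dr) :=
        S.mem_congr (nat_grW _ 0 W1 (2 * W1)).mem fun i hi => (poff i hi).symm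
      have h14' := hnotD h14
      have h15' := hnotD hL.d15
      have h16' := hnotD hL.d16
      have hp0 : 0 ≤ p := by
        intro k
        by_cases hk : k ∈ Dr
        · rw [pon k hk]; rfl
        · rw [poff k hk]
          have hk1 : k ∉ D11 := fun h => hk ((hDr k).2 (hL.d11 k h))
          have key : ∀ k : Fin 18, k ∉ D11 → 0 ≤ wc k + 2 * wn k := by decide
          have := key k hk1
          have h3 : (0 : ℝ) ≤ (wc k : ℝ) + 2 * (wn k : ℝ) := by exact_mod_cast this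
          simp only [grW, Pi.zero_apply]
          nlinarith
      have hp1 : p 1 = W1 := by rw [poff 1 hD3.h1, grW_1]
      have hp16 : p 16 = 2 * W1 := by
        rw [poff 16 h16']; simp [grW, wz, wc, wn]
      have hpe : ∀ t : ℝ, 0 ≤ t → p + t • e1W ∈ cn QW (actW Dr) := fun t ht => add_e1_mem hpc ht
      have hsw : ∀ t : ℝ, 0 < t → lamI (p + t • e1W) < lamI p := by
        intro t ht
        have h2 := sweepS one_pos hSt S hz kpos k0 tI (-c) ht.le hpc (by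
          rw [hp1, ← hcθ]; simp [btW, grW, wz, wc, wn]) (fun i hi hTi => by
          rcases (TDs_zero hlo hTi).2 with rfl | hiJ
          · rw [hp1, ← hcθ]; simp [btW, grW, wz, wc, wn]
          · have e1 : -c * btW θ i = W1 * ((wc i : ℝ) + b) := by
              have := hcb i hiJ; linarith
            rw [e1, poff i hi, hb2']
            have h3 : ∀ i ∈ JW 1, wn i = 1 := by decide
            simp only [grW, h3 i hiJ]
            push_cast
            apply le_of_eq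
            ring)
        have h3 : 0 < (q 1 + 2 * q 2) * t := by
          have := H.q1; have := H.q2; positivity
        linarith
      rw [← coneM_mA (M := monW) (A := actW Dr)] at hpc
      obtain ⟨J2, a1, a2, a3⟩ := size15 hZW' hbas (actM_mA Dr) hD3.h1 h14' h15' h16' H.u0 H.κ1 s2
        (j := j) (by rw [← hQ]; exact jsup) (by rw [← hQ]; exact jsz) hW1 (K := x + 2 * W1)
        (by linarith) (fun ε hε => by
          filter_upwards [jpr ε hε] with n hn i hi i' hi' hl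
          exact hn i hi i' hi' hl 12 (mem_union_right _ (mem_singleton_self _)))
        hpc hp0 hp1 hp16 (fun t ht => by
          rw [coneM_mA]; exact hpe t ht) hsw
      refine ⟨J2, a1, a2, fun p' hp' hpD hneg ε hε => ?_⟩
      have hp2 : p' = 10 ∨ p' = 11 := by
        have := hL.q1 hp'
        simpa using this
      rcases hp2 with rfl | rfl
      · exfalso
        have h4 : wc (Fin.natAdd 4 (10 : Fin 14)) = -2 := by decide
        have h3 : btW θ (Fin.natAdd 4 (10 : Fin 14)) = 0 := by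
          rw [btW_JW1 hb (hQJ 10 (mem_union_left _ hp')), h4, hb2']; norm_num
        rw [h3] at hneg
        exact lt_irrefl _ hneg
      · filter_upwards [a3 ε hε] with n hn i hi
        have h3 := hn i hi
        have hu := (H.u0 n).pos (Fin.natAdd 4 (11 : Fin 14))
        rw [sda, ← mul_div_assoc, le_div_iff₀ hu] at h3
        have h4 : u n (Fin.natAdd 4 (11 : Fin 14)) * |j n i 11| ≤
            B.d n ^ natX YI n (Fin.natAdd 4 (11 : Fin 14)) * B2.d n ^ (W1 - ε) := by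
          rw [← hnat n _ hpD]; linarith
        refine h4.trans (unit_rec hbase hpos (hQJ 11 (mem_union_left _ hp')) ?_)
        rw [hcb _ (hQJ 11 (mem_union_left _ hp'))]
        have h5 : wc (Fin.natAdd 4 (11 : Fin 14)) = -1 := by decide
        rw [h5, hb2']
        push_cast
        linarith
    · refine ⟨J1, fun n => Subset.refl _, s2, fun p hp hpD hneg => ?_⟩
      exfalso
      rw [hQ, mem_singleton] at hp
      subst hp
      have hb1' : ((b : ℤ) : ℝ) = 1 := by rw [hb1]; norm_num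
      have h4 : wc (Fin.natAdd 4 (11 : Fin 14)) = -1 := by decide
      have h3 : btW θ (Fin.natAdd 4 (11 : Fin 14)) = 0 := by
        rw [btW_JW1 hb (by decide), h4, hb1']; norm_num
      rw [h3] at hneg
      exact lt_irrefl _ hneg
  obtain ⟨J2, a1, a2, a3⟩ := hJ2
  -- the law
  have L : JLaw θ B B2 I0 J2 κ u F XR YI Qj (Qj ∪ {12}) R1 j := by
    refine jlaw_of (s := 1) (Dr := Dr) (J1 := J1) (w := ww) (c := c) (x := x)
      (Qp := ↑(Qj ∪ {12} : Finset (Fin 14))) hbase hpos hnat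
      (fun p hp => hQJ p (mem_union_left _ hp)) hQJ (fun p hp => hp) (fun k hk hkD => ?_)
      (fun k _ => hxK k) (fun k _ => hxm k) (fun n i p hp => jsup n i p (by simpa using hp))
      (fun ε hε => ?_) (fun ε hε => ?_) a1 a3
    · rw [btW_JW1 hb hk]
      have := mul_nonneg ht1.le (hwcb k hk hkD)
      linarith
    · filter_upwards [jsz ε hε] with n hn i hi p
      by_cases hp : p ∈ Qj
      · have hpD := hQD p (mem_union_left _ hp)
        have h3 := hn i hi p hp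
        have hu := (H.u0 n).pos (Fin.natAdd 4 p)
        rw [sda, ← mul_div_assoc, le_div_iff₀ hu] at h3
        rw [SzQ, if_neg hpD]
        linarith
      · rw [jsup n i p hp, abs_zero, mul_zero]
        unfold SzQ
        split_ifs
        · exact mul_nonneg (Real.rpow_pos_of_pos (B.pos n) _).le
            (Real.rpow_pos_of_pos (B2.pos n) _).le
        · exact mul_nonneg (Real.rpow_pos_of_pos (B.pos n) _).le
            (Real.rpow_pos_of_pos (B2.pos n) _).le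
    · filter_upwards [jpr ε hε] with n hn i hi i' hi' hl p hp
      have hp' : p ∈ Qj ∪ {12} := by simpa using hp
      have hpD := hQD p hp'
      have h3 := hn i hi i' hi' hl.symm p hp'
      have hu := (H.u0 n).pos (Fin.natAdd 4 p)
      rw [sda, ← mul_div_assoc, le_div_iff₀ hu] at h3
      rw [ErQ, if_neg hpD]
      have h4 : B2.d n ^ (x + 2 * W1 - ε) ≤ B2.d n ^ (x - ε) :=
        Real.rpow_le_rpow_of_exponent_ge (B2.pos n) (B2.lt n).le (by linarith)
      have h5 := mul_le_mul_of_nonneg_right h4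
        (Real.rpow_pos_of_pos (B.pos n) (YI n (Fin.natAdd 4 p))).le
      linarith
  obtain ⟨Sd, hSd, hd⟩ := dense_sub a2
  refine hasGau_of_law (V := ∅) (J := I) (J1 := J2) H.th1 H.q1 H.q2 H.q0 H.qg H.qθ
    (fun k hk => absurd hk (by simp)) (fun k hk => ?_) capCl_empty H.u0 H.κ1 hIW hSR big
    (b := b) hL.b0.le hL.b4 (fun k h4 hkD => hL.wcb k h4 fun h => hkD ((hDr k).2 h))
    (fun k h4 hkD he => ?_) (fun n => (a1 n).trans (s1 n)) hSd hd (YI := YI) ?_ ?_
    (Sp := Qj) (Js := Qj ∪ {12}) ?_ subset_union_left (fun q _ h => h) (K := R1) le_rfl L ?_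
  · obtain ⟨d1, d2⟩ := hL.d4 k ((hDr k).1 hk)
    exact ⟨d1, d2, fun h => h⟩
  · have hkJ := hL.wc0 k h4 (fun h => hkD ((hDr k).2 h)) he
    rw [btW_JW1 hb hkJ]
    have : (wc k : ℝ) + b = 0 := by exact_mod_cast he
    rw [this, mul_zero, neg_zero]
  · filter_upwards [hZW.legal 0] with n hn
    have := hn 0 hZW.zero (by rw [norm_zero])
    rwa [smul_zero, add_zero] at this
  · have h2 := posM_le (X1 := X1) (w1 := w1) (h := h) (T := TDs 1 Dr) (b := btW θ) (z := z) (c := c)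
      (bC := bCq b W1) w1p hp hh hz (TDs_nonneg one_pos Dr) (fun k hk => by
        rcases (TDs_zero hlo hk).2 with rfl | hkJ
        · have e1 : c * btW θ 1 = -W1 := by
            rw [← hcθ]; simp [btW, grW, wz, wc, wn]
          rw [e1]; simp [bCq, grW, wz, wc, wn]
        · rw [hcb k hkJ, bCq_JW1 hkJ])
    filter_upwards [h2] with n hn k
    exact hn k
  · exact hL.q1.trans (by decide)
  · intro k hk
    rcases hk with hk | hk
    · right
      have hkJ := hZs k hk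
      have hkD := hL.j2 k hkJ
      exact ⟨(hDr k).2 hkD, hL.q4 k (mem_union_right _ hkJ) hkD⟩
    · have hkJ : k ∈ JW 1 := hk
      by_cases hkD : k ∈ Dq
      · right
        exact ⟨(hDr k).2 hkD, hL.q4 k (mem_union_left _ hkJ) hkD⟩
      · left
        exact hL.q3 k hkJ hkD

end main

/-- **`SeamLinG`** from the rows and 560's relation in the two resonances -/
theorem seamLinG_of (hR : RowsC) (r2 : RelH D11 {2, 3, 17} {10, 11})
    (r1 : RelH D12 {2, 17} {11}) : SeamLinG := by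
  intro θ g q Zs hOb hcase hres
  obtain ⟨w0, R, T0, B, B', I0, I, κ, u, F, X', w, Tn, To, PD, ν, own, c₀, H, hz⟩ := hOb
  have hS : SlotOkW θ (fun k => k ∈ (∅ : Set (Fin 18))) (fun k => k ∈ (∅ : Set (Fin 18))) :=
    ⟨fun k h => h, fun k h => absurd h (by simp), fun k h => absurd h (by simp)⟩
  have h2 : ↑(JW 2) ⊆ Zs ∨ ¬ Res2 θ := by
    rcases hcase with ⟨-, h⟩ | h
    · exact Or.inr h
    · exact Or.inl h.ge
  have hZs : ∀ k ∈ Zs, k ∈ JW 2 := by
    intro k hk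
    rcases hcase with ⟨h, -⟩ | h
    · rw [h] at hk; exact absurd hk (by simp)
    · rw [h] at hk; exact hk
  obtain ⟨C, lam, lo, hst⟩ := SZ480.ob_lin hR H hz hS (fun k h => h) h2 hres
    (v1 := 1 / 2) (by norm_num) (by norm_num)
  rcases hres with h14 | h15
  · have hDr : ∀ k, k ∈ SZ480.DrR θ 1 ↔ k ∈ D11 := SZ480.drR1_14 H.th1 h14
    obtain ⟨z, hz0, k, kpos, k0, lamI, loI, mm, σ, tI, tIo, N⟩ :=
      Ln619.hasLinN2 C (fun k hk => absurd hk (by simp)) hDr rfl hst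
    refine lin_case lcase2 r2 H (by norm_num) (by norm_num) ?_ hDr
      (Ln619.stgOk_aux hDr (fun k hk => hk) (by decide) rfl) hst hz0 kpos k0 tI tIo N hZs
    have : btW θ 14 = 2 * θ 1 - θ 0 := by simp [btW, grW, wz, wc, wn]; ring
    push_cast
    linarith
  · have hDr : ∀ k, k ∈ SZ480.DrR θ 1 ↔ k ∈ D12 := SZ480.drR1_15 H.th1 h15
    obtain ⟨z, hz0, k, kpos, k0, lamI, loI, mm, σ, tI, tIo, N⟩ :=
      Ln619.hasLinN1 C (fun k hk => absurd hk (by simp)) hDr (SZ480.btW14_ne H.th1 h15) rfl hst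
    refine lin_case lcase1 r1 H (by norm_num) (by norm_num) ?_ hDr
      (Ln619.stgOk_aux hDr (by decide) (by decide) rfl) hst hz0 kpos k0 tI tIo N hZs
    have : btW θ 15 = θ 1 - θ 0 := by simp [btW, grW, wz, wc, wn]; ring
    push_cast
    linarith

end Crest.Agent.R136.LinF403
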