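import Crest.Agent.R116.Zl3_139
import Crest.Agent.R136.PtA_627

/-!
# R136 (S0187), U4, pure penalty, leaf (d) (helper627), part 1: the short window with linear rewards

* `zoom0` : zoom of a marked extremal sequence without loss to a short window around `v = 1/2`, with any
  diagonal property (139's `zoomL`, without loss, so that the growth is unchanged).
* `lin3` : the `Ψ`-valued marked sequence of the short window is also marked with LINEAR rewards
  `p = ∇_x Ψ (1,θ)`, growth `g + g0`, for the test sets of growing range `d^(±K n)` (139's `lin_of`,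
  `growK`), any number of widths.
-/

set_option autoImplicit false
set_option linter.unusedVariables false
set_option linter.unusedSectionVars false

open Finset Filter Topology

namespace Crest.Agent.R136.Lz627

open Crest.Agent.R138.Ex926 (Base U exists_diag exists_tendsto ev_em)
open Crest.Agent.R138.Dp76
open Crest.Agent.R138.Mk163 (zc zl rho alive own)
open Crest.Agent.R138.MkRef627 (mem_alive)
open Crest.Agent.R138.MkPoint627 (exists_affine)
open Crest.Agent.R138.MkZoom779 (Fq Fq_mem ev_mem_Fq)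
open Crest.Agent.R136.MkA627
open Crest.Agent.R136.ZoomA102 (zoomA)
open Crest.Agent.R116.Xa794 (TS geo)
open Crest.Agent.R116.Xc794
open Crest.Agent.R116.Zl139
open Crest.Agent.R116.KF439 (Win)

section zoom

variable {σ κ : Type} [Countable κ] {B : Base} {I : ℕ → Finset (ℕ × ℝ)} {G : Geo σ κ}
    {lev : ℕ → ℚ → ℕ} {A : ℕ → ℝ} {g : ℝ} {θ : κ → ℝ}
    {f : ℕ → ℚ → ℕ → ℤ → ℕ} {b : ℕ → ℚ → ℕ → σ} {vm : ℕ → ℚ → ℝ} {w : κ → ℕ → ℚ → ℝ}

/-- **zoom without loss to a short window around `1/2`, with a diagonal property.** -/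
theorem zoom0
    (h : MkA B I G lev A (fun v => g * v) (fun v => 0 * v) (fun j v => θ j * (1 - v)) f b vm w)
    (Q : ((ℕ → ℝ) × (ℕ → ℚ → ℚ)) → ℕ → ℕ → Prop)
    (hQ : ∀ (η : ℕ → ℝ) (m : ℕ → ℚ → ℚ), (∀ k, 0 < η k) →
      (∀ k, ∀ x : ℚ, 0 ≤ x → x ≤ 1 → 0 ≤ m k x ∧ m k x ≤ 1) →
      ∀ k, ∀ᶠ n in (U : Filter ℕ), Q (η, m) k n) :
    ∃ (η : ℕ → ℝ) (m : ℕ → ℚ → ℚ) (t : ℕ → ℕ) (B' : Base) (I' : ℕ → Finset (ℕ × ℝ))
      (A' : ℕ → ℝ),
      (∀ k, 0 < η k) ∧ (∀ k, η k ≤ 1) ∧ Tendsto η atTop (𝓝 0) ∧ Tendsto t U atTop ∧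
      (∀ x : ℚ, Tendsto (fun k => ((m k x : ℚ) : ℝ)) atTop (𝓝 (1 / 2))) ∧
      Win B I B' I' (fun n => η (t n)) (fun n => m (t n)) ∧
      MkA B' I' G (fun n x => lev n (m (t n) x)) A' (fun v => g * v) (fun v => 0 * v)
        (fun j v => θ j * (1 - v)) (fun n x => f n (m (t n) x)) (fun n x => b n (m (t n) x))
        (fun n x => vm n (m (t n) x)) (fun j n x => w j n (m (t n) x)) ∧
      ∀ᶠ n in (U : Filter ℕ), Q (η, m) (t n) n := by
  obtain ⟨η, m, hη, hη1, hη0, hm, hmono, hq, hpt, -⟩ :=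
    exists_affine (v0 := 1 / 2) (by norm_num) (by norm_num)
  obtain ⟨s0, hs0t, hz⟩ := zoomA h η m (fun v => g * v) (fun v => 0 * v)
    (fun j v => θ j * (1 - v)) hη hη1 hm
    (fun x y _ hxy _ => Eventually.of_forall fun k => hmono k x y hxy)
    (fun x y _ _ _ => by
      simp only [hq]
      exact tendsto_const_nhds)
    (fun x hx0 hx1 => by
      have a2 : Tendsto (fun k => g * (((m k x : ℝ) - m k 0) / η k)) atTop
          (𝓝 (g * ((x : ℝ) - ((0 : ℚ) : ℝ)))) := by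
        simp only [hq]
        exact tendsto_const_nhds
      have a4 : g * ((x : ℝ) - ((0 : ℚ) : ℝ)) = g * (x : ℝ) := by push_cast; ring
      rw [a4] at a2
      refine a2.congr fun k => ?_
      ring)
    (fun x hx0 hx1 => by simp)
    (fun j x hx0 hx1 => by
      have a2 : Tendsto (fun k => -(θ j * (((m k x : ℝ) - m k 1) / η k))) atTop
          (𝓝 (-(θ j * ((x : ℝ) - ((1 : ℚ) : ℝ))))) := by
        simp only [hq]
        exact tendsto_const_nhds
      have a4 : -(θ j * ((x : ℝ) - ((1 : ℚ) : ℝ))) = θ j * (1 - (x : ℝ)) := by push_cast; ring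
      rw [a4] at a2
      refine a2.congr fun k => ?_
      ring)
    (fun u v hu huv hv => by
      constructor
      · simp
      · simp only [zero_mul, sub_zero]; linarith) (by simp) (by simp) (by simp)
  obtain ⟨s1, hs1t, hs1'⟩ := exists_diag (Q (η, m)) (hQ η m hη hm)
  set t : ℕ → ℕ := fun n => min (s0 n) (s1 n) with ht
  have htt : Tendsto t U atTop := by
    rw [tendsto_atTop]
    intro c
    filter_upwards [tendsto_atTop.1 hs0t c, tendsto_atTop.1 hs1t c] with n h1 h2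
    exact le_min h1 h2
  obtain ⟨B', I', A', hB', hI', hMk⟩ := hz t htt (Eventually.of_forall fun n => min_le_left _ _)
  refine ⟨η, m, t, B', I', A', hη, hη1, hη0, htt, hpt, ?_, hMk, ?_⟩
  · exact
    { pos := fun n => ⟨hη _, hη1 _⟩
      lim := hη0.comp htt
      mem := fun n => hm _
      aff := fun n x y => by
        have h5 := hq (t n) x y
        rw [div_eq_iff (hη _).ne'] at h5
        linarith
      pt := ⟨1 / 2, ⟨by norm_num, by norm_num⟩, fun x => (hpt x).comp htt⟩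
      base := hB'
      sub := hI' }
  · filter_upwards [hs1'] with n hn using hn (t n) (min_le_right _ _)

end zoom

section lin

variable {Ln ι S : Type} [Fintype ι] {B : Base} {I : ℕ → Finset (ℕ × ℝ)} {T : ℕ → TS Ln ι S}
    {L : ℕ → ℕ → Ln} {lev : ℕ → ℚ → ℕ} {A : ℕ → ℝ} {g : ℝ} {θ : ι → ℝ}
    {f : ℕ → ℚ → ℕ → ℤ → ℕ} {b : ℕ → ℚ → ℕ → (ι → ℕ) × S} {vm : ℕ → ℚ → ℝ}
    {w : ι → ℕ → ℚ → ℝ} {Ψ : ℝ → (ι → ℝ) → ℝ} {g0 : ℝ} {p : ι → ℝ} {mt : ℕ → ℕ}
    {atop : ℕ → ι → ℕ} {T0 : ℝ}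

/-- **the short window**: `Ψ`-valued and linear. -/
theorem lin3
    (h : MkA B I (geoP T Ψ mt atop L) lev A (fun v => g * v) (fun v => 0 * v)
      (fun j v => θ j * (1 - v)) f b vm w)
    (hT : TopPos B lev w mt atop θ T0) (hT0 : 1 ≤ T0) (hΨ : LinAt Ψ θ g0 p)
    (Q : ((ℕ → ℝ) × (ℕ → ℚ → ℚ)) → ℕ → ℕ → Prop)
    (hQ : ∀ (η : ℕ → ℝ) (m : ℕ → ℚ → ℚ), (∀ k, 0 < η k) →
      (∀ k, ∀ x : ℚ, 0 ≤ x → x ≤ 1 → 0 ≤ m k x ∧ m k x ≤ 1) →
      ∀ k, ∀ᶠ n in (U : Filter ℕ), Q (η, m) k n) :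
    ∃ (η : ℕ → ℝ) (m : ℕ → ℚ → ℚ) (t : ℕ → ℕ) (B' : Base) (I' : ℕ → Finset (ℕ × ℝ))
      (A' A2 : ℕ → ℝ) (vm2 : ℕ → ℚ → ℝ) (K1 : ℕ → ℝ),
      (∀ k, 0 < η k) ∧ (∀ k, η k ≤ 1) ∧ Tendsto η atTop (𝓝 0) ∧ Tendsto t U atTop ∧
      (∀ x : ℚ, Tendsto (fun k => ((m k x : ℚ) : ℝ)) atTop (𝓝 (1 / 2))) ∧
      Win B I B' I' (fun n => η (t n)) (fun n => m (t n)) ∧
      MkA B' I' (geoP T Ψ mt atop L) (fun n x => lev n (m (t n) x)) A'
        (fun v => g * v) (fun v => 0 * v)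
        (fun j v => θ j * (1 - v)) (fun n x => f n (m (t n) x)) (fun n x => b n (m (t n) x))
        (fun n x => vm n (m (t n) x)) (fun j n x => w j n (m (t n) x)) ∧
      Tendsto (fun n => ((mt n : ℝ) - lev n (m (t n) 0)) * Real.log 2 / B.L n) U
        (𝓝 (T0 - 1 / 2)) ∧
      (∀ j, Tendsto (fun n => (-Real.log (w j n (m (t n) 0)) -
        (lev n (m (t n) 0) : ℝ) * Real.log 2 - ((atop n j : ℝ) - mt n) * Real.log 2) / B.L n) U
        (𝓝 (θ j * (T0 - 1 / 2)))) ∧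
      (∀ n, A2 n = A' n * EE Ψ p (fun n x => lev n (m (t n) x))
        (fun j n x => w j n (m (t n) x)) mt atop n) ∧
      Tendsto K1 U atTop ∧
      (∀ K : ℕ → ℝ, Tendsto K U atTop → (∀ᶠ n in (U : Filter ℕ), K n ≤ K1 n) →
        MkA B' I' (rgK B' (fun j n x => w j n (m (t n) x)) K (geo T p L))
          (fun n x => lev n (m (t n) x)) A2
          (fun v => (g + g0) * v) (fun v => 0 * v)
          (fun j v => θ j * (1 - v)) (fun n x => f n (m (t n) x)) (fun n x => b n (m (t n) x))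
          vm2 (fun j n x => w j n (m (t n) x))) ∧
      ∀ᶠ n in (U : Filter ℕ), Q (η, m) (t n) n := by
  classical
  obtain ⟨η, m, t, B', I', A', hη, hη1, hη0, htt, hpt, hW, hM, hD⟩ :=
    zoom0 h (fun q k n => Q q k n ∧
      |((mt n : ℝ) - lev n (q.2 k 0)) * Real.log 2 / B.L n - (T0 - (q.2 k 0 : ℝ))| ≤
        1 / ((k : ℝ) + 1) ∧
      ∀ j, |(-Real.log (w j n (q.2 k 0)) - (lev n (q.2 k 0) : ℝ) * Real.log 2 -
        ((atop n j : ℝ) - mt n) * Real.log 2) / B.L n - θ j * (T0 - (q.2 k 0 : ℝ))| ≤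
        1 / ((k : ℝ) + 1)) (by
      intro η m hη hm k
      obtain ⟨hm0, hm1⟩ := hm k 0 le_rfl zero_le_one
      have hk : (0 : ℝ) < 1 / ((k : ℝ) + 1) := by positivity
      have e1 := (Metric.tendsto_nhds.1 (hT.len (m k 0) hm0 hm1)) _ hk
      have e2 : ∀ᶠ n in (U : Filter ℕ), ∀ j,
          |(-Real.log (w j n (m k 0)) - (lev n (m k 0) : ℝ) * Real.log 2 -
          ((atop n j : ℝ) - mt n) * Real.log 2) / B.L n - θ j * (T0 - (m k 0 : ℝ))| ≤
          1 / ((k : ℝ) + 1) := by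
        rw [Filter.eventually_all]
        intro j
        filter_upwards [(Metric.tendsto_nhds.1 (hT.rel j (m k 0) hm0 hm1)) _ hk] with n hn
        rw [Real.dist_eq] at hn
        exact hn.le
      filter_upwards [hQ η m hη hm k, e1, e2] with n a2 a3 a4
      rw [Real.dist_eq] at a3
      exact ⟨a2, a3.le, a4⟩)
  have hH : ∀ n, 0 < η (t n) := fun n => hη _
  have hH0 : Tendsto (fun n => η (t n)) U (𝓝 0) := hη0.comp htt
  have hL : ∀ n, B'.L n = η (t n) * B.L n := fun n => by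
    unfold Base.L
    rw [hW.base, Real.log_rpow (B.pos n)]
    ring
  have h1k : Tendsto (fun n => 1 / ((t n : ℝ) + 1)) U (𝓝 0) :=
    tendsto_one_div_add_atTop_nhds_zero_nat.comp htt
  have hm0 : Tendsto (fun n => ((m (t n) 0 : ℚ) : ℝ)) U (𝓝 (1 / 2)) := (hpt 0).comp htt
  have hlen : Tendsto (fun n => ((mt n : ℝ) - lev n (m (t n) 0)) * Real.log 2 / B.L n) U
      (𝓝 (T0 - 1 / 2)) := by
    have h1 : Tendsto (fun n => ((mt n : ℝ) - lev n (m (t n) 0)) * Real.log 2 / B.L n -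
        (T0 - ((m (t n) 0 : ℚ) : ℝ))) U (𝓝 0) := by
      refine squeeze_zero_norm' ?_ h1k
      filter_upwards [hD] with n hn using hn.2.1
    have h2 := h1.add (hm0.const_sub T0)
    rw [zero_add] at h2
    refine h2.congr fun n => ?_
    ring
  have hrel : ∀ j, Tendsto (fun n => (-Real.log (w j n (m (t n) 0)) -
      (lev n (m (t n) 0) : ℝ) * Real.log 2 - ((atop n j : ℝ) - mt n) * Real.log 2) / B.L n) U
      (𝓝 (θ j * (T0 - 1 / 2))) := by
    intro j
    have h1 : Tendsto (fun n => (-Real.log (w j n (m (t n) 0)) -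
        (lev n (m (t n) 0) : ℝ) * Real.log 2 - ((atop n j : ℝ) - mt n) * Real.log 2) / B.L n -
        θ j * (T0 - ((m (t n) 0 : ℚ) : ℝ))) U (𝓝 0) := by
      refine squeeze_zero_norm' ?_ h1k
      filter_upwards [hD] with n hn using hn.2.2 j
    have h2 := h1.add ((hm0.const_sub T0).const_mul (θ j))
    rw [zero_add] at h2
    refine h2.congr fun n => ?_
    ring
  set R0 : ℝ := 2 + ∑ j, |θ j| with hR0
  have hRj : ∀ R : ℝ, R0 ≤ R → ∀ j, 1 + |θ j| < R := by
    intro R hR j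
    have h1 : |θ j| ≤ ∑ j, |θ j| :=
      Finset.single_le_sum (f := fun j => |θ j|) (fun i _ => abs_nonneg _) (Finset.mem_univ j)
    rw [hR0] at hR
    linarith
  have hR0p : ∀ R : ℝ, R0 ≤ R → 0 ≤ R := by
    intro R hR
    have h1 : 0 ≤ ∑ j, |θ j| := Finset.sum_nonneg fun j _ => abs_nonneg _
    rw [hR0] at hR
    linarith
  have hlin : ∀ R : ℝ, R0 ≤ R →
      MkA B' I' (rg B' (fun j n x => w j n (m (t n) x)) R (geo T p L))
        (fun n x => lev n (m (t n) x)) (fun n => A' n * EE Ψ p (fun n x => lev n (m (t n) x))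
          (fun j n x => w j n (m (t n) x)) mt atop n)
        (fun v => (g + g0) * v) (fun v => 0 * v)
        (fun j v => θ j * (1 - v)) (fun n x => f n (m (t n) x)) (fun n x => b n (m (t n) x))
        (vm2 T p (fun n x => lev n (m (t n) x)) (fun j n x => w j n (m (t n) x)))
        (fun j n x => w j n (m (t n) x)) := by
    intro R hR
    have h1 := lin_of (lev' := fun n x => lev n (m (t n) x)) (w' := fun j n x => w j n (m (t n) x))
      (t := T0 - 1 / 2) (R := R) hΨ hH hH0 hL (by linarith) (hRj R hR) (hR0p R hR) hM hlen hrel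
    refine h1.congr (fun v _ _ => ?_) (fun j v _ _ => rfl)
    ring
  obtain ⟨K1, hK1, hK⟩ := growK (R0 := R0) hlin
  exact ⟨η, m, t, B', I', A', _, _, K1, hη, hη1, hη0, htt, hpt, hW, hM, hlen, hrel,
    fun n => rfl, hK1, hK, hD.mono fun n hn => hn.1⟩

end lin

end Crest.Agent.R136.Lz627
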