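import Crest.Agent.R136.NSt1_107
import Crest.Agent.R136.CV0_366

/-!
# R136: strips in the models (helper107), part 2: the chart of helper186

* `lineC_five`, `lineC_six` : `C_a`, `C_b` are constant along the fat lines.
* `addC` : additivity of `C_a`, `C_b` at one height inside boxes with `E` narrow.
* `noStr_Q` : `NoStr` for the boxes `p0` with zero loss.
* `exists_model_ns` : window with raw twist and no heavy strips ⊢ model with twist, `NoStr`, `AddC`.
-/

set_option autoImplicit false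
set_option linter.unusedSectionVars false
set_option linter.unusedVariables false

open Filter Topology

namespace Crest.Agent.R136.NSt107

open Finset Crest.Agent.R138.Ex926 Crest.Agent.R136.Net191 Crest.Agent.R136.Gf356
open Crest.Agent.R136.Qg926 Crest.Agent.R136.Qg4480 Crest.Agent.R136.NetQ186
open Crest.Agent.R136.Ev356 Crest.Agent.R136.CV366

variable {ι : ℕ → Type*} [∀ n, DecidableEq (ι n)]

section

variable {W : Wnd 11 ι} {f : ∀ n, ι n → Fq4}

/-- `C_a` is constant along the fat lines -/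
theorem lineC_five (h : QWnd W f) {R1 : ℝ} (h5 : R1 ≤ W.top 5) : LineC W 5 R1 := by
  intro ε hε
  filter_upwards [h.ok.ev_good, Crest.Agent.R136.Qg926.ev_const_le W.B'
    (c := MW W) (by linarith [h.MW_one]) hε] with n g hk x hx y hy z hz hl
  have e1 := h.crd_add g hx hy hz (s := 5) (by simp)
  have e2 := h.small_of (h.crd_own g hy hz hl (h.notMem (s := 5) (by simp)) h5)
  have e3 : W.crd n x z 5 - W.crd n x y 5 = W.crd n y z 5 := by linarith
  have hp := Real.rpow_pos_of_pos (W.B'.pos n) R1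
  rw [e3]
  refine e2.trans ?_
  have e4 : W.B'.d n ^ (R1 - ε) = W.B'.d n ^ (-ε) * W.B'.d n ^ R1 := by
    rw [← Real.rpow_add (W.B'.pos n)]; congr 1; ring
  rw [e4]
  exact mul_le_mul_of_nonneg_right hk hp.le

/-- `C_b` is constant along the fat lines -/
theorem lineC_six (h : QWnd W f) {R1 : ℝ} (h5 : R1 ≤ W.top 5) (h6 : R1 ≤ W.top 6) :
    LineC W 6 R1 := by
  intro ε hε
  have hM := h.MW_one
  filter_upwards [h.ok.ev_good, Crest.Agent.R136.Qg926.ev_const_le W.B'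
    (c := MW W + MW W * (MW W * MW W)) (by positivity) hε] with n g hk x hx y hy z hz hl
  have e1 := h.crd_six g hx hy hz
  have e2 := h.small_of (h.crd_own g hy hz hl (h.notMem (s := 6) (by simp)) h6)
  have e2' := h.small_of (h.crd_own g hy hz hl (h.notMem (s := 5) (by simp)) h5)
  have e3 : W.crd n x z 6 - W.crd n x y 6 = W.crd n y z 6 +
      cf W n 2 5 6 * (W.crd n x y 2 * W.crd n y z 5) := by linarith
  have hp := Real.rpow_pos_of_pos (W.B'.pos n) R1
  have hcf := (h.cfB g).1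
  have hE := h.crd_MW g hx hy 2
  rw [e3]
  have e5 : |cf W n 2 5 6 * (W.crd n x y 2 * W.crd n y z 5)| ≤
      MW W * (MW W * (MW W * W.B'.d n ^ R1)) := by
    rw [abs_mul, abs_mul]
    exact mul_le_mul hcf (mul_le_mul hE e2' (abs_nonneg _) (by linarith)) (by positivity)
      (by linarith)
  have e4 : W.B'.d n ^ (R1 - ε) = W.B'.d n ^ (-ε) * W.B'.d n ^ R1 := by
    rw [← Real.rpow_add (W.B'.pos n)]; congr 1; ring
  rw [e4]
  calc _ ≤ MW W * W.B'.d n ^ R1 + MW W * (MW W * (MW W * W.B'.d n ^ R1)) :=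
        (abs_add_le _ _).trans (add_le_add e2 e5)
    _ = (MW W + MW W * (MW W * MW W)) * W.B'.d n ^ R1 := by ring
    _ ≤ _ := mul_le_mul_of_nonneg_right hk hp.le

/-- **additivity of `C_a`, `C_b` at one height**, boxes with `E` narrow -/
theorem addC (h : QWnd W f) (h2 : (2 : Fin 11) ∉ W.S) {E : ∀ n, Finset (ι n)}
    (hc : ∀ᶠ n in (U : Filter ℕ), W.Good n ∧ E n ⊆ W.Cl n ∧ W.cfg E n = W.cfg0 n (E n))
    {p0 : Fin 11 → ℝ} {y : ℝ} (hy : y ≤ p0 2) : AddC W.B' (W.cfg E) p0 5 6 2 y := by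
  intro ε hε
  have hM := h.MW_one
  filter_upwards [hc, Crest.Agent.R136.Qg926.ev_const_le W.B'
    (c := MW W * MW W) (by positivity) hε] with n hn hk k i l m hi hl hm hil hlm
  obtain ⟨g, hE, hcfg⟩ := hn
  rw [hcfg] at hi hl hm hil hlm ⊢
  obtain ⟨x1, x2, x3⟩ := Wnd.rep_of_mem hE hi
  obtain ⟨y1, y2, y3⟩ := Wnd.rep_of_mem hE hl
  obtain ⟨z1, z2, z3⟩ := Wnd.rep_of_mem hE hm
  set x := W.rep n i k
  set yy := W.rep n l k
  set z := W.rep n m k
  have h5 : (5 : Fin 11) ∉ W.S := h.notMem (by simp)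
  have h6 : (6 : Fin 11) ∉ W.S := h.notMem (by simp)
  have r5 : ∀ a b : ℕ, (W.cfg0 n (E n)).rel k a b 5 = W.crd n (W.rep n a k) (W.rep n b k) 5 :=
    fun a b => by
      show (if (5 : Fin 11) ∈ W.S then (0 : ℝ) else W.crd n _ _ 5) = _
      rw [if_neg h5]
  have r6 : ∀ a b : ℕ, (W.cfg0 n (E n)).rel k a b 6 = W.crd n (W.rep n a k) (W.rep n b k) 6 :=
    fun a b => by
      show (if (6 : Fin 11) ∈ W.S then (0 : ℝ) else W.crd n _ _ 6) = _
      rw [if_neg h6]
  have hp : ∀ t : ℝ, 0 < W.B'.d n ^ t := fun t => Real.rpow_pos_of_pos (W.B'.pos n) t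
  constructor
  · rw [r5, r5, r5]
    have e1 := h.crd_add g x1 y1 z1 (s := 5) (by simp)
    have e2 : W.crd n x z 5 - (W.crd n x yy 5 + W.crd n yy z 5) = 0 := by linarith
    show |W.crd n x z 5 - (W.crd n x yy 5 + W.crd n yy z 5)| ≤ _
    rw [e2, abs_zero]
    exact (hp _).le
  · rw [r6, r6, r6]
    have e1 := h.crd_six g x1 y1 z1
    have e2 : W.crd n x z 6 - (W.crd n x yy 6 + W.crd n yy z 6) =
        cf W n 2 5 6 * (W.crd n x yy 2 * W.crd n yy z 5) := by linarith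
    show |W.crd n x z 6 - (W.crd n x yy 6 + W.crd n yy z 6)| ≤ _
    rw [e2, abs_mul, abs_mul]
    have hcf := (h.cfB g).1
    have hC := h.crd_MW g y1 z1 5
    have hEl : |W.crd n x yy 2| ≤ W.B'.d n ^ (y - ε) := by
      have h3 := hil 2
      have e3 : (W.cfg0 n (E n)).rel k i l 2 = W.crd n x yy 2 := by
        show (if (2 : Fin 11) ∈ W.S then (0 : ℝ) else W.crd n _ _ 2) = _
        rw [if_neg h2]
      rw [e3] at h3
      refine h3.trans ?_
      show W.B'.d n ^ (p0 2 - ε) ≤ _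
      exact Real.rpow_le_rpow_of_exponent_ge (W.B'.pos n) (W.B'.lt n).le (by linarith)
    calc |cf W n 2 5 6| * (|W.crd n x yy 2| * |W.crd n yy z 5|)
        ≤ MW W * (W.B'.d n ^ (y - ε) * MW W) :=
          mul_le_mul hcf (mul_le_mul hEl hC (abs_nonneg _) (hp _).le) (by positivity)
            (by linarith)
      _ = (MW W * MW W) * W.B'.d n ^ (y - ε) := by ring
      _ ≤ W.B'.d n ^ (-ε) * W.B'.d n ^ (y - ε) := mul_le_mul_of_nonneg_right hk (hp _).le
      _ = W.B'.d n ^ (y - 2 * ε) := by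
          rw [← Real.rpow_add (W.B'.pos n)]; congr 1; ring

/-- **no heavy strips of `(C_a, C_b)` in the model** -/
theorem noStr_Q (h : QWnd W f) {E' : ∀ n, Finset (ι n)} {g : ℕ → ℝ} {ex : ℕ → ∀ n, ι n → ℕ}
    (hP : Wnd.Pruned W (rich W) E' g ex)
    (hdens : W.lam W.top ≤ W.lam (cut W.S W.top 0) + W.lam (cut W.S 0 W.top))
    {q R0 : ℝ} (hq : 0 ≤ q) (h5 : R0 ≤ W.top 5) (h6 : R0 ≤ W.top 6)
    (hns : NsW W 5 6 q R0) {p0 : Fin 11 → ℝ} (hp0 : W.nu 0 ≤ W.nu p0) :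
    NoStr W.B' (W.cfg E') p0 5 6 W.nu q R0 := by
  refine ⟨2 * q + 4, by positivity, fun t ht htR ε hε => ?_⟩
  filter_upwards [strip_lines h.ok hP hdens (h.notMem (s := 5) (by simp))
    (h.notMem (s := 6) (by simp)) hq le_rfl hns (lineC_five h h5) (lineC_six h h5 h6) ht htR hε]
    with n hn i k hik b hb
  refine le_trans ?_ ((hn i k hik b hb).trans ?_)
  · refine Nat.cast_le.2 (card_le_card ?_)
    exact filter_subset_filter _ RCfg.box_subset_slice
  · exact Real.rpow_le_rpow_of_exponent_ge (W.B'.pos n) (W.B'.lt n).le (by linarith)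

/-- **models with twist and without heavy strips**: window with raw twist (helper480), chart of
helper186, no heavy strips of points of the class -/
theorem exists_model_ns {Fs : Finset (Finset (Fin 11))} {s : ℕ → ℕ → ℝ} {Mx : ℕ → ℝ}
    (hT : ∀ F ∈ Fs, Tw W F s Mx) (h : QWnd W f) (ex : ℕ → ∀ n, ι n → ℕ)
    (hdens : W.lam W.top ≤ W.lam (cut W.S W.top 0) + W.lam (cut W.S 0 W.top)) {σ R : ℝ}
    (hσ0 : 0 ≤ σ) (hσ1 : σ ≤ 1) (hR : R ≤ W.top W.kz)
    (hfrost : ∀ y, 0 ≤ y → y ≤ R → W.lam (Pi.single W.kz y) ≤ -(σ * y))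
    {g₀ : ℕ → ℝ} (hg₀ : Tendsto g₀ U atTop)
    {q R0 : ℝ} (hq : 0 ≤ q) (h2 : (2 : Fin 11) ∉ W.S) (h5 : R0 ≤ W.top 5) (h6 : R0 ≤ W.top 6)
    (hns : NsW W 5 6 q R0) :
    ∃ (E' : ∀ n, Finset (ι n)) (g : ℕ → ℝ), Wnd.Pruned W (rich W) E' g ex ∧
      (∀ᶠ n in (U : Filter ℕ), g n ≤ g₀ n) ∧ (∀ᶠ n in (U : Filter ℕ), g n ≤ 1 + W.B'.L n) ∧
      RModel W.B' (W.cfg E') σ R W.legW W.nu W.Dc ∧ (∀ F ∈ Fs, TwM W E' F s) ∧
      (∀ p0 : Fin 11 → ℝ, W.nu 0 ≤ W.nu p0 → NoStr W.B' (W.cfg E') p0 5 6 W.nu q R0) ∧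
      ∀ (p0 : Fin 11 → ℝ) (y : ℝ), y ≤ p0 2 → AddC W.B' (W.cfg E') p0 5 6 2 y := by
  have hg : Tendsto (fun n => min (g₀ n) (1 + W.B'.L n)) (U : Filter ℕ) atTop :=
    tendsto_atTop.2 fun b => by
      filter_upwards [tendsto_atTop.1 hg₀ b, W.B'.ev_L_ge b] with n h1 h2
      exact le_min h1 (by linarith)
  obtain ⟨E', g, h1, h2', h3⟩ := (eok_rich h.ok).exists_model h.ok ex hg hdens hσ0 hσ1 hR hfrost
  have h4 : ∀ᶠ n in (U : Filter ℕ), g n ≤ 1 + W.B'.L n :=
    h2'.mono fun n hn => hn.trans (min_le_right _ _)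
  refine ⟨E', g, h1, h2'.mono fun n hn => hn.trans (min_le_left _ _), h4, h3,
    fun F hF => (hT F hF).twM h.ok (denC_rich (hT F hF).pos (hT F hF).mult) h1
      (IsLoss.one_add_L.mono h4),
    fun p0 hp0 => noStr_Q h h1 hdens hq h5 h6 hns hp0,
    fun p0 y hy => addC h h2 (ev_hP h.ok (eok_rich h.ok) h1) hy⟩

end

end Crest.Agent.R136.NSt107
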