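import Crest.Agent.R136.NSt2_107
import Crest.Agent.R136.NSt3_107
import Crest.Agent.R136.Aw0_413

/-!
# R136: strips in the models (helper107), part 4: windows of helper413

* `hd_rich` : `rich W` is a half-dense section.
* `wndL_ns` : `WndL` + rare heavy strips ⊢ windows (offset `c0`) with `NsW`.
* `waTO_model_ns`, `wndL_model_ns` : one call, chart of helper186: model, raw twist, `NoStr`, `AddC`.
-/

set_option autoImplicit false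
set_option linter.unusedSectionVars false
set_option linter.unusedVariables false

open Filter Topology

namespace Crest.Agent.R136.NSt107

open Finset Crest.Agent.R138.Ex926 Crest.Agent.R136.Net191 Crest.Agent.R136.Gf356
open Crest.Agent.R136.Qg926 Crest.Agent.R136.Qg4480 Crest.Agent.R136.NetQ186
open Crest.Agent.R136.Ev356 Crest.Agent.R136.CV366 Crest.Agent.R136.Aw413

section

variable {m : ℕ} {ι : ℕ → Type*} [∀ n, DecidableEq (ι n)]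

theorem hd_rich (W : Wnd m ι) : HD W (rich W) := Eventually.of_forall fun n =>
  ⟨rich_sub_sec n, fun Mx h0 h => card_le_rich h0 h⟩

/-- **windows without heavy strips** (any offset) -/
theorem wndL_ns {B : Base} {I J : ∀ n, Finset (ι n)} {co : ∀ n, ι n → ι n → Fin m → ℝ}
    {M Ma : Mons m} {C : ℝ} {lam : (Fin m → ℝ) → ℝ} {kz : Fin m} {κ : Fin m → ℝ}
    {V Tw : Fin m → Prop} {y : ℕ → Fin m → ℝ} {w : ℕ → ℝ}
    (hL : WndL B B I J co M Ma C lam kz κ V Tw y w) (hw : ∀ l, 0 < w l)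
    {c0 : Fin m → ℝ} (hc0 : c0 ∈ coneM Ma) (st : WSt m) (hkz : st.kz = kz)
    (hst : st.Ok M {p | c0 + p ∈ coneM Ma}) (s : ℕ → ℕ → ℝ) (hs : ∀ i, B.Sub (s i))
    (E : ∀ n, Finset (ι n)) (Sd : ℕ → ℝ) (hE : ∀ᶠ n in (U : Filter ℕ), E n ⊆ J n)
    (hSd : B.Sub Sd) (hd : ∀ᶠ n in (U : Filter ℕ), ((J n).card : ℝ) ≤ Sd n * (E n).card)
    {cA cB : Fin m} {q R0 : ℝ} (hq : 0 ≤ q) (hR0 : 0 < R0)
    (hSR : ∀ l, StripRare B I J co M C (y l + w l • c0) cA cB q) :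
    ∃ k : ℕ → ℕ, Tendsto k U atTop ∧ ∀ k' : ℕ → ℕ, Tendsto k' U atTop →
      (∀ᶠ n in (U : Filter ℕ), k' n ≤ k n) → ∃ W : Wnd m ι,
        WAtO B I co M Ma C lam κ V Tw c0 st W ∧ (∀ i, W.B'.Sub (s i)) ∧
        (W.X = fun n => y (k' n) + w (k' n) • c0) ∧ (W.w = fun n => w (k' n)) ∧ W.J = J ∧
        (∀ᶠ n in (U : Filter ℕ), W.s₀ n ∈ E n ∧ W.s₀ n ∈ W.Cl n) ∧
        NsW W cA cB q R0 ∧
        ((∀ k, V k → c0 k ≤ κ k * c0 st.kz) → (∀ k, V k → k ∈ st.S ∨ st.top k = 0) →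
          ∃ Mx : ℕ → ℝ, ∀ j ∈ st.S, Tw j → 0 < st.top j → c0 j = κ j * c0 st.kz →
            (∃ e : ℝ, 0 < e ∧ c0 + cut st.S st.top (Pi.single j e) ∈ coneM Ma) →
            Qg4480.Tw W {j} (consS Sd s) Mx) := by
  obtain ⟨k, hk, hk2⟩ := hL c0 hc0 st hkz hst s hs E Sd hE hSd hd
    (gs B I J co M C (fun l => y l + w l • c0) w cA cB q R0)
    (fun l c hc => gs_small hw hR0 hSR l c hc)
  refine ⟨k, hk, fun k' hk' hle => ?_⟩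
  obtain ⟨W, h1, h2, h3, h4, h5, h6, h7, h8⟩ := hk2 k' hk' hle
  refine ⟨W, h1, h2, h3, h4, h5, h6, ?_, h8⟩
  refine nsW_of_gs (B := B) (I := I) (J := J) (co := co) (M := M) (C := C)
    (x := fun l => y l + w l • c0) (w := w) W h1.ok h1.eB h1.eI h1.eco h1.eM h1.eC hk'
    (fun n => by rw [h3]) (fun n => by rw [h1.dw n, h1.eB, h4]) hR0 hq h7

end

section

variable {ι : ℕ → Type*} [∀ n, DecidableEq (ι n)]
variable {B : Base} {I J : ∀ n, Finset (ι n)} {co : ∀ n, ι n → ι n → Fin 11 → ℝ}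
  {Ma : Mons 11} {C : ℝ} {lam : (Fin 11 → ℝ) → ℝ} {κ : Fin 11 → ℝ}
  {V Tw : Fin 11 → Prop} {f : ∀ n, ι n → Fq4}

theorem qwnd_of_waTO {c0 : Fin 11 → ℝ} {st : WSt 11} {W : Wnd 11 ι}
    (h : WAtO B I co monQ Ma C lam κ V Tw c0 st W)
    (hco : ∀ n, ∀ i ∈ I n, ∀ j ∈ I n, co n i j = coQ (f n i) (f n j))
    (hS : ∀ s ∈ st.S, s = 0 ∨ s = 2 ∨ s = 3 ∨ s = 4) : QWnd W f where
  ok := h.ok
  hM := h.eM
  hco := fun n i hi j hj => by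
    rw [h.eI] at hi hj
    rw [h.eco]
    exact hco n i hi j hj
  hS := fun s hs => hS s (by rw [← h.eS]; exact hs)

theorem qwnd_of_waT {st : WSt 11} {W : Wnd 11 ι}
    (h : WAt B I co monQ Ma C lam V Tw st W)
    (hco : ∀ n, ∀ i ∈ I n, ∀ j ∈ I n, co n i j = coQ (f n i) (f n j))
    (hS : ∀ s ∈ st.S, s = 0 ∨ s = 2 ∨ s = 3 ∨ s = 4) : QWnd W f where
  ok := h.ok
  hM := h.eM
  hco := fun n i hi j hj => by
    rw [h.eI] at hi hj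
    rw [h.eco]
    exact hco n i hi j hj
  hS := fun s hs => hS s (by rw [← h.eS]; exact hs)

/-- **one call** (offset window without heavy strips): pruned set of rich pairs, model, raw twist,
`NoStr`, `AddC` -/
theorem waTO_model_ns {c0 : Fin 11 → ℝ} {st : WSt 11} {W : Wnd 11 ι}
    (h : WAtO B I co monQ Ma C lam κ V Tw c0 st W)
    (hco : ∀ n, ∀ i ∈ I n, ∀ j ∈ I n, co n i j = coQ (f n i) (f n j))
    (hS : ∀ s ∈ st.S, s = 0 ∨ s = 2 ∨ s = 3 ∨ s = 4) (h2 : (2 : Fin 11) ∉ st.S)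
    {q R0 : ℝ} (hq : 0 ≤ q) (h5 : R0 ≤ st.top 5) (h6 : R0 ≤ st.top 6)
    (hns : NsW W 5 6 q R0)
    {σ' R : ℝ} (hden : st.Dens (fun p => lam (c0 + p) - lam c0) σ' R)
    (ex : ℕ → ∀ n, ι n → ℕ) {g₀ : ℕ → ℝ} (hg₀ : Tendsto g₀ U atTop)
    (hc0 : ∀ k, V k → c0 k ≤ κ k * c0 st.kz) (hV : ∀ k, V k → k ∈ st.S ∨ st.top k = 0) :
    ∃ (E' : ∀ n, Finset (ι n)) (g : ℕ → ℝ), Wnd.Pruned W (rich W) E' g ex ∧
      (∀ᶠ n in (U : Filter ℕ), g n ≤ g₀ n) ∧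
      RModel W.B' (W.cfg E') σ' R W.legW W.nu W.Dc ∧
      (∀ s ∈ st.S, Tw s → 0 < st.top s → c0 s = κ s * c0 st.kz →
        (∃ e : ℝ, 0 < e ∧ c0 + cut st.S st.top (Pi.single s e) ∈ coneM Ma) → RawL W E' s) ∧
      (∀ p0 : Fin 11 → ℝ, W.nu 0 ≤ W.nu p0 → NoStr W.B' (W.cfg E') p0 5 6 W.nu q R0) ∧
      (∀ (p0 : Fin 11 → ℝ) (y : ℝ), y ≤ p0 2 → AddC W.B' (W.cfg E') p0 5 6 2 y) ∧
      ∀ᶠ n in (U : Filter ℕ), W.Good n ∧ E' n ⊆ W.Cl n ∧ W.cfg E' n = W.cfg0 n (E' n) := by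
  have hQ := qwnd_of_waTO h hco hS
  obtain ⟨E', g, h1, h2', h3, h4⟩ :=
    h.modelE (eok_rich h.ok) (hd_rich W) hden ex hg₀ hc0 hV
  have hP := ev_hP h.ok (eok_rich h.ok) h1
  refine ⟨E', g, h1, h2', h3, h4, fun p0 hp0 => noStr_Q hQ h1 ?_ hq ?_ ?_ hns hp0,
    fun p0 y hy => addC hQ ?_ hP hy, hP⟩
  · rw [h.elam, h.etop, h.eS]; exact hden.dens
  · rw [h.etop]; exact h5
  · rw [h.etop]; exact h6
  · rw [h.eS]; exact h2

/-- **one call** (window at the point without heavy strips) -/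
theorem waT_model_ns {st : WSt 11} {W : Wnd 11 ι}
    (h : WAt B I co monQ Ma C lam V Tw st W)
    (hco : ∀ n, ∀ i ∈ I n, ∀ j ∈ I n, co n i j = coQ (f n i) (f n j))
    (hS : ∀ s ∈ st.S, s = 0 ∨ s = 2 ∨ s = 3 ∨ s = 4) (h2 : (2 : Fin 11) ∉ st.S)
    {q R0 : ℝ} (hq : 0 ≤ q) (h5 : R0 ≤ st.top 5) (h6 : R0 ≤ st.top 6)
    (hns : NsW W 5 6 q R0)
    {σ' R : ℝ} (hden : st.Dens lam σ' R)
    (ex : ℕ → ∀ n, ι n → ℕ) {g₀ : ℕ → ℝ} (hg₀ : Tendsto g₀ U atTop)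
    (hV : ∀ k, V k → k ∈ st.S ∨ st.top k = 0) :
    ∃ (E' : ∀ n, Finset (ι n)) (g : ℕ → ℝ), Wnd.Pruned W (rich W) E' g ex ∧
      (∀ᶠ n in (U : Filter ℕ), g n ≤ g₀ n) ∧
      RModel W.B' (W.cfg E') σ' R W.legW W.nu W.Dc ∧
      (∀ s ∈ st.S, Tw s → 0 < st.top s →
        (∃ e : ℝ, 0 < e ∧ cut st.S st.top (Pi.single s e) ∈ coneM Ma) → RawL W E' s) ∧
      (∀ p0 : Fin 11 → ℝ, W.nu 0 ≤ W.nu p0 → NoStr W.B' (W.cfg E') p0 5 6 W.nu q R0) ∧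
      (∀ (p0 : Fin 11 → ℝ) (y : ℝ), y ≤ p0 2 → AddC W.B' (W.cfg E') p0 5 6 2 y) ∧
      ∀ᶠ n in (U : Filter ℕ), W.Good n ∧ E' n ⊆ W.Cl n ∧ W.cfg E' n = W.cfg0 n (E' n) := by
  have hQ := qwnd_of_waT h hco hS
  obtain ⟨E', g, h1, h2', h3, h4⟩ := h.modelE (eok_rich h.ok) (hd_rich W) hden ex hg₀ hV
  have hP := ev_hP h.ok (eok_rich h.ok) h1
  refine ⟨E', g, h1, h2', h3, h4, fun p0 hp0 => noStr_Q hQ h1 ?_ hq ?_ ?_ hns hp0,
    fun p0 y hy => addC hQ ?_ hP hy, hP⟩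
  · rw [h.elam, h.etop, h.eS]; exact hden.dens
  · rw [h.etop]; exact h5
  · rw [h.etop]; exact h6
  · rw [h.eS]; exact h2

/-- **everything in one call, offset `0`** : `WndL` at the base points `y l`, rare heavy strips at the
base points ⊢ window at the point, pruned set of rich pairs, model, raw twist, `NoStr`, `AddC` -/
theorem wndL_model_ns {kz : Fin 11} {y : ℕ → Fin 11 → ℝ} {w : ℕ → ℝ}
    (hL : WndL B B I J co monQ Ma C lam kz κ V Tw y w) (hw : ∀ l, 0 < w l) (hlam : lam 0 = 0)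
    (hco : ∀ n, ∀ i ∈ I n, ∀ j ∈ I n, co n i j = coQ (f n i) (f n j))
    (st : WSt 11) (hkz : st.kz = kz) (hst : st.Ok monQ (coneM Ma))
    (hS : ∀ s ∈ st.S, s = 0 ∨ s = 2 ∨ s = 3 ∨ s = 4) (h2 : (2 : Fin 11) ∉ st.S)
    (s : ℕ → ℕ → ℝ) (hs : ∀ i, B.Sub (s i))
    {q R0 : ℝ} (hq : 0 ≤ q) (hR0 : 0 < R0) (h5 : R0 ≤ st.top 5) (h6 : R0 ≤ st.top 6)
    (hSR : ∀ l, StripRare B I J co monQ C (y l) 5 6 q)
    {σ' R : ℝ} (hden : st.Dens lam σ' R)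
    (ex : Wnd 11 ι → ℕ → ∀ n, ι n → ℕ) {g₀ : ℕ → ℝ} (hg₀ : Tendsto g₀ U atTop)
    (hV : ∀ k, V k → k ∈ st.S ∨ st.top k = 0) :
    ∃ W : Wnd 11 ι, WAt B I co monQ Ma C lam V Tw st W ∧ QWnd W f ∧ (∀ i, W.B'.Sub (s i)) ∧
      W.J = J ∧ NsW W 5 6 q R0 ∧
      ∃ (E' : ∀ n, Finset (ι n)) (g : ℕ → ℝ), Wnd.Pruned W (rich W) E' g (ex W) ∧
      (∀ᶠ n in (U : Filter ℕ), g n ≤ g₀ n) ∧
      RModel W.B' (W.cfg E') σ' R W.legW W.nu W.Dc ∧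
      (∀ s ∈ st.S, Tw s → 0 < st.top s →
        (∃ e : ℝ, 0 < e ∧ cut st.S st.top (Pi.single s e) ∈ coneM Ma) → RawL W E' s) ∧
      (∀ p0 : Fin 11 → ℝ, W.nu 0 ≤ W.nu p0 → NoStr W.B' (W.cfg E') p0 5 6 W.nu q R0) ∧
      (∀ (p0 : Fin 11 → ℝ) (y : ℝ), y ≤ p0 2 → AddC W.B' (W.cfg E') p0 5 6 2 y) ∧
      ∀ᶠ n in (U : Filter ℕ), W.Good n ∧ E' n ⊆ W.Cl n ∧ W.cfg E' n = W.cfg0 n (E' n) := by
  have e : {p : Fin 11 → ℝ | 0 + p ∈ coneM Ma} = coneM Ma := by ext p; simp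
  obtain ⟨k, hk, hk2⟩ := wndL_ns hL hw (c0 := 0) (zero_mem (Ma := Ma)) st hkz
    (by rw [e]; exact hst) s hs J (fun _ => 1) (Eventually.of_forall fun n => Subset.refl _)
    (Base.Sub.const one_pos) (Eventually.of_forall fun n => by rw [one_mul]) hq hR0
    (cA := 5) (cB := 6) (R0 := R0) (fun l => by
      have := hSR l
      rwa [smul_zero, add_zero])
  obtain ⟨W, h1, h3, -, -, h4, -, h7, -⟩ := hk2 k hk (Eventually.of_forall fun n => le_rfl)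
  have hA := h1.toWAt hlam
  exact ⟨W, hA, qwnd_of_waT hA hco hS, h3, h4, h7,
    waT_model_ns hA hco hS h2 hq h5 h6 h7 hden (ex W) hg₀ hV⟩

end

end Crest.Agent.R136.NSt107
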