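import Crest.Agent.R136.Amd_84
import Crest.Agent.R136.Nmx1_501
import Crest.Agent.R136.Rft_877
import Crest.Agent.R136.Bl5_667

/-!
# R136 (S0187), PLAN 2, mixed curvatures: the two inputs of `NdMx` (helper325)

* `ChM`, `ChartMx` : chart of the flat sheet `V` around one common line, `U.q` in this chart;
* `NdPt` : nondegeneracy at every common incidence;
-/

set_option autoImplicit false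
set_option linter.unusedVariables false

open Finset

namespace Crest.Agent.R136.Ndw325

open Crest.Agent.R136.Rk601 Crest.Agent.R136.Sh605
open Crest.Agent.R136.Tl102 (cmb fr)
open Crest.Agent.R136.K4 (Plk4)
open Crest.Agent.R136.Tlt51 (Shp InP)
open Crest.Agent.R136.KapP335 (kapP DetP)
open Crest.Agent.R136.Pl2W102 (Near)
open Crest.Agent.R136.Pl2 (kp Al1)
open Crest.Agent.R136.Hcp208 (Dims)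
open Crest.Agent.R136.Gbx862 (zj gb lc zj_mem)
open Crest.Agent.R136.AlD601 (Nd jS)
open Crest.Agent.R136.Adp876
open Crest.Agent.R136.Bl5667 (shp_pos kp_nonneg)

/-- **chart of `V` around `T0`** and `q'` in this chart -/
structure ChM (K : ℝ) (V : Plk4) (q' : ℝ → V3 → ℝ) (T0 : Ln4) (z0 ρ Y a σ s1 s2 rr k0 μ Λ cq cP ε
    αq : ℝ) (Jq JP : Jt) : Prop where
  σ0 : σ ≠ 0
  r0 : 0 < rr
  rK : 1 / rr ≤ K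
  kk0 : k0 ≠ 0
  Λ0 : 0 < Λ
  ΛY : Λ ≤ K * Y
  YΛ : Y ≤ K * Λ
  μa : |μ| * V.a ≤ K * a
  hq : ∀ ζ y u v, V.q (z0 + ρ * ζ) (cg (fr V.e V.w) T0 z0 ρ σ s1 s2 rr ζ y u v) =
    k0 * (cq + ev Jq y ![ζ, u, v])
  hP : ∀ ζ y u v, q' (z0 + ρ * ζ) (cg (fr V.e V.w) T0 z0 ρ σ s1 s2 rr ζ y u v) -
    μ * V.q (z0 + ρ * ζ) (cg (fr V.e V.w) T0 z0 ρ σ s1 s2 rr ζ y u v) =
    Λ * (cP + ev JP y ![ζ, u, v])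
  bq : Bd Jq K
  sP : JP.Sym
  bPa : ∀ i, |JP.a i| ≤ K
  bPh : ∀ i j, |JP.h i j| ≤ K
  bP0 : |JP.a0| ≤ K * ε
  bP00 : |JP.h00| ≤ K * ε
  bPm : ∀ i, |JP.h0 i| ≤ K * ε
  st : ∀ (y : ℝ) (x : Fin 3 → ℝ), |y| ≤ 1 → (∀ i, |x i| ≤ 1) → 0 ≤ x 0 →
    1 / K ≤ |(sh Jq y x).a0|
  α0 : 0 < αq
  α1 : αq ≤ 1
  ε0 : 0 < ε
  ε1 : ε ≤ 1
  εα : ε * αq * Y ≤ K * a
  on : V.a ≤ |k0| * (K * αq)
  pt : ∀ T : Ln4, InP T V z0 ρ → (∀ z, z0 ≤ z → z ≤ z0 + ρ → ∀ k : Fin 3,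
      |dt (V.e k) (T.pos z - T0.pos z)| ≤ V.w k / K) →
    ∀ ζ, 0 ≤ ζ → ζ ≤ 1 → ∃ y u v : ℝ, |y| ≤ 1 ∧ |u| ≤ 1 ∧ |v| ≤ 1 ∧
      T.pos (z0 + ρ * ζ) = cg (fr V.e V.w) T0 z0 ρ σ s1 s2 rr ζ y u v

/-- **chart** (44 / 501, 84 / 296) -/
def ChartMx : Prop := ∃ C : ℝ, 1 ≤ C ∧
  ∀ (W Y a w1 w2 z0 ρ r : ℝ) (U V : Plk4) (T0 : Ln4),
    1 ≤ W → 0 < r → 0 < ρ → r ≤ ρ → 0 < a → Shp U z0 ρ r → Shp V z0 ρ r →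
    InP T0 U z0 ρ → InP T0 V z0 ρ → Dims W a w1 w2 U → Dims W a w1 w2 V →
    Al1 W U V T0 a w1 w2 z0 ρ → DetP W⁻¹ U z0 ρ T0 → Near 4 Y (kp U z0 ρ T0) →
    (2 * W) ^ C * kp V z0 ρ T0 ≤ Y → (2 * W) ^ C * a ≤ Y →
    ∃ (σ s1 s2 rr k0 μ Λ cq cP ε αq : ℝ) (Jq JP : Jt),
      ChM ((2 * W) ^ C) V U.q T0 z0 ρ Y a σ s1 s2 rr k0 μ Λ cq cP ε αq Jq JP

/-- **nondegeneracy at the incidences** (615) -/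
def NdPt : Prop := ∃ C : ℝ, 1 ≤ C ∧
  ∀ (W Y a w1 w2 z0 ρ r : ℝ) (U V : Plk4) (T : Ln4) (H j : ℕ),
    1 ≤ W → 0 < r → 0 < ρ → r ≤ ρ → 0 < a → Shp U z0 ρ r → Shp V z0 ρ r →
    InP T U z0 ρ → InP T V z0 ρ → Dims W a w1 w2 U → Dims W a w1 w2 V →
    Al1 W U V T a w1 w2 z0 ρ → DetP W⁻¹ U z0 ρ T → Near 4 Y (kp U z0 ρ T) →
    (2 * W) ^ C * kp V z0 ρ T ≤ Y → (2 * W) ^ C * a ≤ Y → 1 ≤ H → j ≤ H →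
    Nd V U.q z0 ρ H j T ((2 * W) ^ C)⁻¹ ((2 * W) ^ C)⁻¹ Y

end Crest.Agent.R136.Ndw325
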