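import Crest.Agent.R136.Nmz_140
import Crest.Agent.R136.Ndx_325
import Crest.Agent.R136.Nptb_615

/-!
# R136 (S0187), PLAN 2, (AL)(A): `NdMx` (helper140: plug)
-/

set_option autoImplicit false

namespace Crest.Agent.R136.Nmz140

/-- **`NdMx`** -/
theorem ndMx : Amx325.NdMx := Ndw325.ndMx_of chartMx Mxc615.ndPt

end Crest.Agent.R136.Nmz140
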