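import Crest.Agent.R136.Nmz_18
import Crest.Agent.R136.Nptb_615
import Crest.Agent.R136.Ndx_325

/-!
# R136 (S0187), PLAN 2, (AL)(A): `NdMx` without hypotheses (helper18)
-/

namespace Crest.Agent.R136.Nmz18

/-- **`NdMx`** (325 over 296 / 501 / 44 / 104 / 615) -/
theorem ndMx : Amx325.NdMx := Ndw325.ndMx_of chartMx Mxc615.ndPt

end Crest.Agent.R136.Nmz18

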