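import Crest.Agent.R136.Net1_191

/-!
# The W-chart (helper191), part 1: action of the automorphisms of `Y = zB + κA²` on quadratic flags

Frames `h = (z, c, A, B)` (height, slope, position of a null line at that height).  Flags
`w : Fin 14 → ℝ` = coefficients of `Y², BY, AY, B², zY, AB, A², zB, zA, z², B, A, z, 1`
(quadratic polynomials modulo `Y - zB - κA²`).  `tr κ h w` = coefficients in the new frame.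
-/

set_option autoImplicit false
set_option linter.unusedSimpArgs false

namespace Crest.Agent.R136.NetW191

/-- substitution of the frame `h` -/
def tr (κ : ℝ) (h : Fin 4 → ℝ) (w : Fin 14 → ℝ) : Fin 14 → ℝ := ![
    w 0,
    w 1 + 2 * h 0 * w 0,
    w 2 + 4 * κ * h 2 * w 0 - 4 * κ * h 0 * h 1 * w 0 - 2 * κ * h 1 * w 1,
    w 3 + h 0 ^ 2 * w 0 + h 0 * w 1,
    w 4 + 4 * κ * h 1 * h 2 * w 0 + 2 * h 3 * w 0 - 2 * κ * h 0 * h 1 ^ 2 * w 0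
      - κ * h 1 ^ 2 * w 1 + h 1 * w 2,
    w 5 + 4 * κ * h 0 * h 2 * w 0 - 4 * κ * h 0 ^ 2 * h 1 * w 0 + 2 * κ * h 2 * w 1
      - 4 * κ * h 0 * h 1 * w 1 + h 0 * w 2 - 4 * κ * h 1 * w 3,
    w 6 + 6 * κ ^ 2 * h 2 ^ 2 * w 0 - 8 * κ ^ 2 * h 0 * h 1 * h 2 * w 0
      + 2 * κ * h 0 * h 3 * w 0 + 4 * κ ^ 2 * h 0 ^ 2 * h 1 ^ 2 * w 0
      - 4 * κ ^ 2 * h 1 * h 2 * w 1 + κ * h 3 * w 1 + 4 * κ ^ 2 * h 0 * h 1 ^ 2 * w 1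
      + 3 * κ * h 2 * w 2 - 2 * κ * h 0 * h 1 * w 2 + 4 * κ ^ 2 * h 1 ^ 2 * w 3 + κ * h 0 * w 4
      - 2 * κ * h 1 * w 5,
    w 7 + 2 * κ * h 2 ^ 2 * w 0 + 4 * κ * h 0 * h 1 * h 2 * w 0 + 4 * h 0 * h 3 * w 0
      - 2 * κ * h 0 ^ 2 * h 1 ^ 2 * w 0 + 2 * κ * h 1 * h 2 * w 1 + 2 * h 3 * w 1
      - 2 * κ * h 0 * h 1 ^ 2 * w 1 + h 2 * w 2 + h 0 * h 1 * w 2 - 2 * κ * h 1 ^ 2 * w 3
      + 2 * h 0 * w 4 + h 1 * w 5,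
    w 8 + 8 * κ ^ 2 * h 1 * h 2 ^ 2 * w 0 + 4 * κ * h 2 * h 3 * w 0
      - 12 * κ ^ 2 * h 0 * h 1 ^ 2 * h 2 * w 0 - 4 * κ * h 0 * h 1 * h 3 * w 0
      + 4 * κ ^ 2 * h 0 ^ 2 * h 1 ^ 3 * w 0 - 6 * κ ^ 2 * h 1 ^ 2 * h 2 * w 1
      - 2 * κ * h 1 * h 3 * w 1 + 4 * κ ^ 2 * h 0 * h 1 ^ 3 * w 1 + 4 * κ * h 1 * h 2 * w 2
      + h 3 * w 2 - 3 * κ * h 0 * h 1 ^ 2 * w 2 + 4 * κ ^ 2 * h 1 ^ 3 * w 3 + 2 * κ * h 2 * w 4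
      - 2 * κ * h 0 * h 1 * w 4 - 3 * κ * h 1 ^ 2 * w 5 + 2 * h 1 * w 6 - 2 * κ * h 1 * w 7,
    w 9 + 4 * κ ^ 2 * h 1 ^ 2 * h 2 ^ 2 * w 0 + 4 * κ * h 1 * h 2 * h 3 * w 0
      - 4 * κ ^ 2 * h 0 * h 1 ^ 3 * h 2 * w 0 + h 3 ^ 2 * w 0
      - 2 * κ * h 0 * h 1 ^ 2 * h 3 * w 0 + κ ^ 2 * h 0 ^ 2 * h 1 ^ 4 * w 0
      - 2 * κ ^ 2 * h 1 ^ 3 * h 2 * w 1 - κ * h 1 ^ 2 * h 3 * w 1 + κ ^ 2 * h 0 * h 1 ^ 4 * w 1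
      + 2 * κ * h 1 ^ 2 * h 2 * w 2 + h 1 * h 3 * w 2 - κ * h 0 * h 1 ^ 3 * w 2
      + κ ^ 2 * h 1 ^ 4 * w 3 + 2 * κ * h 1 * h 2 * w 4 + h 3 * w 4 - κ * h 0 * h 1 ^ 2 * w 4
      - κ * h 1 ^ 3 * w 5 + h 1 ^ 2 * w 6 - κ * h 1 ^ 2 * w 7 + h 1 * w 8,
    w 10 + 2 * κ * h 0 * h 2 ^ 2 * w 0 + 2 * h 0 ^ 2 * h 3 * w 0 + κ * h 2 ^ 2 * w 1
      + 2 * h 0 * h 3 * w 1 + h 0 * h 2 * w 2 + 2 * h 3 * w 3 + h 0 ^ 2 * w 4 + h 2 * w 5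
      + h 0 * w 7,
    w 11 + 4 * κ ^ 2 * h 2 ^ 3 * w 0 - 4 * κ ^ 2 * h 0 * h 1 * h 2 ^ 2 * w 0
      + 4 * κ * h 0 * h 2 * h 3 * w 0 - 4 * κ * h 0 ^ 2 * h 1 * h 3 * w 0
      - 2 * κ ^ 2 * h 1 * h 2 ^ 2 * w 1 + 2 * κ * h 2 * h 3 * w 1
      - 4 * κ * h 0 * h 1 * h 3 * w 1 + 3 * κ * h 2 ^ 2 * w 2 - 2 * κ * h 0 * h 1 * h 2 * w 2
      + h 0 * h 3 * w 2 - 4 * κ * h 1 * h 3 * w 3 + 2 * κ * h 0 * h 2 * w 4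
      - 2 * κ * h 0 ^ 2 * h 1 * w 4 - 2 * κ * h 1 * h 2 * w 5 + h 3 * w 5 + 2 * h 2 * w 6
      - 2 * κ * h 0 * h 1 * w 7 + h 0 * w 8 - 2 * κ * h 1 * w 10,
    w 12 + 4 * κ ^ 2 * h 1 * h 2 ^ 3 * w 0 + 2 * κ * h 2 ^ 2 * h 3 * w 0
      - 2 * κ ^ 2 * h 0 * h 1 ^ 2 * h 2 ^ 2 * w 0 + 4 * κ * h 0 * h 1 * h 2 * h 3 * w 0
      + 2 * h 0 * h 3 ^ 2 * w 0 - 2 * κ * h 0 ^ 2 * h 1 ^ 2 * h 3 * w 0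
      - κ ^ 2 * h 1 ^ 2 * h 2 ^ 2 * w 1 + 2 * κ * h 1 * h 2 * h 3 * w 1 + h 3 ^ 2 * w 1
      - 2 * κ * h 0 * h 1 ^ 2 * h 3 * w 1 + 3 * κ * h 1 * h 2 ^ 2 * w 2 + h 2 * h 3 * w 2
      - κ * h 0 * h 1 ^ 2 * h 2 * w 2 + h 0 * h 1 * h 3 * w 2 - 2 * κ * h 1 ^ 2 * h 3 * w 3
      + κ * h 2 ^ 2 * w 4 + 2 * κ * h 0 * h 1 * h 2 * w 4 + 2 * h 0 * h 3 * w 4
      - κ * h 0 ^ 2 * h 1 ^ 2 * w 4 - κ * h 1 ^ 2 * h 2 * w 5 + h 1 * h 3 * w 5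
      + 2 * h 1 * h 2 * w 6 + h 3 * w 7 - κ * h 0 * h 1 ^ 2 * w 7 + h 2 * w 8 + h 0 * h 1 * w 8
      + 2 * h 0 * w 9 - κ * h 1 ^ 2 * w 10 + h 1 * w 11,
    w 13 + κ ^ 2 * h 2 ^ 4 * w 0 + 2 * κ * h 0 * h 2 ^ 2 * h 3 * w 0 + h 0 ^ 2 * h 3 ^ 2 * w 0
      + κ * h 2 ^ 2 * h 3 * w 1 + h 0 * h 3 ^ 2 * w 1 + κ * h 2 ^ 3 * w 2
      + h 0 * h 2 * h 3 * w 2 + h 3 ^ 2 * w 3 + κ * h 0 * h 2 ^ 2 * w 4 + h 0 ^ 2 * h 3 * w 4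
      + h 2 * h 3 * w 5 + h 2 ^ 2 * w 6 + h 0 * h 3 * w 7 + h 0 * h 2 * w 8 + h 0 ^ 2 * w 9
      + h 3 * w 10 + h 2 * w 11 + h 0 * w 12]

/-- composition of frames -/
def mul (κ : ℝ) (g h : Fin 4 → ℝ) : Fin 4 → ℝ := ![g 0 + h 0, g 1 + h 1, g 2 + h 2 + g 1 * h 0,
  g 3 + h 3 - 2 * κ * g 1 * h 2 - κ * g 1 ^ 2 * h 0]

/-- frame `h` seen from the frame `g` -/
def rel (κ : ℝ) (g h : Fin 4 → ℝ) : Fin 4 → ℝ := ![h 0 - g 0, h 1 - g 1,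
  h 2 - g 2 - g 1 * (h 0 - g 0),
  h 3 - g 3 + 2 * κ * g 1 * (h 2 - g 2 - g 1 * (h 0 - g 0)) + κ * g 1 ^ 2 * (h 0 - g 0)]

lemma mul_rel (κ : ℝ) (g h : Fin 4 → ℝ) : mul κ g (rel κ g h) = h := by
  funext k
  fin_cases k <;> simp [mul, rel] <;> ring

lemma rel_rel (κ : ℝ) (g h l : Fin 4 → ℝ) : mul κ (rel κ g h) (rel κ h l) = rel κ g l := by
  funext k
  fin_cases k <;> simp [mul, rel] <;> ring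

section

variable (κ : ℝ) (g h : Fin 4 → ℝ) (w : Fin 14 → ℝ)

lemma mul0 : mul κ g h 0 = g 0 + h 0 := rfl
lemma mul1 : mul κ g h 1 = g 1 + h 1 := rfl
lemma mul2 : mul κ g h 2 = g 2 + h 2 + g 1 * h 0 := rfl
lemma mul3 : mul κ g h 3 = g 3 + h 3 - 2 * κ * g 1 * h 2 - κ * g 1 ^ 2 * h 0 := rfl

lemma tr0 : tr κ h w 0 =
    w 0 := rfl

lemma tr1 : tr κ h w 1 =
    w 1 + 2 * h 0 * w 0 := rfl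

lemma tr2 : tr κ h w 2 =
    w 2 + 4 * κ * h 2 * w 0 - 4 * κ * h 0 * h 1 * w 0 - 2 * κ * h 1 * w 1 := rfl

lemma tr3 : tr κ h w 3 =
    w 3 + h 0 ^ 2 * w 0 + h 0 * w 1 := rfl

lemma tr4 : tr κ h w 4 =
    w 4 + 4 * κ * h 1 * h 2 * w 0 + 2 * h 3 * w 0 - 2 * κ * h 0 * h 1 ^ 2 * w 0
      - κ * h 1 ^ 2 * w 1 + h 1 * w 2 := rfl

lemma tr5 : tr κ h w 5 =
    w 5 + 4 * κ * h 0 * h 2 * w 0 - 4 * κ * h 0 ^ 2 * h 1 * w 0 + 2 * κ * h 2 * w 1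
      - 4 * κ * h 0 * h 1 * w 1 + h 0 * w 2 - 4 * κ * h 1 * w 3 := rfl

lemma tr6 : tr κ h w 6 =
    w 6 + 6 * κ ^ 2 * h 2 ^ 2 * w 0 - 8 * κ ^ 2 * h 0 * h 1 * h 2 * w 0
      + 2 * κ * h 0 * h 3 * w 0 + 4 * κ ^ 2 * h 0 ^ 2 * h 1 ^ 2 * w 0
      - 4 * κ ^ 2 * h 1 * h 2 * w 1 + κ * h 3 * w 1 + 4 * κ ^ 2 * h 0 * h 1 ^ 2 * w 1
      + 3 * κ * h 2 * w 2 - 2 * κ * h 0 * h 1 * w 2 + 4 * κ ^ 2 * h 1 ^ 2 * w 3 + κ * h 0 * w 4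
      - 2 * κ * h 1 * w 5 := rfl

lemma tr7 : tr κ h w 7 =
    w 7 + 2 * κ * h 2 ^ 2 * w 0 + 4 * κ * h 0 * h 1 * h 2 * w 0 + 4 * h 0 * h 3 * w 0
      - 2 * κ * h 0 ^ 2 * h 1 ^ 2 * w 0 + 2 * κ * h 1 * h 2 * w 1 + 2 * h 3 * w 1
      - 2 * κ * h 0 * h 1 ^ 2 * w 1 + h 2 * w 2 + h 0 * h 1 * w 2 - 2 * κ * h 1 ^ 2 * w 3
      + 2 * h 0 * w 4 + h 1 * w 5 := rfl

lemma tr8 : tr κ h w 8 =
    w 8 + 8 * κ ^ 2 * h 1 * h 2 ^ 2 * w 0 + 4 * κ * h 2 * h 3 * w 0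
      - 12 * κ ^ 2 * h 0 * h 1 ^ 2 * h 2 * w 0 - 4 * κ * h 0 * h 1 * h 3 * w 0
      + 4 * κ ^ 2 * h 0 ^ 2 * h 1 ^ 3 * w 0 - 6 * κ ^ 2 * h 1 ^ 2 * h 2 * w 1
      - 2 * κ * h 1 * h 3 * w 1 + 4 * κ ^ 2 * h 0 * h 1 ^ 3 * w 1 + 4 * κ * h 1 * h 2 * w 2
      + h 3 * w 2 - 3 * κ * h 0 * h 1 ^ 2 * w 2 + 4 * κ ^ 2 * h 1 ^ 3 * w 3 + 2 * κ * h 2 * w 4
      - 2 * κ * h 0 * h 1 * w 4 - 3 * κ * h 1 ^ 2 * w 5 + 2 * h 1 * w 6 - 2 * κ * h 1 * w 7 := rfl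

lemma tr9 : tr κ h w 9 =
    w 9 + 4 * κ ^ 2 * h 1 ^ 2 * h 2 ^ 2 * w 0 + 4 * κ * h 1 * h 2 * h 3 * w 0
      - 4 * κ ^ 2 * h 0 * h 1 ^ 3 * h 2 * w 0 + h 3 ^ 2 * w 0
      - 2 * κ * h 0 * h 1 ^ 2 * h 3 * w 0 + κ ^ 2 * h 0 ^ 2 * h 1 ^ 4 * w 0
      - 2 * κ ^ 2 * h 1 ^ 3 * h 2 * w 1 - κ * h 1 ^ 2 * h 3 * w 1 + κ ^ 2 * h 0 * h 1 ^ 4 * w 1
      + 2 * κ * h 1 ^ 2 * h 2 * w 2 + h 1 * h 3 * w 2 - κ * h 0 * h 1 ^ 3 * w 2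
      + κ ^ 2 * h 1 ^ 4 * w 3 + 2 * κ * h 1 * h 2 * w 4 + h 3 * w 4 - κ * h 0 * h 1 ^ 2 * w 4
      - κ * h 1 ^ 3 * w 5 + h 1 ^ 2 * w 6 - κ * h 1 ^ 2 * w 7 + h 1 * w 8 := rfl

lemma tr10 : tr κ h w 10 =
    w 10 + 2 * κ * h 0 * h 2 ^ 2 * w 0 + 2 * h 0 ^ 2 * h 3 * w 0 + κ * h 2 ^ 2 * w 1
      + 2 * h 0 * h 3 * w 1 + h 0 * h 2 * w 2 + 2 * h 3 * w 3 + h 0 ^ 2 * w 4 + h 2 * w 5
      + h 0 * w 7 := rfl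

lemma tr11 : tr κ h w 11 =
    w 11 + 4 * κ ^ 2 * h 2 ^ 3 * w 0 - 4 * κ ^ 2 * h 0 * h 1 * h 2 ^ 2 * w 0
      + 4 * κ * h 0 * h 2 * h 3 * w 0 - 4 * κ * h 0 ^ 2 * h 1 * h 3 * w 0
      - 2 * κ ^ 2 * h 1 * h 2 ^ 2 * w 1 + 2 * κ * h 2 * h 3 * w 1
      - 4 * κ * h 0 * h 1 * h 3 * w 1 + 3 * κ * h 2 ^ 2 * w 2 - 2 * κ * h 0 * h 1 * h 2 * w 2
      + h 0 * h 3 * w 2 - 4 * κ * h 1 * h 3 * w 3 + 2 * κ * h 0 * h 2 * w 4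
      - 2 * κ * h 0 ^ 2 * h 1 * w 4 - 2 * κ * h 1 * h 2 * w 5 + h 3 * w 5 + 2 * h 2 * w 6
      - 2 * κ * h 0 * h 1 * w 7 + h 0 * w 8 - 2 * κ * h 1 * w 10 := rfl

lemma tr12 : tr κ h w 12 =
    w 12 + 4 * κ ^ 2 * h 1 * h 2 ^ 3 * w 0 + 2 * κ * h 2 ^ 2 * h 3 * w 0
      - 2 * κ ^ 2 * h 0 * h 1 ^ 2 * h 2 ^ 2 * w 0 + 4 * κ * h 0 * h 1 * h 2 * h 3 * w 0
      + 2 * h 0 * h 3 ^ 2 * w 0 - 2 * κ * h 0 ^ 2 * h 1 ^ 2 * h 3 * w 0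
      - κ ^ 2 * h 1 ^ 2 * h 2 ^ 2 * w 1 + 2 * κ * h 1 * h 2 * h 3 * w 1 + h 3 ^ 2 * w 1
      - 2 * κ * h 0 * h 1 ^ 2 * h 3 * w 1 + 3 * κ * h 1 * h 2 ^ 2 * w 2 + h 2 * h 3 * w 2
      - κ * h 0 * h 1 ^ 2 * h 2 * w 2 + h 0 * h 1 * h 3 * w 2 - 2 * κ * h 1 ^ 2 * h 3 * w 3
      + κ * h 2 ^ 2 * w 4 + 2 * κ * h 0 * h 1 * h 2 * w 4 + 2 * h 0 * h 3 * w 4
      - κ * h 0 ^ 2 * h 1 ^ 2 * w 4 - κ * h 1 ^ 2 * h 2 * w 5 + h 1 * h 3 * w 5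
      + 2 * h 1 * h 2 * w 6 + h 3 * w 7 - κ * h 0 * h 1 ^ 2 * w 7 + h 2 * w 8 + h 0 * h 1 * w 8
      + 2 * h 0 * w 9 - κ * h 1 ^ 2 * w 10 + h 1 * w 11 := rfl

lemma tr13 : tr κ h w 13 =
    w 13 + κ ^ 2 * h 2 ^ 4 * w 0 + 2 * κ * h 0 * h 2 ^ 2 * h 3 * w 0 + h 0 ^ 2 * h 3 ^ 2 * w 0
      + κ * h 2 ^ 2 * h 3 * w 1 + h 0 * h 3 ^ 2 * w 1 + κ * h 2 ^ 3 * w 2
      + h 0 * h 2 * h 3 * w 2 + h 3 ^ 2 * w 3 + κ * h 0 * h 2 ^ 2 * w 4 + h 0 ^ 2 * h 3 * w 4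
      + h 2 * h 3 * w 5 + h 2 ^ 2 * w 6 + h 0 * h 3 * w 7 + h 0 * h 2 * w 8 + h 0 ^ 2 * w 9
      + h 3 * w 10 + h 2 * w 11 + h 0 * w 12 := rfl

lemma tr_mul0 : tr κ (mul κ g h) w 0 = tr κ h (tr κ g w) 0 := by
  simp only [tr0]

lemma tr_mul1 : tr κ (mul κ g h) w 1 = tr κ h (tr κ g w) 1 := by
  simp only [tr0, tr1, mul0, mul1, mul2, mul3]
  ring

lemma tr_mul2 : tr κ (mul κ g h) w 2 = tr κ h (tr κ g w) 2 := by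
  simp only [tr0, tr1, tr2, mul0, mul1, mul2, mul3]
  ring

lemma tr_mul3 : tr κ (mul κ g h) w 3 = tr κ h (tr κ g w) 3 := by
  simp only [tr0, tr1, tr3, mul0, mul1, mul2, mul3]
  ring

lemma tr_mul4 : tr κ (mul κ g h) w 4 = tr κ h (tr κ g w) 4 := by
  simp only [tr0, tr1, tr2, tr4, mul0, mul1, mul2, mul3]
  ring

lemma tr_mul5 : tr κ (mul κ g h) w 5 = tr κ h (tr κ g w) 5 := by
  simp only [tr0, tr1, tr2, tr3, tr5, mul0, mul1, mul2, mul3]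
  ring

lemma tr_mul6 : tr κ (mul κ g h) w 6 = tr κ h (tr κ g w) 6 := by
  simp only [tr0, tr1, tr2, tr3, tr4, tr5, tr6, mul0, mul1, mul2, mul3]
  ring

lemma tr_mul7 : tr κ (mul κ g h) w 7 = tr κ h (tr κ g w) 7 := by
  simp only [tr0, tr1, tr2, tr3, tr4, tr5, tr7, mul0, mul1, mul2, mul3]
  ring

lemma tr_mul8 : tr κ (mul κ g h) w 8 = tr κ h (tr κ g w) 8 := by
  simp only [tr0, tr1, tr2, tr3, tr4, tr5, tr6, tr7, tr8, mul0, mul1, mul2, mul3]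
  ring

lemma tr_mul9 : tr κ (mul κ g h) w 9 = tr κ h (tr κ g w) 9 := by
  simp only [tr0, tr1, tr2, tr3, tr4, tr5, tr6, tr7, tr8, tr9, mul0, mul1, mul2, mul3]
  ring

lemma tr_mul10 : tr κ (mul κ g h) w 10 = tr κ h (tr κ g w) 10 := by
  simp only [tr0, tr1, tr2, tr3, tr4, tr5, tr7, tr10, mul0, mul1, mul2, mul3]
  ring

lemma tr_mul11 : tr κ (mul κ g h) w 11 = tr κ h (tr κ g w) 11 := by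
  simp only [tr0, tr1, tr2, tr3, tr4, tr5, tr6, tr7, tr8, tr10, tr11, mul0, mul1, mul2, mul3]
  ring

lemma tr_mul12 : tr κ (mul κ g h) w 12 = tr κ h (tr κ g w) 12 := by
  simp only [tr0, tr1, tr2, tr3, tr4, tr5, tr6, tr7, tr8, tr9, tr10, tr11, tr12, mul0, mul1, mul2, mul3]
  ring

lemma tr_mul13 : tr κ (mul κ g h) w 13 = tr κ h (tr κ g w) 13 := by
  simp only [tr0, tr1, tr2, tr3, tr4, tr5, tr6, tr7, tr8, tr9, tr10, tr11, tr12, tr13, mul0, mul1, mul2, mul3]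
  ring

end

theorem tr_mul (κ : ℝ) (g h : Fin 4 → ℝ) (w : Fin 14 → ℝ) :
    tr κ (mul κ g h) w = tr κ h (tr κ g w) := by
  funext k
  fin_cases k
  · exact tr_mul0 κ g h w
  · exact tr_mul1 κ g h w
  · exact tr_mul2 κ g h w
  · exact tr_mul3 κ g h w
  · exact tr_mul4 κ g h w
  · exact tr_mul5 κ g h w
  · exact tr_mul6 κ g h w
  · exact tr_mul7 κ g h w
  · exact tr_mul8 κ g h w
  · exact tr_mul9 κ g h w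
  · exact tr_mul10 κ g h w
  · exact tr_mul11 κ g h w
  · exact tr_mul12 κ g h w
  · exact tr_mul13 κ g h w

/-! ### linearity -/

lemma tr_add0 (κ : ℝ) (h : Fin 4 → ℝ) (v w : Fin 14 → ℝ) :
    tr κ h (v + w) 0 = tr κ h v 0 + tr κ h w 0 := by
  simp only [tr0, Pi.add_apply]

lemma tr_add1 (κ : ℝ) (h : Fin 4 → ℝ) (v w : Fin 14 → ℝ) :
    tr κ h (v + w) 1 = tr κ h v 1 + tr κ h w 1 := by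
  simp only [tr1, Pi.add_apply]
  ring

lemma tr_add2 (κ : ℝ) (h : Fin 4 → ℝ) (v w : Fin 14 → ℝ) :
    tr κ h (v + w) 2 = tr κ h v 2 + tr κ h w 2 := by
  simp only [tr2, Pi.add_apply]
  ring

lemma tr_add3 (κ : ℝ) (h : Fin 4 → ℝ) (v w : Fin 14 → ℝ) :
    tr κ h (v + w) 3 = tr κ h v 3 + tr κ h w 3 := by
  simp only [tr3, Pi.add_apply]
  ring

lemma tr_add4 (κ : ℝ) (h : Fin 4 → ℝ) (v w : Fin 14 → ℝ) :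
    tr κ h (v + w) 4 = tr κ h v 4 + tr κ h w 4 := by
  simp only [tr4, Pi.add_apply]
  ring

lemma tr_add5 (κ : ℝ) (h : Fin 4 → ℝ) (v w : Fin 14 → ℝ) :
    tr κ h (v + w) 5 = tr κ h v 5 + tr κ h w 5 := by
  simp only [tr5, Pi.add_apply]
  ring

lemma tr_add6 (κ : ℝ) (h : Fin 4 → ℝ) (v w : Fin 14 → ℝ) :
    tr κ h (v + w) 6 = tr κ h v 6 + tr κ h w 6 := by
  simp only [tr6, Pi.add_apply]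
  ring

lemma tr_add7 (κ : ℝ) (h : Fin 4 → ℝ) (v w : Fin 14 → ℝ) :
    tr κ h (v + w) 7 = tr κ h v 7 + tr κ h w 7 := by
  simp only [tr7, Pi.add_apply]
  ring

lemma tr_add8 (κ : ℝ) (h : Fin 4 → ℝ) (v w : Fin 14 → ℝ) :
    tr κ h (v + w) 8 = tr κ h v 8 + tr κ h w 8 := by
  simp only [tr8, Pi.add_apply]
  ring

lemma tr_add9 (κ : ℝ) (h : Fin 4 → ℝ) (v w : Fin 14 → ℝ) :
    tr κ h (v + w) 9 = tr κ h v 9 + tr κ h w 9 := by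
  simp only [tr9, Pi.add_apply]
  ring

lemma tr_add10 (κ : ℝ) (h : Fin 4 → ℝ) (v w : Fin 14 → ℝ) :
    tr κ h (v + w) 10 = tr κ h v 10 + tr κ h w 10 := by
  simp only [tr10, Pi.add_apply]
  ring

lemma tr_add11 (κ : ℝ) (h : Fin 4 → ℝ) (v w : Fin 14 → ℝ) :
    tr κ h (v + w) 11 = tr κ h v 11 + tr κ h w 11 := by
  simp only [tr11, Pi.add_apply]
  ring

lemma tr_add12 (κ : ℝ) (h : Fin 4 → ℝ) (v w : Fin 14 → ℝ) :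
    tr κ h (v + w) 12 = tr κ h v 12 + tr κ h w 12 := by
  simp only [tr12, Pi.add_apply]
  ring

lemma tr_add13 (κ : ℝ) (h : Fin 4 → ℝ) (v w : Fin 14 → ℝ) :
    tr κ h (v + w) 13 = tr κ h v 13 + tr κ h w 13 := by
  simp only [tr13, Pi.add_apply]
  ring

theorem tr_add (κ : ℝ) (h : Fin 4 → ℝ) (v w : Fin 14 → ℝ) :
    tr κ h (v + w) = tr κ h v + tr κ h w := by
  funext k
  rw [Pi.add_apply]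
  fin_cases k
  · exact tr_add0 κ h v w
  · exact tr_add1 κ h v w
  · exact tr_add2 κ h v w
  · exact tr_add3 κ h v w
  · exact tr_add4 κ h v w
  · exact tr_add5 κ h v w
  · exact tr_add6 κ h v w
  · exact tr_add7 κ h v w
  · exact tr_add8 κ h v w
  · exact tr_add9 κ h v w
  · exact tr_add10 κ h v w
  · exact tr_add11 κ h v w
  · exact tr_add12 κ h v w
  · exact tr_add13 κ h v w

end Crest.Agent.R136.NetW191
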