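import Crest.Agent.R136.NsF2_544

/-!
# R136, row F, double resonance, part 3 (helper544): no sloped strips

* `spread_F` : `P' = P - μ X` is concentrated only at few incidences over a heavy set of heights.
* `no_slope_F`.
-/

set_option autoImplicit false
set_option linter.unusedVariables false
set_option linter.unusedSectionVars false

open Filter Topology Finset

namespace Crest.Agent.R136.NsF544

open Crest.Agent.R138.Ex926 (Base U)
open Crest.Agent.R138.TwC501 (root_lin)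
open Crest.Agent.R136.Gf356
open Crest.Agent.R136.CD366

variable {κ : Type} [DecidableEq κ] {B : Base} {G : ℕ → RCfg κ} {Leg : Set (κ → ℝ)}
  {ν : (κ → ℝ) → ℝ} {σ R D : ℝ} {Fz : Finset κ} {sN sP sX sC : κ} {f : ℕ → ℕ → ℝ}
  {R0 C1 a dl m : ℝ} {g : ℝ → ℝ → ℝ} {β : ℝ → ℝ → ℝ} {γ : ℝ → ℝ → ℝ} {γ0 : ℝ → ℝ}

/-- double counting of pairs -/
theorem pair_count {L Z' : Finset ℕ} {E1 : Finset (ℕ × ℕ)} (hE : E1 ⊆ L ×ˢ Z')
    (Hh : ℕ → ℕ → Finset ℕ) (hH : ∀ i l, Hh i l ⊆ Z') {τ : ℝ} (hτ : 0 ≤ τ)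
    [∀ q : ℕ × ℕ, DecidablePred fun l => (((Hh q.1 l).card : ℝ) ≤ τ ∧ q.2 ∈ Hh q.1 l)] :
    ∑ q ∈ E1, ((L.filter fun l => (((Hh q.1 l).card : ℝ) ≤ τ ∧ q.2 ∈ Hh q.1 l)).card : ℝ) ≤
      L.card * (L.card * τ) := by
  classical
  have h1 : ∑ q ∈ E1, ((L.filter fun l => (((Hh q.1 l).card : ℝ) ≤ τ ∧ q.2 ∈ Hh q.1 l)).card : ℝ) ≤
      ∑ q ∈ L ×ˢ Z', ∑ l ∈ L, (if ((Hh q.1 l).card : ℝ) ≤ τ ∧ q.2 ∈ Hh q.1 l then (1 : ℝ)
        else 0) := by
    refine (sum_le_sum fun q _ => le_of_eq ?_).trans (sum_le_sum_of_subset_of_nonneg hE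
      fun q _ _ => sum_nonneg fun l _ => by split_ifs <;> norm_num)
    rw [← sum_filter, sum_const, nsmul_eq_mul, mul_one]
  refine h1.trans ?_
  rw [sum_product]
  have h2 : ∀ i ∈ L, ∑ k ∈ Z', ∑ l ∈ L, (if (((Hh (i, k).1 l).card : ℝ) ≤ τ ∧
      (i, k).2 ∈ Hh (i, k).1 l) then (1 : ℝ) else 0) ≤ L.card * τ := by
    intro i _
    rw [sum_comm]
    have h3 : ∀ l ∈ L, ∑ k ∈ Z', (if (((Hh (i, k).1 l).card : ℝ) ≤ τ ∧
        (i, k).2 ∈ Hh (i, k).1 l) then (1 : ℝ) else 0) ≤ τ := by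
      intro l _
      rw [← sum_filter, sum_const, nsmul_eq_mul, mul_one]
      by_cases h4 : ((Hh i l).card : ℝ) ≤ τ
      · refine le_trans (Nat.cast_le.2 (card_le_card fun k hk => ?_)) h4
        exact (mem_filter.1 hk).2.2
      · have : (Z'.filter fun k => (((Hh (i, k).1 l).card : ℝ) ≤ τ ∧
            (i, k).2 ∈ Hh (i, k).1 l)) = ∅ := by
          rw [filter_eq_empty_iff]
          intro k _ hk
          exact h4 hk.1
        rw [this, card_empty, Nat.cast_zero]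
        exact hτ
    refine (sum_le_sum h3).trans (le_of_eq ?_)
    rw [sum_const, nsmul_eq_mul]
  refine (sum_le_sum h2).trans (le_of_eq ?_)
  rw [sum_const, nsmul_eq_mul]

open Classical in
set_option maxHeartbeats 800000 in
/-- **`P' = P - μ X` is concentrated only at few incidences** -/
theorem spread_F (H : RModel B G σ R Leg ν D)
    (K : K1F B G Leg ν Fz sN sP sX sC f R0 C1 a dl m g β γ γ0) {y ε s s' s1 : ℝ}
    (hyR : y ≤ R0) (hε : 0 < ε) (hs : 0 ≤ s) (hs1 : 0 < s1) (hs1R : s1 ≤ R)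
    (h1 : s' + 6 * ε ≤ σ * s1) (h2 : 0 ≤ y - s - s1 - 2 * ε)
    (h3 : s' + (D + 6) * ε ≤ m * (y - s - s1 - 2 * ε)) :
    ∀ᶠ n in (U : Filter ℕ), ∀ Z' ⊆ (G n).Z, Z'.Nonempty →
      B.d n ^ ε * ((G n).Z.card : ℝ) ≤ Z'.card → ∀ μ : ℝ, B.d n ^ ε ≤ |μ| →
      |μ| ≤ B.d n ^ (-s) →
      (∀ k ∈ Z', ∀ k' ∈ Z', |f n k' - f n k - μ * ((G n).z k' - (G n).z k)| ≤ 2 * B.d n ^ y) →
      ∀ E1 ⊆ (G n).I, (∀ q ∈ E1, q.2 ∈ Z' ∧ B.d n ^ s' * ((G n).L.card : ℝ) ≤
        ((((G n).slice q.2).filter fun l => |(G n).rel q.2 q.1 l sP - μ *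
          (G n).rel q.2 q.1 l sX| ≤ B.d n ^ (y - s)).card : ℝ)) →
      (E1.card : ℝ) < B.d n ^ (2 * ε) * (((G n).L.card : ℝ) * Z'.card) := by
  have hD := H.D1
  have hD0 : 0 < D := by linarith
  have hm := K.m_pos
  set c1 : ℝ := y - s - s1 - 2 * ε with hc1
  have hc1R : c1 ≤ R0 := by linarith
  set rc : κ → ℝ := bx ∅ sN sP sX sC 0 0 0 0 c1 with hrc
  have lc : rc ∈ Leg := K.leg0 0 0 c1 le_rfl K.R0_pos.le le_rfl K.R0_pos.le h2 hc1R
  have l00 : (0 : κ → ℝ) ∈ Leg := by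
    have := K.leg0 0 0 0 le_rfl K.R0_pos.le le_rfl K.R0_pos.le le_rfl K.R0_pos.le
    rwa [bx_empty] at this
  have hνc : ν rc ≤ ν 0 - m * c1 := by
    have e1 := K.nu0 0 0 c1 le_rfl K.R0_pos.le le_rfl K.R0_pos.le h2 hc1R
    have e2 := K.b00
    have e3 := K.C_rate0 c1 h2 hc1R
    rw [hrc, e1, e2]
    linarith
  filter_upwards [H.frost s1 hs1.le hs1R ε hε, K.evP ε hε, K.evX ε hε, K.bd1 ε hε,
    H.up rc lc ε hε, H.low 0 l00 ε hε, ev_const_le B hε 3, ev_small B hε 4] with n hfr hevP hevX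
    hbd1 hup hlow hc3 hce Z' hZ' hZne hZc μ hμ hμ2 hf E1 hE1 hE1q
  have hpow : ∀ t : ℝ, 0 < B.d n ^ t := fun t => rpos B n t
  by_contra hcon
  push Not at hcon
  obtain ⟨⟨i1, k1⟩, hI1⟩ := H.nonempty n
  have hLc : (0 : ℝ) < (G n).L.card := by
    exact_mod_cast card_pos.2 ⟨i1, H.memL hI1⟩
  have hZ'c : (0 : ℝ) < Z'.card := by exact_mod_cast card_pos.2 hZne
  have hLlow : B.d n ^ (-ν 0 + ε) ≤ ((G n).L.card : ℝ) := by
    refine (hlow i1 k1 hI1).trans ?_
    exact_mod_cast card_le_card (RCfg.box_subset_slice.trans (filter_subset _ _))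
  set τ : ℝ := B.d n ^ (σ * s1 - 2 * ε) * Z'.card with hτ
  have hτ0 : 0 < τ := mul_pos (hpow _) hZ'c
  -- balls of heights
  have hball : ∀ k₀ ∈ (G n).Z, (((G n).hbox s1 k₀).card : ℝ) ≤ τ := by
    intro k₀ hk₀
    refine (hfr k₀ hk₀).trans ?_
    have e1 : B.d n ^ (σ * s1 - ε) = B.d n ^ (σ * s1 - 2 * ε) * B.d n ^ ε := by
      rw [← rpow_add']; congr 1; ring
    rw [e1, mul_assoc]
    exact mul_le_mul_of_nonneg_left hZc (hpow _).le
  set Hh : ℕ → ℕ → Finset ℕ := fun i l => Z'.filter fun k => (i, k) ∈ (G n).I ∧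
    (l, k) ∈ (G n).I ∧ |(G n).rel k i l sP - μ * (G n).rel k i l sX| ≤ B.d n ^ (y - s) with hHh
  -- many heights: the velocity is small
  have hmany : ∀ i l k₀, k₀ ∈ Hh i l → τ < ((Hh i l).card : ℝ) →
      |(G n).rel k₀ i l sC| ≤ B.d n ^ (c1 - ε) := by
    intro i l k₀ hk₀ hτ1
    obtain ⟨k, hk, hkf⟩ : ∃ k ∈ Hh i l, B.d n ^ s1 < |(G n).z k - (G n).z k₀| := by
      by_contra hno
      push Not at hno
      have : ((Hh i l).card : ℝ) ≤ τ := by
        refine le_trans (Nat.cast_le.2 (card_le_card fun k hk => ?_))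
          (hball k₀ (hZ' (mem_filter.1 hk₀).1))
        unfold RCfg.hbox
        rw [mem_filter, H.base n]
        exact ⟨hZ' (mem_filter.1 hk).1, hno k hk⟩
      linarith
    simp only [hHh, mem_filter] at hk hk₀
    obtain ⟨kZ, kI, kI', kP⟩ := hk
    obtain ⟨zZ, zI, zI', zP⟩ := hk₀
    have e1 := hevP k₀ k i l zI zI' kI kI'
    have e2 := hevX k₀ k i l zI zI' kI kI'
    have e3 := hf k₀ zZ k kZ
    have e4 := hbd1 k₀ i l zI zI' sC
    set C := (G n).rel k₀ i l sC with hC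
    set u := (G n).z k - (G n).z k₀ with hu
    set F := f n k - f n k₀ with hF
    set b := B.d n ^ (y - s - ε) with hb
    have hb0 : 0 < b := hpow _
    have k1 : B.d n ^ (R0 - ε) ≤ b := rpow_anti B n (by linarith)
    have k2 : B.d n ^ (y - s) ≤ b := rpow_anti B n (by linarith)
    have k3 : |μ| * B.d n ^ (R0 - ε) ≤ b := by
      calc |μ| * B.d n ^ (R0 - ε) ≤ B.d n ^ (-s) * B.d n ^ (y - ε) :=
            mul_le_mul hμ2 (rpow_anti B n (by linarith)) (hpow _).le (hpow _).le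
        _ = b := by rw [← rpow_add', hb]; congr 1; ring
    have k4 : |(F - μ * u) * C| ≤ 2 * b := by
      rw [abs_mul]
      calc |F - μ * u| * |C| ≤ 2 * B.d n ^ y * B.d n ^ (-ε) :=
            mul_le_mul e3 e4 (abs_nonneg _) (by have := hpow y; positivity)
        _ = 2 * B.d n ^ (y - ε) := by
            rw [mul_assoc, ← rpow_add']; congr 2
        _ ≤ 2 * b := by
            have := rpow_anti B n (show y - s - ε ≤ y - ε by linarith)
            linarith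
    have k5 : |μ * ((G n).rel k i l sX - ((G n).rel k₀ i l sX + u * C))| ≤ b := by
      rw [abs_mul]
      exact (mul_le_mul_of_nonneg_left e2 (abs_nonneg _)).trans k3
    have k6 : |2 * (μ * u * C)| ≤ 6 * b := by
      have e5 : 2 * (μ * u * C) = ((G n).rel k₀ i l sP - μ * (G n).rel k₀ i l sX) -
          ((G n).rel k i l sP - μ * (G n).rel k i l sX) +
          ((G n).rel k i l sP - ((G n).rel k₀ i l sP - F * C)) -
          μ * ((G n).rel k i l sX - ((G n).rel k₀ i l sX + u * C)) - (F - μ * u) * C := by ring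
      rw [e5]
      have n1 := abs_le.1 (zP.trans k2)
      have n2 := abs_le.1 (kP.trans k2)
      have n3 := abs_le.1 (e1.trans k1)
      have n4 := abs_le.1 k5
      have n5 := abs_le.1 k4
      rw [abs_le]
      constructor <;> linarith [n1.1, n1.2, n2.1, n2.2, n3.1, n3.2, n4.1, n4.2, n5.1, n5.2]
    have k7 : B.d n ^ ε * B.d n ^ s1 * |C| ≤ 3 * b := by
      have e6 : |2 * (μ * u * C)| = 2 * (|μ| * |u| * |C|) := by
        rw [abs_mul, abs_mul, abs_mul, abs_two]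
      rw [e6] at k6
      have e7 : B.d n ^ ε * B.d n ^ s1 * |C| ≤ |μ| * |u| * |C| :=
        mul_le_mul_of_nonneg_right (mul_le_mul hμ hkf.le (hpow _).le (abs_nonneg _))
          (abs_nonneg _)
      linarith
    refine le_div_pow B n (w := ε + s1) (K := 3) (s := y - s - ε) ?_ ?_
    · rw [rpow_add', mul_comm]
      exact k7
    · have e8 : -(y - s - ε - (ε + s1) - (c1 - ε)) = -ε := by rw [hc1]; ring
      rw [e8]
      exact hc3
  -- upper bound
  have hEsub : E1 ⊆ (G n).L ×ˢ Z' := by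
    intro q hq
    rw [mem_product]
    exact ⟨H.memL (k := q.2) (hE1 hq), (hE1q q hq).1⟩
  have hpc := pair_count hEsub Hh (fun i l => filter_subset _ _) hτ0.le
  have hone : ∀ q ∈ E1, B.d n ^ s' * ((G n).L.card : ℝ) ≤
      ((((G n).L).filter fun l => (((Hh q.1 l).card : ℝ) ≤ τ ∧ q.2 ∈ Hh q.1 l)).card : ℝ) +
      B.d n ^ (-ν 0 + m * c1 - D * ε) := by
    intro q hq
    obtain ⟨q1, q2⟩ := hE1q q hq
    have hqI : (q.1, q.2) ∈ (G n).I := hE1 hq
    have h5 : (((G n).slice q.2).filter fun l => |(G n).rel q.2 q.1 l sP - μ *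
          (G n).rel q.2 q.1 l sX| ≤ B.d n ^ (y - s)) ⊆
        (((G n).L).filter fun l => (((Hh q.1 l).card : ℝ) ≤ τ ∧ q.2 ∈ Hh q.1 l)) ∪
          (G n).box rc ε q.1 q.2 := by
      intro l hl
      rw [mem_filter] at hl
      obtain ⟨hl1, hl2⟩ := hl
      have hlI := H.memSlice.1 hl1
      have hmem : q.2 ∈ Hh q.1 l := mem_filter.2 ⟨q1, hqI, hlI, hl2⟩
      rw [mem_union]
      by_cases hc : ((Hh q.1 l).card : ℝ) ≤ τ
      · exact Or.inl (mem_filter.2 ⟨H.memL hlI, hc, hmem⟩)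
      · right
        refine RCfg.mem_box.2 ⟨hl1, fun j => ?_⟩
        rw [H.base n]
        by_cases hjC : j = sC
        · subst hjC
          rw [hrc, bx_C K.NC K.PC K.XC]
          exact hmany _ _ _ hmem (not_le.1 hc)
        · have e1 : rc j = 0 := by
            simp only [hrc, bx, if_neg hjC, notMem_empty, if_false]
            split_ifs <;> rfl
          rw [e1, zero_sub]
          exact hbd1 q.2 q.1 l hqI hlI j
    have h6 := hup q.1 q.2 hqI
    have h7 : B.d n ^ (-ν rc - D * ε) ≤ B.d n ^ (-ν 0 + m * c1 - D * ε) :=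
      rpow_anti B n (by linarith)
    calc B.d n ^ s' * ((G n).L.card : ℝ) ≤ _ := q2
      _ ≤ _ := Nat.cast_le.2 ((card_le_card h5).trans (card_union_le _ _))
      _ ≤ _ := by
          push_cast
          linarith
  have hsum : (E1.card : ℝ) * (B.d n ^ s' * ((G n).L.card : ℝ)) ≤
      (G n).L.card * ((G n).L.card * τ) + (G n).L.card * Z'.card *
        B.d n ^ (-ν 0 + m * c1 - D * ε) := by
    have h8 := sum_le_sum hone
    rw [sum_const, nsmul_eq_mul, sum_add_distrib, sum_const, nsmul_eq_mul] at h8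
    refine h8.trans (add_le_add hpc ?_)
    refine mul_le_mul_of_nonneg_right ?_ (hpow _).le
    have h9 := card_le_card hEsub
    rw [card_product] at h9
    exact_mod_cast h9
  have hfin : B.d n ^ (2 * ε) * B.d n ^ s' * ((G n).L.card : ℝ) ≤
      B.d n ^ (σ * s1 - 2 * ε) * (G n).L.card + B.d n ^ (-ν 0 + m * c1 - D * ε) := by
    have hP : (0 : ℝ) < (G n).L.card * Z'.card := by positivity
    refine le_of_mul_le_mul_left ?_ hP
    calc ((G n).L.card : ℝ) * Z'.card * (B.d n ^ (2 * ε) * B.d n ^ s' * ((G n).L.card : ℝ))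
        = B.d n ^ (2 * ε) * (((G n).L.card : ℝ) * Z'.card) *
          (B.d n ^ s' * ((G n).L.card : ℝ)) := by ring
      _ ≤ E1.card * (B.d n ^ s' * ((G n).L.card : ℝ)) :=
          mul_le_mul_of_nonneg_right hcon (by have := hpow s'; positivity)
      _ ≤ _ := hsum
      _ = _ := by rw [hτ]; ring
  have hb1 : B.d n ^ (-ν 0 + m * c1 - D * ε) ≤ B.d n ^ (m * c1 - (D + 1) * ε) *
      ((G n).L.card : ℝ) := by
    calc B.d n ^ (-ν 0 + m * c1 - D * ε) = B.d n ^ (m * c1 - (D + 1) * ε) *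
          B.d n ^ (-ν 0 + ε) := by rw [← rpow_add']; congr 1; ring
      _ ≤ _ := mul_le_mul_of_nonneg_left hLlow (hpow _).le
  have hfin2 : B.d n ^ (2 * ε) * B.d n ^ s' ≤ B.d n ^ (σ * s1 - 2 * ε) +
      B.d n ^ (m * c1 - (D + 1) * ε) := by
    refine le_of_mul_le_mul_right ?_ hLc
    linarith
  have e1 : B.d n ^ (2 * ε) * B.d n ^ s' = B.d n ^ (s' + 2 * ε) := by
    rw [← rpow_add']; congr 1; ring
  have e2 : B.d n ^ (σ * s1 - 2 * ε) ≤ B.d n ^ (s' + 2 * ε) * B.d n ^ ε := by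
    rw [← rpow_add']
    exact rpow_anti B n (by linarith)
  have e3 : B.d n ^ (m * c1 - (D + 1) * ε) ≤ B.d n ^ (s' + 2 * ε) * B.d n ^ ε := by
    rw [← rpow_add']
    exact rpow_anti B n (by linarith)
  rw [e1] at hfin2
  have h10 := hpow (s' + 2 * ε)
  have h11 := hpow ε
  nlinarith

end Crest.Agent.R136.NsF544
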