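import Crest.Agent.R136.NsF3_544

/-!
# R136, row F, double resonance, part 4 (helper544): finite pieces of `no_slope_F`
-/

set_option autoImplicit false
set_option linter.unusedVariables false
set_option linter.unusedSectionVars false

open Filter Topology Finset

namespace Crest.Agent.R136.NsF544

open Crest.Agent.R138.Ex926 (Base U)
open Crest.Agent.R138.TwC501 (root_lin)
open Crest.Agent.R136.Gf356
open Crest.Agent.R136.CD366

variable {κ : Type} [DecidableEq κ] {B : Base} {G : ℕ → RCfg κ} {Leg : Set (κ → ℝ)}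
  {ν : (κ → ℝ) → ℝ} {σ R D : ℝ} {Fz : Finset κ} {sN sP sX sC : κ} {f : ℕ → ℕ → ℝ}
  {R0 C1 a dl m : ℝ} {g : ℝ → ℝ → ℝ} {β : ℝ → ℝ → ℝ} {γ : ℝ → ℝ → ℝ} {γ0 : ℝ → ℝ}

/-- cast of the truncated difference -/
theorem castN {J Kk j : ℕ} (hj : j < J) (hK : 2 ≤ Kk) :
    ((J + Kk - 2 - j : ℕ) : ℝ) = (J : ℝ) + Kk - 2 - j := by
  have h1 : J + Kk = (J + Kk - 2 - j) + 2 + j := by omega
  have h2 : ((J : ℝ) + Kk) = ((J + Kk - 2 - j : ℕ) : ℝ) + 2 + j := by exact_mod_cast h1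
  linarith

/-- numbers of the levels -/
theorem arithF {a dl σ hh E gyy gyj : ℝ} {J Kk j : ℕ} (hj : j < J) (hK : 2 ≤ Kk)
    (ha0 : 0 ≤ a) (haσ : a < σ) (hσ1 : σ ≤ 1) (hh0 : 0 < hh) (hE : E ≤ hh)
    (hA : dl * ((J : ℝ) + Kk) + 4 ≤ (σ - a) * ((Kk : ℝ) - 1))
    (h1 : gyy ≤ (a + dl) * (((J : ℝ) + Kk) * hh)) (h2 : a * ((j : ℝ) * hh) ≤ gyj) :
    gyy + E ≤ gyj + σ * (((J + Kk - 2 - j : ℕ) : ℝ) * hh) := by
  rw [castN hj hK]
  have hjJ : (j : ℝ) + 1 ≤ J := by exact_mod_cast hj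
  have h3 : (σ - a) * ((Kk : ℝ) - 1) ≤ (σ - a) * ((J : ℝ) + Kk - 2 - j) :=
    mul_le_mul_of_nonneg_left (by linarith) (by linarith)
  have ha1 : a < 1 := haσ.trans_le hσ1
  have h4 : (a + dl) * ((J : ℝ) + Kk) + 1 ≤ a * j + σ * ((J : ℝ) + Kk - 2 - j) := by
    nlinarith
  have h5 := mul_le_mul_of_nonneg_right h4 hh0.le
  nlinarith

open Classical in
/-- bound of the slope -/
theorem mu_bound (hb : ∀ n, (G n).ρ = B.d n) {n : ℕ} {Z' : Finset ℕ} (hZ' : Z' ⊆ (G n).Z)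
    (hne : Z'.Nonempty) {hh ε y μ : ℝ} (hy : 0 ≤ y) (hε : 0 < ε) (h64 : 64 * ε ≤ σ * hh)
    (hcard : B.d n ^ ε * ((G n).Z.card : ℝ) ≤ Z'.card)
    (hfr8 : ∀ k ∈ (G n).Z, (((G n).hbox (hh / 8) k).card : ℝ) ≤
      B.d n ^ (σ * (hh / 8) - ε) * ((G n).Z.card : ℝ))
    (hbd : ∀ k ∈ (G n).Z, |(G n).z k| ≤ 1 ∧ |f n k| ≤ 1)
    (hf : ∀ k ∈ Z', ∀ k' ∈ Z', |f n k' - f n k - μ * ((G n).z k' - (G n).z k)| ≤
      2 * B.d n ^ y)
    (hc4 : (4 : ℝ) ≤ B.d n ^ (-(hh / 8))) (hce : 4 * B.d n ^ ε ≤ 1) :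
    |μ| ≤ B.d n ^ (-(hh / 4)) := by
  have hpow : ∀ t : ℝ, 0 < B.d n ^ t := fun t => rpos B n t
  have hZc : (0 : ℝ) < Z'.card := by exact_mod_cast card_pos.2 hne
  obtain ⟨k₁, hk₁⟩ := hne
  obtain ⟨k, hk, hkf⟩ : ∃ k ∈ Z', B.d n ^ (hh / 8) < |(G n).z k - (G n).z k₁| := by
    by_contra hno
    push Not at hno
    have h1 : (Z'.card : ℝ) ≤ (((G n).hbox (hh / 8) k₁).card : ℝ) := by
      refine Nat.cast_le.2 (card_le_card fun k hk => ?_)
      unfold RCfg.hbox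
      rw [mem_filter, hb n]
      exact ⟨hZ' hk, hno k hk⟩
    have h2 := hfr8 k₁ (hZ' hk₁)
    have h3 : B.d n ^ (σ * (hh / 8) - ε) ≤ B.d n ^ ε * B.d n ^ ε := by
      rw [← rpow_add']
      exact rpow_anti B n (by linarith)
    have h4 : (Z'.card : ℝ) ≤ B.d n ^ ε * Z'.card := by
      calc (Z'.card : ℝ) ≤ B.d n ^ (σ * (hh / 8) - ε) * (G n).Z.card := h1.trans h2
        _ ≤ B.d n ^ ε * B.d n ^ ε * (G n).Z.card :=
            mul_le_mul_of_nonneg_right h3 (Nat.cast_nonneg _)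
        _ = B.d n ^ ε * (B.d n ^ ε * (G n).Z.card) := by ring
        _ ≤ _ := mul_le_mul_of_nonneg_left hcard (hpow _).le
    have h5 := hpow ε
    nlinarith
  have h1 := hf k₁ hk₁ k hk
  have h2 : |f n k - f n k₁| ≤ 2 := by
    refine (abs_sub _ _).trans ?_
    have := (hbd k (hZ' hk)).2; have := (hbd k₁ (hZ' hk₁)).2; linarith
  have h3 : B.d n ^ y ≤ 1 := Real.rpow_le_one (B.pos n).le (B.lt n).le hy
  have e1 : |μ| * B.d n ^ (hh / 8) ≤ 4 := by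
    calc |μ| * B.d n ^ (hh / 8) ≤ |μ| * |(G n).z k - (G n).z k₁| :=
          mul_le_mul_of_nonneg_left hkf.le (abs_nonneg _)
      _ = |μ * ((G n).z k - (G n).z k₁)| := (abs_mul _ _).symm
      _ = |(f n k - f n k₁) - (f n k - f n k₁ - μ * ((G n).z k - (G n).z k₁))| := by ring_nf
      _ ≤ |f n k - f n k₁| + |f n k - f n k₁ - μ * ((G n).z k - (G n).z k₁)| := abs_sub _ _
      _ ≤ 4 := by linarith
  refine le_div_pow B n (w := hh / 8) (K := 4) (s := 0) ?_ ?_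
  · rw [Real.rpow_zero, mul_one]; exact e1
  · refine hc4.trans (rpow_anti B n ?_)
    linarith

/-- density of one half of the incidences -/
theorem dens_E (H : RModel B G σ R Leg ν D) {n : ℕ} {Z' : Finset ℕ} (hZ' : Z' ⊆ (G n).Z) {ε : ℝ}
    (hsl : ∀ k ∈ (G n).Z, B.d n ^ ε * ((G n).L.card : ℝ) ≤ (((G n).slice k).card : ℝ))
    (hce : 4 * B.d n ^ ε ≤ 1) (E0 E1 : Finset (ℕ × ℕ))
    (hcov : ∀ q ∈ (G n).I, q.2 ∈ Z' → q ∈ E0 ∨ q ∈ E1)
    (hE1 : (E1.card : ℝ) < B.d n ^ (2 * ε) * (((G n).L.card : ℝ) * Z'.card)) :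
    B.d n ^ (2 * ε) * (((G n).L.card : ℝ) * Z'.card) ≤ E0.card := by
  classical
  have hpow : ∀ t : ℝ, 0 < B.d n ^ t := fun t => rpos B n t
  have h1 : ∑ k ∈ Z', (((G n).slice k).card : ℝ) ≤ ((E0 ∪ E1).card : ℝ) := by
    have h2 : (Z'.sigma fun k => (G n).slice k).card ≤ (E0 ∪ E1).card := by
      refine card_le_card_of_injOn (fun q => (q.2, q.1)) ?_ ?_
      · intro q hq
        have hq' := mem_sigma.1 (Finset.mem_coe.1 hq)
        have hqI : (q.2, q.1) ∈ (G n).I := H.memSlice.1 hq'.2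
        exact Finset.mem_coe.2 (mem_union.2 (hcov _ hqI hq'.1))
      · rintro ⟨a, b⟩ _ ⟨a', b'⟩ _ h
        simp only [Prod.mk.injEq] at h
        obtain ⟨rfl, rfl⟩ := h
        rfl
    rw [card_sigma] at h2
    exact_mod_cast h2
  have h3 : B.d n ^ ε * (((G n).L.card : ℝ) * Z'.card) ≤
      ∑ k ∈ Z', (((G n).slice k).card : ℝ) := by
    have : ∑ k ∈ Z', B.d n ^ ε * ((G n).L.card : ℝ) ≤ ∑ k ∈ Z', (((G n).slice k).card : ℝ) :=
      sum_le_sum fun k hk => hsl k (hZ' hk)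
    refine le_trans (le_of_eq ?_) this
    rw [sum_const, nsmul_eq_mul]; ring
  have h4 : ((E0 ∪ E1).card : ℝ) ≤ E0.card + E1.card := by
    exact_mod_cast card_union_le _ _
  have e0 : (0 : ℝ) ≤ ((G n).L.card : ℝ) * Z'.card := by positivity
  have e1 : B.d n ^ (2 * ε) = B.d n ^ ε * B.d n ^ ε := by
    rw [← rpow_add']; congr 1; ring
  have e2 := hpow ε
  have e4 : 2 * B.d n ^ (2 * ε) ≤ B.d n ^ ε := by rw [e1]; nlinarith
  have h5 := mul_le_mul_of_nonneg_right e4 e0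
  linarith

/-- levels of the truncated distance -/
theorem dist_lt (B : Base) {n : ℕ} {t a b : ℝ} (ht : 0 < t) (h : min 1 (max a b) ≤ B.d n ^ t) :
    max a b ≤ B.d n ^ t := by
  have h2 : B.d n ^ t < 1 := Real.rpow_lt_one (B.pos n).le (B.lt n) ht
  rcases le_total 1 (max a b) with h3 | h3
  · rw [min_eq_left h3] at h
    linarith
  · rwa [min_eq_right h3] at h

/-- the root condition at one height -/
theorem root_cond {u F N P X C Nk μ b : ℝ}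
    (hb0 : 0 ≤ b) (hu : |u| ≤ 2) (hF : |F| ≤ 2)
    (h1 : |Nk - (N + u * P - F * (X + u * C))| ≤ b) (h2 : |Nk| ≤ b) (hC : |C| ≤ b)
    (hX : |F - μ * u| * |X| ≤ 2 * b) : |N + u * (P - μ * X)| ≤ 10 * b := by
  have m1 : |F * (u * C)| ≤ 4 * b := by
    rw [abs_mul, abs_mul]
    calc |F| * (|u| * |C|) ≤ 2 * (2 * b) := by
          refine mul_le_mul hF ?_ (by positivity) (by norm_num)
          exact mul_le_mul hu hC (abs_nonneg _) (by norm_num)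
      _ = 4 * b := by ring
  have m2 : |(F - μ * u) * X| ≤ 2 * b := by rw [abs_mul]; exact hX
  have e1 : N + u * (P - μ * X) = Nk - (Nk - (N + u * P - F * (X + u * C))) +
      F * (u * C) + (F - μ * u) * X := by ring
  rw [e1]
  have n1 := abs_le.1 h1
  have n2 := abs_le.1 h2
  have n3 := abs_le.1 m1
  have n4 := abs_le.1 m2
  rw [abs_le]
  constructor <;> linarith [n1.1, n1.2, n2.1, n2.2, n3.1, n3.2, n4.1, n4.2]

/-- additivity of `P' = P - μ X` -/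
theorem add_cond {P1 X1 P2 X2 P3 X3 μ b : ℝ} (h1 : |P1 - μ * X1| ≤ b) (h2 : |P2| ≤ b)
    (h3 : |μ| * |X2| ≤ b) (h4 : |P3 - P1 - P2| ≤ b) (h5 : |μ| * |X3 - X1 - X2| ≤ b) :
    |P3 - μ * X3| ≤ 5 * b := by
  have m1 : |μ * X2| ≤ b := by rw [abs_mul]; exact h3
  have m2 : |μ * (X3 - X1 - X2)| ≤ b := by rw [abs_mul]; exact h5
  have e5 : P3 - μ * X3 = (P1 - μ * X1) + P2 - μ * X2 + (P3 - P1 - P2) -
      μ * (X3 - X1 - X2) := by ring
  rw [e5]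
  have n1 := abs_le.1 h1
  have n2 := abs_le.1 h2
  have n3 := abs_le.1 m1
  have n4 := abs_le.1 h4
  have n5 := abs_le.1 m2
  rw [abs_le]
  constructor <;> linarith [n1.1, n1.2, n2.1, n2.2, n3.1, n3.2, n4.1, n4.2, n5.1, n5.2]

end Crest.Agent.R136.NsF544
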