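import Crest.Agent.R136.NsF4_544

/-!
# R136, row F, double resonance, part 5 (helper544): `no_slope_F`
-/

set_option autoImplicit false
set_option linter.unusedVariables false
set_option linter.unusedSectionVars false

open Filter Topology Finset

namespace Crest.Agent.R136.NsF544

open Crest.Agent.R138.Ex926 (Base U)
open Crest.Agent.R138.TwC501 (root_lin)
open Crest.Agent.R136.Gf356
open Crest.Agent.R136.CD366

variable {κ : Type} [DecidableEq κ] {B : Base} {G : ℕ → RCfg κ} {Leg : Set (κ → ℝ)}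
  {ν : (κ → ℝ) → ℝ} {σ R D : ℝ} {Fz : Finset κ} {sN sP sX sC : κ} {f : ℕ → ℕ → ℝ}
  {R0 C1 a dl m : ℝ} {g : ℝ → ℝ → ℝ} {β : ℝ → ℝ → ℝ} {γ : ℝ → ℝ → ℝ} {γ0 : ℝ → ℝ}

open Classical in
/-- **common heights of two lines** -/
theorem count_F (hb : ∀ n, (G n).ρ = B.d n) {n : ℕ} {Z' : Finset ℕ} (hZ' : Z' ⊆ (G n).Z)
    {y hh ε AT μ CDε tol : ℝ} {J Kk j : ℕ} (hj : j < J) (hK : 2 ≤ Kk) (hh0 : 0 < hh)
    (hyh : ((J : ℝ) + Kk) * hh = y) {i i' k₀ : ℕ} (hk₀ : k₀ ∈ Z') {r : κ → ℝ} (hrN : r sN = y)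
    (hbd : ∀ k ∈ (G n).Z, |(G n).z k| ≤ 1 ∧ |f n k| ≤ 1)
    (hf : ∀ k ∈ Z', ∀ k' ∈ Z', |f n k' - f n k - μ * ((G n).z k' - (G n).z k)| ≤
      2 * B.d n ^ y)
    (hgen0 : ∀ k, (i, k) ∈ (G n).I → (i', k) ∈ (G n).I →
      |(G n).rel k i i' sN - ((G n).rel k₀ i i' sN + ((G n).z k - (G n).z k₀) *
        (G n).rel k₀ i i' sP - (f n k - f n k₀) * ((G n).rel k₀ i i' sX +
        ((G n).z k - (G n).z k₀) * (G n).rel k₀ i i' sC))| ≤ B.d n ^ (y - AT * ε))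
    (hC : |(G n).rel k₀ i i' sC| ≤ B.d n ^ (y - AT * ε))
    (hX : B.d n ^ y * |(G n).rel k₀ i i' sX| ≤ B.d n ^ (y - AT * ε))
    (hCD : 0 ≤ CDε) (hCDh : CDε ≤ hh) (htol : tol ≤ AT * ε) (hAT : 4 * ((AT + 1) * ε) ≤ hh)
    (hd : B.d n ^ (((j + 1 : ℕ) : ℝ) * hh - CDε) < min 1 (max |(G n).rel k₀ i i' sN|
      |(G n).rel k₀ i i' sP - μ * (G n).rel k₀ i i' sX|))
    (hc10 : (10 : ℝ) ≤ B.d n ^ (-ε)) (hc8 : (8 : ℝ) ≤ B.d n ^ (-(hh / 2)))
    (hfro : ∀ T ⊆ (G n).Z, (∀ k ∈ T, ∀ k' ∈ T, |(G n).z k' - (G n).z k| ≤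
      B.d n ^ (((J + Kk - 2 - j : ℕ) : ℝ) * hh)) → (T.card : ℝ) ≤
      B.d n ^ (σ * (((J + Kk - 2 - j : ℕ) : ℝ) * hh) - ε) * ((G n).Z.card : ℝ))
    (hcard : B.d n ^ ε * ((G n).Z.card : ℝ) ≤ Z'.card) :
    ((Z'.filter fun k => (i, k) ∈ (G n).I ∧ (i', k) ∈ (G n).I ∧
      (G n).loose r tol k i i').card : ℝ) ≤
      B.d n ^ (σ * (((J + Kk - 2 - j : ℕ) : ℝ) * hh) - 2 * ε) * Z'.card := by
  have hpow : ∀ t : ℝ, 0 < B.d n ^ t := fun t => rpos B n t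
  set P' := (G n).rel k₀ i i' sP - μ * (G n).rel k₀ i i' sX with hP'
  set T := Z'.filter fun k => (i, k) ∈ (G n).I ∧ (i', k) ∈ (G n).I ∧
    (G n).loose r tol k i i' with hT
  have hTZ : T ⊆ Z' := filter_subset _ _
  have hzz : ∀ k ∈ Z', |(G n).z k - (G n).z k₀| ≤ 2 := by
    intro k hk
    refine (abs_sub _ _).trans ?_
    have := (hbd k (hZ' hk)).1; have := (hbd k₀ (hZ' hk₀)).1; linarith
  have hff : ∀ k ∈ Z', |f n k - f n k₀| ≤ 2 := by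
    intro k hk
    refine (abs_sub _ _).trans ?_
    have := (hbd k (hZ' hk)).2; have := (hbd k₀ (hZ' hk₀)).2; linarith
  have hgen : ∀ k ∈ T, |(G n).rel k₀ i i' sN + ((G n).z k - (G n).z k₀) * P'| ≤
      B.d n ^ (y - (AT + 1) * ε) := by
    intro k hk
    have hkZ := hTZ hk
    obtain ⟨-, hIk, hIk', hl⟩ := mem_filter.1 hk
    have g1 := hgen0 k hIk hIk'
    have g2 := hl sN
    rw [hrN, hb n] at g2
    have g3 := hf k₀ hk₀ k hkZ
    have g2' : |(G n).rel k i i' sN| ≤ B.d n ^ (y - AT * ε) :=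
      g2.trans (rpow_anti B n (by linarith))
    have g4 : |f n k - f n k₀ - μ * ((G n).z k - (G n).z k₀)| * |(G n).rel k₀ i i' sX| ≤
        2 * B.d n ^ (y - AT * ε) := by
      calc |f n k - f n k₀ - μ * ((G n).z k - (G n).z k₀)| * |(G n).rel k₀ i i' sX|
          ≤ 2 * B.d n ^ y * |(G n).rel k₀ i i' sX| :=
            mul_le_mul_of_nonneg_right g3 (abs_nonneg _)
        _ = 2 * (B.d n ^ y * |(G n).rel k₀ i i' sX|) := by ring
        _ ≤ _ := by linarith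
    have k4 := root_cond (hpow (y - AT * ε)).le (hzz k hkZ) (hff k hkZ)
      g1 g2' hC g4
    refine k4.trans (absorb B ?_)
    have e : -(y - AT * ε - (y - (AT + 1) * ε)) = -ε := by ring
    rw [e]
    exact hc10
  have hcast := castN (J := J) (Kk := Kk) (j := j) hj hK
  have hj1 : (j : ℝ) + 1 ≤ J := by exact_mod_cast hj
  have hK2 : (2 : ℝ) ≤ Kk := by exact_mod_cast hK
  have hclose : ∀ k ∈ T, ∀ k' ∈ T, |(G n).z k' - (G n).z k| ≤
      B.d n ^ (((J + Kk - 2 - j : ℕ) : ℝ) * hh) := by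
    intro k hk k' hk'
    have g1 := hgen k hk
    have g2 := hgen k' hk'
    have hd' : B.d n ^ (((j + 1 : ℕ) : ℝ) * hh - CDε) <
        max |(G n).rel k₀ i i' sN| |P'| := lt_of_lt_of_le hd (min_le_right _ _)
    have h2w : 2 * B.d n ^ (y - (AT + 1) * ε) ≤ B.d n ^ (((j + 1 : ℕ) : ℝ) * hh - CDε) := by
      refine absorb B ((by linarith : (2 : ℝ) ≤ 8).trans (hc8.trans (rpow_anti B n ?_)))
      push_cast
      have h2 : ((j : ℝ) + 1) * hh ≤ (J : ℝ) * hh := mul_le_mul_of_nonneg_right hj1 hh0.le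
      have h3 : 2 * hh ≤ Kk * hh := mul_le_mul_of_nonneg_right hK2 hh0.le
      have h4 : y = (J : ℝ) * hh + Kk * hh := by rw [← hyh]; ring
      linarith
    have g3 := root_lin g2 g1 (hzz k' (hTZ hk')) hd' h2w
    have g4 : ((G n).z k' - (G n).z k₀) - ((G n).z k - (G n).z k₀) =
      (G n).z k' - (G n).z k := by ring
    rw [g4] at g3
    refine le_div_pow B n g3 (hc8.trans (rpow_anti B n ?_))
    push_cast
    rw [hcast, ← hyh]
    have e1 : -(((J : ℝ) + Kk) * hh - (AT + 1) * ε - (((j : ℝ) + 1) * hh - CDε) -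
        ((J : ℝ) + Kk - 2 - j) * hh) = -(hh - (AT + 1) * ε + CDε) := by ring
    rw [e1]
    linarith
  have hTc := hfro T (hTZ.trans hZ') hclose
  refine hTc.trans ?_
  have e1 : B.d n ^ (σ * (((J + Kk - 2 - j : ℕ) : ℝ) * hh) - ε) =
      B.d n ^ (σ * (((J + Kk - 2 - j : ℕ) : ℝ) * hh) - 2 * ε) * B.d n ^ ε := by
    rw [← rpow_add']; congr 1; ring
  rw [e1, mul_assoc]
  exact mul_le_mul_of_nonneg_left hcard (hpow _).le

open Classical in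
/-- **the last level**: frozen -> unfrozen at one incidence -/
theorem last_F (H : RModel B G σ R Leg ν D) {n : ℕ} {y hh ε μ s s' XJ c1 c2 : ℝ}
    {E0 : Finset (ℕ × ℕ)} {pS : κ → ℝ} {i₀ i k₀ : ℕ} (hI0 : (i₀, k₀) ∈ (G n).I)
    (hi : i ∈ (G n).box pS ε i₀ k₀) (hyR : y ≤ R0) (hh0 : 0 < hh) (hε : 4 * ε ≤ hh)
    (hμ4 : |μ| ≤ B.d n ^ (-(hh / 4))) (hX0 : 0 < XJ)
    (hXJ : y - s + hh / 2 ≤ XJ) (hs : hh ≤ s)
    (hcells : ∀ T ⊆ (G n).box pS ε i₀ k₀,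
      (∀ t ∈ T, |(G n).rel k₀ i t sN| ≤ B.d n ^ XJ) →
      ∃ W ⊆ (G n).slice k₀,
        (∀ l ∈ W, ∃ e ∈ T, |(G n).rel k₀ e l sP| ≤ B.d n ^ (y - ε) ∧
          |(G n).rel k₀ e l sX| ≤ B.d n ^ (y - ε)) ∧
        (T.card : ℝ) * B.d n ^ c1 ≤ W.card)
    (hadd : ∀ k i e l, (i, k) ∈ (G n).I → (e, k) ∈ (G n).I → (l, k) ∈ (G n).I → ∀ s,
      s = sP ∨ s = sX → |(G n).rel k i l s - (G n).rel k i e s - (G n).rel k e l s| ≤
        B.d n ^ (R0 - ε))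
    (hbox : B.d n ^ (-ν pS + ε) ≤ (((G n).box pS ε i₀ k₀).card : ℝ))
    (hL : ((G n).L.card : ℝ) ≤ B.d n ^ (-ν 0 - (D + 1) * ε))
    (hc8 : (8 : ℝ) ≤ B.d n ^ (-(hh / 2)))
    (hiE : ((((G n).slice k₀).filter fun l => |(G n).rel k₀ i l sP - μ *
      (G n).rel k₀ i l sX| ≤ B.d n ^ (y - s)).card : ℝ) < B.d n ^ s' * ((G n).L.card : ℝ))
    (hexp : c2 - ν pS + ε + c1 ≤ s' - ν 0 - (D + 1) * ε) :
    ((((G n).box pS ε i₀ k₀).filter fun i' => (i', k₀) ∈ E0 ∧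
      min 1 (max |(G n).rel k₀ i i' sN| |(G n).rel k₀ i i' sP - μ * (G n).rel k₀ i i' sX|) ≤
        B.d n ^ XJ).card : ℝ) ≤ B.d n ^ c2 * ((G n).box pS ε i₀ k₀).card := by
  have hpow : ∀ t : ℝ, 0 < B.d n ^ t := fun t => rpos B n t
  by_contra hcon
  push Not at hcon
  set T := ((G n).box pS ε i₀ k₀).filter fun i' => (i', k₀) ∈ E0 ∧
    min 1 (max |(G n).rel k₀ i i' sN| |(G n).rel k₀ i i' sP - μ * (G n).rel k₀ i i' sX|) ≤
      B.d n ^ XJ with hT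
  have hTd : ∀ t ∈ T, max |(G n).rel k₀ i t sN| |(G n).rel k₀ i t sP - μ *
      (G n).rel k₀ i t sX| ≤ B.d n ^ XJ := fun t ht => dist_lt B hX0 (mem_filter.1 ht).2.2
  obtain ⟨W, hW1, hW2, hW3⟩ := hcells T (filter_subset _ _)
    (fun t ht => (le_max_left _ _).trans (hTd t ht))
  have hiI : (i, k₀) ∈ (G n).I := H.memSlice.1 (RCfg.box_subset_slice hi)
  have hsubW : W ⊆ ((G n).slice k₀).filter fun l => |(G n).rel k₀ i l sP - μ *
      (G n).rel k₀ i l sX| ≤ B.d n ^ (y - s) := by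
    intro l hl
    have hlS := hW1 hl
    refine mem_filter.2 ⟨hlS, ?_⟩
    obtain ⟨e, heT, e1, e2⟩ := hW2 l hl
    have heI : (e, k₀) ∈ (G n).I :=
      H.memSlice.1 (RCfg.box_subset_slice ((filter_subset _ _) heT))
    have hlI := H.memSlice.1 hlS
    have a1 := hadd k₀ i e l hiI heI hlI sP (Or.inl rfl)
    have a2 := hadd k₀ i e l hiI heI hlI sX (Or.inr rfl)
    have a3 := (le_max_right _ _).trans (hTd e heT)
    set b := B.d n ^ (y - s + hh / 2) with hb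
    have k1 : B.d n ^ (R0 - ε) ≤ b := rpow_anti B n (by linarith)
    have k2 : B.d n ^ (y - ε) ≤ b := rpow_anti B n (by linarith)
    have k3 : B.d n ^ XJ ≤ b := rpow_anti B n hXJ
    have k4 : |μ| * B.d n ^ (y - ε) ≤ b := by
      calc |μ| * B.d n ^ (y - ε) ≤ B.d n ^ (-(hh / 4)) * B.d n ^ (y - ε) :=
            mul_le_mul_of_nonneg_right hμ4 (hpow _).le
        _ = B.d n ^ (-(hh / 4) + (y - ε)) := by rw [rpow_add']
        _ ≤ b := rpow_anti B n (by linarith)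
    have k5 : |μ| * B.d n ^ (R0 - ε) ≤ b :=
      (mul_le_mul_of_nonneg_left (rpow_anti B n (by linarith)) (abs_nonneg _)).trans k4
    have m3 := add_cond (a3.trans k3) (e1.trans k2)
      ((mul_le_mul_of_nonneg_left e2 (abs_nonneg μ)).trans k4) (a1.trans k1)
      ((mul_le_mul_of_nonneg_left a2 (abs_nonneg μ)).trans k5)
    have hb0 : 0 < b := hpow _
    refine (m3.trans (by linarith : 5 * b ≤ 8 * b)).trans (absorb B ?_)
    have e6 : -(y - s + hh / 2 - (y - s)) = -(hh / 2) := by ring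
    rw [e6]
    exact hc8
  have hWc : (W.card : ℝ) < B.d n ^ s' * ((G n).L.card : ℝ) :=
    lt_of_le_of_lt (Nat.cast_le.2 (card_le_card hsubW)) hiE
  have hlowW : B.d n ^ (c2 - ν pS + ε + c1) ≤ W.card := by
    refine le_trans ?_ hW3
    calc B.d n ^ (c2 - ν pS + ε + c1) = B.d n ^ c2 * B.d n ^ (-ν pS + ε) * B.d n ^ c1 := by
          rw [← rpow_add', ← rpow_add']; congr 1; ring
      _ ≤ B.d n ^ c2 * ((G n).box pS ε i₀ k₀).card * B.d n ^ c1 :=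
          mul_le_mul_of_nonneg_right (mul_le_mul_of_nonneg_left hbox (hpow _).le) (hpow _).le
      _ ≤ _ := mul_le_mul_of_nonneg_right hcon.le (hpow _).le
  have hup : B.d n ^ s' * ((G n).L.card : ℝ) ≤ B.d n ^ (s' - ν 0 - (D + 1) * ε) := by
    calc B.d n ^ s' * ((G n).L.card : ℝ) ≤ B.d n ^ s' * B.d n ^ (-ν 0 - (D + 1) * ε) :=
          mul_le_mul_of_nonneg_left hL (hpow _).le
      _ = _ := by rw [← rpow_add']; congr 1; ring
  have hfin := rpow_anti B n hexp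
  linarith

end Crest.Agent.R136.NsF544
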