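import Crest.Agent.R136.NsF5_544

/-!
# R136, row F, double resonance, part 6 (helper544): `no_slope_F`, `kappa_one_F`
-/

set_option autoImplicit false
set_option linter.unusedVariables false
set_option linter.unusedSectionVars false

open Filter Topology Finset

namespace Crest.Agent.R136.NsF544

open Crest.Agent.R138.Ex926 (Base U)
open Crest.Agent.R138.TwC501 (root_lin)
open Crest.Agent.R136.Gf356
open Crest.Agent.R136.CD366
open Crest.Agent.R136.C1s940 (K3w K3core_w)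
open Crest.Agent.R136.Fe1355 (RawTw shift_R)

variable {κ : Type} [DecidableEq κ] {B : Base} {G : ℕ → RCfg κ} {Leg : Set (κ → ℝ)}
  {ν : (κ → ℝ) → ℝ} {σ R D : ℝ} {Fz : Finset κ} {sN sP sX sC : κ} {f : ℕ → ℕ → ℝ}
  {R0 C1 a dl m : ℝ} {g : ℝ → ℝ → ℝ} {β : ℝ → ℝ → ℝ} {γ : ℝ → ℝ → ℝ} {γ0 : ℝ → ℝ}

open Classical in
set_option maxHeartbeats 1600000 in
/-- **no sloped strips**, at one scale -/
theorem no_slope_F1 (H : RModel B G σ R Leg ν D)
    (K : K1F B G Leg ν Fz sN sP sX sC f R0 C1 a dl m g β γ γ0) (hR0 : R0 ≤ R) (ha : a < σ)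
    (J Kk : ℕ) (hJ1 : 1 ≤ J) (hK2 : 2 ≤ Kk)
    (hA : dl * ((J : ℝ) + Kk) + 4 ≤ (σ - a) * ((Kk : ℝ) - 1))
    {y hh ε A CtD C6 s s' s1 : ℝ} (hA' : A = C1 * D ^ 7 + 1)
    (hC6 : C6 = D ^ 6 + 2 * D ^ 2 + 1)
    (hCt : CtD = (D ^ 2 + 1) * (C1 * D ^ 2) + D * D ^ 2 + 2 + 2 * D + 14)
    (hy : 0 < y) (hyR : y ≤ R0) (hh0 : 0 < hh) (hyh : ((J : ℝ) + Kk) * hh = y) (hεp : 0 < ε)
    (hε1 : CtD * ε ≤ hh) (hε2 : 16 * A * ε ≤ hh) (hε3 : (C6 + 2 * D + 16) * ε ≤ hh)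
    (hε4 : 64 * ε ≤ σ * hh) (hD2h : 16 * (D ^ 2 * ε) ≤ hh)
    (hs : s = ((Kk : ℝ) + 1) * hh) (hs' : s' = (dl * ((J : ℝ) + Kk) + Kk + 2) * hh)
    (hs10 : 0 < s1) (hs1R : s1 ≤ R)
    (h1 : s' + 6 * ε ≤ σ * s1) (h2 : 0 ≤ y - s - s1 - 2 * ε)
    (h3 : s' + (D + 6) * ε ≤ m * (y - s - s1 - 2 * ε))
    (Hy : ∀ᶠ n in (U : Filter ℕ), ∃ Z' ⊆ (G n).Z,
      Z'.Nonempty ∧ B.d n ^ ε * ((G n).Z.card : ℝ) ≤ Z'.card ∧
      ∃ μ : ℝ, B.d n ^ ε ≤ |μ| ∧
      ∀ k ∈ Z', ∀ k' ∈ Z', |f n k' - f n k - μ * ((G n).z k' - (G n).z k)| ≤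
        2 * B.d n ^ y) : False := by
  have ha0 := K.a0
  have hdl0 := K.dl0
  have hσ0 : 0 < σ := ha0.trans_lt ha
  have hσ1 := H.σ_le
  have hD := H.D1
  have hD0 : 0 < D := by linarith
  have hC1 := K.C1_one
  have hC10 : 0 < C1 := by linarith
  have hyy : (0 : ℝ) ≤ y := hy.le
  have hD2ε : 0 < D ^ 2 * ε := by positivity
  have hD6 : 0 ≤ D ^ 6 := by positivity
  have hD2 : 0 ≤ D ^ 2 := by positivity
  have hC60 : 0 ≤ C6 := by rw [hC6]; positivity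
  have hε16 : 16 * ε ≤ hh := by
    refine le_trans (mul_le_mul_of_nonneg_right ?_ hεp.le) hε3
    linarith
  have hJ1' : (1 : ℝ) ≤ J := by exact_mod_cast hJ1
  have hK2' : (2 : ℝ) ≤ Kk := by exact_mod_cast hK2
  have hKh0 : 0 ≤ (Kk : ℝ) * hh := by positivity
  have hs0 : 0 ≤ s := by rw [hs]; positivity
  have hJh : hh ≤ (J : ℝ) * hh := by
    have := mul_le_mul_of_nonneg_right hJ1' hh0.le
    linarith
  have hx0 : (0 : ℝ) ≤ (J : ℝ) * hh := by linarith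
  have hJy : (J : ℝ) * hh = y - Kk * hh := by rw [← hyh]; ring
  have hxy : (J : ℝ) * hh ≤ y := by linarith
  -- boxes
  set pT : κ → ℝ := bx Fz sN sP sX sC y 0 0 0 0 with hpT
  set pS : κ → ℝ := bx Fz sN sP sX sC y 0 0 0 y with hpS
  set r : κ → ℝ := bx Fz sN sP sX sC y y 0 0 0 with hr
  have lT : pT ∈ Leg := K.leg y 0 0 0 0 hyy hyR le_rfl hyy le_rfl hyy le_rfl hyy le_rfl hyy
  have lS : pS ∈ Leg := K.leg y 0 0 0 y hyy hyR le_rfl hyy le_rfl hyy le_rfl hyy hyy le_rfl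
  have lr : r ∈ Leg := K.leg y y 0 0 0 hyy hyR hyy le_rfl le_rfl hyy le_rfl hyy le_rfl hyy
  have l00 : (0 : κ → ℝ) ∈ Leg := by
    have := K.leg0 0 0 0 le_rfl K.R0_pos.le le_rfl K.R0_pos.le le_rfl K.R0_pos.le
    rwa [bx_empty] at this
  have hTS : ∀ j, pT j ≤ pS j := fun j => bx_mono le_rfl le_rfl le_rfl le_rfl hyy j
  have b00 := K.b00
  have gy0 := K.gy0 hyy hyR
  have gz := K.g_zero y hyy hyR
  have νr : ν pT - ν r = g y y := by
    have := K.nu y y 0 0 0 hyy hyR hyy le_rfl le_rfl hyy le_rfl hyy le_rfl hyy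
    rw [hr, this, b00, gy0]; ring
  have νS : ν pS = ν pT - γ y y := by
    have := K.nu y 0 0 0 y hyy hyR le_rfl hyy le_rfl hyy le_rfl hyy hyy le_rfl
    rw [hpS, this, b00, gz]; ring
  have hxj : ∀ j < J, (0 : ℝ) ≤ (j : ℝ) * hh ∧ (j : ℝ) * hh ≤ y := by
    intro j hj
    have h1 : (j : ℝ) ≤ J := by exact_mod_cast hj.le
    refine ⟨by positivity, ?_⟩
    exact (mul_le_mul_of_nonneg_right h1 hh0.le).trans hxy
  have νQ : ∀ t, 0 ≤ t → t ≤ y → ν (bx Fz sN sP sX sC y t 0 0 y) = ν pT - g y t - γ y y := by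
    intro t ht hty
    have := K.nu y t 0 0 y hyy hyR ht hty le_rfl hyy le_rfl hyy hyy le_rfl
    rw [this, b00]; ring
  have ν1 : ν (bx Fz sN sP sX sC y ((J : ℝ) * hh) y y y) =
      ν pT - g y ((J : ℝ) * hh) - β y y - γ y y :=
    K.nu y _ y y y hyy hyR hx0 hxy hyy le_rfl hyy le_rfl hyy le_rfl
  have ν0 : ν (bx ∅ sN sP sX sC 0 0 y y 0) = ν 0 - β y y := by
    rw [K.nu0 y y 0 hyy hyR hyy hyR le_rfl K.R0_pos.le, K.g00]; ring
  have hgup := K.g_up y hyy hyR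
  have hglow := K.g_low y _ hx0 hxy hyR
  have hexp : g y y + hh - ν pS + ε + (ν (bx Fz sN sP sX sC y ((J : ℝ) * hh) y y y) -
      ν (bx ∅ sN sP sX sC 0 0 y y 0) + (D ^ 6 + 2 * D ^ 2 + 1) * ε) ≤
      s' - ν 0 - (D + 1) * ε := by
    rw [ν1, ν0, νS, ← hC6]
    have h1 : g y y - g y ((J : ℝ) * hh) ≤ (dl * ((J : ℝ) + Kk) + Kk) * hh := by
      have e1 : (a + dl) * y = (a + dl) * (((J : ℝ) + Kk) * hh) := by rw [hyh]
      have ha1 : a ≤ 1 := (ha.trans_le hσ1).le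
      have e2 : a * (Kk * hh) ≤ 1 * (Kk * hh) := mul_le_mul_of_nonneg_right ha1 hKh0
      have e3 : (a + dl) * (((J : ℝ) + Kk) * hh) - a * ((J : ℝ) * hh) =
          a * (Kk * hh) + dl * ((J : ℝ) + Kk) * hh := by ring
      have e4 : (dl * ((J : ℝ) + Kk) + Kk) * hh = dl * ((J : ℝ) + Kk) * hh + Kk * hh := by ring
      linarith
    have h2 : (C6 + D + 2) * ε ≤ hh := by
      refine le_trans (mul_le_mul_of_nonneg_right ?_ hεp.le) hε3
      linarith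
    have e5 : s' = (dl * ((J : ℝ) + Kk) + Kk) * hh + 2 * hh := by rw [hs']; ring
    rw [e5]
    have e6 : (C6 + D + 2) * ε = C6 * ε + (D + 1) * ε + ε := by ring
    linarith
  -- choice of the slope
  obtain ⟨q, hq⟩ : ∃ q : ℕ → Finset ℕ × ℝ, ∀ᶠ n in (U : Filter ℕ),
      (q n).1 ⊆ (G n).Z ∧ (q n).1.Nonempty ∧
      B.d n ^ ε * ((G n).Z.card : ℝ) ≤ (q n).1.card ∧
      B.d n ^ ε ≤ |(q n).2| ∧ ∀ k ∈ (q n).1, ∀ k' ∈ (q n).1,
        |f n k' - f n k - (q n).2 * ((G n).z k' - (G n).z k)| ≤ 2 * B.d n ^ y := by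
    have hex : ∀ᶠ n in (U : Filter ℕ), ∃ q : Finset ℕ × ℝ,
        q.1 ⊆ (G n).Z ∧ q.1.Nonempty ∧ B.d n ^ ε * ((G n).Z.card : ℝ) ≤ q.1.card ∧
        B.d n ^ ε ≤ |q.2| ∧ ∀ k ∈ q.1, ∀ k' ∈ q.1,
          |f n k' - f n k - q.2 * ((G n).z k' - (G n).z k)| ≤ 2 * B.d n ^ y := by
      filter_upwards [Hy] with n hn
      obtain ⟨Z', h1, h2, h3, μ, h4, h5⟩ := hn
      exact ⟨(Z', μ), h1, h2, h3, h4, h5⟩
    exact hex.choice
  have hCT0 : 0 < C1 * D ^ 2 := by positivity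
  refine kauf_E H pS pT r lS lT lr (fun j => bx_mono le_rfl hyy le_rfl le_rfl le_rfl j) J
    (fun j => (j : ℝ) * hh) (fun j => σ * (((J + Kk - 2 - j : ℕ) : ℝ) * hh))
    (fun j => bx Fz sN sP sX sC y ((j : ℝ) * hh) 0 0 y)
    (fun j hj => K.leg y _ 0 0 y hyy hyR (hxj j hj).1 (hxj j hj).2 le_rfl hyy le_rfl hyy hyy
      le_rfl) (CT := C1 * D ^ 2) (CN := D ^ 2) (Cb := 2) (CD := D ^ 2) (ε := ε) (s := hh)
    hCT0 (by positivity) (by norm_num) hεp ?_ ?_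
    (fun n k₀ i i' => min 1 (max |(G n).rel k₀ i i' sN|
      |(G n).rel k₀ i i' sP - (q n).2 * (G n).rel k₀ i i' sX|)) ?_
  · -- numbers
    intro j hj
    obtain ⟨x1, x2⟩ := hxj j hj
    have e1 : ν pS - ν (bx Fz sN sP sX sC y ((j : ℝ) * hh) 0 0 y) = g y ((j : ℝ) * hh) := by
      rw [νQ _ x1 x2, νS]; ring
    rw [e1, νr, ← hCt]
    refine arithF hj hK2 ha0 ha hσ1 hh0 hε1 hA ?_ (K.g_low y _ x1 x2 hyR)
    rw [hyh]
    exact hgup
  · refine le_trans (mul_le_mul_of_nonneg_right ?_ hεp.le) hε1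
    have : 0 ≤ D * D ^ 2 := by positivity
    rw [hCt]
    linarith
  have hNR : ((J + Kk : ℕ) : ℝ) * hh ≤ R := by
    push_cast
    rw [hyh]
    exact hyR.trans hR0
  have hh8R : hh / 8 ≤ R := by linarith [hyR.trans hR0]
  have hsp := spread_F H K hyR hεp hs0 hs10 hs1R h1 h2 h3
  filter_upwards [hq, hsp, cells_F H K hyy hyR hx0 hxy hεp, frost_set H hh0 hNR hεp,
    box_pair H.toRUnif pS lS hεp, K.ev y hyy hyR (D ^ 2 * ε) hD2ε, K.bd, K.add ε hεp,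
    K.bd1 ε hεp, H.low pS lS ε hεp, H.up 0 l00 ε hεp, H.slice ε hεp,
    H.frost (hh / 8) (by positivity) hh8R ε hεp, ev_const_le B hεp 10,
    ev_const_le B (half_pos hh0) 8, ev_const_le B (show 0 < hh / 8 by positivity) 4,
    ev_small B hεp 4] with n hZ hspr hcells hfro hpair hev hbd hadd hbd1 hlowS hup0 hsl hfr8
    hc10 hc8 hc4 hce
  clear hq hsp Hy
  obtain ⟨hZ', hne, hcard, hμ, hf⟩ := hZ
  have hpow : ∀ t : ℝ, 0 < B.d n ^ t := fun t => rpos B n t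
  generalize (q n).1 = Z' at hZ' hne hcard hf
  generalize (q n).2 = μ at hμ hf ⊢
  have hμ4 := mu_bound H.base hZ' hne hyy hεp hε4 hcard hfr8 hbd hf hc4 hce
  have hμs : |μ| ≤ B.d n ^ (-s) := by
    refine hμ4.trans (rpow_anti B n ?_)
    have : s = Kk * hh + hh := by rw [hs]; ring
    linarith
  -- the incidences with small spread
  have hdens := dens_E H hZ' hsl hce
    ((G n).I.filter fun q => q.2 ∈ Z' ∧
      ((((G n).slice q.2).filter fun l => |(G n).rel q.2 q.1 l sP - μ *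
        (G n).rel q.2 q.1 l sX| ≤ B.d n ^ (y - s)).card : ℝ) < B.d n ^ s' * ((G n).L.card : ℝ))
    ((G n).I.filter fun q => q.2 ∈ Z' ∧
      B.d n ^ s' * ((G n).L.card : ℝ) ≤ ((((G n).slice q.2).filter fun l =>
        |(G n).rel q.2 q.1 l sP - μ * (G n).rel q.2 q.1 l sX| ≤ B.d n ^ (y - s)).card : ℝ))
    (by
      intro q hqI hqZ
      by_cases hc : ((((G n).slice q.2).filter fun l => |(G n).rel q.2 q.1 l sP - μ *
          (G n).rel q.2 q.1 l sX| ≤ B.d n ^ (y - s)).card : ℝ) <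
          B.d n ^ s' * ((G n).L.card : ℝ)
      · exact Or.inl (mem_filter.2 ⟨hqI, hqZ, hc⟩)
      · exact Or.inr (mem_filter.2 ⟨hqI, hqZ, not_lt.1 hc⟩))
    (hspr Z' hZ' hne hcard μ hμ hμs hf _ (filter_subset _ _)
      (fun q hq => (mem_filter.1 hq).2))
  refine ⟨Z', hZ', hne, _, filter_subset _ _, fun q hq => (mem_filter.1 hq).2.1, hdens,
    fun k₀ hk₀' i₀ hi₀ => ?_⟩
  have hk₀ := hZ' hk₀'
  have hI0 := H.memSlice.1 hi₀
  have hS : ∀ i ∈ (G n).box pS ε i₀ k₀, (i, k₀) ∈ (G n).I := fun i hi =>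
    H.memSlice.1 (RCfg.box_subset_slice hi)
  have hSS : ∀ i ∈ (G n).box pS ε i₀ k₀, ∀ i' ∈ (G n).box pS ε i₀ k₀,
      (G n).loose pS (D ^ 2 * ε) k₀ i i' := fun i hi i' hi' => hpair k₀ i₀ i i' hI0 hi hi'
  have hSS0 : ∀ i ∈ (G n).box pS ε i₀ k₀, ∀ i' ∈ (G n).box pS ε i₀ k₀,
      (G n).loose pT (D ^ 2 * ε) k₀ i i' := fun i hi i' hi' =>
    H.loose_mono hTS le_rfl (hSS i hi i' hi')
  have hslot : ∀ i ∈ (G n).box pS ε i₀ k₀, ∀ i' ∈ (G n).box pS ε i₀ k₀, ∀ s : κ, pT s = 0 →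
      |(G n).rel k₀ i i' s| ≤ B.d n ^ (-(D ^ 2 * ε)) := by
    intro i hi i' hi' s hs
    have := hSS0 i hi i' hi' s
    rw [H.base n, hs, zero_sub] at this
    exact this
  have q1 : pT sN = 0 := bx_N
  have q3 : pT sX = 0 := bx_X K.NX K.PX
  have q4 : pS sC = y := bx_C K.NC K.PC K.XC
  have hrN : r sN = y := bx_N
  have hA1ε : C1 * (D ^ 2 * ε) ≤ C1 * D ^ 7 * ε := by
    have : D ^ 2 ≤ D ^ 7 := pow_le_pow_right₀ hD (by norm_num)
    have h1 : D ^ 2 * ε ≤ D ^ 7 * ε := mul_le_mul_of_nonneg_right this hεp.le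
    calc C1 * (D ^ 2 * ε) ≤ C1 * (D ^ 7 * ε) := mul_le_mul_of_nonneg_left h1 hC10.le
      _ = _ := by ring
  have hA2ε : D ^ 2 * ε ≤ C1 * D ^ 7 * ε := by
    refine le_trans ?_ hA1ε
    have : 1 * (D ^ 2 * ε) ≤ C1 * (D ^ 2 * ε) := mul_le_mul_of_nonneg_right hC1 hD2ε.le
    linarith
  refine ⟨?_, ?_, ?_, ?_, ?_⟩
  · intro i hi i' hi'
    refine (min_le_left _ _).trans ?_
    have e1 : ((0 : ℕ) : ℝ) * hh - D ^ 2 * ε = -(D ^ 2 * ε) := by push_cast; ring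
    rw [e1]
    exact Real.one_le_rpow_of_pos_of_le_one_of_nonpos (B.pos n) (B.lt n).le (by linarith)
  · intro j hj i hi i' hi' hd t
    have h1 := hSS i hi i' hi' t
    by_cases htN : t = sN
    · subst htN
      rw [bx_N, H.base n]
      rcases Nat.eq_zero_or_pos j with rfl | hj0
      · have e1 : ((0 : ℕ) : ℝ) * hh - D ^ 2 * ε = -(D ^ 2 * ε) := by push_cast; ring
        rw [e1]
        exact hslot i hi i' hi' t q1
      · have hj' : (1 : ℝ) ≤ j := by exact_mod_cast hj0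
        have h5 : 1 * hh ≤ (j : ℝ) * hh := mul_le_mul_of_nonneg_right hj' hh0.le
        exact (le_max_left _ _).trans (dist_lt B (by linarith) hd)
    · refine h1.trans (le_of_eq ?_)
      simp only [hpS, bx, if_neg htN]
  · intro k hk i hi i' hi' hIk hIk'
    have := (hev k₀ k i i' (hS i hi) (hS i' hi') hIk hIk' (hSS0 i hi i' hi')).1
    refine H.loose_mono (fun _ => le_rfl) (le_of_eq ?_) this
    ring
  · intro j hj i hi i' hi' hd
    refine count_F H.base hZ' (sN := sN) (sP := sP) (sX := sX) (sC := sC) (AT := C1 * D ^ 7) (CDε := D ^ 2 * ε) hj hK2 hh0 hyh hk₀' hrN hbd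
      hf ?_ ?_ ?_ hD2ε.le (by linarith) (le_of_eq (by ring)) ?_ hd hc10 hc8
      (fun T hT hTc => hfro (J + Kk - 2 - j) (by simp; omega) T hT hTc) hcard
    · intro k hIk hIk'
      refine (hev k₀ k i i' (hS i hi) (hS i' hi') hIk hIk' (hSS0 i hi i' hi')).2.trans
        (rpow_anti B n (by linarith))
    · have := hSS i hi i' hi' sC
      rw [H.base n, q4] at this
      exact this.trans (rpow_anti B n (by linarith))
    · calc B.d n ^ y * |(G n).rel k₀ i i' sX| ≤ B.d n ^ y * B.d n ^ (-(D ^ 2 * ε)) :=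
            mul_le_mul_of_nonneg_left (hslot i hi i' hi' sX q3) (hpow _).le
        _ = B.d n ^ (y + -(D ^ 2 * ε)) := by rw [rpow_add']
        _ ≤ _ := rpow_anti B n (by linarith)
    · rw [← hA']
      have : 0 ≤ A * ε := by rw [hA']; positivity
      linarith
  · -- the last level: frozen -> unfrozen
    intro i hi hiE
    have hL : ((G n).L.card : ℝ) ≤ B.d n ^ (-ν 0 - (D + 1) * ε) := by
      have h1 : (((G n).slice k₀).card : ℝ) ≤ B.d n ^ (-ν 0 - D * ε) := by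
        refine le_trans (Nat.cast_le.2 (card_le_card fun l hl => ?_)) (hup0 i₀ k₀ hI0)
        refine RCfg.mem_box.2 ⟨hl, fun j => ?_⟩
        rw [H.base n, Pi.zero_apply, zero_sub]
        exact hbd1 k₀ i₀ l hI0 (H.memSlice.1 hl) j
      have h2 := hsl k₀ hk₀
      have h3 : B.d n ^ ε * ((G n).L.card : ℝ) ≤ B.d n ^ ε * B.d n ^ (-ν 0 - (D + 1) * ε) := by
        refine h2.trans (h1.trans (le_of_eq ?_))
        rw [← rpow_add']; congr 1; ring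
      exact le_of_mul_le_mul_left h3 (hpow _)
    rw [νr]
    refine last_F H (R0 := R0) (s := s) (s' := s') (XJ := (J : ℝ) * hh - D ^ 2 * ε)
      (c2 := g y y + hh) hI0 hi hyR hh0 (by linarith) hμ4 (by linarith) ?_ ?_
      (fun T hT hTN => hcells k₀ i₀ i hI0 hi T hT hTN) hadd (hlowS i₀ k₀ hI0) hL hc8
      (mem_filter.1 hiE).2.2 hexp
    · have : s = Kk * hh + hh := by rw [hs]; ring
      linarith
    · have : s = Kk * hh + hh := by rw [hs]; ring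
      linarith

end Crest.Agent.R136.NsF544
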