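import Crest.Agent.R136.NsF6_544

/-!
# R136, row F, double resonance, part 7 (helper544): `kappa_one_F`, `kappa_one_Fw`

* `no_slope_F`.
* `kappa_one_F` : `K1F` with `dl` small is contradictory when `a < σ`.
* `K1Fw` : the same data with the frozen slots at depth `lam * y`; `kappa_one_Fw`.
-/

set_option autoImplicit false
set_option linter.unusedVariables false
set_option linter.unusedSectionVars false

open Filter Topology Finset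

namespace Crest.Agent.R136.NsF544

open Crest.Agent.R138.Ex926 (Base U)
open Crest.Agent.R136.Gf356
open Crest.Agent.R136.CD366
open Crest.Agent.R136.C1s940 (K3w K3core_w)
open Crest.Agent.R136.Fe1355 (RawTw shift_R)

section

variable {κ : Type} [DecidableEq κ] {B : Base} {G : ℕ → RCfg κ} {Leg : Set (κ → ℝ)}
  {ν : (κ → ℝ) → ℝ} {σ R D : ℝ} {Fz : Finset κ} {sN sP sX sC : κ} {f : ℕ → ℕ → ℝ}
  {R0 C1 a dl m : ℝ} {g : ℝ → ℝ → ℝ} {β : ℝ → ℝ → ℝ} {γ : ℝ → ℝ → ℝ} {γ0 : ℝ → ℝ}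

/-- **no sloped strips** -/
theorem no_slope_F (H : RModel B G σ R Leg ν D)
    (K : K1F B G Leg ν Fz sN sP sX sC f R0 C1 a dl m g β γ γ0) (hR0 : R0 ≤ R) (ha : a < σ)
    (J Kk : ℕ) {κ1 : ℝ} (hκ0 : 0 < κ1) (hκm : κ1 ≤ m / 8) (hκσ : κ1 ≤ σ / 8)
    (hA : dl * ((J : ℝ) + Kk) + 4 ≤ (σ - a) * ((Kk : ℝ) - 1))
    (hB : dl * ((J : ℝ) + Kk) + Kk + 6 ≤ κ1 * ((J : ℝ) + Kk)) :
    ∃ η₁ : ℝ, 0 < η₁ ∧ ∀ y, 0 < y → y ≤ R0 → ¬ ∀ᶠ n in (U : Filter ℕ), ∃ Z' ⊆ (G n).Z,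
      Z'.Nonempty ∧ B.d n ^ (η₁ * y) * ((G n).Z.card : ℝ) ≤ Z'.card ∧
      ∃ μ : ℝ, B.d n ^ (η₁ * y) ≤ |μ| ∧
      ∀ k ∈ Z', ∀ k' ∈ Z', |f n k' - f n k - μ * ((G n).z k' - (G n).z k)| ≤
        2 * B.d n ^ y := by
  have ha0 := K.a0
  have hdl0 := K.dl0
  have hσ0 : 0 < σ := ha0.trans_lt ha
  have hσ1 := H.σ_le
  have hD := H.D1
  have hD0 : 0 < D := by linarith
  have hC1 := K.C1_one
  have hC10 : 0 < C1 := by linarith
  have hm := K.m_pos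
  have hκ1 : κ1 ≤ 1 / 8 := by linarith
  have hK0 : (0 : ℝ) ≤ Kk := Nat.cast_nonneg _
  have hJ0 : (0 : ℝ) ≤ J := Nat.cast_nonneg _
  obtain ⟨N, hN⟩ : ∃ N : ℝ, N = (J : ℝ) + Kk := ⟨_, rfl⟩
  rw [← hN] at hA hB
  have hN0 : 0 ≤ N := by rw [hN]; positivity
  have hdN : 0 ≤ dl * N := mul_nonneg hdl0 hN0
  have hK2' : (2 : ℝ) < Kk := by
    have h1 : σ - a ≤ 1 := by linarith
    have h2 : (4 : ℝ) ≤ (σ - a) * ((Kk : ℝ) - 1) := by linarith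
    have h3 : 0 < (Kk : ℝ) - 1 := by
      by_contra hcon
      have : (σ - a) * ((Kk : ℝ) - 1) ≤ 0 :=
        mul_nonpos_of_nonneg_of_nonpos (by linarith) (by linarith)
      linarith
    have h4 : (σ - a) * ((Kk : ℝ) - 1) ≤ 1 * ((Kk : ℝ) - 1) :=
      mul_le_mul_of_nonneg_right h1 h3.le
    linarith
  have hK2 : 2 ≤ Kk := by exact_mod_cast hK2'.le
  have hN8 : 8 * ((Kk : ℝ) + 6) ≤ N := by
    have h1 : κ1 * N ≤ 1 / 8 * N := mul_le_mul_of_nonneg_right hκ1 hN0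
    linarith
  have hJ1' : (1 : ℝ) < J := by linarith
  have hJ1 : 1 ≤ J := by exact_mod_cast hJ1'.le
  have hNpos : 0 < N := by linarith
  obtain ⟨A, hA'⟩ : ∃ A : ℝ, A = C1 * D ^ 7 + 1 := ⟨_, rfl⟩
  obtain ⟨Ct, hCt⟩ : ∃ Ct : ℝ, Ct = (D ^ 2 + 1) * (C1 * D ^ 2) + D * D ^ 2 + 2 + 2 * D + 14 :=
    ⟨_, rfl⟩
  obtain ⟨C6, hC6⟩ : ∃ C6 : ℝ, C6 = D ^ 6 + 2 * D ^ 2 + 1 := ⟨_, rfl⟩
  have hA0 : 0 < A := by rw [hA']; positivity
  have hCt0 : 0 < Ct := by rw [hCt]; positivity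
  have hC60 : 0 < C6 := by rw [hC6]; positivity
  have hq0 : 0 ≤ 64 / σ := by positivity
  obtain ⟨E, hE⟩ : ∃ E : ℝ, E = Ct + 16 * A + C6 + 2 * D + 16 + 64 / σ := ⟨_, rfl⟩
  have hE0 : 0 < E := by rw [hE]; positivity
  refine ⟨1 / (N * E), by positivity, fun y hy hyR Hy => ?_⟩
  obtain ⟨hh, hhh⟩ : ∃ hh : ℝ, hh = y / N := ⟨_, rfl⟩
  have hh0 : 0 < hh := by rw [hhh]; positivity
  have hyh : N * hh = y := by rw [hhh]; field_simp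
  obtain ⟨ε, hε⟩ : ∃ ε : ℝ, ε = hh / E := ⟨_, rfl⟩
  have hεp : 0 < ε := by rw [hε]; positivity
  have hεy : 1 / (N * E) * y = ε := by
    rw [hε, hhh]; field_simp
  rw [hεy] at Hy
  have hεh : E * ε = hh := by rw [hε]; field_simp
  have hsub : ∀ c : ℝ, c ≤ E → c * ε ≤ hh := by
    intro c hc
    rw [← hεh]
    exact mul_le_mul_of_nonneg_right hc hεp.le
  have hA7 : D ^ 2 ≤ A := by
    have h1 : D ^ 2 ≤ D ^ 7 := pow_le_pow_right₀ hD (by norm_num)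
    have h2 : 1 * D ^ 7 ≤ C1 * D ^ 7 := mul_le_mul_of_nonneg_right hC1 (by positivity)
    rw [hA']; linarith
  have hε1 : Ct * ε ≤ hh := hsub _ (by rw [hE]; linarith)
  have hε2 : 16 * A * ε ≤ hh := hsub _ (by rw [hE]; linarith)
  have hε3 : (C6 + 2 * D + 16) * ε ≤ hh := hsub _ (by rw [hE]; linarith)
  have hε16 : 16 * ε ≤ hh := hsub _ (by rw [hE]; linarith)
  have hε6 : (D + 6) * ε ≤ hh := hsub _ (by rw [hE]; linarith)
  have hε4 : 64 * ε ≤ σ * hh := by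
    have h1 : 64 / σ * ε ≤ hh := hsub _ (by rw [hE]; linarith)
    have h2 : σ * (64 / σ * ε) = 64 * ε := by field_simp
    rw [← h2]
    exact mul_le_mul_of_nonneg_left h1 hσ0.le
  have hD2h : 16 * (D ^ 2 * ε) ≤ hh := by
    refine le_trans ?_ hε2
    have := mul_le_mul_of_nonneg_right hA7 hεp.le
    linarith
  have hyy : (0 : ℝ) ≤ y := hy.le
  have hN8h : 8 * (((Kk : ℝ) + 6) * hh) ≤ y := by
    rw [← hyh]
    have := mul_le_mul_of_nonneg_right hN8 hh0.le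
    linarith
  have hKh0 : 0 ≤ (Kk : ℝ) * hh := by positivity
  have hdNh : 0 ≤ dl * N * hh := by positivity
  have hBh : (dl * N + Kk + 6) * hh ≤ κ1 * y := by
    rw [← hyh]
    have := mul_le_mul_of_nonneg_right hB hh0.le
    linarith
  obtain ⟨s, hs⟩ : ∃ s : ℝ, s = ((Kk : ℝ) + 1) * hh := ⟨_, rfl⟩
  obtain ⟨s', hs'⟩ : ∃ s' : ℝ, s' = (dl * N + Kk + 2) * hh := ⟨_, rfl⟩
  obtain ⟨s1, hs1⟩ : ∃ s1 : ℝ, s1 = (dl * N + Kk + 4) * hh / σ := ⟨_, rfl⟩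
  have hs10 : 0 < s1 := by rw [hs1]; positivity
  have hσs1 : σ * s1 = (dl * N + Kk + 4) * hh := by rw [hs1]; field_simp
  have e4 : (dl * N + Kk + 4) * hh = (dl * N + Kk + 6) * hh - 2 * hh := by ring
  have e2 : (dl * N + Kk + 2) * hh = (dl * N + Kk + 6) * hh - 4 * hh := by ring
  have hs1y : s1 ≤ y / 8 := by
    have h1 : σ * s1 ≤ σ * (y / 8) := by
      rw [hσs1]
      have h2 : κ1 * y ≤ σ / 8 * y := mul_le_mul_of_nonneg_right hκσ hyy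
      linarith
    exact le_of_mul_le_mul_left h1 hσ0
  have hsy : s + 5 * hh ≤ y / 8 := by
    have : ((Kk : ℝ) + 1) * hh = ((Kk : ℝ) + 6) * hh - 5 * hh := by ring
    rw [hs, this]; linarith
  refine no_slope_F1 (s := s) (s' := s') (s1 := s1) H K hR0 ha J Kk hJ1 hK2
    (by rw [← hN]; exact hA) hA' hC6 hCt hy hyR hh0
    (by rw [← hN]; exact hyh) hεp hε1 hε2 hε3 hε4 hD2h hs (by rw [← hN]; exact hs') hs10
    (by linarith) ?_ ?_ ?_ Hy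
  · rw [hσs1, hs', e2, e4]; linarith
  · linarith
  · have h1 : s' + (D + 6) * ε ≤ κ1 * y := by
      rw [hs', e2]
      linarith
    have h3 : κ1 * y ≤ m / 8 * y := mul_le_mul_of_nonneg_right hκm hyy
    have h4 : m * (y / 2) ≤ m * (y - s - s1 - 2 * ε) :=
      mul_le_mul_of_nonneg_left (by linarith) hm.le
    have h5 : 0 ≤ m * y := by positivity
    linarith

/-- choice of the number of levels -/
theorem levels {σ a κ1 dl : ℝ} (ha : a < σ) (h1 : σ - a ≤ 1) (hκ0 : 0 < κ1) (hκ1 : κ1 ≤ 1)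
    (hdl0 : 0 ≤ dl) (hdl : dl ≤ κ1 * (σ - a) / 8) : ∃ J Kk : ℕ,
      dl * ((J : ℝ) + Kk) + 4 ≤ (σ - a) * ((Kk : ℝ) - 1) ∧
      dl * ((J : ℝ) + Kk) + Kk + 6 ≤ κ1 * ((J : ℝ) + Kk) := by
  have hd : 0 < σ - a := by linarith
  obtain ⟨Nn, hNn⟩ : ∃ Nn : ℕ, (4 / (σ - a) + 10) * 2 / κ1 < Nn := exists_nat_gt _
  rw [div_lt_iff₀ hκ0] at hNn
  have hNn0 : (0 : ℝ) ≤ Nn := Nat.cast_nonneg _
  have hq : 0 < 4 / (σ - a) := by positivity
  obtain ⟨T, hT⟩ : ∃ T : ℝ, T = (dl * Nn + 4) / (σ - a) := ⟨_, rfl⟩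
  have hT0 : 0 ≤ T := by rw [hT]; positivity
  have hTe : (σ - a) * T = dl * Nn + 4 := by rw [hT]; field_simp
  have hc1 : T ≤ (⌈T⌉₊ : ℝ) := Nat.le_ceil _
  have hc2 : (⌈T⌉₊ : ℝ) < T + 1 := Nat.ceil_lt_add_one hT0
  have hTu : T ≤ κ1 * Nn / 8 + 4 / (σ - a) := by
    have h2 : dl * Nn ≤ κ1 * (σ - a) / 8 * Nn := mul_le_mul_of_nonneg_right hdl hNn0
    have h3 : (σ - a) * T ≤ (σ - a) * (κ1 * Nn / 8 + 4 / (σ - a)) := by
      rw [hTe, mul_add, mul_div_cancel₀ _ hd.ne']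
      linarith
    exact le_of_mul_le_mul_left h3 hd
  have hdlN : dl * Nn ≤ κ1 * Nn / 8 := by
    have h2 : dl * Nn ≤ κ1 * (σ - a) / 8 * Nn := mul_le_mul_of_nonneg_right hdl hNn0
    have h3 : κ1 * (σ - a) / 8 * Nn ≤ κ1 * 1 / 8 * Nn := by
      refine mul_le_mul_of_nonneg_right ?_ hNn0
      have := mul_le_mul_of_nonneg_left h1 hκ0.le
      linarith
    linarith
  have hκN : κ1 * Nn ≤ 1 * Nn := mul_le_mul_of_nonneg_right hκ1 hNn0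
  have hle : ⌈T⌉₊ + 1 ≤ Nn := by
    have : ((⌈T⌉₊ + 1 : ℕ) : ℝ) ≤ Nn := by
      push_cast
      linarith
    exact_mod_cast this
  refine ⟨Nn - (⌈T⌉₊ + 1), ⌈T⌉₊ + 1, ?_, ?_⟩
  · have e1 : ((Nn - (⌈T⌉₊ + 1) : ℕ) : ℝ) + ((⌈T⌉₊ + 1 : ℕ) : ℝ) = Nn := by
      rw [Nat.cast_sub hle]; ring
    rw [e1]
    push_cast
    have := mul_le_mul_of_nonneg_left hc1 hd.le
    linarith
  · have e1 : ((Nn - (⌈T⌉₊ + 1) : ℕ) : ℝ) + ((⌈T⌉₊ + 1 : ℕ) : ℝ) = Nn := by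
      rw [Nat.cast_sub hle]; ring
    rw [e1]
    push_cast
    linarith

/-- monotonicity of `β` -/
theorem K1F.mono (H : RModel B G σ R Leg ν D)
    (K : K1F B G Leg ν Fz sN sP sX sC f R0 C1 a dl m g β γ γ0) {t : ℝ} (ht : 0 ≤ t)
    (hty : t ≤ R0) : t ≤ β t t := by
  have h2 := H.nu_anti (p := bx Fz sN sP sX sC t 0 0 t 0) (p' := bx Fz sN sP sX sC t 0 t t 0)
    (K.leg t 0 0 t 0 ht hty le_rfl ht le_rfl ht ht le_rfl le_rfl ht)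
    (K.leg t 0 t t 0 ht hty le_rfl ht ht le_rfl ht le_rfl le_rfl ht)
    (fun s => bx_mono le_rfl le_rfl ht le_rfl le_rfl s)
  rw [K.nu t 0 0 t 0 ht hty le_rfl ht le_rfl ht ht le_rfl le_rfl ht,
    K.nu t 0 t t 0 ht hty le_rfl ht ht le_rfl ht le_rfl le_rfl ht] at h2
  have h3 := K.X_full t ht hty
  linarith

/-- `K3w` out of `K1F` -/
theorem K1F.toK3w (H : RModel B G σ R Leg ν D)
    (K : K1F B G Leg ν Fz sN sP sX sC f R0 C1 a dl m g β γ γ0)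
    (htw : RawTw B G fun n k k' => f n k' - f n k) (ha1 : a < 1) (hdl : 4 * dl ≤ 1 - a) :
    K3w B G Leg ν Fz sN sP sX sC f R0 C1 (a + dl) ((1 - a) / 2) := by
  have hR := K.R0_pos
  have b00 := K.b00
  refine ⟨hR, K.C1_one, by linarith, K.NP, K.NX, K.NC, K.PX, K.PC, K.XC, K.leg, K.bd, K.ev, ?_,
    ?_, ?_⟩
  · intro y hy0 hy
    rw [K.nu y y 0 0 0 hy0 hy hy0 le_rfl le_rfl hy0 le_rfl hy0 le_rfl hy0, b00, K.gy0 hy0 hy]
    have := K.g_up y hy0 hy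
    linarith
  · intro y t ht hty hy
    have hy0 : 0 ≤ y := ht.trans hty
    rw [K.nu y t t 0 0 hy0 hy ht hty ht hty le_rfl hy0 le_rfl hy0, K.gy0 hy0 hy]
    have h1 := K.g_low y t ht hty hy
    have h2 := K.shift H htw ht (hty.trans hy)
    have h3 := K.mono H ht (hty.trans hy)
    have h4 := K.g_up t ht (hty.trans hy)
    have h5 : dl * t * 4 ≤ (1 - a) * t := by
      have := mul_le_mul_of_nonneg_right hdl ht
      linarith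
    linarith
  · intro t ht htR
    rw [K.nu R0 R0 0 0 R0 hR.le le_rfl hR.le le_rfl le_rfl hR.le le_rfl hR.le hR.le le_rfl,
      K.nu R0 R0 t t R0 hR.le le_rfl hR.le le_rfl ht htR ht htR hR.le le_rfl, b00]
    have h3 := K.mono H ht htR
    have h5 : dl * t * 4 ≤ (1 - a) * t := by
      have := mul_le_mul_of_nonneg_right hdl ht
      linarith
    have h6 : 0 ≤ (1 - a) * t := mul_nonneg (by linarith) ht
    linarith

end

/-- **`kappa_one_F`** -/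
theorem kappa_one_F {σ a m : ℝ} (ha0 : 0 ≤ a) (ha : a < σ) (hσ1 : σ ≤ 1) (hm : 0 < m) :
    ∃ dl0 : ℝ, 0 < dl0 ∧ ∀ dl : ℝ, dl ≤ dl0 → ∀ {κ : Type} [DecidableEq κ] {B : Base}
      {G : ℕ → RCfg κ} {Leg : Set (κ → ℝ)} {ν : (κ → ℝ) → ℝ} {R D : ℝ} {Fz : Finset κ}
      {sN sP sX sC : κ} {f : ℕ → ℕ → ℝ} {R0 C1 : ℝ} {g : ℝ → ℝ → ℝ} {β : ℝ → ℝ → ℝ}
      {γ : ℝ → ℝ → ℝ} {γ0 : ℝ → ℝ}, RModel B G σ R Leg ν D →
      K1F B G Leg ν Fz sN sP sX sC f R0 C1 a dl m g β γ γ0 →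
      RawTw B G (fun n k k' => f n k' - f n k) → R0 ≤ R → False := by
  have hσ0 : 0 < σ := ha0.trans_lt ha
  have hd : 0 < σ - a := by linarith
  obtain ⟨κ1, hκ1⟩ : ∃ κ1 : ℝ, κ1 = min m σ / 8 := ⟨_, rfl⟩
  have hκ0 : 0 < κ1 := by
    rw [hκ1]
    have := lt_min hm hσ0
    positivity
  have hκm : κ1 ≤ m / 8 := by rw [hκ1]; linarith [min_le_left m σ]
  have hκσ : κ1 ≤ σ / 8 := by rw [hκ1]; linarith [min_le_right m σ]
  have hκ8 : κ1 ≤ 1 / 8 := by linarith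
  refine ⟨κ1 * (σ - a) / 8, by positivity, ?_⟩
  intro dl hdl κ _ B G Leg ν R D Fz sN sP sX sC f R0 C1 g β γ γ0 H K htw hR0
  have hdl0 := K.dl0
  have hdl8 : dl ≤ (σ - a) / 64 := by
    have h1 : κ1 * (σ - a) ≤ 1 / 8 * (σ - a) := mul_le_mul_of_nonneg_right hκ8 hd.le
    linarith
  have hK3 := K.toK3w H htw (ha.trans_le hσ1) (by linarith)
  have key := K3core_w H hK3 hR0 (fun _ => by
    obtain ⟨J, Kk, hA, hB⟩ := levels ha (by linarith) hκ0 (by linarith) hdl0 hdl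
    exact no_slope_F H K hR0 ha J Kk hκ0 hκm hκσ hA hB)
  linarith

end Crest.Agent.R136.NsF544
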