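import Crest.Agent.R136.Thk_1
import Crest.Agent.R136.Gdt_1
import Crest.Agent.R136.Pin3_851
import Crest.Agent.R136.Rws_938
import Crest.Agent.R136.RwY_848
import Crest.Agent.R136.CtxZ_830
import Crest.Agent.R136.OwW5_831
import Crest.Agent.R136.OwW2_831
import Crest.Agent.R136.LadG2_697
import Crest.Agent.R136.SGa4_480
import Crest.Agent.R136.SmT_163
import Crest.Agent.R136.Ff5_880
import Crest.Agent.R136.Fw5_808
import Crest.Agent.R136.U4G_879
import Crest.Agent.R136.FinT_879
import Crest.Agent.R136.Mat2_464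
import Crest.Agent.R136.Clw6_768
import Crest.Agent.R136.RL9_626
import Crest.Agent.R136.J1m_484
import Crest.Agent.R136.Btr_879
import Crest.Agent.R136.Ffr2_262
import Crest.Agent.R136.HulW_565
import Crest.Agent.R136.Pl7e_186
import Crest.Agent.R136.Shv2_410
import Crest.Agent.R136.Alr_877
import Crest.Agent.R136.Cfo_877
import Crest.Agent.R136.Kcl4_44

/-!
# R136 (S0187): the whole wiring down to the leaves of PLAN 2 (helper1, audit)

`OpenJ` = the open statements over `J1c`; `OpenT` = the open leaves of the tilt;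
**`s0187_of_leaves : OpenT → (wrapper) → OpenR → (statement of S0187)`**.
-/

set_option autoImplicit false
set_option linter.unusedVariables false

open Filter Topology

namespace Crest.Agent.R136.Opn3

open Crest.Agent.R136
open Crest.Agent.R136.TopB550
open Crest.Agent.R136.NatT550
open Crest.Agent.R136.NetQ186
open Crest.Agent.R136.Top484
open Crest.Agent.R136.Net191
open Crest.Agent.R136.NetW191
open Crest.Agent.R136.PrW464
open Crest.Agent.R136.NatW697
open Crest.Agent.R136.LadW697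
open Crest.Agent.R136.ThS830
open Crest.Agent.R136.LadT830
open Crest.Agent.R136.EvW938
open Crest.Agent.R136.LadG697
open Crest.Agent.R136.Wq638
open Crest.Agent.R136.SmT163 (SeamStcA TiltB MateL ClwL)

/-- **open statements, rows of the thin table** -/
structure OpenR : Prop where
  /-- 191, 851, 848, 544 -/
  s35 : Pin851.Spec35
  s34 : Pin851.Spec34
  /-- 831, 312, 289, 887, 861, 480, 893, 697 -/
  quad : SeamQuadG
  /-- 403, 560, 938, 480, 619, 831 -/
  lin : SeamLinG

/-- **open statements, tilt of the curved pairs (PLAN 2)** -/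
structure OpenT : Prop where
  /-- 410, 524, 639, 511, 989, 108, 777, 89 -/
  share : Shd410.ShareR
  /-- 685, 571, 605 -/
  pl : Amx325.PLMx
  /-- 719, 412, 792 -/
  hull : Amx325.HullMx
  /-- 84, 615, 876, 501 -/
  nd : Amx325.NdMx
  /-- 208, 294 -/
  back : Alr877.CloseBack
  /-- 500 over the leaves of AlK_500 -/
  alk : Cfo877.AlkFalse

/-- the wrapper (102, 904, 51, 46) -/
def Wrap : Prop := Pl2.BTR Pl2.Al1 → Pl2.ALR Pl2.Al1 →
  ∃ η0 : ℝ, 0 < η0 ∧ ∀ (p : Par4) (D : Dat4), J1c η0 p D → TiltB D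

theorem btr (O : OpenT) : Pl2.BTR Pl2.Al1 :=
  Btr879.btr_of Cbc372.tiltCore Ffr262.flatFrame Hul565.wideHull Pl7186.tubeL
    (Shv410.shareL_of O.share)

theorem alr (O : OpenT) : Pl2.ALR Pl2.Al1 :=
  Alr877.alr_of (Kcl44.ubalA_of O.pl O.hull O.nd) O.back (Cfo877.alCore_of O.alk)

theorem rowsC (O : OpenR) : RowsC :=
  Rws938.rowsC_of (Pin851.pin3_of O.s35 O.s34) Vw848.deadhi2

theorem thinTable {η : ℝ} (hη0 : 0 < η) (hη : η ≤ 1/8) (O : OpenR) : ThinTable η :=
  thinTable_res (ThO830.seamThinOb hη0 (by linarith) Gdt1.gdThin) (rowsC O)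
    CtxZ830.seamCtx
    (seamWall_of SGa480.seamGau (RL626.seamWallG_rows (rowsC O) CtxZ830.seamCtx))
    OwW831.seamOwnC OwW831.seamClose
    OwW831.seamCap (seamQuad_of SGa480.seamGau O.quad) (seamLin_of SGa480.seamGau O.lin)

theorem seamU6 {η : ℝ} (hη : η ≤ 1) (hT : ∀ (p : Par4) (D : Dat4), J1c η p D → TiltB D) :
    TopB550.SeamU6J (fun p D => J1c η p D ∧ True) η :=
  Ut262.seamU6Q_of (Q := fun _ => True) (fun p D _ h => ParOk.of_J1c h)
    (Fl808.seamTiltFQ Ff880.flatFree (fun _ => True) η)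
    (SmT163.seamThinQ_J1c hη (SmT163.seamStcA_of (fun p D K x0 h hK => Stk464.mate_of h hK)
      (fun p D K x0 h hK => Clw768.clw_of h hK)) hT)

theorem ks4_of {η : ℝ} (hη0 : 0 < η) (hη : η ≤ 1/8)
    (hT : ∀ (p : Par4) (D : Dat4), J1c η p D → TiltB D) (O : OpenR) : KS879.KS4 :=
  ks4_of_seamsJ (J := fun p D => J1c η p D ∧ True)
    (fun h => by
      obtain ⟨p, D, hJ⟩ := U4G879.exists_core hη0 h
      exact ⟨p, D, hJ, trivial⟩)
    (seamU6 (by linarith) hT) (Thk1.thickTable hη0 hη) (thinTable hη0 hη O)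

theorem ks4_of_leaves (OT : OpenT) (hW : Wrap) (O : OpenR) : KS879.KS4 := by
  obtain ⟨η0, h0, hT⟩ := hW (btr OT) (alr OT)
  exact ks4_of (η := min (1/8) η0) (lt_min (by norm_num) h0) (min_le_left _ _)
    (fun p D h => hT p D (h.mono (min_le_right _ _))) O

/-- **S0187 from the open leaves** -/
theorem s0187_of_leaves (OT : OpenT) (hW : Wrap) (O : OpenR)
    (K : Set (EuclideanSpace ℝ (Fin 4)))
    (hK : ∀ e : EuclideanSpace ℝ (Fin 4), ‖e‖ = 1 →
      ∃ a : EuclideanSpace ℝ (Fin 4), segment ℝ a (a + e) ⊆ K) :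
    dimH K = 4 := KS879.s0187_of_KS4 (ks4_of_leaves OT hW O) K hK

end Crest.Agent.R136.Opn3
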