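import Crest.Agent.R136.Fin_484
import Crest.Agent.R136.ALf_877
import Crest.Agent.R136.BtrF_879
import Crest.Agent.R136.Shv2_410
import Crest.Agent.R136.Shy_410
import Crest.Agent.R136.AlX_500
import Crest.Agent.R136.LWe_467
import Crest.Agent.R136.V7b_818
import Crest.Agent.R136.CubW_851
import Crest.Agent.R136.LinF4_403
import Crest.Agent.R136.QGe_312

/-!
# R136 (S0187): the whole wiring down to eight leaves (helper1, audit)
-/

set_option autoImplicit false
set_option linter.unusedVariables false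

namespace Crest.Agent.R136.Opn4

open Crest.Agent.R136
open Crest.Agent.R136.Top484
open Crest.Agent.R136.LadG697

/-- the wrapper -/
def Wrap : Prop := Pl2.BTR Pl2.Al1 → Pl2.ALR Pl2.Al1 →
  ∃ η : ℝ, 0 < η ∧ ∀ (p : Par4) (D : Dat4), J1c η p D → SmT163.TiltB D

/-- **the open leaves** -/
structure Leaves : Prop where
  /-- 524 -/
  lnk : Lkp140.LnkSh
  /-- 84, 501, 325, 44, 615, 296 -/
  nd : Amx325.NdMx
  /-- 412 -/
  leafHull : Al500.LeafHull
  /-- 57, 876, 855 -/
  leafNd : Al500.LeafNd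
  /-- 601, 862 -/
  leafV6 : Al500.LeafV6
  /-- 102, 46, 904, 846 -/
  wrap : Wrap
  /-- 191, 851, 938, 480, 893 -/
  rows35 : Pin851.Rows35
  /-- 544, 861, 848, 893 -/
  rows34 : Pin851.Rows34

theorem btr (O : Leaves) : Pl2.BTR Pl2.Al1 :=
  Btr879.btr_of1 (Shv410.shareL_of (Shv410.shareR_of1 O.lnk))

theorem alr (O : Leaves) : Pl2.ALR Pl2.Al1 :=
  ALf877.alr_open2 O.nd (Al500.alkFalse_of Crest.Agent.R138.KMs630.km32 Plx571.leafPL O.leafHull
    O.leafNd Gen467.leafWedge V7818.leafV7 O.leafV6)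

theorem rowsC (O : Leaves) : LadG697.RowsC :=
  Rws938.rowsC_of (Pin851.pin3_of (Pin851.spec35_of O.rows35) (Pin851.spec34_of O.rows34))
    Vw848.deadhi2

/-- **S0187 from the eight leaves** -/
theorem s0187_of_leaves (O : Leaves) (K : Set (EuclideanSpace ℝ (Fin 4)))
    (hK : ∀ e : EuclideanSpace ℝ (Fin 4), ‖e‖ = 1 →
      ∃ a : EuclideanSpace ℝ (Fin 4), segment ℝ a (a + e) ⊆ K) : dimH K = 4 :=
  Fin484.s0187_of_leaves (O.wrap (btr O) (alr O)) (Pin851.spec35_of O.rows35)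
    (Pin851.spec34_of O.rows34) (QG312.seamQuadG (rowsC O)) (LinF403.seamLinG_rows (rowsC O)) K hK

end Crest.Agent.R136.Opn4
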