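import Crest.Agent.R136.Thk_1
import Crest.Agent.R136.Gdt_1
import Crest.Agent.R136.Pin3_851
import Crest.Agent.R136.Rws_938
import Crest.Agent.R136.RwY_848
import Crest.Agent.R136.CtxZ_830
import Crest.Agent.R136.OwW5_831
import Crest.Agent.R136.OwW2_831
import Crest.Agent.R136.LadG2_697
import Crest.Agent.R136.SGa4_480
import Crest.Agent.R136.SmT_163
import Crest.Agent.R136.Ff5_880
import Crest.Agent.R136.Fw5_808
import Crest.Agent.R136.U4G_879
import Crest.Agent.R136.FinT_879

/-!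
# R136 (S0187): the whole wiring; `Open187` = what is open (helper1, audit)

`Open187 η` lists every statement which is not yet a theorem;
**`s0187_of_open : 0 < η → η ≤ 1/8 → Open187 η → (statement of S0187)`**.
-/

set_option autoImplicit false
set_option linter.unusedVariables false

open Filter Topology

namespace Crest.Agent.R136.Opn1

open Crest.Agent.R136
open Crest.Agent.R136.TopB550
open Crest.Agent.R136.NatT550
open Crest.Agent.R136.NetQ186
open Crest.Agent.R136.Top484
open Crest.Agent.R136.Net191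
open Crest.Agent.R136.NetW191
open Crest.Agent.R136.PrW464
open Crest.Agent.R136.NatW697
open Crest.Agent.R136.LadW697
open Crest.Agent.R136.ThS830
open Crest.Agent.R136.LadT830
open Crest.Agent.R136.EvW938
open Crest.Agent.R136.LadG697
open Crest.Agent.R136.Wq638
open Crest.Agent.R136.SmT163 (SeamStcA TiltB MateL ClwL)

/-- **the open statements** -/
structure Open187 (η : ℝ) : Prop where
  /-- U6 thin, level lemma 1 (650, 464) -/
  mate : ∀ (p : Par4) (D : Dat4) (K : ℕ → Stc321.CtD) (x0 : ℕ → ℕ × ℝ), Thn768.ThinW p D →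
    Stk464.StcK p D K x0 → MateL D K
  /-- U6 thin, level lemma 2 (768) -/
  clw : ∀ (p : Par4) (D : Dat4) (K : ℕ → Stc321.CtD) (x0 : ℕ → ℕ × ℝ), Thn768.ThinW p D →
    Stk464.StcK p D K x0 → ClwL D K
  /-- tilt of the curved pairs over `J1c` (PLAN 2: `BTR Al1`, `ALR Al1`, wrapper) -/
  tilt : ∀ (p : Par4) (D : Dat4), J1c η p D → TiltB D
  /-- 191, 851, 848, 544 -/
  s35 : Pin851.Spec35
  s34 : Pin851.Spec34
  /-- 478, 626, 66 -/
  wall : SeamWallG
  /-- 831, 887, 329, 480, 893 -/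
  quad : SeamQuadG
  /-- 403, 560, 938, 480, 619 -/
  lin : SeamLinG

theorem rowsC_of {η : ℝ} (O : Open187 η) : RowsC :=
  Rws938.rowsC_of (Pin851.pin3_of O.s35 O.s34) Vw848.deadhi2

theorem thinTable_of {η : ℝ} (hη0 : 0 < η) (hη : η ≤ 1/8) (O : Open187 η) : ThinTable η :=
  thinTable_res (ThO830.seamThinOb hη0 (by linarith) Gdt1.gdThin) (rowsC_of O)
    CtxZ830.seamCtx (seamWall_of SGa480.seamGau O.wall) OwW831.seamOwnC OwW831.seamClose
    OwW831.seamCap (seamQuad_of SGa480.seamGau O.quad) (seamLin_of SGa480.seamGau O.lin)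

theorem seamU6_of {η : ℝ} (hη : η ≤ 1) (O : Open187 η) :
    TopB550.SeamU6J (fun p D => J1c η p D ∧ True) η :=
  Ut262.seamU6Q_of (Q := fun _ => True) (fun p D _ h => ParOk.of_J1c h)
    (Fl808.seamTiltFQ Ff880.flatFree (fun _ => True) η)
    (SmT163.seamThinQ_J1c hη (SmT163.seamStcA_of O.mate O.clw) O.tilt)

theorem ks4_of_open {η : ℝ} (hη0 : 0 < η) (hη : η ≤ 1/8) (O : Open187 η) : KS879.KS4 :=
  ks4_of_seamsJ (J := fun p D => J1c η p D ∧ True)
    (fun h => by
      obtain ⟨p, D, hJ⟩ := U4G879.exists_core hη0 h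
      exact ⟨p, D, hJ, trivial⟩)
    (seamU6_of (by linarith) O) (Thk1.thickTable hη0 hη) (thinTable_of hη0 hη O)

/-- **S0187 from the open statements** -/
theorem s0187_of_open {η : ℝ} (hη0 : 0 < η) (hη : η ≤ 1/8) (O : Open187 η)
    (K : Set (EuclideanSpace ℝ (Fin 4)))
    (hK : ∀ e : EuclideanSpace ℝ (Fin 4), ‖e‖ = 1 →
      ∃ a : EuclideanSpace ℝ (Fin 4), segment ℝ a (a + e) ⊆ K) :
    dimH K = 4 := KS879.s0187_of_KS4 (ks4_of_open hη0 hη O) K hK

end Crest.Agent.R136.Opn1
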