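import Crest.Agent.R138.GrW3_294
import Crest.Agent.R138.KMs_630

/-!
# R136: the three dimensional Kakeya estimate for real lines and real heights (helper831)

`km_real`: lines `(p i, v i)` with entries in `[-1, 1]`, heights `ζ j` near `j / N`, density `Δ` on
planks.  If each incidence `(i, j) ∈ Inc` has at least `m` lines within `1 / N` then
`√m * #Inc ≤ C N^(1+ε) √Δ #L`.
-/

set_option autoImplicit false
set_option linter.unusedVariables false
set_option linter.unusedSectionVars false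

open Finset

namespace Crest.Agent.R136.Phi831

open Crest.Agent.R138.Defs (E2)
open Crest.Agent.R138.Gr63 (GLine gp gv cell InPl Bd cw cells GridW)

/-- the grid inequality, unconditional -/
theorem gridW : GridW := Crest.Agent.R138.GrW294.gridW_of_KMseq Crest.Agent.R138.KMs630.kmseq

/-- grid approximation of a real line -/
noncomputable def gl (N : ℕ) (p v : E2) : GLine :=
  ((⌊(N : ℝ) * p 0⌋, ⌊(N : ℝ) * p 1⌋), (⌊(N : ℝ) * v 0⌋, ⌊(N : ℝ) * v 1⌋))

theorem floor_abs {N : ℕ} {x : ℝ} (hx : |x| ≤ 1) : |⌊(N : ℝ) * x⌋| ≤ (N : ℤ) := by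
  rw [abs_le] at hx ⊢
  have hN : (0 : ℝ) ≤ N := Nat.cast_nonneg N
  constructor
  · rw [Int.le_floor]
    push_cast
    nlinarith [hx.1]
  · have h1 : (⌊(N : ℝ) * x⌋ : ℝ) ≤ N := (Int.floor_le _).trans (by nlinarith [hx.2])
    exact_mod_cast h1

theorem gl_bd {N : ℕ} {p v : E2} (hp : ∀ a, |p a| ≤ 1) (hv : ∀ a, |v a| ≤ 1) :
    Bd N (gl N p v) :=
  ⟨floor_abs (hp 0), floor_abs (hp 1), floor_abs (hv 0), floor_abs (hv 1)⟩

theorem floor_div {N : ℕ} (hN : 1 ≤ N) (x : ℝ) : |x - (⌊(N : ℝ) * x⌋ : ℝ) / N| ≤ 1 / N := by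
  have hN0 : (0 : ℝ) < N := by exact_mod_cast hN
  have h1 := Int.floor_le ((N : ℝ) * x)
  have h2 := Int.lt_floor_add_one ((N : ℝ) * x)
  have e : x - (⌊(N : ℝ) * x⌋ : ℝ) / N = ((N : ℝ) * x - ⌊(N : ℝ) * x⌋) / N := by
    field_simp
  rw [e, abs_div, abs_of_pos hN0]
  apply div_le_div_of_nonneg_right _ hN0.le
  rw [abs_le]; constructor <;> linarith

theorem norm_le_two {x : E2} {c : ℝ} (hc : 0 ≤ c) (h0 : |x 0| ≤ c) (h1 : |x 1| ≤ c) :
    ‖x‖ ≤ 2 * c := by
  rw [EuclideanSpace.norm_eq, Fin.sum_univ_two]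
  rw [Real.sqrt_le_left (by positivity)]
  simp only [Real.norm_eq_abs, sq_abs]
  have a0 : (x 0) ^ 2 ≤ c ^ 2 := sq_le_sq' (abs_le.1 h0).1 (abs_le.1 h0).2
  have a1 : (x 1) ^ 2 ≤ c ^ 2 := sq_le_sq' (abs_le.1 h1).1 (abs_le.1 h1).2
  nlinarith [sq_nonneg c]

/-- a grid line in a plank: the real line is in the plank of five times the size -/
theorem inPl_of_gl {N : ℕ} (hN : 1 ≤ N) {p v p0 v0 : E2} {b : OrthonormalBasis (Fin 2) ℝ E2}
    {w : Fin 2 → ℝ} (hw : ∀ i, 1 / (N : ℝ) ≤ w i)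
    (h : InPl b p0 v0 w (gp N (gl N p v)) (gv N (gl N p v))) :
    InPl b p0 v0 (fun i => 5 * w i) p v := by
  have hN0 : (0 : ℝ) < N := by exact_mod_cast hN
  intro z hz i
  have h1 := h z hz i
  set P := gp N (gl N p v) with hP
  set V := gv N (gl N p v) with hV
  have e : p - p0 + z • (v - v0) = (P - p0 + z • (V - v0)) + ((p - P) + z • (v - V)) := by
    module
  rw [e, inner_add_left]
  have hpP : ‖p - P‖ ≤ 2 * (1 / N) := by
    apply norm_le_two (by positivity)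
    · simpa [hP, gp, gl] using floor_div hN (p 0)
    · simpa [hP, gp, gl] using floor_div hN (p 1)
  have hvV : ‖v - V‖ ≤ 2 * (1 / N) := by
    apply norm_le_two (by positivity)
    · simpa [hV, gv, gl] using floor_div hN (v 0)
    · simpa [hV, gv, gl] using floor_div hN (v 1)
  have h2 : |inner ℝ ((p - P) + z • (v - V)) (b i)| ≤ 4 * (1 / N) := by
    calc |inner ℝ ((p - P) + z • (v - V)) (b i)| ≤ ‖(p - P) + z • (v - V)‖ * ‖b i‖ :=
          abs_real_inner_le_norm _ _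
      _ = ‖(p - P) + z • (v - V)‖ := by rw [b.orthonormal.1 i, mul_one]
      _ ≤ ‖p - P‖ + ‖z • (v - V)‖ := norm_add_le _ _
      _ ≤ 2 * (1 / N) + 1 * (2 * (1 / N)) := by
          rw [norm_smul, Real.norm_eq_abs]
          gcongr
      _ = _ := by ring
  calc |inner ℝ (P - p0 + z • (V - v0)) (b i) + inner ℝ ((p - P) + z • (v - V)) (b i)|
      ≤ |inner ℝ (P - p0 + z • (V - v0)) (b i)| + |inner ℝ ((p - P) + z • (v - V)) (b i)| :=
        abs_add_le _ _
    _ ≤ w i + 4 * w i := add_le_add h1 (h2.trans (by nlinarith [hw i]))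
    _ = _ := by ring

/-- the position of the grid line is within `3` (in units `1/N`) of the position of the real one -/
theorem gl_pos {N : ℕ} (hN : 1 ≤ N) {p v ζ : ℝ} {j : ℤ} (hv : |v| ≤ 1) (hj : |j| ≤ (N : ℤ))
    (hζ : |(N : ℝ) * ζ - j| ≤ 1) :
    |(N : ℝ) * (p + ζ * v) - ((⌊(N : ℝ) * p⌋ : ℝ) + (⌊(N : ℝ) * v⌋ : ℝ) * (j : ℝ) / N)| ≤ 3 := by
  have hN0 : (0 : ℝ) < N := by exact_mod_cast hN
  have h1 := Int.floor_le ((N : ℝ) * p)
  have h2 := Int.lt_floor_add_one ((N : ℝ) * p)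
  have h3 := Int.floor_le ((N : ℝ) * v)
  have h4 := Int.lt_floor_add_one ((N : ℝ) * v)
  have hj' : |(j : ℝ) / N| ≤ 1 := by
    rw [abs_div, abs_of_pos hN0, div_le_one hN0]
    exact_mod_cast hj
  have e : (N : ℝ) * (p + ζ * v) - ((⌊(N : ℝ) * p⌋ : ℝ) + (⌊(N : ℝ) * v⌋ : ℝ) * (j : ℝ) / N) =
      ((N : ℝ) * p - ⌊(N : ℝ) * p⌋) + ((N : ℝ) * ζ - j) * v +
        ((N : ℝ) * v - ⌊(N : ℝ) * v⌋) * ((j : ℝ) / N) := by
    field_simp
    ring
  rw [e]
  have a1 : |(N : ℝ) * p - ⌊(N : ℝ) * p⌋| ≤ 1 := by rw [abs_le]; constructor <;> linarith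
  have a2 : |(N : ℝ) * v - ⌊(N : ℝ) * v⌋| ≤ 1 := by rw [abs_le]; constructor <;> linarith
  have a3 : |((N : ℝ) * ζ - j) * v| ≤ 1 := by
    rw [abs_mul]; exact mul_le_one₀ hζ (abs_nonneg _) hv
  have a4 : |((N : ℝ) * v - ⌊(N : ℝ) * v⌋) * ((j : ℝ) / N)| ≤ 1 := by
    rw [abs_mul]; exact mul_le_one₀ a2 (abs_nonneg _) hj'
  calc _ ≤ |(N : ℝ) * p - ⌊(N : ℝ) * p⌋| + |((N : ℝ) * ζ - j) * v| +
        |((N : ℝ) * v - ⌊(N : ℝ) * v⌋) * ((j : ℝ) / N)| := abs_add_three _ _ _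
    _ ≤ _ := by linarith

theorem floor_near {s t : ℝ} (h : |s - t| ≤ 7) : |⌊s⌋ - ⌊t⌋| ≤ 7 := by
  rw [abs_le] at h ⊢
  constructor
  · have : ⌊t⌋ ≤ ⌊s⌋ + 7 := by
      have h1 : ⌊t⌋ ≤ ⌊s + (7 : ℤ)⌋ := Int.floor_le_floor (by push_cast; linarith [h.1])
      rwa [Int.floor_add_intCast] at h1
    linarith
  · have : ⌊s⌋ ≤ ⌊t⌋ + 7 := by
      have h1 : ⌊s⌋ ≤ ⌊t + (7 : ℤ)⌋ := Int.floor_le_floor (by push_cast; linarith [h.2])
      rwa [Int.floor_add_intCast] at h1
    linarith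

/-- the cells of two near real lines differ by at most `7` -/
theorem cell_near {N : ℕ} (hN : 1 ≤ N) {p v p' v' : E2} {ζ : ℝ} {j : ℤ} (hv : ∀ a, |v a| ≤ 1)
    (hv' : ∀ a, |v' a| ≤ 1) (hj : |j| ≤ (N : ℤ)) (hζ : |(N : ℝ) * ζ - j| ≤ 1)
    (h : ∀ a, |(p' a + ζ * v' a) - (p a + ζ * v a)| ≤ 1 / N) :
    |(cell N (gl N p' v') j).1 - (cell N (gl N p v) j).1| ≤ 7 ∧
      |(cell N (gl N p' v') j).2 - (cell N (gl N p v) j).2| ≤ 7 := by
  have hN0 : (0 : ℝ) < N := by exact_mod_cast hN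
  have key : ∀ a : Fin 2, |((⌊(N : ℝ) * p' a⌋ : ℝ) + (⌊(N : ℝ) * v' a⌋ : ℝ) * (j : ℝ) / N) -
      ((⌊(N : ℝ) * p a⌋ : ℝ) + (⌊(N : ℝ) * v a⌋ : ℝ) * (j : ℝ) / N)| ≤ 7 := by
    intro a
    have h1 := gl_pos hN (p := p a) (hv a) hj hζ
    have h2 := gl_pos hN (p := p' a) (hv' a) hj hζ
    have h3 : |(N : ℝ) * (p' a + ζ * v' a) - (N : ℝ) * (p a + ζ * v a)| ≤ 1 := by
      rw [← mul_sub, abs_mul, abs_of_pos hN0]
      calc (N : ℝ) * |(p' a + ζ * v' a) - (p a + ζ * v a)| ≤ N * (1 / N) :=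
            mul_le_mul_of_nonneg_left (h a) hN0.le
        _ = 1 := by field_simp
    rw [abs_le] at h1 h2 h3 ⊢
    constructor <;> linarith
  exact ⟨floor_near (key 0), floor_near (key 1)⟩

/-- weights of the grid lines -/
noncomputable def wt (N : ℕ) {ι : Type*} (L : Finset ι) (p v : ι → E2) (l : GLine) : ℝ := by
  classical exact ((L.filter fun i => gl N (p i) (v i) = l).card : ℝ)

theorem sum_wt {N : ℕ} {ι : Type*} (L : Finset ι) (p v : ι → E2) (P : GLine → Prop)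
    [DecidablePred P] [DecidableEq GLine] :
    ∑ l ∈ (L.image fun i => gl N (p i) (v i)).filter P, wt N L p v l =
      ((L.filter fun i => P (gl N (p i) (v i))).card : ℝ) := by
  classical
  have h : ((L.filter fun i => P (gl N (p i) (v i))).card) =
      ∑ l ∈ (L.image fun i => gl N (p i) (v i)).filter P,
        ((L.filter fun i => P (gl N (p i) (v i))).filter fun i => gl N (p i) (v i) = l).card := by
    refine Finset.card_eq_sum_card_fiberwise ?_
    intro i hi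
    have hi' := Finset.mem_filter.1 (Finset.mem_coe.1 hi)
    exact Finset.mem_coe.2 (Finset.mem_filter.2 ⟨Finset.mem_image_of_mem _ hi'.1, hi'.2⟩)
  rw [h]
  push_cast
  refine Finset.sum_congr rfl fun l hl => ?_
  have hPl := (Finset.mem_filter.1 hl).2
  unfold wt
  congr 2
  ext i
  simp only [Finset.mem_filter]
  constructor
  · rintro ⟨h1, h2⟩
    exact ⟨⟨h1, h2 ▸ hPl⟩, h2⟩
  · rintro ⟨⟨h1, _⟩, h2⟩
    exact ⟨h1, h2⟩

/-- offsets -/
noncomputable def offs : Finset (ℤ × ℤ) := (Finset.Icc (-7) 7) ×ˢ (Finset.Icc (-7) 7)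

theorem offs_card : offs.card = 225 := by decide +kernel

theorem mem_offs {o : ℤ × ℤ} : o ∈ offs ↔ |o.1| ≤ 7 ∧ |o.2| ≤ 7 := by
  simp [offs, Finset.mem_product, abs_le]

/-- **Kakeya for real lines and real heights**. -/
theorem km_real : ∀ ε : ℝ, 0 < ε → ∃ C : ℝ, 0 ≤ C ∧ ∀ N : ℕ, 1 ≤ N →
    ∀ {ι : Type} (L : Finset ι) (p v : ι → E2) (ζ : ℤ → ℝ) (Δ : ℝ), 0 ≤ Δ →
    (∀ i ∈ L, ∀ a, |p i a| ≤ 1 ∧ |v i a| ≤ 1) →
    (∀ j : ℤ, |j| ≤ (N : ℤ) → |(N : ℝ) * ζ j - j| ≤ 1) →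
    (∀ (b : OrthonormalBasis (Fin 2) ℝ E2) (p0 v0 : E2) (w : Fin 2 → ℝ),
      (∀ i, 1 / (N : ℝ) ≤ w i ∧ w i ≤ 1) → ∀ T ⊆ L,
      (∀ i ∈ T, InPl b p0 v0 (fun k => 5 * w k) (p i) (v i)) →
      (T.card : ℝ) ≤ Δ * (w 0 * w 1) * (N : ℝ) ^ 2) →
    ∀ (Inc : Finset (ι × ℤ)) (m : ℝ), 0 ≤ m →
    (∀ x ∈ Inc, x.1 ∈ L ∧ |x.2| ≤ (N : ℤ) ∧ ∃ T ⊆ L, m ≤ (T.card : ℝ) ∧
      ∀ i' ∈ T, ∀ a, |(p i' a + ζ x.2 * v i' a) - (p x.1 a + ζ x.2 * v x.1 a)| ≤ 1 / N) →
    Real.sqrt m * (Inc.card : ℝ) ≤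
      C * (N : ℝ) ^ ε * Real.sqrt Δ * N * (L.card : ℝ) := by
  classical
  intro ε hε
  obtain ⟨C, hC, hK⟩ := gridW ε hε
  refine ⟨225 * Real.sqrt 225 * C, by positivity, ?_⟩
  intro N hN ι L p v ζ Δ hΔ hL hζ hpl Inc m hm hInc
  have hN0 : (0 : ℝ) < N := by exact_mod_cast hN
  set g : ι → GLine := fun i => gl N (p i) (v i) with hg
  set s := L.image g with hs
  have h1 := hK N hN s (wt N L p v) Δ hΔ (fun l _ => by unfold wt; positivity)
    (by
      intro l hl
      obtain ⟨i, hi, rfl⟩ := Finset.mem_image.1 hl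
      exact gl_bd (fun a => (hL i hi a).1) (fun a => (hL i hi a).2))
    (by
      intro b p0 v0 w hw
      have := sum_wt (N := N) L p v (fun l => InPl b p0 v0 w (gp N l) (gv N l))
      rw [← hs] at this
      refine (le_of_eq ?_).trans (hpl b p0 v0 w hw
        (L.filter fun i => InPl b p0 v0 w (gp N (gl N (p i) (v i))) (gv N (gl N (p i) (v i))))
        (Finset.filter_subset _ _) ?_)
      · convert this
      · intro i hi
        exact inPl_of_gl hN (fun k => (hw k).1) (Finset.mem_filter.1 hi).2)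
  have hsum : ∑ l ∈ s, wt N L p v l = (L.card : ℝ) := by
    have := sum_wt (N := N) L p v (fun _ => True)
    simp only [Finset.filter_true] at this
    exact this
  rw [hsum] at h1
  -- number of lines with given cell
  have hcw : ∀ q : (ℤ × ℤ) × ℤ, cw N s (wt N L p v) q =
      ((L.filter fun i => cell N (g i) q.2 = q.1).card : ℝ) := by
    intro q
    have := sum_wt (N := N) L p v (fun l => cell N l q.2 = q.1)
    unfold cw
    convert this
  rcases eq_or_lt_of_le hm with rfl | hm0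
  · rw [Real.sqrt_zero, zero_mul]; positivity
  set W : (ℤ × ℤ) × ℤ → ℝ := fun q => ((L.filter fun i => cell N (g i) q.2 = q.1).card : ℝ)
    with hW
  -- the best neighbouring cell
  have hbest : ∀ x : ι × ℤ, ∃ o ∈ offs, ∀ o' ∈ offs,
      W (cell N (g x.1) x.2 + o', x.2) ≤ W (cell N (g x.1) x.2 + o, x.2) := by
    intro x
    exact Finset.exists_max_image offs (fun o => W (cell N (g x.1) x.2 + o, x.2))
      ⟨0, by simp [mem_offs]⟩
  choose! o ho homax using hbest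
  set Q : ι × ℤ → (ℤ × ℤ) × ℤ := fun x => (cell N (g x.1) x.2 + o x, x.2) with hQ
  have hQm : ∀ x ∈ Inc, m / 225 ≤ W (Q x) := by
    intro x hx
    obtain ⟨hxL, hxj, T, hT, hmT, hnear⟩ := hInc x hx
    have hsub : T ⊆ offs.biUnion fun o' =>
        L.filter fun i => cell N (g i) x.2 = cell N (g x.1) x.2 + o' := by
      intro i hi
      have hc := cell_near hN (p := p x.1) (v := v x.1) (p' := p i) (v' := v i)
        (fun a => (hL _ hxL a).2) (fun a => (hL _ (hT hi) a).2) hxj (hζ _ hxj) (hnear i hi)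
      refine Finset.mem_biUnion.2 ⟨cell N (g i) x.2 - cell N (g x.1) x.2, mem_offs.2 hc, ?_⟩
      refine Finset.mem_filter.2 ⟨hT hi, ?_⟩
      abel
    have hcard : (T.card : ℝ) ≤ ∑ o' ∈ offs, W (cell N (g x.1) x.2 + o', x.2) := by
      have := (Finset.card_le_card hsub).trans Finset.card_biUnion_le
      simp only [hW]
      exact_mod_cast this
    have h2 : (T.card : ℝ) ≤ 225 * W (Q x) := by
      refine hcard.trans ?_
      calc ∑ o' ∈ offs, W (cell N (g x.1) x.2 + o', x.2) ≤ ∑ o' ∈ offs, W (Q x) :=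
            Finset.sum_le_sum fun o' ho' => homax x o' ho'
        _ = 225 * W (Q x) := by rw [Finset.sum_const, offs_card, nsmul_eq_mul]; norm_num
    linarith
  -- fibres
  have hfib : ∀ q ∈ Inc.image Q, ((Inc.filter fun x => Q x = q).card : ℝ) ≤ 225 * W q := by
    intro q hq
    have hsub : (Inc.filter fun x => Q x = q) ⊆ offs.biUnion fun o' =>
        ((L.filter fun i => cell N (g i) q.2 = q.1 - o' ∧
          W (cell N (g i) q.2, q.2) ≤ W q).image fun i => (i, q.2)) := by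
      intro x hx
      obtain ⟨hx1, hx2⟩ := Finset.mem_filter.1 hx
      have e2 : x.2 = q.2 := by rw [← hx2]
      have e1 : cell N (g x.1) x.2 + o x = q.1 := by rw [← hx2]
      refine Finset.mem_biUnion.2 ⟨o x, ho x, Finset.mem_image.2 ⟨x.1, ?_, ?_⟩⟩
      · refine Finset.mem_filter.2 ⟨(hInc x hx1).1, ?_, ?_⟩
        · rw [← e2, ← e1]; abel
        · have := homax x 0 (by simp [mem_offs])
          rw [add_zero] at this
          rw [← e2, ← hx2]
          exact this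
      · rw [← e2]
    have h2 : ∀ o' ∈ offs, (((L.filter fun i => cell N (g i) q.2 = q.1 - o' ∧
          W (cell N (g i) q.2, q.2) ≤ W q).image fun i => (i, q.2)).card : ℝ) ≤ W q := by
      intro o' ho'
      refine (mod_cast Finset.card_image_le : _ ≤ (((L.filter fun i => cell N (g i) q.2 = q.1 - o' ∧
          W (cell N (g i) q.2, q.2) ≤ W q)).card : ℝ)).trans ?_
      rcases (L.filter fun i => cell N (g i) q.2 = q.1 - o' ∧
          W (cell N (g i) q.2, q.2) ≤ W q).eq_empty_or_nonempty with h | ⟨i0, hi0⟩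
      · rw [h]; simp only [Finset.card_empty, Nat.cast_zero]; simp only [hW]; positivity
      · obtain ⟨_, b1, b2⟩ := Finset.mem_filter.1 hi0
        refine le_trans ?_ b2
        simp only [hW]
        refine mod_cast Finset.card_le_card ?_
        intro i hi
        obtain ⟨c0, c1, _⟩ := Finset.mem_filter.1 hi
        exact Finset.mem_filter.2 ⟨c0, c1.trans b1.symm⟩
    calc ((Inc.filter fun x => Q x = q).card : ℝ) ≤ ∑ o' ∈ offs, (((L.filter fun i =>
          cell N (g i) q.2 = q.1 - o' ∧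
          W (cell N (g i) q.2, q.2) ≤ W q).image fun i => (i, q.2)).card : ℝ) := by
          have := (Finset.card_le_card hsub).trans Finset.card_biUnion_le
          exact_mod_cast this
      _ ≤ ∑ o' ∈ offs, W q := Finset.sum_le_sum h2
      _ = 225 * W q := by rw [Finset.sum_const, offs_card, nsmul_eq_mul]; norm_num
  have hcount : (Inc.card : ℝ) ≤ ∑ q ∈ Inc.image Q, 225 * W q := by
    have h2 : Inc.card = ∑ q ∈ Inc.image Q, (Inc.filter fun x => Q x = q).card :=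
      Finset.card_eq_sum_card_fiberwise fun x hx => by
        exact Finset.mem_coe.2 (Finset.mem_image_of_mem _ hx)
    rw [h2]
    push_cast
    exact Finset.sum_le_sum hfib
  -- the cells are met
  have hsubc : Inc.image Q ⊆ cells N s := by
    intro q hq
    obtain ⟨x, hx, rfl⟩ := Finset.mem_image.1 hq
    have hpos : 0 < W (Q x) := lt_of_lt_of_le (by positivity) (hQm x hx)
    have hne : (L.filter fun i => cell N (g i) (Q x).2 = (Q x).1).Nonempty := by
      rw [← Finset.card_pos]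
      simp only [hW] at hpos
      exact_mod_cast hpos
    obtain ⟨i, hi⟩ := hne
    obtain ⟨hi1, hi2⟩ := Finset.mem_filter.1 hi
    have hj := (hInc x hx).2.1
    unfold cells
    refine Finset.mem_image.2 ⟨(g i, x.2), Finset.mem_product.2
      ⟨Finset.mem_image_of_mem _ hi1, Finset.mem_Icc.2 (abs_le.1 hj)⟩, ?_⟩
    exact Prod.ext hi2 rfl
  have hkey : Real.sqrt m * (Inc.card : ℝ) ≤
      225 * Real.sqrt 225 * ∑ q ∈ cells N s, cw N s (wt N L p v) q ^ (3 / 2 : ℝ) := by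
    calc Real.sqrt m * (Inc.card : ℝ) ≤ Real.sqrt m * ∑ q ∈ Inc.image Q, 225 * W q :=
          mul_le_mul_of_nonneg_left hcount (Real.sqrt_nonneg _)
      _ = ∑ q ∈ Inc.image Q, 225 * (Real.sqrt m * W q) := by
          rw [Finset.mul_sum]
          exact Finset.sum_congr rfl fun q _ => by ring
      _ ≤ ∑ q ∈ Inc.image Q, 225 * (Real.sqrt 225 * W q ^ (3 / 2 : ℝ)) := by
          refine Finset.sum_le_sum fun q hq => ?_
          obtain ⟨x, hx, rfl⟩ := Finset.mem_image.1 hq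
          have h3 := hQm x hx
          have hWpos : 0 < W (Q x) := lt_of_lt_of_le (by positivity) h3
          have h4 : W (Q x) ^ (3 / 2 : ℝ) = Real.sqrt (W (Q x)) * W (Q x) := by
            rw [Real.sqrt_eq_rpow, ← Real.rpow_add_one hWpos.ne']
            norm_num
          have h5 : Real.sqrt m ≤ Real.sqrt 225 * Real.sqrt (W (Q x)) := by
            rw [← Real.sqrt_mul (by norm_num : (0 : ℝ) ≤ 225)]
            exact Real.sqrt_le_sqrt (by linarith)
          have h6 := mul_le_mul_of_nonneg_right h5 hWpos.le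
          rw [h4]
          nlinarith [h6]
      _ ≤ ∑ q ∈ cells N s, 225 * (Real.sqrt 225 * W q ^ (3 / 2 : ℝ)) := by
          refine Finset.sum_le_sum_of_subset_of_nonneg hsubc fun q _ _ => ?_
          have : 0 ≤ W q := by simp only [hW]; positivity
          positivity
      _ = _ := by
          rw [Finset.mul_sum]
          refine Finset.sum_congr rfl fun q _ => ?_
          rw [hcw q]
          ring
  refine hkey.trans ((mul_le_mul_of_nonneg_left h1 (by positivity)).trans (le_of_eq ?_))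
  ring

end Crest.Agent.R136.Phi831
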