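import Crest.Agent.R136.RLb_66
import Crest.Agent.R136.RL0_478

/-!
# R136, thin branch, resonant walls (helper66): from the window chain to the gauge input

* `bCw` : base of the class, `z : 0`, `c : -w1`, height `-5 w1`.
* **`hasGau_of_recLaw`** : 478's `RecLaw` and 626's algebra on own pairs give `HasGau`.
-/

set_option autoImplicit false
set_option linter.unusedVariables false

open Finset Filter Topology

namespace Crest.Agent.R136.RL66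

open Crest.Agent.R136.Net191
open Crest.Agent.R136.NetW191
open Crest.Agent.R136.PrW464
open Crest.Agent.R136.NatW697
open Crest.Agent.R136.LadW697
open Crest.Agent.R136.LadG697
open Crest.Agent.R136.Top484
open Crest.Agent.R136.NatT550
open Crest.Agent.R136.ThS830
open Crest.Agent.R136.LadT830
open Crest.Agent.R136.Zpr779
open Crest.Agent.R136.Qg926
open Crest.Agent.R136.EvW938
open Crest.Agent.R136.GauW619
open Crest.Agent.R136.AwJ774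
open Crest.Agent.R136.K2S774
open Crest.Agent.R138.Ex926

/-! ### base of the class -/

/-- base of the class -/
def bCw (w1 : ℝ) : Fin 18 → ℝ := grW 0 (-w1) (-(5 * w1))

theorem bCw_nat (Dr : Set (Fin 18)) (w1 : ℝ) : Nat QW (actW Dr) (bCw w1) := nat_grW _ _ _ _

theorem bCw_zero (w1 : ℝ) : bCw w1 0 = 0 := by simp [bCw, grW, wz, wc, wn]

theorem bCw_one (w1 : ℝ) : bCw w1 1 = -w1 := by simp [bCw, grW, wz, wc, wn]

theorem bCw_le {w1 : ℝ} (h : 0 ≤ w1) {k : Fin 18} (hk : k ≠ 0) : bCw w1 k ≤ -w1 := by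
  fin_cases k
  · exact absurd rfl hk
  all_goals simp [bCw, grW, wz, wc, wn] <;> linarith

theorem bCw_nonpos {w1 : ℝ} (h : 0 ≤ w1) (k : Fin 18) : bCw w1 k ≤ 0 := by
  by_cases hk : k = 0
  · rw [hk, bCw_zero]
  · have := bCw_le h hk
    linarith

theorem bCw_ge {w1 : ℝ} (h : 0 ≤ w1) (k : Fin 18) : -(wtR k * w1) ≤ bCw w1 k := by
  fin_cases k <;> simp [bCw, wtR, grW, wz, wc, wn] <;> linarith

theorem btW_ge {θ : Fin 3 → ℝ} {w1 R1 T1 : ℝ} (big : BigW θ w1 R1 T1) (k : Fin 18) :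
    -w1 ≤ btW θ k := by
  have h0 := abs_le.1 (big.th 0)
  have h1 := abs_le.1 (big.th 1)
  have hT := big.T0
  have hw := big.w0T
  fin_cases k <;> simp [btW, grW, wz, wc, wn] <;> linarith

theorem bCw_hi {θ : Fin 3 → ℝ} {w1 R1 T1 : ℝ} (big : BigW θ w1 R1 T1) (k : Fin 18) {v : ℝ}
    (h0 : 0 ≤ v) (h1 : v ≤ 1) : bCw w1 k ≤ v * btW θ k := by
  have hw : 0 ≤ w1 := by have := big.T0; have := big.w0T; linarith
  by_cases hk : k = 0
  · have e : btW θ 0 = 1 := by simp [btW, grW, wz, wc, wn]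
    rw [hk, bCw_zero, e, mul_one]
    exact h0
  · refine (bCw_le hw hk).trans ?_
    have h2 := btW_ge big k
    rcases le_total 0 (btW θ k) with h3 | h3
    · have := mul_nonneg h0 h3
      linarith
    · have := mul_nonneg (sub_nonneg.2 h1) (neg_nonneg.2 h3)
      linarith

/-! ### assembly -/

section

variable {θ : Fin 3 → ℝ} {g : ℝ} {q : Fin 3 → ℝ} {V Dr : Set (Fin 18)}
  {P : Set (Fin 18 → ℝ)} {ν own : (Fin 18 → ℝ) → ℝ} {r0 : Fin 18 → ℝ}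
  {B B' : Base} {I0 J : ℕ → Finset (ℕ × ℝ)} {κ : ℕ → ℝ} {u : ℕ → Fin 18 → ℝ}
  {F : ℕ → ℕ × ℝ → FW} {X : ℕ → Fin 18 → ℝ} {w Tn To : ℕ → ℝ}
  {lam lo : (Fin 18 → ℝ) → ℝ}

/-- D-max for all gauges passes to subsets -/
theorem gd_sub {J' : ℕ → Finset (ℕ × ℝ)} (hsub : ∀ n, J' n ⊆ J n)
    (gd : ∃ C : ℝ, 0 < C ∧ ∀ d ∈ QdW θ, ∀ K : ℝ, 1 ≤ K → ∀ ε : ℝ, 0 < ε → ∀ᶠ n in (U : Filter ℕ),
      ∀ e' : ℕ × ℝ → Fin 14 → ℝ,
        (∀ j ∈ J n, (e' j 9 = 0 ∧ e' j 12 = 0 ∧ e' j 13 = 0) ∧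
          ∀ k, u n (Fin.natAdd 4 k) * |e' j k| ≤ B.d n ^ (-C)) →
        ∀ i ∈ J n, ∀ G ⊆ J n, (∀ j ∈ G, ∀ k, |u n k * coW (κ n) (gau (κ n) (e' i) (F n i))
            (gau (κ n) (e' j) (F n j)) k| ≤ K * (B.d n ^ natX X n k * B'.d n ^ d k)) →
          (G.card : ℝ) ≤ Tn n * B'.d n ^ (-(DlW g q d + ε))) :
    ∃ C : ℝ, 0 < C ∧ ∀ d ∈ QdW θ, ∀ K : ℝ, 1 ≤ K → ∀ ε : ℝ, 0 < ε → ∀ᶠ n in (U : Filter ℕ),
      ∀ e' : ℕ × ℝ → Fin 14 → ℝ,
        (∀ j ∈ J' n, (e' j 9 = 0 ∧ e' j 12 = 0 ∧ e' j 13 = 0) ∧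
          ∀ k, u n (Fin.natAdd 4 k) * |e' j k| ≤ B.d n ^ (-C)) →
        ∀ i ∈ J' n, ∀ G ⊆ J' n, (∀ j ∈ G, ∀ k, |u n k * coW (κ n) (gau (κ n) (e' i) (F n i))
            (gau (κ n) (e' j) (F n j)) k| ≤ K * (B.d n ^ natX X n k * B'.d n ^ d k)) →
          (G.card : ℝ) ≤ Tn n * B'.d n ^ (-(DlW g q d + ε)) := by
  classical
  obtain ⟨C, hC, gd⟩ := gd
  refine ⟨C, hC, fun d hd K hK ε hε => ?_⟩
  filter_upwards [gd d hd K hK ε hε] with n hn e' he' i hi G hG hbox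
  set e2 : ℕ × ℝ → Fin 14 → ℝ := fun j => if j ∈ J' n then e' j else 0 with he2
  have h1 : ∀ j ∈ J' n, e2 j = e' j := fun j hj => if_pos hj
  refine hn e2 (fun j hj => ?_) i (hsub n hi) G (hG.trans (hsub n)) (fun j hj k => ?_)
  · by_cases hj' : j ∈ J' n
    · rw [h1 j hj']; exact he' j hj'
    · have h2 : e2 j = 0 := if_neg hj'
      rw [h2]
      refine ⟨⟨rfl, rfl, rfl⟩, fun k => ?_⟩
      rw [Pi.zero_apply, abs_zero, mul_zero]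
      exact (Real.rpow_pos_of_pos (B.pos n) _).le
  · rw [h1 i hi, h1 j (hG hj)]
    exact hbox j hj k

/-- **conclusion of 626's half** : own box, own motion of the gauged chart, size -/
structure OwnOut (θ : Fin 3 → ℝ) (V V' : Set (Fin 18)) (B B' : Base) (κ : ℕ → ℝ)
    (u : ℕ → Fin 18 → ℝ) (F : ℕ → ℕ × ℝ → FW) (X : ℕ → Fin 18 → ℝ) (R1 : ℝ)
    (E : ℕ → Finset (ℕ × ℝ)) (e : ℕ → ℕ × ℝ → Fin 14 → ℝ) : Prop where
  size : ∀ ε : ℝ, 0 < ε → ∀ᶠ n in (U : Filter ℕ), ∀ i ∈ E n, ∀ p : Fin 14,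
    u n (Fin.natAdd 4 p) * |e n i p| ≤ B.d n ^ natX X n (Fin.natAdd 4 p) *
      B'.d n ^ (max 0 (btW θ (Fin.natAdd 4 p)) - ε)
  ownc : ∀ ε : ℝ, 0 < ε → ∀ᶠ n in (U : Filter ℕ), ∀ i ∈ E n, ∀ j ∈ E n, i.1 = j.1 →
    ∀ k, |coU u κ F n i j k| ≤ B.d n ^ natX X n k * B'.d n ^ (ob0 V (20 * R1) k - ε)
  ownz : ∀ ε : ℝ, 0 < ε → ∀ᶠ n in (U : Filter ℕ), ∀ i ∈ E n, ∀ j ∈ E n, i.1 = j.1 →
    ∀ k, 4 ≤ k → k ∉ V' → |coU u κ (fG κ e F) n i j k| ≤ B.d n ^ natX X n k * B'.d n ^ (R1 - ε)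

/-- **from the window chain to the gauge input** -/
theorem hasGau_of_recLaw {j : Fin 14} {Vs : Finset (Fin 14)}
    {gl : ℕ → ℕ × ℝ → (ℕ × ℝ) × (ℕ × ℝ)} {e : ℕ → ℕ × ℝ → ℝ} {V' : Set (Fin 18)}
    (th1 : 0 < θ 1) (q1 : 0 < q 1) (q2 : 0 < q 2) (q0 : 0 ≤ q 0) (qg : 4 * q 0 < g)
    (qθ : 8 * (q 0 * (max (-(θ 0)) 0 + |θ 1| + |θ 2|)) ≤ g)
    (vis : ∀ k ∈ V, (4 ≤ k ∧ k ≠ 13 ∧ k ≠ 16 ∧ k ≠ 17) ∧ 0 < btW θ k)
    (dr4 : ∀ k ∈ Dr, 4 ≤ k ∧ k ≠ 17 ∧ k ∉ V) (capV : CapCl V) (hV' : V' ⊆ V)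
    (H : RL478.RecLaw θ g q V Dr P ν own r0 B B' I0 J κ u F X w Tn To lam lo j Vs gl e)
    (gd : ∃ C : ℝ, 0 < C ∧ ∀ d ∈ QdW θ, ∀ K : ℝ, 1 ≤ K → ∀ ε : ℝ, 0 < ε → ∀ᶠ n in (U : Filter ℕ),
      ∀ e' : ℕ × ℝ → Fin 14 → ℝ,
        (∀ j ∈ J n, (e' j 9 = 0 ∧ e' j 12 = 0 ∧ e' j 13 = 0) ∧
          ∀ k, u n (Fin.natAdd 4 k) * |e' j k| ≤ B.d n ^ (-C)) →
        ∀ i ∈ J n, ∀ G ⊆ J n, (∀ j ∈ G, ∀ k, |u n k * coW (κ n) (gau (κ n) (e' i) (F n i))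
            (gau (κ n) (e' j) (F n j)) k| ≤ K * (B.d n ^ natX X n k * B'.d n ^ d k)) →
          (G.card : ℝ) ≤ Tn n * B'.d n ^ (-(DlW g q d + ε)))
    (natpos : ∀ R : ℝ, ∀ᶠ n in (U : Filter ℕ), ∀ k, R * w n ≤ natX X n k)
    (card : ∃ Hc : ℕ → ℝ, B'.Sub Hc ∧ ∀ᶠ n in (U : Filter ℕ),
      (Nat.log 2 (J n).card : ℝ) + 1 ≤ Hc n)
    (hj : j ≠ 9 ∧ j ≠ 12 ∧ j ≠ 13)
    (alg : ∀ (R1 : ℝ) (E : ℕ → Finset (ℕ × ℝ)), 1 ≤ R1 → (∀ᶠ n in (U : Filter ℕ), E n ⊆ J n) →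
      (∀ᶠ n in (U : Filter ℕ), ∀ i ∈ E n, ∀ i' ∈ E n, i.1 = i'.1 → gl n i = gl n i' ∧
        ∀ k, |coU u κ F n i i' k| ≤
          cK0 monW 67 * (B.d n ^ X n k * B'.d n ^ ob0 V (20 * R1) k)) →
      OwnOut θ V V' B B' κ u F X R1 E fun n i => Pi.single j (e n i)) :
    HasGau θ g q V' ∅ := by
  classical
  obtain ⟨T1, w1, R1, big⟩ := exists_bigW θ
  have hw1 : 0 ≤ w1 := by have := big.T0; have := big.w0T; linarith
  have hR1 : 1 ≤ R1 := by have := big.T0; have := big.R0; linarith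
  have few : ∀ ε : ℝ, 0 < ε → ∀ᶠ n in (U : Filter ℕ), ∀ i ∈ J n,
      (((cls (J n) (zolb B I0 (coU u κ F) monW 67 X w n 0) i).image (gl n)).card : ℝ) ≤
        B'.d n ^ (-ε) := by
    intro ε hε
    obtain ⟨S, hS, h1⟩ := H.few 0
    filter_upwards [h1, hS.ev_le hε] with n h2 h4 i hi
    have h3 := h2 0 H.iw.win.zero (by rw [norm_zero]) (fun k _ => by simp) i hi
    refine h3.trans ?_
    rw [← B'.exp_eq, ← Real.log_le_iff_le_exp h4.1]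
    exact h4.2
  obtain ⟨J', s₀, hsub, iw', hcls, hown, hpair⟩ := exists_part H.iw H.st few capV
    (bCw_nat Dr w1) (bCw_zero w1) (bCw_nonpos hw1) (K1 := 20 * R1) (by linarith)
  set Cl : ℕ → Finset (ℕ × ℝ) := fun n => cls (J' n)
    (zlab B I0 (coU u κ F) monW 67 (fun n => X n + w n • bCw w1) w n 0) (s₀ n) with hCl
  have hA := alg R1 Cl hR1 (Eventually.of_forall fun n i hi => hsub n (mem_cls.1 hi).1) hpair
  exact ⟨V, Dr, P, ν, own, r0, B, B', I0, J', κ, u, F, X, w, Tn, To, lam, lo, w1, R1, T1, bCw w1,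
    Cl, Cl, s₀, fun n i => Pi.single j (e n i),
    { th1 := th1
      q1 := q1
      q2 := q2
      q0 := q0
      qg := qg
      qθ := qθ
      vis := vis
      u0 := H.u0
      κ1 := H.κ1
      dr4 := dr4
      iw := iw'
      st := ⟨_, H.st⟩
      gd := gd_sub hsub gd
      natpos := natpos
      card := by
        obtain ⟨Hc, h1, h2⟩ := card
        refine ⟨Hc, h1, h2.mono fun n hn => le_trans ?_ hn⟩
        have := Nat.log_mono_right (b := 2) (Finset.card_le_card (hsub n))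
        have h3 : ((Nat.log 2 (J' n).card : ℕ) : ℝ) ≤ (Nat.log 2 (J n).card : ℕ) := by
          exact_mod_cast this
        linarith
      big := big
      capV := capV
      bnat := bCw_nat Dr w1
      bz := bCw_zero w1
      bc := bCw_one w1
      blo := fun k _ => bCw_ge hw1 k
      bhi := fun k _ v h0 h1 => bCw_hi big k h0 h1
      cls := hcls
      esub := Eventually.of_forall fun n => Subset.refl _
      edens := fun ε hε => by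
        filter_upwards with n
        refine le_mul_of_one_le_left (Nat.cast_nonneg _) ?_
        exact Real.one_le_rpow_of_pos_of_le_one_of_nonpos (B'.pos n) (B'.lt n).le (by linarith)
      own := hown
      supp := fun n i => ⟨Pi.single_eq_of_ne (Ne.symm hj.1) _,
        Pi.single_eq_of_ne (Ne.symm hj.2.1) _, Pi.single_eq_of_ne (Ne.symm hj.2.2) _⟩
      size := hA.size
      sub' := hV'
      ownc := hA.ownc
      ownz := hA.ownz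
      zV := fun k hk => absurd hk (by simp)
      zero := fun k hk => absurd hk (by simp) }⟩

end

end Crest.Agent.R136.RL66
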