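import Crest.Agent.R136.RL5_478
import Crest.Agent.R136.RLc_66

/-!
# R136, thin branch (helper312): twin windows with a moving record point

* `twin_iwgM` : the record points are `(t - c k l) • btW θ`, `k` = units of the blow-up; `y` = any
  point with tangents `lamI, loI`. Output: on the same part and with one unit the window at `y` and the
  record window at `(t - c h) • btW θ`.
* `pos_eq`, `pos_le` : positions of the interior base with respect to the record class.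
-/

set_option autoImplicit false
set_option linter.unusedVariables false

open Finset Filter Topology

namespace Crest.Agent.R136.QG312

open Crest.Agent.R136.Net191
open Crest.Agent.R136.NetW191
open Crest.Agent.R136.PrW464
open Crest.Agent.R136.NatW697
open Crest.Agent.R136.LadW697
open Crest.Agent.R136.LadG697
open Crest.Agent.R136.Zpr779
open Crest.Agent.R136.Qg926
open Crest.Agent.R136.EvW938
open Crest.Agent.R136.Bas938
open Crest.Agent.R136.AwJ774
open Crest.Agent.R136.K2S774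
open Crest.Agent.R136.RL478
open Crest.Agent.R136.Gau66 (base_ext tendsto_min)
open Crest.Agent.R138.Ex926

section twin

variable {θ : Fin 3 → ℝ} {g : ℝ} {q : Fin 3 → ℝ} {V Z : Set (Fin 18)} {P : Set (Fin 18 → ℝ)}
  {ν own : (Fin 18 → ℝ) → ℝ} {r0 : Fin 18 → ℝ} {B B1 : Base} {I0 J : ℕ → Finset (ℕ × ℝ)}
  {κ : ℕ → ℝ} {u : ℕ → Fin 18 → ℝ} {F : ℕ → ℕ × ℝ → FW} {X1 : ℕ → Fin 18 → ℝ} {w1 : ℕ → ℝ}
  {Dr : Set (Fin 18)} {Tn To : ℕ → ℝ} {lam0 lo0 lamI loI : (Fin 18 → ℝ) → ℝ}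

/-- **twin windows, moving record point** -/
theorem twin_iwgM (hD : Dr3 Dr) (W : IWG θ g q B B1 I0 J κ u F X1 w1 Dr Tn To lam0 lo0)
    (S0 : Stage QW P ν own 18 r0 (btW θ) (DlW g q) (QdW θ) Z V 0 (btW θ) 1 (actW Dr) Dr lam0 lo0)
    (t c : ℝ) {y : Fin 18 → ℝ} {k : ℕ → ℝ} (kpos : ∀ l, 0 < k l) (k0 : Tendsto k atTop (𝓝 0))
    (tI : IsTan (cn QW (actW Dr)) (cn QW (actW Dr)) lam0 (fun _ => y) k lamI)
    (tIo : IsTan (cn QW (actW Dr)) (cn QW (actW Dr)) lo0 (fun _ => y) k loI)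
    (H : ℕ → ℕ → ℝ) (hH : ∀ i, B1.Sub (H i)) :
    ∃ (B2 : Base) (h TI ToI TR ToR : ℕ → ℝ) (lamR loR : (Fin 18 → ℝ) → ℝ),
      (∀ n, 0 < h n) ∧ Tendsto h U (𝓝 0) ∧ (∀ n, B2.d n = B1.d n ^ h n) ∧
      ZWin B B2 I0 J (coU u κ F) monW 67 (fun n => X1 n + w1 n • y) (fun n => w1 n * h n)
        (cn QW (actW Dr)) TI lamI ∧
      ZProf B2 J (zolb B I0 (coU u κ F) monW 67 (fun n => X1 n + w1 n • y)
        (fun n => w1 n * h n)) (cn QW (actW Dr)) ToI loI ∧ (∀ n, 0 < ToI n) ∧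
      IWG θ g q B B2 I0 J κ u F (fun n => X1 n + w1 n • ((t - c * h n) • btW θ))
        (fun n => w1 n * h n) Dr TR ToR lamR loR ∧
      Stage QW P ν own 18 r0 (btW θ) (DlW g q) (QdW θ) Z V 0 (btW θ) 1 (actW Dr) Dr lamR loR ∧
      ∀ i, B2.Sub (H i) := by
  classical
  obtain ⟨φ, hφ, lamR, loR, tR, tRo, SR⟩ := S0.exists_recM (recW θ Dr V)
    (y := fun l => (t - c * k l) • btW θ) (σ := fun l => t - c * k l) (fun l i _ => rfl) kpos k0
  have kk0 : Tendsto (fun l => k (φ l)) atTop (𝓝 0) := k0.comp hφ.tendsto_atTop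
  have tI' := tan_sub tI hφ.tendsto_atTop
  have tIo' := tan_sub tIo hφ.tendsto_atTop
  obtain ⟨C, hC, hG⟩ := W.gdu
  obtain ⟨Hc, hHc, hcard⟩ := W.card
  -- bounded record points
  obtain ⟨b0, hb0⟩ : ∃ S : ℝ, ∀ l, |t - c * k l| ≤ S := by
    have h1 : Tendsto (fun l => |t - c * k l|) atTop (𝓝 |t - c * 0|) :=
      (((k0.const_mul c).const_sub t)).abs
    obtain ⟨b, hb⟩ := h1.bddAbove_range
    exact ⟨b, fun l => hb ⟨l, rfl⟩⟩
  have hbn : ∀ l, ‖(t - c * k (φ l)) • btW θ‖ ≤ b0 * ‖btW θ‖ := fun l => by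
    rw [norm_smul, Real.norm_eq_abs]
    exact mul_le_mul_of_nonneg_right (hb0 _) (norm_nonneg _)
  set H' : ℕ → ℕ → ℝ := fun i => Nat.casesOn i Hc fun i => Nat.casesOn i (fun n => |κ n|⁻¹) H
    with hH'
  have hs : ∀ i, B1.Sub (H' i) := fun i => by
    rcases i with _ | i
    · exact hHc
    · rcases i with _ | i
      · exact W.iw.kap
      · exact hH i
  obtain ⟨k1, hk1, H1⟩ := W.iw.win.exists_zoom (x := fun _ => y) (fun _ => le_rfl)
    (h := fun l => k (φ l)) (fun l => kpos _) kk0 cn_zero tI' W.iw.To0 W.iw.own cn_zero tIo' H' hs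
  obtain ⟨k2, hk2, H2⟩ := W.iw.win.exists_zoom (x := fun l => (t - c * k (φ l)) • btW θ) hbn
    (h := fun l => k (φ l)) (fun l => kpos _) kk0 cn_zero tR W.iw.To0 W.iw.own cn_zero tRo H' hs
  obtain ⟨k3, hk3, H3⟩ := exists_diag _
    (fun l => hG.level (fun l => t - c * k (φ l)) (h := fun l => k (φ l)) (fun l => kpos _) l)
  set kk : ℕ → ℕ := fun n => min (k1 n) (min (k2 n) (k3 n)) with hkk
  have hkt : Tendsto kk U atTop := tendsto_min hk1 (tendsto_min hk2 hk3)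
  obtain ⟨B', b1, b2, b3, b4, b5⟩ := H1 kk hkt (Eventually.of_forall fun n => min_le_left _ _)
  obtain ⟨B'', c1, c2, c3, c4, c5⟩ := H2 kk hkt
    (Eventually.of_forall fun n => (min_le_right _ _).trans (min_le_left _ _))
  have e : B'' = B' := base_ext fun n => by rw [b1, c1]
  subst e
  have hO1 : ∀ n, 0 < To n * B1.d n ^ (-(lo0 y)) := fun n =>
    mul_pos (W.iw.To0 n) (Real.rpow_pos_of_pos (B1.pos n) _)
  have hO2 : ∀ n, 0 < To n * B1.d n ^ (-(lo0 ((t - c * k (φ (kk n))) • btW θ))) := fun n =>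
    mul_pos (W.iw.To0 n) (Real.rpow_pos_of_pos (B1.pos n) _)
  have W2 := W.zoom hD S0.rcd (σ := fun l => t - c * k (φ l)) (S := b0) (fun l => hb0 _)
    (h := fun l => k (φ l)) (fun l => kpos _) kk0 hkt (Eventually.of_forall fun n => subset_rfl)
    b1 hC (H3.mono fun n hn => hn _ ((min_le_right _ _).trans (min_le_right _ _))) hO2 c4 c5
    (b3 1) (b3 0) hcard
  exact ⟨B'', fun n => k (φ (kk n)), _, _, _, _, lamR, loR, fun n => kpos _, kk0.comp hkt, b1, b4,
    zprof_zolb (y := fun _ => y) (v := fun n => k (φ (kk n))) b5, hO1, W2, SR,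
    fun i => b3 (i + 2)⟩

end twin

end Crest.Agent.R136.QG312
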