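import Crest.Agent.R136.RLc_66

import Crest.Agent.R136.RL2_626

/-!
# R136, thin branch (helper831): a relation on the interior classes gives the input of the gauge step

* `bCq b w1` : base of the class, `z : 0`, `c : -w1`, height `-b w1`.
* `JLaw` : law of the pairs with one interior label, gauge `j` per incidence.
* **`hasGau_of_law`** : record window with D-max, stage and `JLaw` give `HasGau`.
-/

set_option autoImplicit false
set_option linter.unusedVariables false

open Finset Filter Topology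

namespace Crest.Agent.R136.Qh831

open Crest.Agent.R136.Net191
open Crest.Agent.R136.NetW191
open Crest.Agent.R136.PrW464
open Crest.Agent.R136.NatW697
open Crest.Agent.R136.LadW697
open Crest.Agent.R136.LadG697
open Crest.Agent.R136.Top484
open Crest.Agent.R136.NatT550
open Crest.Agent.R136.ThS830
open Crest.Agent.R136.LadT830
open Crest.Agent.R136.Zpr779
open Crest.Agent.R136.Qg926
open Crest.Agent.R136.EvW938
open Crest.Agent.R136.GauW619
open Crest.Agent.R136.AwJ774
open Crest.Agent.R136.K2S774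
open Crest.Agent.R136.RL66
open Crest.Agent.R136.RL626 (mvz new_pair coW_gau_two side_le)
open Crest.Agent.R138.Ex926
open Crest.Agent.R136.Gau66 (popular_fs few_labels sub_rpow zprof_refine)

/-! ### base of the class -/

/-- base of the class -/
def bCq (b : ℤ) (w1 : ℝ) : Fin 18 → ℝ := grW 0 (-w1) (-((b : ℝ) * w1))

theorem bCq_nat (Dr : Set (Fin 18)) (b : ℤ) (w1 : ℝ) : Nat QW (actW Dr) (bCq b w1) :=
  nat_grW _ _ _ _

theorem bCq_zero (b : ℤ) (w1 : ℝ) : bCq b w1 0 = 0 := by simp [bCq, grW, wz, wc, wn]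

theorem bCq_one (b : ℤ) (w1 : ℝ) : bCq b w1 1 = -w1 := by simp [bCq, grW, wz, wc, wn]

theorem wn_flag : ∀ k : Fin 18, 4 ≤ k → wn k = 1 := by decide

theorem bCq_flag {b : ℤ} {w1 : ℝ} {k : Fin 18} (hk : 4 ≤ k) :
    bCq b w1 k = -((wc k + b : ℤ) : ℝ) * w1 := by
  unfold bCq grW
  rw [wn_flag k hk]
  push_cast
  ring

theorem lt_four : ∀ k : Fin 18, ¬ 4 ≤ k → k = 0 ∨ k = 1 ∨ k = 2 ∨ k = 3 := by decide

theorem bCq_low {b : ℤ} {w1 : ℝ} (h : 0 ≤ w1) {k : Fin 18} (hk : ¬ 4 ≤ k) (h0 : k ≠ 0) :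
    bCq b w1 k ≤ -w1 := by
  rcases lt_four k hk with rfl | rfl | rfl | rfl
  · exact absurd rfl h0
  all_goals simp [bCq, grW, wz, wc, wn] <;> linarith

theorem bCq_le {b : ℤ} {w1 : ℝ} (h : 0 ≤ w1) (b0 : 0 ≤ b) (k : Fin 18) : bCq b w1 k ≤ 4 * w1 := by
  by_cases hk : 4 ≤ k
  · rw [bCq_flag hk]
    have hw : ∀ k : Fin 18, -4 ≤ wc k := by decide
    have h1 : (-4 : ℝ) ≤ ((wc k + b : ℤ) : ℝ) := by
      have := hw k
      exact_mod_cast (by omega : (-4 : ℤ) ≤ wc k + b)
    nlinarith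
  · by_cases h0 : k = 0
    · rw [h0, bCq_zero]; linarith
    · have := bCq_low (b := b) h hk h0
      linarith

theorem bCq_ge {b : ℤ} {w1 : ℝ} (h : 0 ≤ w1) (b4 : b ≤ 4) (k : Fin 18) :
    -(wtR k * w1) ≤ bCq b w1 k := by
  by_cases hk : 4 ≤ k
  · rw [bCq_flag hk]
    have h1 : wtR k = ((wz k + wc k + 9 : ℤ) : ℝ) := by
      unfold wtR grW
      rw [wn_flag k hk]
      push_cast
      ring
    have hw : ∀ k : Fin 18, -4 ≤ wz k := by decide
    have h2 : ((wc k + b : ℤ) : ℝ) ≤ ((wz k + wc k + 9 : ℤ) : ℝ) := by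
      have := hw k
      exact_mod_cast (by omega : wc k + b ≤ wz k + wc k + 9)
    rw [h1]
    have := mul_le_mul_of_nonneg_right h2 h
    linarith
  · rcases lt_four k hk with rfl | rfl | rfl | rfl
    all_goals simp [bCq, wtR, grW, wz, wc, wn] <;> linarith

theorem bCq_nonpos {b : ℤ} {w1 : ℝ} (h : 0 ≤ w1) {k : Fin 18} (hk : 4 ≤ k → 0 ≤ wc k + b) :
    bCq b w1 k ≤ 0 := by
  by_cases h4 : 4 ≤ k
  · rw [bCq_flag h4]
    have h1 : (0 : ℝ) ≤ ((wc k + b : ℤ) : ℝ) := by exact_mod_cast hk h4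
    nlinarith [mul_nonneg h1 h]
  · by_cases h0 : k = 0
    · rw [h0, bCq_zero]
    · have := bCq_low (b := b) h h4 h0
      linarith

theorem bCq_hi {θ : Fin 3 → ℝ} {w1 R1 T1 : ℝ} (big : BigW θ w1 R1 T1) {b : ℤ} {k : Fin 18}
    (hk : 4 ≤ k → 0 ≤ wc k + b) (hk0 : 4 ≤ k → wc k + b = 0 → 0 ≤ btW θ k) {v : ℝ}
    (h0 : 0 ≤ v) (h1 : v ≤ 1) : bCq b w1 k ≤ v * btW θ k := by
  have hw : 0 ≤ w1 := by have := big.T0; have := big.w0T; linarith
  have key : bCq b w1 k ≤ -w1 → bCq b w1 k ≤ v * btW θ k := by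
    intro h
    refine h.trans ?_
    have h2 := btW_ge big k
    rcases le_total 0 (btW θ k) with h3 | h3
    · have := mul_nonneg h0 h3
      linarith
    · have := mul_nonneg (sub_nonneg.2 h1) (neg_nonneg.2 h3)
      linarith
  by_cases h4 : 4 ≤ k
  · by_cases h5 : wc k + b = 0
    · rw [bCq_flag h4, h5]
      have := mul_nonneg h0 (hk0 h4 h5)
      simp only [Int.cast_zero, neg_zero, zero_mul]
      exact this
    · refine key ?_
      rw [bCq_flag h4]
      have h6 : 1 ≤ wc k + b := by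
        have := hk h4
        omega
      have h7 : (1 : ℝ) ≤ ((wc k + b : ℤ) : ℝ) := by exact_mod_cast h6
      nlinarith [mul_le_mul_of_nonneg_right h7 hw]
  · by_cases h5 : k = 0
    · subst h5
      have e : btW θ 0 = 1 := by simp [btW, grW, wz, wc, wn]
      rw [bCq_zero, e, mul_one]
      exact h0
    · exact key (bCq_low hw h4 h5)

/-! ### algebra of the gauges -/

/-- slots of the gauges -/
def Sq : Finset (Fin 14) := {3, 5, 6, 10, 11}

theorem hl_Sq : ∀ q, ∀ t ∈ tms q, (∀ i ∈ t.hl, i = 0) → t.s ∉ Sq := by decide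

/-- the gauges are not moved by the height shift -/
theorem mvz_Sq {κ z : ℝ} {e : Fin 14 → ℝ} (he : ∀ p, p ∉ Sq → e p = 0) (q : Fin 14) :
    mvz κ z e q = 0 := by
  unfold mvz
  rw [tr_tms]
  have key : ∀ L : List Tm, (∀ t ∈ L, t ∈ tms q) →
      (L.map (Tm.ev κ ![z, 0, 0, 0] e)).sum = 0 := by
    intro L
    induction L with
    | nil => intro _; simp
    | cons a L ih =>
      intro hL
      rw [List.map_cons, List.sum_cons, ih fun t ht => hL t (List.mem_cons_of_mem _ ht), add_zero]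
      have ha := hL a List.mem_cons_self
      by_cases h0 : ∀ i ∈ a.hl, i = 0
      · unfold Tm.ev
        rw [he a.s (hl_Sq q a ha h0), mul_zero]
      · push Not at h0
        obtain ⟨i, hi, hi0⟩ := h0
        have h1 : (a.hl.map ![z, 0, 0, 0]).prod = 0 := by
          rw [List.prod_eq_zero_iff, List.mem_map]
          refine ⟨i, hi, ?_⟩
          fin_cases i
          · exact absurd rfl hi0
          · rfl
          · rfl
          · rfl
        unfold Tm.ev
        rw [h1, mul_zero, zero_mul]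
  rw [key _ fun t ht => ht]
  ring

/-- a slot which does not see the gauge -/
theorem tr_unseen {κ : ℝ} {h : Fin 4 → ℝ} {e : Fin 14 → ℝ} {q : Fin 14} (h0 : e q = 0)
    (ht : ∀ t ∈ tms q, e t.s = 0) : tr κ h e q = 0 := by
  rw [tr_tms, h0, zero_add]
  have key : ∀ L : List Tm, (∀ t ∈ L, t ∈ tms q) → (L.map (Tm.ev κ h e)).sum = 0 := by
    intro L
    induction L with
    | nil => intro _; simp
    | cons a L ih =>
      intro hL
      rw [List.map_cons, List.sum_cons, ih fun t ht => hL t (List.mem_cons_of_mem _ ht), add_zero]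
      unfold Tm.ev
      rw [ht a (hL a List.mem_cons_self), mul_zero]
  exact key _ fun t ht => ht

/-- the gauged label, two gauges -/
theorem coW_gau2 (κ : ℝ) (e e' : Fin 14 → ℝ) (f f' : FW) (q : Fin 14) :
    coW κ (gau κ e f) (gau κ e' f') (Fin.natAdd 4 q) =
      coW κ f f' (Fin.natAdd 4 q) + e' q - tr κ (rel κ f.g f'.g) e q := by
  rw [coW_gau_two, coW_gau_flag]
  ring

theorem tr_neg_apply (κ : ℝ) (h : Fin 4 → ℝ) (e : Fin 14 → ℝ) (q : Fin 14) :
    tr κ h (fun p => -e p) q = -tr κ h e q := by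
  have h1 := tr_sub κ h 0 e
  rw [tr_zero] at h1
  have e1 : (0 : Fin 14 → ℝ) - e = fun p => -e p := by
    funext p; simp
  rw [e1] at h1
  rw [h1]
  simp

end Crest.Agent.R136.Qh831
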