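import Crest.Agent.R136.SZ2_480
import Crest.Agent.R136.Qh1_831

/-!
# R136, thin branch (helper831): the linear resonance, indices for the final assembly

* `lin_b` : the resonant weight `b`, the dropped slots `D`, the slots `Sp` of the gauge, the slots `Js`
  of the relation.
* `lin_side`, `lin_zs`, `btW_JW1`, `lin_hlo0` : the side facts of `hasGau_of_law`.
-/

set_option autoImplicit false
set_option linter.unusedVariables false

open Finset Filter Topology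

namespace Crest.Agent.R136.Qh831

open Crest.Agent.R136.Net191
open Crest.Agent.R136.NetW191
open Crest.Agent.R136.PrW464
open Crest.Agent.R136.NatW697
open Crest.Agent.R136.LadW697
open Crest.Agent.R136.LadT830
open Crest.Agent.R136.SZ480

variable {θ : Fin 3 → ℝ}

/-- the cases of the linear resonance -/
def LinC (b : ℤ) (D : Finset (Fin 18)) (Sp Js : Finset (Fin 14)) : Prop :=
  (b = 2 ∧ D = {4, 5, 6, 7, 8, 9, 10, 11, 12, 13} ∧ Sp = {10, 11} ∧ Js = {10, 11, 12}) ∨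
    (b = 1 ∧ D = {4, 5, 6, 7, 8, 9, 10, 11, 12, 13, 14} ∧ Sp = {11} ∧ Js = {11, 12})

/-- **the resonant weight and the dropped slots** -/
theorem lin_b (h1 : 0 < θ 1) (hres : Res1 θ) : ∃ (b : ℤ) (D : Finset (Fin 18))
    (Sp Js : Finset (Fin 14)), (1 - θ 0) + b * θ 1 = 1 ∧ (↑D : Set (Fin 18)) = DrR θ 1 ∧
      LinC b D Sp Js := by
  rcases hres with h | h
  · refine ⟨2, {4, 5, 6, 7, 8, 9, 10, 11, 12, 13}, {10, 11}, {10, 11, 12}, ?_, ?_,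
      Or.inl ⟨rfl, rfl, rfl, rfl⟩⟩
    · simp only [btW, grW, wz, wc, wn] at h
      simp at h
      push_cast
      linarith
    · ext k
      rw [drR1_14 h1 h k, mem_coe]
  · refine ⟨1, {4, 5, 6, 7, 8, 9, 10, 11, 12, 13, 14}, {11}, {11, 12}, ?_, ?_,
      Or.inr ⟨rfl, rfl, rfl, rfl⟩⟩
    · simp only [btW, grW, wz, wc, wn] at h
      simp at h
      push_cast
      linarith
    · ext k
      rw [drR1_15 h1 h k, mem_coe]

/-- **side facts of the linear resonance** -/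
theorem lin_side {b : ℤ} {D : Finset (Fin 18)} {Sp Js : Finset (Fin 14)} (h : LinC b D Sp Js) :
    0 ≤ b ∧ b ≤ 4 ∧ (∀ k, 4 ≤ k → k ∉ D → 0 ≤ wc k + b) ∧ (∀ k ∈ D, 4 ≤ k ∧ k ≠ 17) ∧
      (∀ k, 4 ≤ k → k ∉ D → wc k + b = 0 → k ∈ JW 1) ∧ Sp ⊆ Sq ∧ Sp ⊆ Js ∧
      (∀ q ∈ Js, (Fin.natAdd 4 q : Fin 18) ∈ JW 1 ∧ (Fin.natAdd 4 q : Fin 18) ∉ D) := by
  rcases h with ⟨rfl, rfl, rfl, rfl⟩ | ⟨rfl, rfl, rfl, rfl⟩ <;> decide

/-- the zero slots, `Zs = ∅` or `Zs = JW 2` -/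
theorem lin_zs {b : ℤ} {D : Finset (Fin 18)} {Sp Js : Finset (Fin 14)} (h : LinC b D Sp Js) :
    ∀ k : Fin 18, k ∈ JW 2 ∨ k ∈ JW 1 → (∃ q ∈ Js, k = Fin.natAdd 4 q) ∨
      (k ∈ D ∧ ∃ q, k = Fin.natAdd 4 q ∧ q ∉ Sp ∧ ∀ t ∈ tms q, t.s ∉ Sp) := by
  rcases h with ⟨rfl, rfl, rfl, rfl⟩ | ⟨rfl, rfl, rfl, rfl⟩ <;> decide

/-- the form of `hasGau_of_law` -/
theorem lin_zs' {b : ℤ} {D : Finset (Fin 18)} {Sp Js : Finset (Fin 14)} (h : LinC b D Sp Js)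
    {Zs : Set (Fin 18)} (hZ : Zs = ∅ ∨ Zs = ↑(JW 2)) :
    ∀ k ∈ (Zs ∪ ↑(JW 1) : Set (Fin 18)), (∃ q ∈ Js, k = Fin.natAdd 4 q) ∨
      (k ∈ (↑D : Set (Fin 18)) ∧ ∃ q, k = Fin.natAdd 4 q ∧ q ∉ Sp ∧ ∀ t ∈ tms q, t.s ∉ Sp) := by
  intro k hk
  have h2 : k ∈ JW 2 ∨ k ∈ JW 1 := by
    rcases hk with hk | hk
    · rcases hZ with rfl | rfl
      · exact absurd hk (by simp)
      · exact Or.inl (mem_coe.1 hk)
    · exact Or.inr (mem_coe.1 hk)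
  exact lin_zs h k h2

theorem btW_JW1 {b : ℤ} (hb : (1 - θ 0) + b * θ 1 = 1) {k : Fin 18} (hk : k ∈ JW 1) :
    btW θ k = -((wc k + b : ℤ) : ℝ) * θ 1 := by
  have h := mem_JW.1 hk
  have hz : wz k = -1 := by
    have := h.2
    simp only [alW, if_pos h.1] at this
    omega
  have hn : wn k = 1 := (by decide : ∀ k : Fin 18, 4 ≤ k → wn k = 1) k h.1
  simp only [btW, grW, hz, hn]
  push_cast
  linarith

/-- `hlo0` of `hasGau_of_law` -/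
theorem lin_hlo0 {b : ℤ} {D : Finset (Fin 18)} {Sp Js : Finset (Fin 14)} (h : LinC b D Sp Js)
    (hb : (1 - θ 0) + b * θ 1 = 1) : ∀ k, 4 ≤ k → k ∉ D → wc k + b = 0 → 0 ≤ btW θ k := by
  intro k h4 hD h0
  have := (lin_side h).2.2.2.2.1 k h4 hD h0
  rw [btW_JW1 hb this, h0]
  simp

end Crest.Agent.R136.Qh831
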