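import Crest.Agent.R136.RL2_626
import Crest.Agent.R136.RLc_66

/-!
# R136, thin branch, quad / lin (helper289): own algebra of a gauge supported on `{3, 5, 6, 10, 11}`

* `coW_gau_pair` : the new label on a pair with two corrections.
* `mvz_S` : height shifts do not move a correction supported on `BB, AB, AA, B, A`.
* `ownOut_of` : `OwnOut` (fields `size`, `ownc`, `ownz` of `GauW`, with `V' = V`) from the pair law.
* `zero_of`, `keep_lin` : zero slots.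
-/

set_option autoImplicit false
set_option linter.unusedVariables false

open Finset Filter Topology

namespace Crest.Agent.R136.Qo289

open Crest.Agent.R136.Net191
open Crest.Agent.R136.NetW191
open Crest.Agent.R136.PrW464
open Crest.Agent.R136.NatW697
open Crest.Agent.R136.LadW697
open Crest.Agent.R136.LadG697
open Crest.Agent.R136.EvW938
open Crest.Agent.R136.GauW619
open Crest.Agent.R136.AwJ774
open Crest.Agent.R136.K2S774
open Crest.Agent.R136.Qg926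
open Crest.Agent.R136.RL626
open Crest.Agent.R138.Ex926

/-- the slots `BB, AB, AA, B, A` -/
def S5 : Finset (Fin 14) := {3, 5, 6, 10, 11}

/-- **the new label on a pair with two corrections** -/
theorem coW_gau_pair (κ : ℝ) (e e' : Fin 14 → ℝ) (f f' : FW) (q : Fin 14) :
    coW κ (gau κ e f) (gau κ e' f') (Fin.natAdd 4 q) =
      coW κ f f' (Fin.natAdd 4 q) + e' q - tr κ (rel κ f.g f'.g) e q := by
  rw [coW_gau_two, coW_gau_flag]
  ring

theorem pure_z : ∀ q, ∀ t ∈ tms q, (∀ i ∈ t.hl, i = 0) → t.s ∉ S5 := by decide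

/-- height shifts do not move a correction supported on `S5` -/
theorem mvz_S {κ z : ℝ} {e : Fin 14 → ℝ} (he : ∀ p, p ∉ S5 → e p = 0) (q : Fin 14) :
    mvz κ z e q = 0 := by
  unfold mvz
  rw [tr_tms]
  have key : ∀ L : List Tm, (∀ t ∈ L, t ∈ tms q) →
      (L.map (Tm.ev κ ![z, 0, 0, 0] e)).sum = 0 := by
    intro L
    induction L with
    | nil => intro _; simp
    | cons a L ih =>
      intro hL
      rw [List.map_cons, List.sum_cons, ih fun t ht => hL t (List.mem_cons_of_mem _ ht), add_zero]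
      have ha := hL a List.mem_cons_self
      by_cases h0 : ∀ i ∈ a.hl, i = 0
      · unfold Tm.ev
        rw [he a.s (pure_z q a ha h0), mul_zero]
      · push Not at h0
        obtain ⟨i, hi, hi0⟩ := h0
        have h1 : (a.hl.map ![z, 0, 0, 0]).prod = 0 := by
          rw [List.prod_eq_zero_iff, List.mem_map]
          refine ⟨i, hi, ?_⟩
          fin_cases i
          · exact absurd rfl hi0
          · rfl
          · rfl
          · rfl
        unfold Tm.ev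
        rw [h1, mul_zero, zero_mul]
  rw [key _ fun t ht => ht]
  ring

section

variable {θ : Fin 3 → ℝ} {V Dr : Set (Fin 18)} {B B' : Base} {κ : ℕ → ℝ}
  {u : ℕ → Fin 18 → ℝ} {F : ℕ → ℕ × ℝ → FW} {X : ℕ → Fin 18 → ℝ} {w : ℕ → ℝ} {R1 K C0 : ℝ}
  {E : ℕ → Finset (ℕ × ℝ)} {e : ℕ → ℕ × ℝ → Fin 14 → ℝ} {S : Finset (Fin 14)}

/-- own box in natural exponents -/
theorem ownc_of (hR : 0 ≤ R1) (hDr : ∀ k ∈ Dr, 4 ≤ k ∧ k ≠ 17) (hVD : ∀ k ∈ V, k ∉ Dr)
    (bas : AwZ146.BasX monW (mA monW (actW Dr)) (mA monW (actW Dr)) X w)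
    (nat : ∀ n k, k ∉ Dr → X n k = natX X n k) (hb : ∀ n, B'.d n = B.d n ^ w n)
    (hown : ∀ᶠ n in (U : Filter ℕ), ∀ i ∈ E n, ∀ i' ∈ E n, i.1 = i'.1 →
      ∀ k, |coU u κ F n i i' k| ≤ C0 * (B.d n ^ X n k * B'.d n ^ (ob0 V (20 * R1) k))) :
    ∀ ε : ℝ, 0 < ε → ∀ᶠ n in (U : Filter ℕ), ∀ i ∈ E n, ∀ j ∈ E n, i.1 = j.1 →
      ∀ k, |coU u κ F n i j k| ≤ B.d n ^ natX X n k * B'.d n ^ (ob0 V (20 * R1) k - ε) := by
  have hdp : ∀ (n : ℕ) (v : ℝ), 0 < B'.d n ^ v := fun n v => Real.rpow_pos_of_pos (B'.pos n) _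
  have hBp : ∀ (n : ℕ) (v : ℝ), 0 < B.d n ^ v := fun n v => Real.rpow_pos_of_pos (B.pos n) _
  have hmono : ∀ (n : ℕ) {v v' : ℝ}, v ≤ v' → B'.d n ^ v' ≤ B'.d n ^ v := fun n {v v'} h =>
    Real.rpow_le_rpow_of_exponent_ge (B'.pos n) (B'.lt n).le h
  intro ε hε
  filter_upwards [hown, side_le (B := B) (B' := B') hDr bas nat hb (R := 20 * R1),
    Crest.Agent.R136.Gf356.ev_const_le B' (t := ε) hε C0] with n h1 h2 h3 i hi i' hi' hii k
  have hob0 : 0 ≤ ob0 V (20 * R1) k := by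
    unfold ob0
    split_ifs
    · exact le_rfl
    · linarith
  have h4 : C0 * (B.d n ^ X n k * B'.d n ^ (ob0 V (20 * R1) k)) ≤
      B'.d n ^ (-ε) * (B.d n ^ X n k * B'.d n ^ (ob0 V (20 * R1) k)) :=
    mul_le_mul_of_nonneg_right h3 (mul_pos (hBp n _) (hdp n _)).le
  have h5 : B.d n ^ X n k * B'.d n ^ (ob0 V (20 * R1) k) ≤
      B.d n ^ natX X n k * B'.d n ^ (ob0 V (20 * R1) k) := by
    by_cases hk : k ∈ Dr
    · have e1 : ob0 V (20 * R1) k = 20 * R1 := by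
        unfold ob0
        rw [if_neg]
        rintro (h | h)
        · have := (hDr k hk).1
          rw [h] at this
          exact absurd this (by decide)
        · exact hVD k h hk
      rw [e1]
      have h6 : B'.d n ^ (20 * R1) ≤ 1 := by
        have := hmono n (v := 0) (v' := 20 * R1) (by linarith)
        rwa [Real.rpow_zero] at this
      have h7 := mul_le_mul_of_nonneg_left h6 (hBp n (X n k)).le
      rw [mul_one] at h7
      exact h7.trans (h2 k hk)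
    · rw [nat n k hk]
  have h6 := mul_le_mul_of_nonneg_left h5 (hdp n (-ε)).le
  have h7 : B'.d n ^ (-ε) * B'.d n ^ (ob0 V (20 * R1) k) =
      B'.d n ^ (ob0 V (20 * R1) k - ε) := by
    rw [← Real.rpow_add (B'.pos n)]; congr 1; ring
  calc |coU u κ F n i i' k| ≤ _ := h1 i hi i' hi' hii k
    _ ≤ _ := h4
    _ ≤ _ := h6
    _ = B.d n ^ natX X n k * (B'.d n ^ (-ε) * B'.d n ^ (ob0 V (20 * R1) k)) := by ring
    _ = _ := by rw [h7]

/-- **own motion in the gauged chart** : every flag slot off `V` -/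
theorem ownz_of (hR : 1 ≤ R1) (hK : R1 ≤ K) (hu : ∀ n, GrU (u n)) (hκ : ∀ n, |κ n| ≤ 1)
    (hV : ∀ k ∈ V, (4 : Fin 18) ≤ k) (hS : S ⊆ S5)
    (supp : ∀ n i p, p ∉ S → e n i p = 0)
    (size : ∀ ε : ℝ, 0 < ε → ∀ᶠ n in (U : Filter ℕ), ∀ i ∈ E n, ∀ p : Fin 14,
      u n (Fin.natAdd 4 p) * |e n i p| ≤ B.d n ^ natX X n (Fin.natAdd 4 p) *
        B'.d n ^ (max 0 (btW θ (Fin.natAdd 4 p)) - ε))
    (pair : ∀ ε : ℝ, 0 < ε → ∀ᶠ n in (U : Filter ℕ), ∀ i ∈ E n, ∀ i' ∈ E n, i.1 = i'.1 →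
      ∀ p ∈ S, u n (Fin.natAdd 4 p) * |coW (κ n) (F n i) (F n i') (Fin.natAdd 4 p) + e n i' p -
        tr (κ n) (rel (κ n) (F n i).g (F n i').g) (e n i) p| ≤
          B.d n ^ natX X n (Fin.natAdd 4 p) * B'.d n ^ (K - ε))
    (ownc : ∀ ε : ℝ, 0 < ε → ∀ᶠ n in (U : Filter ℕ), ∀ i ∈ E n, ∀ j ∈ E n, i.1 = j.1 →
      ∀ k, |coU u κ F n i j k| ≤ B.d n ^ natX X n k * B'.d n ^ (ob0 V (20 * R1) k - ε)) :
    ∀ ε : ℝ, 0 < ε → ∀ᶠ n in (U : Filter ℕ), ∀ i ∈ E n, ∀ j ∈ E n, i.1 = j.1 →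
      ∀ k, 4 ≤ k → k ∉ V →
        |coU u κ (fG κ e F) n i j k| ≤ B.d n ^ natX X n k * B'.d n ^ (R1 - ε) := by
  intro ε hε
  have hR0 : 0 < R1 := by linarith
  set ε' : ℝ := min ε R1 / 8 with hε'
  have he0 : 0 < ε' := by positivity
  have he1 : ε' ≤ R1 / 8 := by
    rw [hε']; exact div_le_div_of_nonneg_right (min_le_right _ _) (by norm_num)
  have he2 : ε' ≤ ε / 8 := by
    rw [hε']; exact div_le_div_of_nonneg_right (min_le_left _ _) (by norm_num)
  filter_upwards [size ε' he0, pair ε hε, ownc ε' he0,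
    Crest.Agent.R136.Gf356.ev_const_le B' (t := ε / 2) (by positivity) 472]
    with n hsz hpair hown hc i hi j hj hij k hk4 hkV
  have hdp : ∀ v : ℝ, 0 < B'.d n ^ v := fun v => Real.rpow_pos_of_pos (B'.pos n) _
  have hBp : ∀ v : ℝ, 0 < B.d n ^ v := fun v => Real.rpow_pos_of_pos (B.pos n) _
  have hmono : ∀ {v v' : ℝ}, v ≤ v' → B'.d n ^ v' ≤ B'.d n ^ v := fun {v v'} h =>
    Real.rpow_le_rpow_of_exponent_ge (B'.pos n) (B'.lt n).le h
  obtain ⟨q, rfl⟩ : ∃ q : Fin 14, k = Fin.natAdd 4 q := by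
    have h4 : (4 : ℕ) ≤ k.1 := hk4
    refine ⟨⟨k.1 - 4, by omega⟩, ?_⟩
    ext
    simp only [Fin.natAdd_mk]
    omega
  by_cases hqS : q ∈ S
  · have e1 : coU u κ (fG κ e F) n i j (Fin.natAdd 4 q) = u n (Fin.natAdd 4 q) *
        (coW (κ n) (F n i) (F n j) (Fin.natAdd 4 q) + e n j q -
          tr (κ n) (rel (κ n) (F n i).g (F n j).g) (e n i) q) := by
      unfold coU fG
      rw [coW_gau_pair]
    rw [e1, abs_mul, abs_of_pos ((hu n).pos _)]
    refine (hpair i hi j hj hij q hqS).trans ?_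
    exact mul_le_mul_of_nonneg_left (hmono (by linarith)) (hBp _).le
  have hK1 : 1 ≤ B'.d n ^ (-ε') := by
    have := hmono (v := -ε') (v' := 0) (by linarith)
    rwa [Real.rpow_zero] at this
  have hτ1 : B'.d n ^ (20 * R1) ≤ 1 := by
    have := hmono (v := 0) (v' := 20 * R1) (by linarith)
    rwa [Real.rpow_zero] at this
  have hKτ : B'.d n ^ (-ε') * B'.d n ^ (20 * R1) = B'.d n ^ (20 * R1 - ε') := by
    rw [← Real.rpow_add (B'.pos n)]; congr 1; ring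
  have hnot : ∀ i : Fin 4, i ≠ 0 → ob0 V (20 * R1) (Fin.castAdd 14 i) = 20 * R1 := by
    intro i hi0
    unfold ob0
    rw [if_neg]
    rintro (h | h)
    · apply hi0
      have := congrArg Fin.val h
      ext
      simpa using this
    · have h4 : (4 : ℕ) ≤ (Fin.castAdd 14 i : Fin 18).val := hV _ h
      simp only [Fin.val_castAdd] at h4
      omega
  have hob0 : ob0 V (20 * R1) 0 = 0 := by unfold ob0; rw [if_pos (Or.inl rfl)]
  have hsz' : ∀ p : Fin 14, u n (Fin.natAdd 4 p) * |e n i p| ≤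
      B'.d n ^ (-ε') * B.d n ^ natX X n (Fin.natAdd 4 p) := by
    intro p
    refine (hsz i hi p).trans ?_
    rw [mul_comm]
    refine mul_le_mul_of_nonneg_right (hmono ?_) (hBp _).le
    have := le_max_left 0 (btW θ (Fin.natAdd 4 p))
    linarith
  have hsupp5 : ∀ p, p ∉ S5 → e n i p = 0 := fun p hp => supp n i p fun h => hp (hS h)
  have hv : |u n (Fin.natAdd 4 q) * coW (κ n) (F n i) (F n j) (Fin.natAdd 4 q) -
      u n (Fin.natAdd 4 q) * mvz (κ n) (coW (κ n) (F n i) (F n j) 0) (e n i) q| ≤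
      B'.d n ^ R1 * B.d n ^ grW (X n 0) (X n 1) (X n 17) (Fin.natAdd 4 q) := by
    rw [mvz_S hsupp5, mul_zero, sub_zero]
    have h1 := hown i hi j hj hij (Fin.natAdd 4 q)
    have h2 : ob0 V (20 * R1) (Fin.natAdd 4 q) = 20 * R1 := by
      unfold ob0
      rw [if_neg]
      rintro (h | h)
      · have := congrArg Fin.val h
        simp at this
      · exact hkV h
    rw [h2] at h1
    refine h1.trans ?_
    rw [mul_comm]
    exact mul_le_mul_of_nonneg_right (hmono (by linarith)) (hBp _).le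
  have key := new_pair (d := B.d n) (κ := κ n) (B.pos n) (hκ n) (hu n) (ζ := X n 0) (χ := X n 1)
    (ν := X n 17) (K := B'.d n ^ (-ε')) (τ := B'.d n ^ (20 * R1)) hK1 (hdp _).le hτ1
    (e := e n i) (f := F n i) (f' := F n j) (fun p => hsz' p)
    (by
      have h1 := hown i hi j hj hij 0
      rw [hob0, zero_sub, mul_comm] at h1
      exact h1)
    (fun a ha => by
      have h1 := hown i hi j hj hij (Fin.castAdd 14 a)
      rw [hnot a ha, mul_comm, ← hKτ] at h1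
      exact h1) (q := q) (E := B'.d n ^ R1) hv
  have e1 : coU u κ (fG κ e F) n i j (Fin.natAdd 4 q) = u n (Fin.natAdd 4 q) *
      coW (κ n) (gau (κ n) (e n i) (F n i)) (gau (κ n) (e n i) (F n j)) (Fin.natAdd 4 q) := by
    unfold coU fG
    rw [coW_gau_two, supp n i q hqS, supp n j q hqS]
    ring
  rw [e1]
  have h7 : (B'.d n ^ (-ε')) ^ 7 * B'.d n ^ (20 * R1) ≤ B'.d n ^ R1 := by
    rw [← Real.rpow_natCast, ← Real.rpow_mul (B'.pos n).le, ← Real.rpow_add (B'.pos n)]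
    refine hmono ?_
    push_cast
    linarith
  have key2 : B'.d n ^ R1 + 470 * (B'.d n ^ (-ε')) ^ 7 * B'.d n ^ (20 * R1) ≤
      B'.d n ^ (R1 - ε) := by
    calc B'.d n ^ R1 + 470 * (B'.d n ^ (-ε')) ^ 7 * B'.d n ^ (20 * R1)
        = B'.d n ^ R1 + 470 * ((B'.d n ^ (-ε')) ^ 7 * B'.d n ^ (20 * R1)) := by ring
      _ ≤ B'.d n ^ R1 + 470 * B'.d n ^ R1 := by gcongr
      _ ≤ 472 * B'.d n ^ R1 := by
          have := hdp R1
          linarith
      _ ≤ B'.d n ^ (-(ε / 2)) * B'.d n ^ R1 := mul_le_mul_of_nonneg_right hc (hdp _).le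
      _ = B'.d n ^ (R1 - ε / 2) := by rw [← Real.rpow_add (B'.pos n)]; congr 1; ring
      _ ≤ B'.d n ^ (R1 - ε) := hmono (by linarith)
  refine key.trans ?_
  have h9 := mul_le_mul_of_nonneg_right key2 (hBp (natX X n (Fin.natAdd 4 q))).le
  have e9 : natX X n (Fin.natAdd 4 q) = grW (X n 0) (X n 1) (X n 17) (Fin.natAdd 4 q) := rfl
  rw [← e9]
  linarith

/-- **the fields `size`, `ownc`, `ownz` of `GauW`** for a correction supported on `S ⊆ S5`,
`V' = V` -/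
theorem ownOut_of (hR : 1 ≤ R1) (hK : R1 ≤ K) (hu : ∀ n, GrU (u n)) (hκ : ∀ n, |κ n| ≤ 1)
    (hDr : ∀ k ∈ Dr, 4 ≤ k ∧ k ≠ 17 ∧ k ∉ V) (hV : ∀ k ∈ V, (4 : Fin 18) ≤ k) (hS : S ⊆ S5)
    (bas : AwZ146.BasX monW (mA monW (actW Dr)) (mA monW (actW Dr)) X w)
    (nat : ∀ n k, k ∉ Dr → X n k = natX X n k) (hb : ∀ n, B'.d n = B.d n ^ w n)
    (supp : ∀ n i p, p ∉ S → e n i p = 0)
    (size : ∀ ε : ℝ, 0 < ε → ∀ᶠ n in (U : Filter ℕ), ∀ i ∈ E n, ∀ p : Fin 14,
      u n (Fin.natAdd 4 p) * |e n i p| ≤ B.d n ^ natX X n (Fin.natAdd 4 p) *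
        B'.d n ^ (max 0 (btW θ (Fin.natAdd 4 p)) - ε))
    (pair : ∀ ε : ℝ, 0 < ε → ∀ᶠ n in (U : Filter ℕ), ∀ i ∈ E n, ∀ i' ∈ E n, i.1 = i'.1 →
      ∀ p ∈ S, u n (Fin.natAdd 4 p) * |coW (κ n) (F n i) (F n i') (Fin.natAdd 4 p) + e n i' p -
        tr (κ n) (rel (κ n) (F n i).g (F n i').g) (e n i) p| ≤
          B.d n ^ natX X n (Fin.natAdd 4 p) * B'.d n ^ (K - ε))
    (hown : ∀ᶠ n in (U : Filter ℕ), ∀ i ∈ E n, ∀ i' ∈ E n, i.1 = i'.1 →
      ∀ k, |coU u κ F n i i' k| ≤ C0 * (B.d n ^ X n k * B'.d n ^ (ob0 V (20 * R1) k))) :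
    RL66.OwnOut θ V V B B' κ u F X R1 E e := by
  have hc := ownc_of (B := B) (B' := B') (by linarith) (fun k hk => ⟨(hDr k hk).1, (hDr k hk).2.1⟩)
    (fun k hk hD => (hDr k hD).2.2 hk) bas nat hb hown
  exact ⟨size, hc, ownz_of hR hK hu hκ hV hS supp size pair hc⟩

/-- **zero slots** -/
theorem zero_of {Zs : Set (Fin 18)} (hK : R1 ≤ K) (hu : ∀ n, GrU (u n))
    (hZ : ∀ k ∈ Zs, (4 : Fin 18) ≤ k)
    (pair : ∀ ε : ℝ, 0 < ε → ∀ᶠ n in (U : Filter ℕ), ∀ i ∈ E n, ∀ i' ∈ E n,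
      ∀ p : Fin 14, Fin.natAdd 4 p ∈ Zs → u n (Fin.natAdd 4 p) *
        |coW (κ n) (F n i) (F n i') (Fin.natAdd 4 p) + e n i' p -
          tr (κ n) (rel (κ n) (F n i).g (F n i').g) (e n i) p| ≤
          B.d n ^ natX X n (Fin.natAdd 4 p) * B'.d n ^ (K - ε)) :
    ∀ k ∈ Zs, ∀ ε : ℝ, 0 < ε → ∀ᶠ n in (U : Filter ℕ), ∀ i ∈ E n, ∀ j ∈ E n,
      |coU u κ (fG κ e F) n i j k| ≤ B.d n ^ natX X n k * B'.d n ^ (R1 - ε) := by
  intro k hk ε hε
  obtain ⟨q, rfl⟩ : ∃ q : Fin 14, k = Fin.natAdd 4 q := by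
    have h4 : (4 : ℕ) ≤ k.1 := hZ k hk
    refine ⟨⟨k.1 - 4, by omega⟩, ?_⟩
    ext
    simp only [Fin.natAdd_mk]
    omega
  filter_upwards [pair ε hε] with n hn i hi j hj
  have e1 : coU u κ (fG κ e F) n i j (Fin.natAdd 4 q) = u n (Fin.natAdd 4 q) *
      (coW (κ n) (F n i) (F n j) (Fin.natAdd 4 q) + e n j q -
        tr (κ n) (rel (κ n) (F n i).g (F n j).g) (e n i) q) := by
    unfold coU fG
    rw [coW_gau_pair]
  rw [e1, abs_mul, abs_of_pos ((hu n).pos _)]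
  refine (hn i hi j hj q hk).trans ?_
  refine mul_le_mul_of_nonneg_left ?_ (Real.rpow_pos_of_pos (B.pos n) _).le
  exact Real.rpow_le_rpow_of_exponent_ge (B'.pos n) (B'.lt n).le (by linarith)

end

theorem no_AB : ∀ q : Fin 14, q ∉ ({10, 11, 12, 13} : Finset (Fin 14)) →
    ∀ t ∈ tms q, t.s ∉ ({10, 11} : Finset (Fin 14)) := by decide

/-- a correction supported on `B, A` does not touch the slots of weight `≥ 2` -/
theorem keep_lin {κ : ℝ} {e e' : Fin 14 → ℝ} {f f' : FW}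
    (he : ∀ p, p ∉ ({10, 11} : Finset (Fin 14)) → e p = 0)
    (he' : ∀ p, p ∉ ({10, 11} : Finset (Fin 14)) → e' p = 0) {q : Fin 14}
    (hq : q ∉ ({10, 11, 12, 13} : Finset (Fin 14))) :
    coW κ (gau κ e f) (gau κ e' f') (Fin.natAdd 4 q) = coW κ f f' (Fin.natAdd 4 q) := by
  have hq2 : q ∉ ({10, 11} : Finset (Fin 14)) := by
    intro h
    apply hq
    simp only [mem_insert, mem_singleton] at h ⊢
    tauto
  rw [coW_gau_pair, he' q hq2, tr_tms, he q hq2]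
  have key : ∀ L : List Tm, (∀ t ∈ L, t ∈ tms q) →
      (L.map (Tm.ev κ (rel κ f.g f'.g) e)).sum = 0 := by
    intro L
    induction L with
    | nil => intro _; simp
    | cons a L ih =>
      intro hL
      rw [List.map_cons, List.sum_cons, ih fun t ht => hL t (List.mem_cons_of_mem _ ht), add_zero]
      have ha := hL a List.mem_cons_self
      unfold Tm.ev
      rw [he a.s (no_AB q hq a ha), mul_zero]
  rw [key _ fun t ht => ht]
  ring

end Crest.Agent.R136.Qo289
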