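import Crest.Agent.R136.RL1_478

/-!
# R136 (helper478): walls of the W-chart, few labels on own classes

* `own_few` : own-wide exponents with the same `z` do not refine the own classes.
* **`few_core`** : an own class meets few labels at exponents `p` with `p 0 ≤ c 0`,
  `p k ≤ b k * c 0` on the visible slots.
-/

set_option autoImplicit false
set_option linter.unusedVariables false

open Finset Filter Topology

namespace Crest.Agent.R136.RL478

open Crest.Agent.R136.Net191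
open Crest.Agent.R136.NetW191
open Crest.Agent.R136.PrW464
open Crest.Agent.R136.NatW697
open Crest.Agent.R136.LadW697
open Crest.Agent.R136.LadG697
open Crest.Agent.R136.Zpr779
open Crest.Agent.R136.Qg926
open Crest.Agent.R136.EvW938
open Crest.Agent.R136.Bas938
open Crest.Agent.R136.AwJ774
open Crest.Agent.R136.K2S774
open Crest.Agent.R136.Gau66 (sub_rpow few_labels)
open Crest.Agent.R138.Ex926

theorem own_few {B1 : Base} {J : ℕ → Finset (ℕ × ℝ)} {κ' : Type*} [DecidableEq κ']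
    {gg : ∀ n : ℕ, (Fin 18 → ℝ) → ℕ × ℝ → κ'} {D : Set (Fin 18 → ℝ)} {To : ℕ → ℝ}
    {lo : (Fin 18 → ℝ) → ℝ} (HP : ZProf B1 J gg D To lo) {V : Set (Fin 18)} {b : Fin 18 → ℝ}
    (hown : ∀ c ∈ D, (∀ k ∈ V, c k ≤ b k * c 0) → lo c = -(c 0)) (K : ℝ) :
    ∃ f : ℕ → ℝ, B1.Sub f ∧ ∀ᶠ n in (U : Filter ℕ), ∀ c ∈ D, ‖c‖ ≤ K → ∀ c' ∈ D, ‖c'‖ ≤ K →
      c ≤ c' → c 0 = c' 0 → (∀ k ∈ V, c k ≤ b k * c 0) → (∀ k ∈ V, c' k ≤ b k * c' 0) →
      ∀ i ∈ J n, (((cls (J n) (gg n c) i).image (gg n c')).card : ℝ) ≤ f n := by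
  obtain ⟨k, hk, hk2⟩ := exists_diag (fun l n => ∀ c ∈ D, ‖c‖ ≤ K → ∀ c' ∈ D, ‖c'‖ ≤ K →
      c ≤ c' → c 0 = c' 0 → (∀ k ∈ V, c k ≤ b k * c 0) → (∀ k ∈ V, c' k ≤ b k * c' 0) →
      ∀ i ∈ J n, (((cls (J n) (gg n c) i).image (gg n c')).card : ℝ) ≤
        B1.d n ^ (-(1 / ((l : ℝ) + 1)))) (fun l => by
    filter_upwards [HP.num K (1 / ((l : ℝ) + 1)) (by positivity)] with n hn c hc hcK c' hc' hcK'
      hcc h0 h1 h2 i hi
    have := hn c hc hcK c' hc' hcK' hcc i hi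
    rwa [hown c hc h1, hown c' hc' h2, h0, sub_self, zero_add] at this)
  refine ⟨fun n => B1.d n ^ (-(1 / ((k n : ℝ) + 1))), sub_rpow ?_, ?_⟩
  · exact (tendsto_one_div_add_atTop_nhds_zero_nat (𝕜 := ℝ)).comp hk
  · filter_upwards [hk2] with n hn
    exact hn (k n) le_rfl

theorem card_image_two {α β γ : Type*} [DecidableEq α] [DecidableEq β] [DecidableEq γ]
    (A : Finset α) (g : α → β) (h : α → γ) {N : ℝ}
    (H : ∀ i ∈ A, (((cls A g i).image h).card : ℝ) ≤ N) :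
    ((A.image h).card : ℝ) ≤ (A.image g).card * N := by
  have h1 : A.image h ⊆ (A.image g).biUnion fun y => (A.filter fun x => g x = y).image h := by
    intro c hc
    obtain ⟨x, hx, rfl⟩ := mem_image.1 hc
    refine mem_biUnion.2 ⟨g x, mem_image_of_mem _ hx, mem_image_of_mem _ ?_⟩
    exact mem_filter.2 ⟨hx, rfl⟩
  have h2 : ((A.image h).card : ℝ) ≤
      ∑ y ∈ A.image g, (((A.filter fun x => g x = y).image h).card : ℝ) := by
    have := (card_le_card h1).trans card_biUnion_le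
    exact_mod_cast this
  refine h2.trans ?_
  calc ∑ y ∈ A.image g, (((A.filter fun x => g x = y).image h).card : ℝ)
      ≤ ∑ y ∈ A.image g, N := by
        refine sum_le_sum fun y hy => ?_
        obtain ⟨i, hi, rfl⟩ := mem_image.1 hy
        refine le_trans (Nat.cast_le.2 (card_le_card (image_subset_image fun x hx => ?_))) (H i hi)
        obtain ⟨a1, a2⟩ := mem_filter.1 hx
        exact mem_cls.2 ⟨a1, a2⟩
    _ = (A.image g).card * N := by rw [sum_const, nsmul_eq_mul]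

/-- **few labels on own classes** -/
theorem few_core {B B1 : Base} {I0 J : ℕ → Finset (ℕ × ℝ)} {κ : ℕ → ℝ} {u : ℕ → Fin 18 → ℝ}
    {F : ℕ → ℕ × ℝ → FW} {X : ℕ → Fin 18 → ℝ} {w : ℕ → ℝ} {Dr : Set (Fin 18)} {Tn To : ℕ → ℝ}
    {lam lo : (Fin 18 → ℝ) → ℝ} (W : IW B B1 I0 J κ u F X w Dr Tn To lam lo)
    {V : Set (Fin 18)} {b : Fin 18 → ℝ}
    (hown : ∀ c ∈ cn QW (actW Dr), (∀ k ∈ V, c k ≤ b k * c 0) → lo c = -(c 0)) (K : ℝ) :
    ∃ f : ℕ → ℝ, B1.Sub f ∧ ∀ᶠ n in (U : Filter ℕ), ∀ c ∈ cn QW (actW Dr), ‖c‖ ≤ K →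
      (∀ k ∈ V, c k ≤ b k * c 0) → ∀ p ∈ cn QW (actW Dr), ‖p‖ ≤ K → p 0 ≤ c 0 →
      (∀ k ∈ V, p k ≤ b k * c 0) → ∀ i ∈ J n,
      (((cls (J n) (zolb B I0 (coU u κ F) monW 67 X w n c) i).image
        (zlab B I0 (coU u κ F) monW 67 X w n p)).card : ℝ) ≤ f n := by
  obtain ⟨f, hf, hf2⟩ := own_few W.own hown K
  set N : ℝ := max 1 (cN monW 67 (cK0 monW 67)) with hN
  have hN1 : 1 ≤ N := le_max_left _ _
  refine ⟨fun n => f n * N, hf.mul (Base.Sub.const (by linarith)), ?_⟩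
  filter_upwards [hf2, W.win.legal K, W.win.sub] with n h1 h2 h3 c hc hcK hcV p hp hpK hp0 hpV i hi
  have hcp : c ⊔ p ∈ cn QW (actW Dr) := cn_sup hc hp
  have hcpK : ‖c ⊔ p‖ ≤ K := by
    have hK0 : 0 ≤ K := (norm_nonneg c).trans hcK
    refine (pi_norm_le_iff_of_nonneg hK0).2 fun s => ?_
    have a1 := (norm_le_pi_norm c s).trans hcK
    have a2 := (norm_le_pi_norm p s).trans hpK
    rw [Real.norm_eq_abs] at a1 a2 ⊢
    rw [abs_le] at a1 a2 ⊢
    simp only [Pi.sup_apply]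
    exact ⟨a1.1.trans le_sup_left, sup_le a1.2 a2.2⟩
  have e0 : (c ⊔ p) 0 = c 0 := by
    simp only [Pi.sup_apply]; exact sup_eq_left.2 hp0
  have hcpV : ∀ k ∈ V, (c ⊔ p) k ≤ b k * (c ⊔ p) 0 := fun k hk => by
    rw [e0]
    simp only [Pi.sup_apply]
    exact sup_le (hcV k hk) (hpV k hk)
  have h4 := h1 c hc hcK (c ⊔ p) hcp hcpK le_sup_left e0.symm hcV hcpV i hi
  set A := cls (J n) (zolb B I0 (coU u κ F) monW 67 X w n c) i with hA
  have h5 := card_image_two A (zolb B I0 (coU u κ F) monW 67 X w n (c ⊔ p))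
    (zlab B I0 (coU u κ F) monW 67 X w n p) (N := N) (fun j hj => by
      have hjJ : j ∈ J n := (mem_cls.1 hj).1
      have h6 := few_labels (B := B) W.win.chart (h2 p hp hpK) (h2 (c ⊔ p) hcp hcpK) (by
        intro s
        simp only [Pi.add_apply, Pi.smul_apply, smul_eq_mul, Pi.sup_apply]
        have := mul_le_mul_of_nonneg_left (le_sup_right : p s ≤ c s ⊔ p s) (W.win.w0 n).le
        linarith) h3 hjJ
      refine le_trans (Nat.cast_le.2 (card_le_card ?_)) (h6.trans (le_max_right _ _))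
      refine image_subset_image fun x hx => ?_
      obtain ⟨g1, g2⟩ := mem_cls.1 hx
      refine mem_cls.2 ⟨(mem_cls.1 g1).1, ?_⟩
      exact congrArg Prod.snd g2)
  refine h5.trans ?_
  exact mul_le_mul_of_nonneg_right h4 (by linarith)

end Crest.Agent.R136.RL478
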