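import Crest.Agent.R136.RL2_626
import Crest.Agent.R136.RLc_66

/-!
# R136, thin branch, resonant walls (helper626): `RecLaw ⊢ HasGau`

* `WallJ` : `j` = a slot of rate `0` of the wall of slope `s`, `Vs` = the slots of positive rate.
* **`wall_cases`** : the six resonant walls.
* **`alg_wall`** : 478's `RecLaw` of a wall gives the hypothesis `alg` of 66's `hasGau_of_recLaw`.
-/

set_option autoImplicit false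
set_option linter.unusedVariables false

open Finset Filter Topology

namespace Crest.Agent.R136.RL626

open Crest.Agent.R136.Net191
open Crest.Agent.R136.NetW191
open Crest.Agent.R136.PrW464
open Crest.Agent.R136.NatW697
open Crest.Agent.R136.LadW697
open Crest.Agent.R136.LadG697
open Crest.Agent.R136.LadT830
open Crest.Agent.R136.EvW938
open Crest.Agent.R136.GauW619
open Crest.Agent.R136.AwJ774
open Crest.Agent.R136.K2S774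
open Crest.Agent.R136.Qg926
open Crest.Agent.R138.Ex926

/-- `j` = a slot of rate `0` of the wall of slope `s`, `Vs` = all slots of positive rate of the wall -/
structure WallJ (θ : Fin 3 → ℝ) (s : ℝ) (j : Fin 14) (Vs : Finset (Fin 14)) : Prop where
  kj : KW θ (Fin.natAdd 4 j) = s
  bj : btW θ (Fin.natAdd 4 j) = 0
  all : ∀ q : Fin 14, KW θ (Fin.natAdd 4 q) = s → 0 < btW θ (Fin.natAdd 4 q) → q ∈ Vs
  pos : ∀ q ∈ Vs, KW θ (Fin.natAdd 4 q) = s ∧ 0 < btW θ (Fin.natAdd 4 q)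
  jne : j ≠ 9 ∧ j ≠ 12 ∧ j ≠ 13
  vne : ∀ q ∈ Vs, q ≠ 9 ∧ q ≠ 12 ∧ q ≠ 13

theorem wc_of_KW {θ : Fin 3 → ℝ} (h1 : 0 < θ 1) {k l : Fin 18} (hk : 4 ≤ k) (hl : 4 ≤ l)
    (h : KW θ k = KW θ l) : wc k = wc l := by
  have hn : ∀ k : Fin 18, 4 ≤ k → wn k = 1 := by decide
  rw [KW_eq, KW_eq, hn k hk, hn l hl] at h
  have h2 : ((wc k : ℤ) : ℝ) * θ 1 = ((wc l : ℤ) : ℝ) * θ 1 := by linarith
  exact_mod_cast mul_right_cancel₀ h1.ne' h2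

theorem four_le_natAdd (q : Fin 14) : (4 : Fin 18) ≤ Fin.natAdd 4 q := by
  revert q; decide

theorem wallJ_of {θ : Fin 3 → ℝ} (h1 : 0 < θ 1) {s : ℝ} {c σ : ℤ} (hs : s = (σ : ℝ)) {k : Fin 18}
    (h4 : 4 ≤ k) (hk : KW θ k = s) (hkc : wc k = c) {j : Fin 14} {Vs : Finset (Fin 14)}
    (h : (wc (Fin.natAdd 4 j) = c ∧ wz (Fin.natAdd 4 j) = -σ) ∧
      (∀ q : Fin 14, wc (Fin.natAdd 4 q) = c → 0 < σ + wz (Fin.natAdd 4 q) → q ∈ Vs) ∧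
      (∀ q ∈ Vs, wc (Fin.natAdd 4 q) = c ∧ 0 < σ + wz (Fin.natAdd 4 q)) ∧
      (j ≠ 9 ∧ j ≠ 12 ∧ j ≠ 13) ∧ ∀ q ∈ Vs, q ≠ 9 ∧ q ≠ 12 ∧ q ≠ 13) : WallJ θ s j Vs := by
  obtain ⟨⟨a1, a2⟩, a3, a4, a5, a6⟩ := h
  have hKc : ∀ q : Fin 14, wc (Fin.natAdd 4 q) = c → KW θ (Fin.natAdd 4 q) = s := fun q hq =>
    (KW_wc (four_le_natAdd q) h4 (hq.trans hkc.symm)).trans hk
  have hb : ∀ q : Fin 14, KW θ (Fin.natAdd 4 q) = s →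
      btW θ (Fin.natAdd 4 q) = ((σ + wz (Fin.natAdd 4 q) : ℤ) : ℝ) := by
    intro q hq
    rw [hs] at hq
    unfold KW at hq
    push_cast
    linarith
  refine ⟨hKc j a1, ?_, fun q hq hq0 => ?_, fun q hq => ?_, a5, a6⟩
  · rw [hb j (hKc j a1), a2]; simp
  · refine a3 q ((wc_of_KW h1 (four_le_natAdd q) h4 (hq.trans hk.symm)).trans hkc) ?_
    rw [hb q hq] at hq0
    exact_mod_cast hq0
  · obtain ⟨b1, b2⟩ := a4 q hq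
    refine ⟨hKc q b1, ?_⟩
    rw [hb q (hKc q b1)]
    exact_mod_cast b2

theorem six_key : ∀ k0 k1 : Fin 18, (4 ≤ k0 ∧ 4 ≤ k1 ∧ k1 ≠ 13 ∧ k1 ≠ 16 ∧ k1 ≠ 17 ∧
    wc k1 = wc k0 ∧ alW k1 < alW k0 ∧ 2 ≤ alW k0) → (k0 = 4 ∨ k0 = 5 ∨ k0 = 6 ∨ k0 = 8 ∨
      k0 = 10 ∨ k0 = 11 ∨ k0 = 12) := by decide

theorem al_vals : alW 4 = 4 ∧ alW 5 = 3 ∧ alW 6 = 3 ∧ alW 8 = 3 ∧ alW 10 = 2 ∧ alW 11 = 2 ∧
    alW 12 = 2 := by decide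

/-- **the six resonant walls** (Fin 14 indices) -/
theorem wall_cases {θ : Fin 3 → ℝ} (h1 : 0 < θ 1) {V : Set (Fin 18)} {s : ℝ}
    (vis : ∀ k ∈ V, (4 ≤ k ∧ k ≠ 13 ∧ k ≠ 16 ∧ k ≠ 17) ∧ 0 < btW θ k)
    (ht : Top θ (fun k => k ∈ V) s) (h2 : 2 ≤ s) (hr : Reso θ s) :
    (s = 2 ∧ WallJ θ s 7 {10}) ∨ (s = 2 ∧ WallJ θ s 8 {11}) ∨ (s = 3 ∧ WallJ θ s 4 {6, 7, 10}) ∨
      (s = 3 ∧ WallJ θ s 2 {5}) ∨ (s = 3 ∧ WallJ θ s 1 {3}) ∨ (s = 4 ∧ WallJ θ s 0 {1, 3}) := by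
  obtain ⟨⟨k1, hk1, hK1⟩, -⟩ := ht
  obtain ⟨⟨hk4, hk13, hk16, hk17⟩, hb1⟩ := vis k1 hk1
  obtain ⟨k0, h04, hK0, hb0⟩ := hr
  have hc : wc k1 = wc k0 := wc_of_KW h1 hk4 h04 (hK1.trans hK0.symm)
  have hs : s = ((alW k0 : ℤ) : ℝ) := by
    have := btW_KW θ h04
    rw [hb0, hK0] at this
    linarith
  have ha1 : alW k1 < alW k0 := by
    have := btW_KW θ hk4
    rw [hK1, hs] at this
    have h3 : ((alW k1 : ℤ) : ℝ) < ((alW k0 : ℤ) : ℝ) := by linarith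
    exact_mod_cast h3
  have ha0 : 2 ≤ alW k0 := by
    rw [hs] at h2
    exact_mod_cast h2
  rcases six_key k0 k1 ⟨h04, hk4, hk13, hk16, hk17, hc, ha1, ha0⟩ with
    rfl | rfl | rfl | rfl | rfl | rfl | rfl
  · have e : s = ((4 : ℤ) : ℝ) := by rw [hs, al_vals.1]
    refine Or.inr (Or.inr (Or.inr (Or.inr (Or.inr ⟨by rw [e]; norm_num, ?_⟩))))
    exact wallJ_of h1 (c := -4) (σ := 4) e h04 hK0 rfl (by decide)
  · have e : s = ((3 : ℤ) : ℝ) := by rw [hs, al_vals.2.1]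
    refine Or.inr (Or.inr (Or.inr (Or.inr (Or.inl ⟨by rw [e]; norm_num, ?_⟩))))
    exact wallJ_of h1 (c := -4) (σ := 3) e h04 hK0 rfl (by decide)
  · have e : s = ((3 : ℤ) : ℝ) := by rw [hs, al_vals.2.2.1]
    refine Or.inr (Or.inr (Or.inr (Or.inl ⟨by rw [e]; norm_num, ?_⟩)))
    exact wallJ_of h1 (c := -3) (σ := 3) e h04 hK0 rfl (by decide)
  · have e : s = ((3 : ℤ) : ℝ) := by rw [hs, al_vals.2.2.2.1]
    refine Or.inr (Or.inr (Or.inl ⟨by rw [e]; norm_num, ?_⟩))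
    exact wallJ_of h1 (c := -2) (σ := 3) e h04 hK0 rfl (by decide)
  · have e : s = ((2 : ℤ) : ℝ) := by rw [hs, al_vals.2.2.2.2.1]
    refine Or.inl ⟨by rw [e]; norm_num, ?_⟩
    exact wallJ_of h1 (c := -2) (σ := 2) e h04 hK0 rfl (by decide)
  · have e : s = ((2 : ℤ) : ℝ) := by rw [hs, al_vals.2.2.2.2.2.1]
    refine Or.inl ⟨by rw [e]; norm_num, ?_⟩
    exact wallJ_of h1 (c := -2) (σ := 2) e h04 hK0 rfl (by decide)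
  · have e : s = ((2 : ℤ) : ℝ) := by rw [hs, al_vals.2.2.2.2.2.2]
    refine Or.inr (Or.inl ⟨by rw [e]; norm_num, ?_⟩)
    exact wallJ_of h1 (c := -1) (σ := 2) e h04 hK0 rfl (by decide)

/-- a visible slot of the wall is in `Vs` -/
theorem WallJ.mem {θ : Fin 3 → ℝ} {s : ℝ} {j : Fin 14} {Vs : Finset (Fin 14)}
    (W : WallJ θ s j Vs) {k : Fin 18} (h4 : 4 ≤ k) (hK : KW θ k = s) (hb : 0 < btW θ k) :
    ∃ q ∈ Vs, k = Fin.natAdd 4 q := by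
  obtain ⟨q, rfl⟩ : ∃ q : Fin 14, k = Fin.natAdd 4 q := by
    have h4' : (4 : ℕ) ≤ k.1 := h4
    refine ⟨⟨k.1 - 4, by omega⟩, ?_⟩
    ext
    simp only [Fin.natAdd_mk]
    omega
  exact ⟨q, W.all q hK hb, rfl⟩

/-- slots of weight `≤ s` are not dropped -/
theorem WallJ.not_Dr {θ : Fin 3 → ℝ} {s : ℝ} {j : Fin 14} {Vs : Finset (Fin 14)}
    (W : WallJ θ s j Vs) : Fin.natAdd 4 j ∉ DrW s ∧ ∀ q ∈ Vs, Fin.natAdd 4 q ∉ DrW s := by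
  have key : ∀ q : Fin 14, KW θ (Fin.natAdd 4 q) = s → 0 ≤ btW θ (Fin.natAdd 4 q) →
      Fin.natAdd 4 q ∉ DrW s := by
    intro q hq hb h
    rw [btW_KW θ (four_le_natAdd q), hq] at hb
    have := h.2
    linarith
  exact ⟨key j W.kj W.bj.ge, fun q hq => key q (W.pos q hq).1 (W.pos q hq).2.le⟩

section

variable {θ : Fin 3 → ℝ} {g : ℝ} {q : Fin 3 → ℝ} {V Dr : Set (Fin 18)}
  {P : Set (Fin 18 → ℝ)} {ν own : (Fin 18 → ℝ) → ℝ} {r0 : Fin 18 → ℝ}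
  {B B' : Base} {I0 J : ℕ → Finset (ℕ × ℝ)} {κ : ℕ → ℝ} {u : ℕ → Fin 18 → ℝ}
  {F : ℕ → ℕ × ℝ → FW} {X : ℕ → Fin 18 → ℝ} {w Tn To : ℕ → ℝ}
  {lam lo : (Fin 18 → ℝ) → ℝ} {s : ℝ} {j : Fin 14} {Vs : Finset (Fin 14)}
  {gl : ℕ → ℕ × ℝ → (ℕ × ℝ) × (ℕ × ℝ)} {e : ℕ → ℕ × ℝ → ℝ}

/-- **the own motion in the gauged chart** -/
theorem ownLaw_rec (W : WallJ θ s j Vs)
    (vis : ∀ k ∈ V, (4 ≤ k ∧ k ≠ 13 ∧ k ≠ 16 ∧ k ≠ 17) ∧ 0 < btW θ k)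
    (dr4 : ∀ k ∈ Dr, 4 ≤ k ∧ k ≠ 17 ∧ k ∉ V) (hjD : Fin.natAdd 4 j ∉ Dr)
    (hVD : ∀ q ∈ Vs, Fin.natAdd 4 q ∉ Dr)
    (H : RL478.RecLaw θ g q V Dr P ν own r0 B B' I0 J κ u F X w Tn To lam lo j Vs gl e)
    {R1 : ℝ} (hR : 0 < R1) {E : ℕ → Finset (ℕ × ℝ)}
    (hE : ∀ᶠ n in (U : Filter ℕ), E n ⊆ J n)
    (hp : ∀ᶠ n in (U : Filter ℕ), ∀ i ∈ E n, ∀ i' ∈ E n, i.1 = i'.1 → gl n i = gl n i' ∧
        ∀ k, |coU u κ F n i i' k| ≤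
          cK0 monW 67 * (B.d n ^ X n k * B'.d n ^ ob0 V (20 * R1) k)) :
    OwnLaw θ s V B B' κ u F X R1 E fun n i => Pi.single j (e n i) := by
  refine ownLaw_of (Dr := Dr) (w := w) (Vs := Vs) (K := 20 * R1) (C0 := cK0 monW 67) hR le_rfl H.u0
    (fun k hk => ⟨(dr4 k hk).1, (dr4 k hk).2.1⟩) H.iw.bas H.iw.nat H.iw.win.base
    (fun k hk => ⟨(vis k hk).1.1, (vis k hk).2⟩) (fun k hk hD => (dr4 k hD).2.2 hk) W.kj W.bj W.all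
    ?_ ?_ ?_
  · intro ε hε
    filter_upwards [H.size ε hε, hE] with n h1 h2 i hi
    rw [← H.iw.nat n _ hjD]
    exact h1 i (h2 hi)
  · filter_upwards [H.law R1, hE, hp] with n h1 h2 h3 i hi i' hi' hii
    obtain ⟨h4, h5⟩ := h1 i (h2 hi) i' (h2 hi') hii (h3 i hi i' hi' hii).1
    rw [← H.iw.nat n _ hjD]
    refine ⟨h4, fun q hq => ?_⟩
    rw [← H.iw.nat n _ (hVD q hq)]
    exact h5 q hq
  · filter_upwards [hp] with n h3 i hi i' hi' hii k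
    exact (h3 i hi i' hi' hii).2 k

/-- the wall slope is not the slope of the thickness -/
theorem WallJ.ne (W : WallJ θ s j Vs) (h1 : 0 < θ 1) {k : Fin 18} (hk : k ∈ V)
    (vis : ∀ k ∈ V, (4 ≤ k ∧ k ≠ 13 ∧ k ≠ 16 ∧ k ≠ 17) ∧ 0 < btW θ k) (hK : KW θ k = s) :
    s ≠ 1 - θ 0 := by
  intro h
  obtain ⟨⟨h4, h13, h16, h17⟩, -⟩ := vis k hk
  have hn : KW θ (17 : Fin 18) = 1 - θ 0 := by simp [KW, btW, grW, wz, wc, wn]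
  have h2 := wc_of_KW h1 h4 (show (4 : Fin 18) ≤ 17 by decide) (hK.trans (h.trans hn.symm))
  have key : ∀ k : Fin 18, 4 ≤ k → k ≠ 13 → k ≠ 16 → k ≠ 17 → wc k ≠ wc 17 := by decide
  exact key k h4 h13 h16 h17 h2

/-- **the hypothesis `alg` of 66's `hasGau_of_recLaw`** (with `V' = {k | k ∈ V ∧ KW θ k ≠ s}`) -/
theorem alg_wall (W : WallJ θ s j Vs)
    (vis : ∀ k ∈ V, (4 ≤ k ∧ k ≠ 13 ∧ k ≠ 16 ∧ k ≠ 17) ∧ 0 < btW θ k)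
    (dr4 : ∀ k ∈ Dr, 4 ≤ k ∧ k ≠ 17 ∧ k ∉ V) (hjD : Fin.natAdd 4 j ∉ Dr)
    (hVD : ∀ q ∈ Vs, Fin.natAdd 4 q ∉ Dr)
    (H : RL478.RecLaw θ g q V Dr P ν own r0 B B' I0 J κ u F X w Tn To lam lo j Vs gl e) :
    ∀ (R1 : ℝ) (E : ℕ → Finset (ℕ × ℝ)), 1 ≤ R1 → (∀ᶠ n in (U : Filter ℕ), E n ⊆ J n) →
      (∀ᶠ n in (U : Filter ℕ), ∀ i ∈ E n, ∀ i' ∈ E n, i.1 = i'.1 → gl n i = gl n i' ∧
        ∀ k, |coU u κ F n i i' k| ≤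
          cK0 monW 67 * (B.d n ^ X n k * B'.d n ^ ob0 V (20 * R1) k)) →
      RL66.OwnOut θ V {k | k ∈ V ∧ KW θ k ≠ s} B B' κ u F X R1 E
        fun n i => Pi.single j (e n i) := fun R1 E hR1 hE hp => by
  have hR : 0 < R1 := by linarith
  have O := ownLaw_rec W vis dr4 hjD hVD H hR hE hp
  exact ⟨O.size', O.ownc, O.ownz hR H.u0 H.κ1 fun k hk => (vis k hk).1.1⟩

/-- the same with `Dr = DrW s` -/
theorem alg_wallS (W : WallJ θ s j Vs)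
    (vis : ∀ k ∈ V, (4 ≤ k ∧ k ≠ 13 ∧ k ≠ 16 ∧ k ≠ 17) ∧ 0 < btW θ k)
    (dr4 : ∀ k ∈ DrW s, 4 ≤ k ∧ k ≠ 17 ∧ k ∉ V)
    (H : RL478.RecLaw θ g q V (DrW s) P ν own r0 B B' I0 J κ u F X w Tn To lam lo j Vs gl e) :
    ∀ (R1 : ℝ) (E : ℕ → Finset (ℕ × ℝ)), 1 ≤ R1 → (∀ᶠ n in (U : Filter ℕ), E n ⊆ J n) →
      (∀ᶠ n in (U : Filter ℕ), ∀ i ∈ E n, ∀ i' ∈ E n, i.1 = i'.1 → gl n i = gl n i' ∧
        ∀ k, |coU u κ F n i i' k| ≤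
          cK0 monW 67 * (B.d n ^ X n k * B'.d n ^ ob0 V (20 * R1) k)) →
      RL66.OwnOut θ V {k | k ∈ V ∧ KW θ k ≠ s} B B' κ u F X R1 E
        fun n i => Pi.single j (e n i) :=
  alg_wall W vis dr4 W.not_Dr.1 W.not_Dr.2 H

/-- dropped slots of the wall stage are flags, not `N`, invisible -/
theorem dr4_of {V : Set (Fin 18)} {s : ℝ} (h2 : 2 ≤ s)
    (vis : ∀ k ∈ V, (4 ≤ k ∧ k ≠ 13 ∧ k ≠ 16 ∧ k ≠ 17) ∧ 0 < btW θ k)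
    (ht : ∀ k ∈ V, KW θ k ≤ s) : ∀ k ∈ DrW s, 4 ≤ k ∧ k ≠ 17 ∧ k ∉ V := by
  intro k hk
  refine ⟨hk.1, ?_, fun hV => ?_⟩
  · rintro rfl
    have h0 : alW 17 = 0 := by decide
    have := hk.2
    rw [h0] at this
    push_cast at this
    linarith
  · have h3 := (vis k hV).2
    rw [btW_KW θ hk.1] at h3
    have := ht k hV
    have := hk.2
    linarith

end

end Crest.Agent.R136.RL626
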