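import Crest.Agent.R136.RL3_478
import Crest.Agent.R136.OwW4_831

/-!
# R136 (helper478): walls of the W-chart, D-max for all gauges at a record window

* `GdU` : D-max for all gauges at a record window, uniform on bounded parts of `QdW θ`.
* `GdU.level`, `GdU.of_level` : zoom at record points.
* `IWG` : record window with D-max, positivity and cardinality; `IWG.zoom`.
-/

set_option autoImplicit false
set_option linter.unusedVariables false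

open Finset Filter Topology

namespace Crest.Agent.R136.RL478

open Crest.Agent.R136.Net191
open Crest.Agent.R136.NetW191
open Crest.Agent.R136.PrW464
open Crest.Agent.R136.NatW697
open Crest.Agent.R136.LadW697
open Crest.Agent.R136.LadG697
open Crest.Agent.R136.Zpr779
open Crest.Agent.R136.Qg926
open Crest.Agent.R136.EvW938
open Crest.Agent.R136.Bas938
open Crest.Agent.R136.AwJ774
open Crest.Agent.R136.K2S774
open Crest.Agent.R136.GauW619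
open Crest.Agent.R136.OwW831 (GdAt)
open Crest.Agent.R138.Ex926

/-- **D-max for all gauges at a record window**, uniform on bounded parts of `QdW θ` -/
def GdU (θ : Fin 3 → ℝ) (g : ℝ) (q : Fin 3 → ℝ) (C : ℝ) (B B' : Base) (J : ℕ → Finset (ℕ × ℝ))
    (κ : ℕ → ℝ) (u : ℕ → Fin 18 → ℝ) (F : ℕ → ℕ × ℝ → FW) (X : ℕ → Fin 18 → ℝ)
    (Tn : ℕ → ℝ) : Prop :=
  ∀ R K ε : ℝ, 1 ≤ K → 0 < ε → ∀ᶠ n in (U : Filter ℕ), ∀ d ∈ QdW θ, ‖d‖ ≤ R →
    GdAt B B' J κ u F (natX X) Tn C K n d (DlW g q d + ε)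

section gdat

variable {θ : Fin 3 → ℝ} {g : ℝ} {q : Fin 3 → ℝ} {C : ℝ} {B B' B2 : Base}
  {J J' : ℕ → Finset (ℕ × ℝ)} {κ : ℕ → ℝ} {u : ℕ → Fin 18 → ℝ} {F : ℕ → ℕ × ℝ → FW}
  {X : ℕ → Fin 18 → ℝ} {w Tn : ℕ → ℝ}

/-- D-max for parts -/
theorem gdAt_sub {Y : ℕ → Fin 18 → ℝ} {K : ℝ} {n : ℕ} {x : Fin 18 → ℝ} {E : ℝ}
    (h : GdAt B B' J κ u F Y Tn C K n x E) (hJ : J' n ⊆ J n) :
    GdAt B B' J' κ u F Y Tn C K n x E := by
  classical
  intro e he i hi G hG hbox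
  set e' : ℕ × ℝ → Fin 14 → ℝ := fun j => if j ∈ J' n then e j else 0 with he'
  have e1 : ∀ j ∈ J' n, e' j = e j := fun j hj => by simp only [he', if_pos hj]
  refine h e' (fun j _ => ?_) i (hJ hi) G (hG.trans hJ) fun j hj k => ?_
  · by_cases hj : j ∈ J' n
    · rw [e1 j hj]; exact he j hj
    · have e2 : e' j = 0 := by simp only [he', if_neg hj]
      rw [e2]
      refine ⟨⟨rfl, rfl, rfl⟩, fun k => ?_⟩
      simp only [Pi.zero_apply, abs_zero, mul_zero]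
      exact Real.rpow_nonneg (B.pos n).le _
  · rw [e1 i hi, e1 j (hG hj)]
    exact hbox j hj k

/-- natural completion of a shifted base -/
theorem natX_shift (y : ℕ → Fin 18 → ℝ) (n : ℕ) (k : Fin 18) :
    natX (fun n => X n + w n • y n) n k =
      natX X n k + w n * grW (y n 0) (y n 1) (y n 17) k := by
  simp only [natX, Pi.add_apply, Pi.smul_apply, smul_eq_mul]
  rw [grW_add, grW_smul]

theorem grW_btW (θ : Fin 3 → ℝ) (t : ℝ) (k : Fin 18) :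
    grW ((t • btW θ) 0) ((t • btW θ) 1) ((t • btW θ) 17) k = t * btW θ k := by
  simp only [Pi.smul_apply, smul_eq_mul]
  rw [grW_smul]
  congr 1
  simp only [btW, grW_0, grW_1, grW_17]

/-- level statement of the diagonal -/
def GdL (θ : Fin 3 → ℝ) (g : ℝ) (q : Fin 3 → ℝ) (C : ℝ) (B B' : Base) (J : ℕ → Finset (ℕ × ℝ))
    (κ : ℕ → ℝ) (u : ℕ → Fin 18 → ℝ) (F : ℕ → ℕ × ℝ → FW) (X : ℕ → Fin 18 → ℝ)
    (Tn : ℕ → ℝ) (σ h : ℕ → ℝ) (l n : ℕ) : Prop :=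
  ∀ d ∈ QdW θ, ‖d‖ ≤ l → GdAt B B' J κ u F (natX X) Tn C (l + 1) n (σ l • btW θ + h l • d)
    (DlW g q (σ l • btW θ + h l • d) + h l / (l + 1))

theorem GdU.level (H : GdU θ g q C B B' J κ u F X Tn) (σ : ℕ → ℝ) {h : ℕ → ℝ}
    (hpos : ∀ l, 0 < h l) (l : ℕ) :
    ∀ᶠ n in (U : Filter ℕ), GdL θ g q C B B' J κ u F X Tn σ h l n := by
  have hl : (0 : ℝ) ≤ l := Nat.cast_nonneg l
  filter_upwards [H (‖σ l • btW θ‖ + h l * l) (l + 1) (h l / (l + 1)) (by linarith)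
    (div_pos (hpos l) (by positivity))] with n hn d hd hdl
  refine hn _ (rec_add_mem hd _ (hpos l).le) ((norm_add_le _ _).trans ?_)
  rw [norm_smul (h l), Real.norm_of_nonneg (hpos l).le]
  have := mul_le_mul_of_nonneg_left hdl (hpos l).le
  linarith

/-- **zoom at record points** -/
theorem GdU.of_level (hb : ∀ n, B'.d n = B.d n ^ w n) {σ h : ℕ → ℝ} (hpos : ∀ l, 0 < h l)
    {k : ℕ → ℕ} (hk : Tendsto k U atTop)
    (hL : ∀ᶠ n in (U : Filter ℕ), GdL θ g q C B B' J κ u F X Tn σ h (k n) n)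
    {lam : (Fin 18 → ℝ) → ℝ} (hrcd : ∀ t : ℝ, lam (t • btW θ) = t * DlW g q (btW θ))
    (T0 : ∀ n, 0 < Tn n) (h2 : ∀ n, B2.d n = B'.d n ^ h (k n))
    (hJ : ∀ᶠ n in (U : Filter ℕ), J' n ⊆ J n) :
    GdU θ g q C B B2 J' κ u F (fun n => X n + w n • (σ (k n) • btW θ))
      (fun n => Tn n * B'.d n ^ (-(lam (σ (k n) • btW θ)))) := by
  intro R K ε hK hε
  obtain ⟨N, hN⟩ := exists_nat_ge (max (max R K) (1 / ε))
  filter_upwards [hL, hk.eventually_ge_atTop N, hJ] with n a1 a2 a3 d hd hdR e he i hi G hG hbox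
  have hlN : (N : ℝ) ≤ (k n : ℝ) := by exact_mod_cast a2
  have hlR : R ≤ k n := ((le_max_left _ _).trans (le_max_left _ _)).trans (hN.trans hlN)
  have hlK : K ≤ k n := ((le_max_right _ _).trans (le_max_left _ _)).trans (hN.trans hlN)
  have hlε : 1 / ε ≤ k n := (le_max_right _ _).trans (hN.trans hlN)
  have hl0 : (0 : ℝ) ≤ k n := Nat.cast_nonneg _
  have hBp := B.pos n
  have hBp' := B'.pos n
  have hh := hpos (k n)
  have e2 : B2.d n ^ (1 : ℝ) = B2.d n := Real.rpow_one _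
  have key := (gdAt_sub (a1 d hd (hdR.trans hlR)) a3) e he i hi G hG fun j hj k' => by
    refine (hbox j hj k').trans ?_
    have e3 : B.d n ^ natX (fun n => X n + w n • (σ (k n) • btW θ)) n k' * B2.d n ^ d k' =
        B.d n ^ natX X n k' * B'.d n ^ (σ (k n) • btW θ + h (k n) • d) k' := by
      rw [natX_shift (fun n => σ (k n) • btW θ), grW_btW, Real.rpow_add hBp, mul_assoc, h2,
        Real.rpow_mul hBp.le, ← hb, ← Real.rpow_mul hBp'.le, ← Real.rpow_add hBp']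
      simp only [Pi.add_apply, Pi.smul_apply, smul_eq_mul]
    rw [e3]
    exact mul_le_mul_of_nonneg_right (by linarith)
      (mul_pos (Real.rpow_pos_of_pos hBp _) (Real.rpow_pos_of_pos hBp' _)).le
  refine key.trans ?_
  show Tn n * _ ≤ Tn n * B'.d n ^ (-(lam (σ (k n) • btW θ))) * B2.d n ^ (-(DlW g q d + ε))
  rw [mul_assoc, h2, ← Real.rpow_mul hBp'.le, ← Real.rpow_add hBp', hrcd]
  refine mul_le_mul_of_nonneg_left ?_ (T0 n).le
  refine Real.rpow_le_rpow_of_exponent_ge hBp' (B'.lt n).le ?_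
  rw [map_add, map_smul, map_smul, smul_eq_mul, smul_eq_mul]
  have h3 : h (k n) / ((k n : ℝ) + 1) ≤ h (k n) * ε := by
    rw [div_le_iff₀ (by positivity), mul_assoc]
    refine le_mul_of_one_le_right hh.le ?_
    rw [div_le_iff₀ hε] at hlε
    nlinarith
  nlinarith

end gdat

/-- the literal of `GauW.gd` (with a fixed gauge exponent) -/
theorem GdU.gd {θ : Fin 3 → ℝ} {g : ℝ} {q : Fin 3 → ℝ} {C : ℝ} {B B' : Base}
    {J : ℕ → Finset (ℕ × ℝ)} {κ : ℕ → ℝ} {u : ℕ → Fin 18 → ℝ} {F : ℕ → ℕ × ℝ → FW}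
    {X : ℕ → Fin 18 → ℝ} {Tn : ℕ → ℝ} (h : GdU θ g q C B B' J κ u F X Tn) :
    ∀ d ∈ QdW θ, ∀ K : ℝ, 1 ≤ K → ∀ ε : ℝ, 0 < ε → ∀ᶠ n in (U : Filter ℕ),
    ∀ e' : ℕ × ℝ → Fin 14 → ℝ,
      (∀ j ∈ J n, (e' j 9 = 0 ∧ e' j 12 = 0 ∧ e' j 13 = 0) ∧
        ∀ k, u n (Fin.natAdd 4 k) * |e' j k| ≤ B.d n ^ (-C)) →
      ∀ i ∈ J n, ∀ G ⊆ J n, (∀ j ∈ G, ∀ k, |u n k * coW (κ n) (gau (κ n) (e' i) (F n i))
          (gau (κ n) (e' j) (F n j)) k| ≤ K * (B.d n ^ natX X n k * B'.d n ^ d k)) →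
        (G.card : ℝ) ≤ Tn n * B'.d n ^ (-(DlW g q d + ε)) := by
  intro d hd K hK ε hε
  filter_upwards [h ‖d‖ K ε hK hε] with n hn
  exact hn d hd le_rfl

/-- **record window with D-max for all gauges, positivity and cardinality** -/
structure IWG (θ : Fin 3 → ℝ) (g : ℝ) (q : Fin 3 → ℝ) (B B' : Base)
    (I0 J : ℕ → Finset (ℕ × ℝ)) (κ : ℕ → ℝ) (u : ℕ → Fin 18 → ℝ)
    (F : ℕ → ℕ × ℝ → FW) (X : ℕ → Fin 18 → ℝ) (w : ℕ → ℝ) (Dr : Set (Fin 18)) (Tn To : ℕ → ℝ)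
    (lam lo : (Fin 18 → ℝ) → ℝ) : Prop where
  iw : IW B B' I0 J κ u F X w Dr Tn To lam lo
  gdu : ∃ C : ℝ, 0 < C ∧ GdU θ g q C B B' J κ u F X Tn
  natpos : ∀ R : ℝ, ∀ᶠ n in (U : Filter ℕ), ∀ k, R * w n ≤ natX X n k
  card : ∃ Hc : ℕ → ℝ, B'.Sub Hc ∧
    ∀ᶠ n in (U : Filter ℕ), (Nat.log 2 (J n).card : ℝ) + 1 ≤ Hc n

section iwg

variable {θ : Fin 3 → ℝ} {g : ℝ} {q : Fin 3 → ℝ} {B B1 B2 : Base}
  {I0 J J' : ℕ → Finset (ℕ × ℝ)} {κ : ℕ → ℝ} {u : ℕ → Fin 18 → ℝ}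
  {F : ℕ → ℕ × ℝ → FW} {X : ℕ → Fin 18 → ℝ} {w : ℕ → ℝ} {Dr : Set (Fin 18)}
  {Tn To To' : ℕ → ℝ} {lam lo lam' lo' : (Fin 18 → ℝ) → ℝ}

theorem natpos_shift (hp : ∀ R : ℝ, ∀ᶠ n in (U : Filter ℕ), ∀ k, R * w n ≤ natX X n k)
    (hw : ∀ n, 0 < w n) {σ : ℕ → ℝ} {S : ℝ} (hσ : ∀ n, |σ n| ≤ S) {v : ℕ → ℝ}
    (hv0 : ∀ n, 0 < v n) (hv : Tendsto v U (𝓝 0)) (R : ℝ) :
    ∀ᶠ n in (U : Filter ℕ), ∀ k,
      R * (w n * v n) ≤ natX (fun n => X n + w n • (σ n • btW θ)) n k := by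
  filter_upwards [hp (|R| + S * ‖btW θ‖), hv.eventually_lt_const (show (0:ℝ) < 1 by norm_num)]
    with n h1 h2 k
  rw [natX_shift (fun n => σ n • btW θ), grW_btW]
  have h3 := h1 k
  have h4 : R * (w n * v n) ≤ |R| * w n := by
    have a1 : R * (w n * v n) ≤ |R| * (w n * v n) :=
      mul_le_mul_of_nonneg_right (le_abs_self R) (mul_nonneg (hw n).le (hv0 n).le)
    have a2 : |R| * (w n * v n) ≤ |R| * (w n * 1) :=
      mul_le_mul_of_nonneg_left (mul_le_mul_of_nonneg_left h2.le (hw n).le) (abs_nonneg R)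
    linarith
  have h5 : |σ n * btW θ k| ≤ S * ‖btW θ‖ := by
    rw [abs_mul]
    have b1 := norm_le_pi_norm (btW θ) k
    rw [Real.norm_eq_abs] at b1
    exact mul_le_mul (hσ n) b1 (abs_nonneg _) ((abs_nonneg _).trans (hσ n))
  have h6 := mul_le_mul_of_nonneg_left (abs_le.1 h5).1 (hw n).le
  nlinarith

/-- **zoom of an enriched record window at record points** -/
theorem IWG.zoom (W : IWG θ g q B B1 I0 J κ u F X w Dr Tn To lam lo) (hD : Dr3 Dr)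
    (hrcd : ∀ t : ℝ, lam (t • btW θ) = t * DlW g q (btW θ)) {σ h : ℕ → ℝ} {S : ℝ}
    (hσ : ∀ l, |σ l| ≤ S) (hpos : ∀ l, 0 < h l) (hh : Tendsto h atTop (𝓝 0)) {k : ℕ → ℕ}
    (hk : Tendsto k U atTop) (hJ : ∀ᶠ n in (U : Filter ℕ), J' n ⊆ J n)
    (h2 : ∀ n, B2.d n = B1.d n ^ h (k n)) {C : ℝ} (hC : 0 < C)
    (hL : ∀ᶠ n in (U : Filter ℕ), GdL θ g q C B B1 J κ u F X Tn σ h (k n) n)
    (hTo : ∀ n, 0 < To' n)
    (hZ : ZWin B B2 I0 J' (coU u κ F) monW 67 (fun n => X n + w n • (σ (k n) • btW θ))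
      (fun n => w n * h (k n)) (cn QW (actW Dr))
      (fun n => Tn n * B1.d n ^ (-(lam (σ (k n) • btW θ)))) lam')
    (hO : ZProf B2 J' (fun n a => zolb B I0 (coU u κ F) monW 67 X w n
      (σ (k n) • btW θ + h (k n) • a)) (cn QW (actW Dr)) To' lo')
    (hκ : B2.Sub fun n => |κ n|⁻¹) {Hc : ℕ → ℝ} (hc : B2.Sub Hc)
    (hcard : ∀ᶠ n in (U : Filter ℕ), (Nat.log 2 (J n).card : ℝ) + 1 ≤ Hc n) :
    IWG θ g q B B2 I0 J' κ u F (fun n => X n + w n • (σ (k n) • btW θ))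
      (fun n => w n * h (k n)) Dr (fun n => Tn n * B1.d n ^ (-(lam (σ (k n) • btW θ)))) To'
      lam' lo' where
  iw := W.iw.zoom (y := fun n => σ (k n) • btW θ) (fun n => (natG_btW hD θ).smul _)
    (b := S * ‖btW θ‖) (fun n => by
      rw [norm_smul, Real.norm_eq_abs]
      exact mul_le_mul_of_nonneg_right (hσ _) (norm_nonneg _))
    (v := fun n => h (k n)) (fun n => hpos _) (hh.comp hk) hTo hZ hO hκ
  gdu := ⟨C, hC, GdU.of_level W.iw.win.base hpos hk hL hrcd W.iw.win.T0 h2 hJ⟩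
  natpos := natpos_shift W.natpos W.iw.win.w0 (fun n => hσ (k n)) (fun n => hpos (k n))
    (hh.comp hk)
  card := ⟨Hc, hc, by
    filter_upwards [hcard, hJ] with n h1 h2
    refine le_trans ?_ h1
    have : Nat.log 2 (J' n).card ≤ Nat.log 2 (J n).card := Nat.log_mono_right (card_le_card h2)
    have : (Nat.log 2 (J' n).card : ℝ) ≤ (Nat.log 2 (J n).card : ℝ) := by exact_mod_cast this
    linarith⟩

end iwg

end Crest.Agent.R136.RL478
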