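import Crest.Agent.R136.RL5_478

/-!
# R136 (helper478): walls of the W-chart, the window chain with D-max for all gauges

**`recLaw_of_iwg`** : enriched record window + stage + interior tangent with `IntLaw` ⊢ `RecLaw` and
`IWG` at the last record window.
-/

set_option autoImplicit false
set_option linter.unusedVariables false

open Finset Filter Topology

namespace Crest.Agent.R136.RL478

open Crest.Agent.R136.Net191
open Crest.Agent.R136.NetW191
open Crest.Agent.R136.PrW464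
open Crest.Agent.R136.NatW697
open Crest.Agent.R136.LadW697
open Crest.Agent.R136.LadG697
open Crest.Agent.R136.Zpr779
open Crest.Agent.R136.Qg926
open Crest.Agent.R136.EvW938
open Crest.Agent.R136.Bas938
open Crest.Agent.R136.AwJ774
open Crest.Agent.R136.K2S774
open Crest.Agent.R136.Gau66 (sub_rpow few_labels exists_zoom_ref base_ext tendsto_min)
open Crest.Agent.R138.Ex926

section core

variable {θ : Fin 3 → ℝ} {g s : ℝ} {q : Fin 3 → ℝ} {V : Set (Fin 18)} {P : Set (Fin 18 → ℝ)}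
  {ν own : (Fin 18 → ℝ) → ℝ} {r0 : Fin 18 → ℝ} {B B1 B2 : Base} {I0 J : ℕ → Finset (ℕ × ℝ)}
  {κ : ℕ → ℝ} {u : ℕ → Fin 18 → ℝ} {F : ℕ → ℕ × ℝ → FW} {X1 : ℕ → Fin 18 → ℝ} {w1 : ℕ → ℝ}
  {Tn To : ℕ → ℝ} {lam0 lo0 lamI lamR loR : (Fin 18 → ℝ) → ℝ} {j : Fin 14}
  {Vs : Finset (Fin 14)} {z : ℝ × ℝ}

/-- **from the twin windows to `RecLaw`** -/
theorem recLaw_coreG (hS : WallS θ s V j Vs) (u0 : ∀ n, GrU (u n)) (κ1 : ∀ n, |κ n| ≤ 1)
    (W1 : IW B B1 I0 J κ u F X1 w1 (DrW s) Tn To lam0 lo0)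
    (hz : z.1 < 0) {h2 : ℕ → ℝ} (h2pos : ∀ n, 0 < h2 n) (h20 : Tendsto h2 U (𝓝 0))
    (HI : IntLaw θ s V (DrW s) lamI j Vs)
    (SR : StD P ν own r0 θ g q V (DrW s) lamR loR) {TI TR ToR : ℕ → ℝ}
    (bb2 : ∀ n, B2.d n = B1.d n ^ h2 n)
    (ZI : ZWin B B2 I0 J (coU u κ F) monW 67 (fun n => X1 n + w1 n • yI s θ z)
      (fun n => w1 n * h2 n) (cn QW (actW (DrW s))) TI lamI)
    (W2 : IWG θ g q B B2 I0 J κ u F (fun n => X1 n + w1 n • ((z.1 + z.2) • btW θ))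
      (fun n => w1 n * h2 n) (DrW s) TR ToR lamR loR) {K0 : ℝ}
    (hK0 : ‖(z.1 + z.2) • btW θ‖ + ‖btW θ‖ + ‖yI s θ z‖ + 1 ≤ K0)
    {f : ℕ → ℝ} (hf : B2.Sub f)
    (hfew : ∀ᶠ n in (U : Filter ℕ), ∀ c ∈ cn QW (actW (DrW s)), ‖c‖ ≤ K0 →
      (∀ k ∈ V, c k ≤ btW θ k * c 0) → ∀ p ∈ cn QW (actW (DrW s)), ‖p‖ ≤ K0 → p 0 ≤ c 0 →
      (∀ k ∈ V, p k ≤ btW θ k * c 0) → ∀ i ∈ J n,
      (((cls (J n) (zolb B I0 (coU u κ F) monW 67 X1 w1 n c) i).image
        (zlab B I0 (coU u κ F) monW 67 X1 w1 n p)).card : ℝ) ≤ f n)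
    (H : ℕ → ℕ → ℝ) (hH : ∀ i, B2.Sub (H i)) :
    ∃ (B' : Base) (J' : ℕ → Finset (ℕ × ℝ)) (X : ℕ → Fin 18 → ℝ) (w Tn' To' : ℕ → ℝ)
      (lam lo : (Fin 18 → ℝ) → ℝ) (gl : ℕ → ℕ × ℝ → (ℕ × ℝ) × (ℕ × ℝ)) (e : ℕ → ℕ × ℝ → ℝ),
      RecLaw θ g q V (DrW s) P ν own r0 B B' I0 J' κ u F X w Tn' To' lam lo j Vs gl e ∧
      IWG θ g q B B' I0 J' κ u F X w (DrW s) Tn' To' lam lo ∧ ∀ i, B'.Sub (H i) := by
  classical
  have hD := hS.D3
  have nb := natG_btW hD θ
  have hD1 : ∀ n, 0 < B.d n := fun n => B.pos n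
  have hb2 : ∀ n, B2.d n = B.d n ^ (w1 n * h2 n) := W2.iw.win.base
  obtain ⟨C, hC, hG⟩ := W2.gdu
  obtain ⟨Hc, hHc, hcard⟩ := W2.card
  -- the interior laws for every exponent
  have key : ∀ l : ℕ, ∃ y₀ : ℝ, 0 < y₀ ∧ y₀ ≤ 1 ∧ ∃ c₀ ∈ cn QW (actW (DrW s)),
      ∃ c₁ ∈ cn QW (actW (DrW s)), OwC θ s V c₀ ∧ OwC θ s V c₁ ∧ ‖c₀‖ ≤ 1 ∧ ‖c₁‖ ≤ 1 ∧
      ∃ J1 : ℕ → Finset (ℕ × ℝ), (∀ n, J1 n ⊆ J n) ∧ ∀ᶠ n in (U : Filter ℕ),
        B2.d n ^ (3 * (1 / ((l : ℝ) + 2) ^ 2) * y₀) * ((J n).card : ℝ) ≤ ((J1 n).card : ℝ) ∧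
        ∀ i ∈ J1 n, ∃ e : ℕ × ℝ → ℝ, OLaw (κ n) (F n) (u n)
          (fun k => B.d n ^ (X1 n + w1 n • yI s θ z) k) j Vs
            (B2.d n ^ (-(2 * (1 / ((l : ℝ) + 2) ^ 2) * y₀))) (B2.d n ^ (y₀ / 2)) e
            (cls (J1 n) (fun x => (zlab B I0 (coU u κ F) monW 67
              (fun n => X1 n + w1 n • yI s θ z) (fun n => w1 n * h2 n) n c₀ x,
              zlab B I0 (coU u κ F) monW 67
              (fun n => X1 n + w1 n • yI s θ z) (fun n => w1 n * h2 n) n c₁ x)) i) := by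
    intro l
    have hl : (0 : ℝ) < (l : ℝ) + 2 := by positivity
    refine HI B B2 I0 J κ u F _ _ TI u0 κ1 W2.iw.kap ?_ ZI _ (by positivity) ?_
    · exact basX_shift W1.bas W1.win.w0 (fun n => (natG_y hD θ z).nat) (fun n => le_rfl) h2pos h20
    · rw [div_le_one (by positivity)]
      nlinarith
  choose y hy0 hy1 c0 hc0 c1 hc1 ow0 ow1 nc0 nc1 J1 hJ1 hst using key
  have hj2 : ∀ l : ℕ, (0 : ℝ) < (l : ℝ) + 2 := fun l => by positivity
  have hupos : ∀ l : ℕ, 0 < y l / ((l : ℝ) + 2) := fun l => div_pos (hy0 l) (hj2 l)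
  have hu0 : Tendsto (fun l : ℕ => y l / ((l : ℝ) + 2)) atTop (𝓝 0) := by
    have h3 : Tendsto (fun l : ℕ => 1 / ((l : ℝ) + 1)) atTop (𝓝 0) :=
      tendsto_one_div_add_atTop_nhds_zero_nat
    refine squeeze_zero (fun l => (hupos l).le) (fun l => ?_) h3
    rw [div_le_div_iff₀ (hj2 l) (by positivity)]
    have := hy1 l
    have := hy0 l
    nlinarith
  -- tangents at the moving record points
  obtain ⟨φ2, hφ2, lam', lo', t3, t3o, S3⟩ := SR.exists_recM (recW θ (DrW s) V)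
    (y := fun l => (y l / 8) • btW θ) (σ := fun l => y l / 8) (fun l i _ => rfl) hupos hu0
  have hφt := hφ2.tendsto_atTop
  have he : Tendsto (fun l : ℕ => 3 / (((φ2 l : ℕ) : ℝ) + 2)) atTop (𝓝 0) := by
    have h3 : Tendsto (fun l : ℕ => 3 / ((l : ℝ) + 2)) atTop (𝓝 0) :=
      tendsto_const_nhds.div_atTop (tendsto_natCast_atTop_atTop.atTop_add tendsto_const_nhds)
    exact h3.comp hφt
  set H' : ℕ → ℕ → ℝ := fun i => Nat.casesOn i f fun i => Nat.casesOn i (fun n => |κ n|⁻¹)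
    fun i => Nat.casesOn i Hc H with hH'
  have hnb : ∀ l, ‖(y l / 8) • btW θ‖ ≤ ‖btW θ‖ := fun l => by
    rw [norm_smul, Real.norm_of_nonneg (by have := hy0 l; positivity)]
    have h4 := hy1 l
    have h5 := norm_nonneg (btW θ)
    nlinarith
  obtain ⟨k3, hk3, B3, d3, L3, s3, J', hJ', hAff, ⟨S, hSS, hdJ⟩, ZF, OF⟩ := exists_zoom_ref
    W2.iw.win (x := fun l => (y (φ2 l) / 8) • btW θ) (b := ‖btW θ‖) (fun l => hnb _)
    (h := fun l => y (φ2 l) / (((φ2 l : ℕ) : ℝ) + 2)) (fun l => hupos (φ2 l))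
    (hu0.comp hφt) cn_zero t3 W2.iw.To0 W2.iw.own cn_zero t3o H' (fun i => by
      rcases i with _ | i
      · exact hf
      · rcases i with _ | i
        · exact W2.iw.kap
        · rcases i with _ | i
          · exact hHc
          · exact hH i) he
    (fun l n J1 => GdL θ g q C B B2 J κ u F (fun n => X1 n + w1 n • ((z.1 + z.2) • btW θ)) TR
      (fun l => y (φ2 l) / 8) (fun l => y (φ2 l) / (((φ2 l : ℕ) : ℝ) + 2)) l n ∧ ∀ i ∈ J1, ∃ e : ℕ × ℝ → ℝ, OLaw (κ n) (F n) (u n)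
          (fun k => B.d n ^ (X1 n + w1 n • yI s θ z) k) j Vs
            (B2.d n ^ (-(2 * (1 / (((φ2 l : ℕ) : ℝ) + 2) ^ 2) * y (φ2 l))))
            (B2.d n ^ (y (φ2 l) / 2)) e
            (cls J1 (fun x => (zlab B I0 (coU u κ F) monW 67
              (fun n => X1 n + w1 n • yI s θ z) (fun n => w1 n * h2 n) n (c0 (φ2 l)) x,
              zlab B I0 (coU u κ F) monW 67
              (fun n => X1 n + w1 n • yI s θ z) (fun n => w1 n * h2 n) n (c1 (φ2 l)) x)) i))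
    (fun l => by
      filter_upwards [hst (φ2 l), hG.level (fun l => y (φ2 l) / 8)
        (h := fun l => y (φ2 l) / (((φ2 l : ℕ) : ℝ) + 2)) (fun l => hupos (φ2 l)) l] with n hn hgn
      refine ⟨J1 (φ2 l) n, hJ1 _ n, ?_, hgn, hn.2⟩
      have e1 : 3 / (((φ2 l : ℕ) : ℝ) + 2) * (y (φ2 l) / (((φ2 l : ℕ) : ℝ) + 2)) =
          3 * (1 / (((φ2 l : ℕ) : ℝ) + 2) ^ 2) * y (φ2 l) := by
        have := (hj2 (φ2 l)).ne'
        field_simp
      rw [e1]
      exact hn.1)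
  -- the record window
  have hToF : ∀ n, 0 < ToR n * B2.d n ^ (-(loR ((y (φ2 (k3 n)) / 8) • btW θ))) := fun n =>
    mul_pos (W2.iw.To0 n) (Real.rpow_pos_of_pos (B2.pos n) _)
  have W3 := W2.zoom hS.D3 SR.rcd (σ := fun l => y (φ2 l) / 8) (S := 1) (fun l => by
      have a1 := hy0 (φ2 l)
      have a2 := hy1 (φ2 l)
      rw [abs_of_pos (by positivity)]
      linarith)
    (h := fun l => y (φ2 l) / (((φ2 l : ℕ) : ℝ) + 2)) (fun l => hupos _) (hu0.comp hφt) hk3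
    (Eventually.of_forall hJ') d3 hC (hAff.mono fun n hn => hn.1) hToF ZF OF (s3 1) (s3 2) hcard
  have hjt : Tendsto (fun n => ((φ2 (k3 n) : ℕ) : ℝ) + 2) U atTop :=
    (tendsto_natCast_atTop_atTop.comp (hφt.comp hk3)).atTop_add tendsto_const_nhds
  -- labels and gauges
  set gl : ℕ → ℕ × ℝ → (ℕ × ℝ) × (ℕ × ℝ) := fun n x =>
    (zlab B I0 (coU u κ F) monW 67 (fun n => X1 n + w1 n • yI s θ z) (fun n => w1 n * h2 n) n
      (c0 (φ2 (k3 n))) x,
      zlab B I0 (coU u κ F) monW 67 (fun n => X1 n + w1 n • yI s θ z) (fun n => w1 n * h2 n) n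
      (c1 (φ2 (k3 n))) x) with hgl
  set Pn : ℕ → (ℕ × ℝ) × (ℕ × ℝ) → (ℕ × ℝ → ℝ) → Prop := fun n L ee =>
    OLaw (κ n) (F n) (u n) (fun k => B.d n ^ (X1 n + w1 n • yI s θ z) k) j Vs
      (B2.d n ^ (-(2 * (1 / (((φ2 (k3 n) : ℕ) : ℝ) + 2) ^ 2) * y (φ2 (k3 n)))))
      (B2.d n ^ (y (φ2 (k3 n)) / 2)) ee ((J' n).filter fun x => gl n x = L) with hPn
  set pp : ℕ → (ℕ × ℝ) × (ℕ × ℝ) → ℕ × ℝ → ℝ := fun n L =>
    if h : ∃ ee, Pn n L ee then h.choose else 0 with hpp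
  have hPp : ∀ᶠ n in (U : Filter ℕ), ∀ i ∈ J' n, Pn n (gl n i) (pp n (gl n i)) := by
    filter_upwards [hAff] with n hn i hi
    obtain ⟨ee, h1⟩ := hn.2 i hi
    have hex : ∃ ee, Pn n (gl n i) ee := ⟨ee, h1⟩
    have e1 : pp n (gl n i) = hex.choose := dif_pos hex
    rw [e1]
    exact hex.choose_spec
  -- positions
  have ej : ∀ n, (X1 n + w1 n • yI s θ z) (Fin.natAdd 4 j) =
      (X1 n + w1 n • ((z.1 + z.2) • btW θ) + (w1 n * h2 n) • ((y (φ2 (k3 n)) / 8) • btW θ))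
        (Fin.natAdd 4 j) := fun n => by
    simp only [Pi.add_apply, Pi.smul_apply, smul_eq_mul, yI_apply, hS.jT, hS.jb]
    ring
  have eq' : ∀ n, ∀ q' ∈ Vs, B.d n ^ (X1 n + w1 n • ((z.1 + z.2) • btW θ) +
      (w1 n * h2 n) • ((y (φ2 (k3 n)) / 8) • btW θ)) (Fin.natAdd 4 q') =
      B.d n ^ (X1 n + w1 n • yI s θ z) (Fin.natAdd 4 q') *
        B2.d n ^ (y (φ2 (k3 n)) / 8 * btW θ (Fin.natAdd 4 q')) := fun n q' hq' => by
    rw [hb2, ← Real.rpow_mul (hD1 n).le, ← Real.rpow_add (hD1 n)]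
    congr 1
    simp only [Pi.add_apply, Pi.smul_apply, smul_eq_mul, yI_apply, hS.qT q' hq']
    ring
  have hd3 : ∀ n (t : ℝ), B3.d n ^ t = B2.d n ^ (y (φ2 (k3 n)) / (((φ2 (k3 n) : ℕ) : ℝ) + 2) * t) :=
    fun n t => by rw [d3, ← Real.rpow_mul (B2.pos n).le]
  have hanti : ∀ n {a b : ℝ}, a ≤ b → B2.d n ^ b ≤ B2.d n ^ a := fun n {a b} h =>
    Real.rpow_le_rpow_of_exponent_ge (B2.pos n) (B2.lt n).le h
  refine ⟨B3, J', _, _, _, _, lam', lo', gl, fun n i => pp n (gl n i) i,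
    ⟨u0, κ1, W3.iw, S3, fun K => ⟨fun n => f n * f n, (s3 0).mul (s3 0), ?_⟩, fun ε hε => ?_,
      fun K => ?_⟩, W3, fun i => s3 (i + 3)⟩
  · -- few labels
    have hz' : ∀ᶠ n in (U : Filter ℕ), ∀ k : Fin 18, KW θ k < s →
        h2 n ≤ -z.1 * (s - KW θ k) := by
      rw [Filter.eventually_all]
      intro k
      by_cases hk : KW θ k < s
      · filter_upwards [h20.eventually_lt_const
          (show 0 < -z.1 * (s - KW θ k) from mul_pos (by linarith) (by linarith))] with n hn _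
        exact hn.le
      · exact Eventually.of_forall fun n h => absurd h hk
    have hsm : Tendsto (fun n => h2 n * |K|) U (𝓝 0) := by
      have := h20.mul_const |K|
      rwa [zero_mul] at this
    filter_upwards [hfew, hz', hsm.eventually_lt_const (show (0:ℝ) < 1 by norm_num),
      h20.eventually_lt_const (show (0:ℝ) < 1 by norm_num),
      hjt.eventually_ge_atTop (8 * |K|)] with n n1 n2 n3 n4 n5 a ha haK haV i hi
    have hyp := hy0 (φ2 (k3 n))
    have hyl := hy1 (φ2 (k3 n))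
    have hj := hj2 (φ2 (k3 n))
    have hj1 : (1 : ℝ) ≤ ((φ2 (k3 n) : ℕ) : ℝ) + 2 := by
      have : (0 : ℝ) ≤ ((φ2 (k3 n) : ℕ) : ℝ) := Nat.cast_nonneg _
      linarith
    set yy := y (φ2 (k3 n)) with hyy
    set vv := yy / (((φ2 (k3 n) : ℕ) : ℝ) + 2) with hvv
    have hv0 : 0 < vv := hupos _
    have hv1 : vv ≤ 1 := by
      rw [hvv, div_le_one hj]; linarith
    have hv8 : vv * |K| ≤ yy / 8 := by
      rw [hvv, div_mul_eq_mul_div, div_le_div_iff₀ hj (by norm_num), mul_assoc]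
      refine mul_le_mul_of_nonneg_left ?_ hyp.le
      linarith
    set cc : Fin 18 → ℝ := ((z.1 + z.2) + h2 n * (yy / 8)) • btW θ + (h2 n * vv) • a with hcc
    have hcm : cc ∈ cn QW (actW (DrW s)) :=
      cn_nat_add ((nb.smul _).nat) ha (mul_nonneg (h2pos n).le hv0.le)
    have hcK : ‖cc‖ ≤ K0 := by
      have e1 : cc = (z.1 + z.2) • btW θ + (h2 n * (yy / 8)) • btW θ + (h2 n * vv) • a := by
        rw [hcc, add_smul]
      have t1 : ‖(h2 n * (yy / 8)) • btW θ‖ ≤ ‖btW θ‖ := by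
        rw [norm_smul, Real.norm_of_nonneg (mul_nonneg (h2pos n).le (by positivity))]
        have : h2 n * (yy / 8) ≤ 1 := by
          have := mul_le_mul n4.le (show yy / 8 ≤ 1 by linarith) (by positivity) zero_le_one
          linarith
        exact mul_le_of_le_one_left (norm_nonneg _) this
      have t2 : ‖(h2 n * vv) • a‖ ≤ 1 := by
        rw [norm_smul, Real.norm_of_nonneg (mul_nonneg (h2pos n).le hv0.le)]
        have h5 : ‖a‖ ≤ |K| := haK.trans (le_abs_self _)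
        have h6 : h2 n * vv * ‖a‖ ≤ h2 n * 1 * |K| :=
          mul_le_mul (mul_le_mul_of_nonneg_left hv1 (h2pos n).le) h5 (norm_nonneg _)
            (by have := (h2pos n).le; positivity)
        rw [mul_one] at h6
        linarith
      rw [e1]
      have t3 := norm_add_le ((z.1 + z.2) • btW θ + (h2 n * (yy / 8)) • btW θ) ((h2 n * vv) • a)
      have t4 := norm_add_le ((z.1 + z.2) • btW θ) ((h2 n * (yy / 8)) • btW θ)
      have t5 := norm_nonneg (yI s θ z)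
      linarith
    have e0 : cc 0 = (z.1 + z.2) + h2 n * (yy / 8) + h2 n * vv * a 0 := by
      simp only [hcc, Pi.add_apply, Pi.smul_apply, smul_eq_mul, btW_0]
      ring
    have hcV : ∀ k ∈ V, cc k ≤ btW θ k * cc 0 := fun k hk => by
      have h5 := mul_le_mul_of_nonneg_left (haV k hk) (mul_nonneg (h2pos n).le hv0.le)
      rw [e0]
      simp only [hcc, Pi.add_apply, Pi.smul_apply, smul_eq_mul]
      linarith
    have ha0 : 0 ≤ yy / 8 + vv * a 0 := by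
      have h5 := norm_le_pi_norm a 0
      rw [Real.norm_eq_abs] at h5
      have h6 : -|K| ≤ a 0 := by
        have := (abs_le.1 (h5.trans (haK.trans (le_abs_self K)))).1
        exact this
      have := mul_le_mul_of_nonneg_left h6 hv0.le
      linarith
    have hpc : ∀ c ∈ cn QW (actW (DrW s)), OwC θ s V c → ‖c‖ ≤ 1 →
        (((cls (J n) (zolb B I0 (coU u κ F) monW 67 X1 w1 n cc) i).image
          (zlab B I0 (coU u κ F) monW 67 (fun n => X1 n + w1 n • yI s θ z)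
            (fun n => w1 n * h2 n) n c)).card : ℝ) ≤ f n := by
      intro c hc hoc hc1
      have hpm : yI s θ z + h2 n • c ∈ cn QW (actW (DrW s)) :=
        cn_nat_add ((natG_y hD θ z).nat) hc (h2pos n).le
      have hpK : ‖yI s θ z + h2 n • c‖ ≤ K0 := by
        have t1 := norm_add_le (yI s θ z) (h2 n • c)
        have t2 : ‖h2 n • c‖ ≤ 1 := by
          rw [norm_smul, Real.norm_of_nonneg (h2pos n).le]
          have := mul_le_mul n4.le hc1 (norm_nonneg _) zero_le_one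
          linarith
        have t3 := norm_nonneg (btW θ)
        have t4 := norm_nonneg ((z.1 + z.2) • btW θ)
        linarith
      have hp0 : (yI s θ z + h2 n • c) 0 ≤ cc 0 := by
        rw [e0]
        simp only [Pi.add_apply, Pi.smul_apply, smul_eq_mul, yI_apply, TW_z, btW_0]
        have h5 : h2 n * c 0 ≤ 0 := mul_nonpos_of_nonneg_of_nonpos (h2pos n).le hoc.1
        have h6 := mul_nonneg (h2pos n).le ha0
        linarith
      have hpV : ∀ k ∈ V, (yI s θ z + h2 n • c) k ≤ btW θ k * cc 0 := fun k hk => by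
        obtain ⟨v1, v2, v3, v4⟩ := hS.vis k hk
        rw [e0]
        simp only [Pi.add_apply, Pi.smul_apply, smul_eq_mul, yI_apply]
        have h5 : btW θ k * (h2 n * (yy / 8) + h2 n * vv * a 0) ≥ 0 := by
          have := mul_nonneg (h2pos n).le ha0
          exact mul_nonneg v4 (by linarith)
        have h6 : TW s k - btW θ k = s - KW θ k := by
          rw [TW_flag v1 v2, LadT830.btW_KW θ v1]; ring
        have h7 : z.1 * (s - KW θ k) + h2 n * c k ≤ 0 := by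
          rcases v3.eq_or_lt with h8 | h8
          · have := mul_nonpos_of_nonneg_of_nonpos (h2pos n).le (hoc.2 k hk h8)
            rw [h8, sub_self, mul_zero, zero_add]
            exact this
          · have h9 := n2 k h8
            have h10 : c k ≤ 1 := by
              have := norm_le_pi_norm c k
              rw [Real.norm_eq_abs] at this
              exact (le_abs_self _).trans (this.trans hc1)
            have h11 := mul_le_mul_of_nonneg_left h10 (h2pos n).le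
            linarith
        have h8 : z.1 * TW s k = z.1 * btW θ k + z.1 * (s - KW θ k) := by
          rw [← h6]; ring
        rw [h8]
        linarith
      have := n1 cc hcm hcK hcV _ hpm hpK hp0 hpV i (hJ' n hi)
      refine le_trans (le_of_eq ?_) this
      congr 2
      refine image_congr fun x _ => ?_
      unfold zlab
      rw [zoom_zoom]
    have hcls : cls (J' n) (zolb B I0 (coU u κ F) monW 67 (fun n => X1 n +
        w1 n • ((z.1 + z.2) • btW θ) + (w1 n * h2 n) • ((y (φ2 (k3 n)) / 8) • btW θ))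
        (fun n => w1 n * h2 n * (y (φ2 (k3 n)) / (((φ2 (k3 n) : ℕ) : ℝ) + 2))) n a) i ⊆
        cls (J n) (zolb B I0 (coU u κ F) monW 67 X1 w1 n cc) i := by
      intro x hx
      obtain ⟨g1, g2⟩ := mem_cls.1 hx
      refine mem_cls.2 ⟨hJ' n g1, ?_⟩
      have e3 : ∀ x, zolb B I0 (coU u κ F) monW 67 (fun n => X1 n +
        w1 n • ((z.1 + z.2) • btW θ) + (w1 n * h2 n) • ((y (φ2 (k3 n)) / 8) • btW θ))
        (fun n => w1 n * h2 n * (y (φ2 (k3 n)) / (((φ2 (k3 n) : ℕ) : ℝ) + 2))) n a x =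
          zolb B I0 (coU u κ F) monW 67 X1 w1 n cc x := by
        intro x
        unfold zolb zlab
        have e4 : X1 n + w1 n • ((z.1 + z.2) • btW θ) + (w1 n * h2 n) •
            ((y (φ2 (k3 n)) / 8) • btW θ) +
            (w1 n * h2 n * (y (φ2 (k3 n)) / (((φ2 (k3 n) : ℕ) : ℝ) + 2))) • a =
            X1 n + w1 n • cc := by
          funext k
          simp only [hcc, Pi.add_apply, Pi.smul_apply, smul_eq_mul, hyy, hvv]
          ring
        rw [e4]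
      rw [e3, e3] at g2
      exact g2
    have hc2 := card_image_two (cls (J n) (zolb B I0 (coU u κ F) monW 67 X1 w1 n cc) i)
      (fun x => (gl n x).1) (gl n) (N := f n) (fun x hx => by
        have h5 := hpc _ (hc1 (φ2 (k3 n))) (ow1 _) (nc1 _)
        refine le_trans (Nat.cast_le.2 ?_) h5
        refine card_le_card_of_injOn (fun L => L.2) (fun L hL => ?_) (fun L hL L' hL' hLL => ?_)
        · obtain ⟨x', hx', rfl⟩ := mem_image.1 hL
          exact mem_image_of_mem _ (mem_cls.1 hx').1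
        · obtain ⟨x', hx', rfl⟩ := mem_image.1 hL
          obtain ⟨x'', hx'', rfl⟩ := mem_image.1 hL'
          have g1 : (gl n x').1 = (gl n x).1 := (mem_cls.1 hx').2
          have g2 : (gl n x'').1 = (gl n x).1 := (mem_cls.1 hx'').2
          exact Prod.ext (g1.trans g2.symm) hLL)
    have hc3 := hpc _ (hc0 (φ2 (k3 n))) (ow0 _) (nc0 _)
    have hf0 : 0 ≤ f n := (Nat.cast_nonneg _).trans hc3
    refine le_trans (Nat.cast_le.2 (card_le_card (image_subset_image hcls))) (hc2.trans ?_)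
    exact mul_le_mul_of_nonneg_right hc3 hf0
  · -- size
    filter_upwards [hPp, hjt.eventually_ge_atTop (2 / ε)] with n hn hjn i hi
    have h1 := (hn i hi i (mem_filter.2 ⟨hi, rfl⟩)).1
    simp only at h1
    rw [ej n] at h1
    refine h1.trans (mul_le_mul_of_nonneg_right ?_ (Real.rpow_pos_of_pos (hD1 n) _).le)
    rw [hd3]
    refine hanti n ?_
    have hyp := hy0 (φ2 (k3 n))
    have hj := hj2 (φ2 (k3 n))
    have h5 : 2 ≤ ε * (((φ2 (k3 n) : ℕ) : ℝ) + 2) := by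
      rw [div_le_iff₀ hε] at hjn
      linarith
    have e5 : 2 * (1 / (((φ2 (k3 n) : ℕ) : ℝ) + 2) ^ 2) * y (φ2 (k3 n)) =
        y (φ2 (k3 n)) / (((φ2 (k3 n) : ℕ) : ℝ) + 2) * (2 / (((φ2 (k3 n) : ℕ) : ℝ) + 2)) := by
      field_simp
    rw [e5]
    have h6 : 2 / (((φ2 (k3 n) : ℕ) : ℝ) + 2) ≤ ε := by
      rw [div_le_iff₀ hj]; exact h5
    have h7 := mul_le_mul_of_nonneg_left h6 (hupos (φ2 (k3 n))).le
    linarith
  · -- law
    filter_upwards [hPp, hjt.eventually_ge_atTop (8 * |K|)] with n hn hjn i hi i' hi' hl hg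
    have hyp := hy0 (φ2 (k3 n))
    have hj := hj2 (φ2 (k3 n))
    have h1 := (hn i hi i (mem_filter.2 ⟨hi, rfl⟩)).2 i' (mem_filter.2 ⟨hi', hg.symm⟩) hl
    simp only at h1
    obtain ⟨h2', h3⟩ := h1
    have hK8 : y (φ2 (k3 n)) / (((φ2 (k3 n) : ℕ) : ℝ) + 2) * K ≤ y (φ2 (k3 n)) / 8 := by
      rw [div_mul_eq_mul_div, div_le_div_iff₀ hj (by norm_num), mul_assoc]
      refine mul_le_mul_of_nonneg_left ?_ hyp.le
      have := le_abs_self K
      linarith
    refine ⟨?_, fun q' hq' => ?_⟩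
    · rw [ej n] at h2'
      have e6 : pp n (gl n i') i' = pp n (gl n i) i' := by rw [← hg]
      rw [e6]
      refine h2'.trans (mul_le_mul_of_nonneg_right ?_ (Real.rpow_pos_of_pos (hD1 n) _).le)
      rw [hd3]
      exact hanti n (by linarith)
    · refine (h3 q' hq').trans ?_
      rw [eq' n q' hq', hd3, mul_comm (B.d n ^ _), ← mul_assoc, ← Real.rpow_add (B2.pos n)]
      refine mul_le_mul_of_nonneg_right (hanti n ?_) (Real.rpow_pos_of_pos (hD1 n) _).le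
      have h5 : y (φ2 (k3 n)) / 8 * btW θ (Fin.natAdd 4 q') ≤ y (φ2 (k3 n)) / 8 * 3 :=
        mul_le_mul_of_nonneg_left (hS.q3 q' hq') (by positivity)
      linarith

/-- **the window chain from an enriched record window** -/
theorem recLaw_of_iwg (hS : WallS θ s V j Vs) (u0 : ∀ n, GrU (u n)) (κ1 : ∀ n, |κ n| ≤ 1)
    (W1 : IWG θ g q B B1 I0 J κ u F X1 w1 (DrW s) Tn To lam0 lo0)
    (S0 : StD P ν own r0 θ g q V (DrW s) lam0 lo0) (hz : z.1 < 0) {k : ℕ → ℝ}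
    (kpos : ∀ l, 0 < k l) (k0 : Tendsto k atTop (𝓝 0))
    (tI : IsTan (cn QW (actW (DrW s))) (cn QW (actW (DrW s))) lam0
      (fun _ => Dg262.X 0 (TW s) (btW θ) z) k lamI)
    (HI : IntLaw θ s V (DrW s) lamI j Vs) (H : ℕ → ℕ → ℝ) (hH : ∀ i, B1.Sub (H i)) :
    ∃ (B' : Base) (J' : ℕ → Finset (ℕ × ℝ)) (X : ℕ → Fin 18 → ℝ) (w Tn' To' : ℕ → ℝ)
      (lam lo : (Fin 18 → ℝ) → ℝ) (gl : ℕ → ℕ × ℝ → (ℕ × ℝ) × (ℕ × ℝ)) (e : ℕ → ℕ × ℝ → ℝ),
      RecLaw θ g q V (DrW s) P ν own r0 B B' I0 J' κ u F X w Tn' To' lam lo j Vs gl e ∧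
      IWG θ g q B B' I0 J' κ u F X w (DrW s) Tn' To' lam lo ∧ ∀ i, B'.Sub (H i) := by
  classical
  -- own tangent at the interior point
  obtain ⟨φ0, hφ0, loI, hlo⟩ := exists_tanM (y := fun _ => yI s θ z) (k := k)
    cn_closed S0.prf.K0 S0.prf.olip kpos cn_zero
    fun l c hc => cn_nat_add ((natG_y hS.D3 θ z).nat) hc (kpos l).le
  have tI' : IsTan (cn QW (actW (DrW s))) (cn QW (actW (DrW s))) lam0 (fun _ => yI s θ z)
      (fun l => k (φ0 l)) lamI := tan_sub tI hφ0.tendsto_atTop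
  have kk0 : Tendsto (fun l => k (φ0 l)) atTop (𝓝 0) := k0.comp hφ0.tendsto_atTop
  set K0 : ℝ := ‖(z.1 + z.2) • btW θ‖ + ‖btW θ‖ + ‖yI s θ z‖ + 1 with hK0
  obtain ⟨f, hf, hfew⟩ := few_core W1.iw (stD_own S0) K0
  set H' : ℕ → ℕ → ℝ := fun i => Nat.casesOn i f H with hH'
  obtain ⟨B2, h, TI, ToI, TR, ToR, lamR, loR, a1, a2, a3, a4, a5, a6, a7, a8, a9⟩ :=
    twin_iwg hS.D3 W1 S0 (z.1 + z.2) (fun l => kpos _) kk0 tI' hlo H' (fun i => by
      rcases i with _ | i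
      · exact hf
      · exact hH i)
  exact recLaw_coreG hS u0 κ1 W1.iw hz a1 a2 HI a8 a3 a4 a7 le_rfl (a9 0) hfew H fun i => a9 (i + 1)

end core

end Crest.Agent.R136.RL478
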