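import Crest.Agent.R136.RL6_478

/-!
# R136 (helper478): walls of the W-chart, the first record window

* `near_path` : local legality and thickness near an interior record point.
* **`exists_iwg`** : an object + a stage at an interior record point ⊢ enriched record window.
-/

set_option autoImplicit false
set_option linter.unusedVariables false

open Finset Filter Topology

namespace Crest.Agent.R136.RL478

open Crest.Agent.R136.Net191
open Crest.Agent.R136.NetW191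
open Crest.Agent.R136.PrW464
open Crest.Agent.R136.NatW697
open Crest.Agent.R136.LadW697
open Crest.Agent.R136.LadG697
open Crest.Agent.R136.Zpr779
open Crest.Agent.R136.Qg926
open Crest.Agent.R136.EvW938
open Crest.Agent.R136.Bas938
open Crest.Agent.R136.AwJ774
open Crest.Agent.R136.K2S774
open Crest.Agent.R136.ThS830
open Crest.Agent.R136.GauW619
open Crest.Agent.R136.OwW831 (GdAt)
open Crest.Agent.R136.Gau66 (base_ext tendsto_min)
open Crest.Agent.R138.Ex926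

section near

variable {θ : Fin 3 → ℝ} {w0 R T0 : ℝ}

/-- local legality near a record point -/
theorem leg_near (big : BigW θ w0 R T0) {v1 : ℝ} (h0 : 0 < v1) (h1 : v1 < 1) :
    ∃ e0 : ℝ, 0 < e0 ∧ ∀ c ∈ cn QW (fun _ => True), ‖c‖ ≤ e0 →
      pathW θ w0 v1 + c ∈ Leg monW R := by
  obtain ⟨h, hp, hl⟩ := path_loc big h0.le h1.le 1
  have hh : 0 < h / 2 := by positivity
  refine ⟨h / 2, hh, fun c hc hcn => ?_⟩
  have h3 := hl (h / 2) hh (by linarith) ((h / 2)⁻¹ • c) (cn_smul hc (inv_pos.2 hh).le) (by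
    rw [norm_smul, Real.norm_of_nonneg (inv_pos.2 hh).le, inv_mul_le_iff₀ hh, mul_one]
    exact hcn)
  rwa [smul_smul, mul_inv_cancel₀ hh.ne', one_smul] at h3

/-- thickness near a record point -/
theorem near17 {v1 : ℝ} (h0 : 0 < v1) (h1 : v1 < 1) : ∃ e0 : ℝ, 0 < e0 ∧
    ∀ c : Fin 18 → ℝ, (θ 0 = 1 → c 17 ≤ 0) → ‖c‖ ≤ e0 →
      (pathW θ w0 v1 + c) 17 ≤ 9 * w0 + max 0 (1 - θ 0) := by
  have e : ∀ c : Fin 18 → ℝ, (pathW θ w0 v1 + c) 17 = 9 * w0 + (1 - θ 0) * v1 + c 17 := fun c => by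
    have : pathW θ w0 v1 17 = 9 * w0 + (1 - θ 0) * v1 := by rw [pathW_nat, natW_N]
    simp only [Pi.add_apply, this]
  have hc17 : ∀ c : Fin 18 → ℝ, c 17 ≤ ‖c‖ := fun c => by
    have := norm_le_pi_norm c 17
    rw [Real.norm_eq_abs] at this
    exact (le_abs_self _).trans this
  rcases lt_trichotomy (θ 0) 1 with h3 | h3 | h3
  · refine ⟨(1 - θ 0) * (1 - v1), mul_pos (by linarith) (by linarith), fun c _ hc => ?_⟩
    rw [e]
    have h5 : 1 - θ 0 ≤ max 0 (1 - θ 0) := le_max_right _ _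
    have := hc17 c
    nlinarith
  · refine ⟨1, one_pos, fun c hd hc => ?_⟩
    rw [e, h3]
    have h5 := hd h3
    have h6 : (0:ℝ) ≤ max 0 (1 - 1) := le_max_left _ _
    nlinarith
  · refine ⟨(θ 0 - 1) * v1, mul_pos (by linarith) h0, fun c _ hc => ?_⟩
    rw [e]
    have h5 : (0:ℝ) ≤ max 0 (1 - θ 0) := le_max_left _ _
    have := hc17 c
    nlinarith

end near

section first

variable {θ : Fin 3 → ℝ} {g : ℝ} {q : Fin 3 → ℝ} {V T : Set (Fin 18)} {w0 R T0 : ℝ}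
  {B B' B1 : Base} {I0 I : ℕ → Finset (ℕ × ℝ)} {κ : ℕ → ℝ} {u : ℕ → Fin 18 → ℝ}
  {F : ℕ → ℕ × ℝ → FW} {X : ℕ → Fin 18 → ℝ} {w : ℕ → ℝ} {Tn To : ℕ → ℝ}
  {PD : Set (Fin 18 → ℝ)} {ν own : (Fin 18 → ℝ) → ℝ} {c₀ : ℝ}

/-- D-max for all gauges, uniformly near the record point `v1` -/
def GdN (θ : Fin 3 → ℝ) (g : ℝ) (q : Fin 3 → ℝ) (w0 R v1 c₀ : ℝ) (B B' : Base)
    (I : ℕ → Finset (ℕ × ℝ)) (κ : ℕ → ℝ) (u : ℕ → Fin 18 → ℝ) (F : ℕ → ℕ × ℝ → FW)
    (X : ℕ → Fin 18 → ℝ) (Tn : ℕ → ℝ) : Prop :=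
  ∃ C : ℝ, 0 < C ∧ ∃ δ : ℝ, 0 < δ ∧ ∀ K ε : ℝ, 1 ≤ K → 0 < ε → ∀ᶠ n in (U : Filter ℕ),
    ∀ x ∈ Leg monW R, (∀ k, |x k - pathW θ w0 v1 k| ≤ δ) → x 17 ≤ 9 * w0 + max 0 (1 - θ 0) →
      GdAt B B' I κ u F X Tn C K n x (c₀ + DW g 0 q w0 x + ε)

/-- level statement of the first diagonal -/
def GdF (θ : Fin 3 → ℝ) (g : ℝ) (q : Fin 3 → ℝ) (w0 v1 c₀ C : ℝ) (B B' : Base)
    (I : ℕ → Finset (ℕ × ℝ)) (κ : ℕ → ℝ) (u : ℕ → Fin 18 → ℝ) (F : ℕ → ℕ × ℝ → FW)
    (X : ℕ → Fin 18 → ℝ) (Tn σ h : ℕ → ℝ) (l n : ℕ) : Prop :=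
  ∀ d ∈ QdW θ, ‖d‖ ≤ (√(h l))⁻¹ → GdAt B B' I κ u F X Tn C (l + 1) n
    (pathW θ w0 v1 + (σ l • btW θ + h l • d))
    (c₀ + DW g 0 q w0 (pathW θ w0 v1 + (σ l • btW θ + h l • d)) + h l / (l + 1))

theorem gdF_ev (big : BigW θ w0 R T0) {v1 : ℝ} (h0 : 0 < v1) (h1 : v1 < 1) {C δ : ℝ} (hδ : 0 < δ)
    (hG : ∀ K ε : ℝ, 1 ≤ K → 0 < ε → ∀ᶠ n in (U : Filter ℕ),
      ∀ x ∈ Leg monW R, (∀ k, |x k - pathW θ w0 v1 k| ≤ δ) → x 17 ≤ 9 * w0 + max 0 (1 - θ 0) →
        GdAt B B' I κ u F X Tn C K n x (c₀ + DW g 0 q w0 x + ε))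
    {σ h : ℕ → ℝ} (hσ : Tendsto σ atTop (𝓝 0)) (hpos : ∀ l, 0 < h l)
    (hh : Tendsto h atTop (𝓝 0)) :
    ∀ᶠ l in atTop, ∀ᶠ n in (U : Filter ℕ),
      GdF θ g q w0 v1 c₀ C B B' I κ u F X Tn σ h l n := by
  obtain ⟨e0, he0, hleg⟩ := leg_near big h0 h1
  obtain ⟨e1, he1, h17⟩ := near17 (θ := θ) (w0 := w0) h0 h1
  have hm : 0 < min δ (min e0 e1) := lt_min hδ (lt_min he0 he1)
  have hlim : Tendsto (fun l => |σ l| * ‖btW θ‖ + √(h l)) atTop (𝓝 0) := by
    have a1 : Tendsto (fun l => |σ l| * ‖btW θ‖) atTop (𝓝 (|0| * ‖btW θ‖)) :=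
      (hσ.abs).mul_const _
    have a2 : Tendsto (fun l => √(h l)) atTop (𝓝 (√0)) :=
      (Real.continuous_sqrt.tendsto 0).comp hh
    have := a1.add a2
    rwa [abs_zero, zero_mul, Real.sqrt_zero, add_zero] at this
  filter_upwards [hlim.eventually_lt_const hm] with l hl
  have hl0 : (0 : ℝ) ≤ l := Nat.cast_nonneg l
  have hs : 0 < √(h l) := Real.sqrt_pos.2 (hpos l)
  filter_upwards [hG (l + 1) (h l / (l + 1)) (by linarith) (div_pos (hpos l) (by positivity))]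
    with n hn d hd hdn
  have hcm : σ l • btW θ + h l • d ∈ QdW θ := rec_add_mem hd _ (hpos l).le
  have hcn : ‖σ l • btW θ + h l • d‖ ≤ min δ (min e0 e1) := by
    refine ((norm_add_le _ _).trans ?_).trans hl.le
    rw [norm_smul, norm_smul, Real.norm_eq_abs, Real.norm_of_nonneg (hpos l).le]
    have h3 : h l * ‖d‖ ≤ √(h l) := by
      refine (mul_le_mul_of_nonneg_left hdn (hpos l).le).trans (le_of_eq ?_)
      rw [← div_eq_mul_inv, div_eq_iff hs.ne', Real.mul_self_sqrt (hpos l).le]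
    linarith
  refine hn _ (hleg _ hcm.1 (hcn.trans ((min_le_right _ _).trans (min_le_left _ _))))
    (fun k => ?_) (h17 _ hcm.2 (hcn.trans ((min_le_right _ _).trans (min_le_right _ _))))
  have e : (pathW θ w0 v1 + (σ l • btW θ + h l • d)) k - pathW θ w0 v1 k =
      (σ l • btW θ + h l • d) k := by simp only [Pi.add_apply]; ring
  rw [e]
  have := norm_le_pi_norm (σ l • btW θ + h l • d) k
  rw [Real.norm_eq_abs] at this
  exact this.trans (hcn.trans (min_le_left _ _))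

theorem natG_path {Dr : Set (Fin 18)} (hD : Dr3 Dr) (v : ℝ) : NatG Dr (pathW θ w0 v) :=
  natG_of hD fun k _ => rfl

/-- the natural completion of a base point of the stage -/
theorem grW_pt {v1 σ : ℝ} {x : Fin 18 → ℝ} {Dr : Set (Fin 18)} (hD : Dr3 Dr)
    (hx : ∀ i, i ∉ Dr → x i = pathW θ w0 v1 i + σ * btW θ i) (k : Fin 18) :
    grW (x 0) (x 1) (x 17) k = (pathW θ w0 v1 + σ • btW θ) k := by
  have hE : Dr3 (∅ : Set (Fin 18)) := ⟨by simp, by simp, by simp⟩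
  have h1 : NatG ∅ (pathW θ w0 v1 + σ • btW θ) :=
    (natG_path hE v1).add ((natG_btW hE θ).smul σ)
  have h2 := h1 k (by simp)
  rw [h2, hx 0 hD.h0, hx 1 hD.h1, hx 17 hD.h17]
  simp only [Pi.add_apply, Pi.smul_apply, smul_eq_mul]

theorem natX_of_nat (hX : AwZ146.BasX monW monW monW X w) (n : ℕ) : NatG ∅ (X n) := by
  refine natG_of_tight fun k l hl => ?_
  have := hX.act k _ (mem_monW.2 ⟨l, hl, rfl⟩) n
  rw [← sum_count] at this
  exact this

/-- **the first record window** -/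
theorem exists_iwg (H : ZW θ g q V T w0 R T0 B B' I0 I κ u F X w Tn To PD ν own c₀)
    {v1 : ℝ} (h0 : 0 < v1) (h1 : v1 < 1)
    (hgd : GdN θ g q w0 R v1 c₀ B B' I κ u F X Tn)
    (hcard : ∃ Hc : ℕ → ℝ, B'.Sub Hc ∧
      ∀ᶠ n in (U : Filter ℕ), (Nat.log 2 (I n).card : ℝ) + 1 ≤ Hc n)
    {Dr Z V' : Set (Fin 18)} (hD : Dr3 Dr) {lam lo : (Fin 18 → ℝ) → ℝ}
    (S : Stage QW (Leg monW R) ν own 18 (pathW θ w0 v1) (btW θ) (DlW g q) (QdW θ) Z V' 0 (btW θ) 1
      (actW Dr) Dr lam lo) (Hf : ℕ → ℕ → ℝ) (hH : ∀ i, B'.Sub (Hf i)) :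
    ∃ (B1 : Base) (X1 : ℕ → Fin 18 → ℝ) (w1 T1 To1 : ℕ → ℝ),
      IWG θ g q B B1 I0 I κ u F X1 w1 Dr T1 To1 lam lo ∧ ∀ i, B1.Sub (Hf i) := by
  classical
  obtain ⟨x, h, hJ, -, σ, hx, hrec⟩ := S.jt
  obtain ⟨C, hC, δ, hδ, hG⟩ := hgd
  obtain ⟨Hc, hHc, hcd⟩ := hcard
  -- bounded base points
  obtain ⟨b, hb⟩ := hJ.base.norm.bddAbove_range
  have hxb : ∀ l, ‖x l‖ ≤ b := fun l => hb ⟨l, rfl⟩
  have hx0 : Tendsto (fun l => x l 0) atTop (𝓝 (pathW θ w0 v1 0)) :=
    (continuous_apply 0).continuousAt.tendsto.comp hJ.base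
  have hσ : Tendsto σ atTop (𝓝 0) := by
    have e1 : σ = fun l => x l 0 - pathW θ w0 v1 0 := by
      funext l
      have := hx l 0 hD.h0
      rw [btW_0] at this
      rw [this]; ring
    have := hx0.sub_const (pathW θ w0 v1 0)
    rw [sub_self] at this
    rw [e1]; exact this
  set H' : ℕ → ℕ → ℝ := fun i => Nat.casesOn i Hc fun i => Nat.casesOn i (fun n => |κ n|⁻¹) Hf
    with hH'
  have hs : ∀ i, B'.Sub (H' i) := fun i => by
    rcases i with _ | i
    · exact hHc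
    · rcases i with _ | i
      · exact H.κ0
      · exact hH i
  obtain ⟨k1, hk1, H1⟩ := H.ext.win.exists_zoom hxb hJ.pos hJ.zero cn_zero hJ.tan
    H.ext.oprof.pos H.ext.oprof.toZ cn_zero hJ.tano H' hs
  obtain ⟨k2, hk2, H2⟩ := exists_diag (fun l n =>
    (∀ᶠ m in (U : Filter ℕ), GdF θ g q w0 v1 c₀ C B B' I κ u F X Tn σ h l m) →
      GdF θ g q w0 v1 c₀ C B B' I κ u F X Tn σ h l n) (fun l => by
    by_cases hl : ∀ᶠ m in (U : Filter ℕ), GdF θ g q w0 v1 c₀ C B B' I κ u F X Tn σ h l m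
    · exact hl.mono fun n hn _ => hn
    · exact Eventually.of_forall fun n h => absurd h hl)
  set kk : ℕ → ℕ := fun n => min (k1 n) (k2 n) with hkk
  have hkt : Tendsto kk U atTop := tendsto_min hk1 hk2
  obtain ⟨B1, b1, b2, b3, b4, b5⟩ := H1 kk hkt (Eventually.of_forall fun n => min_le_left _ _)
  have hGF : ∀ᶠ n in (U : Filter ℕ), GdF θ g q w0 v1 c₀ C B B' I κ u F X Tn σ h (kk n) n := by
    filter_upwards [H2, hkt.eventually (gdF_ev H.big h0 h1 hδ hG hσ hJ.pos hJ.zero)] with n a1 a2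
    exact a1 _ (min_le_right _ _) a2
  have hw := H.ext.win.w0
  have hXn : ∀ n k, natX X n k = X n k := fun n k =>
    (natX_of_nat H.bas n k (by simp)).symm
  have hnx : ∀ n k, natX (fun n => X n + w n • x (kk n)) n k =
      X n k + w n * (pathW θ w0 v1 + σ (kk n) • btW θ) k := fun n k => by
    rw [natX_shift (fun n => x (kk n)), hXn, grW_pt hD (hx (kk n))]
  have hrec0 : c₀ + DW g 0 q w0 (pathW θ w0 v1) ≤ ν (pathW θ w0 v1) :=
    (H.ext.record v1 h0.le h1.le).2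
  refine ⟨B1, fun n => X n + w n • x (kk n), fun n => w n * h (kk n),
    fun n => Tn n * B'.d n ^ (-(ν (x (kk n)))), fun n => To n * B'.d n ^ (-(own (x (kk n)))),
    ⟨?_, ⟨C, hC, ?_⟩, ?_, Hc, b3 0, hcd⟩, fun i => b3 (i + 2)⟩
  · -- the window
    refine ⟨basX_jt H.bas hw hJ hkt, fun n k hk => ?_, b4,
      zprof_zolb (y := fun n => x (kk n)) (v := fun n => h (kk n)) b5,
      fun n => mul_pos (H.ext.oprof.pos n) (Real.rpow_pos_of_pos (B'.pos n) _), b3 1⟩
    rw [hnx]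
    simp only [Pi.add_apply, Pi.smul_apply, smul_eq_mul]
    rw [hx (kk n) k hk]
  · -- D-max
    intro R' K ε hK hε
    obtain ⟨N, hN⟩ := exists_nat_ge (max K (2 / ε))
    have hR : Tendsto (fun n => √(h (kk n))) U (𝓝 0) := by
      have a2 : Tendsto (fun l => √(h l)) atTop (𝓝 (√0)) :=
        (Real.continuous_sqrt.tendsto 0).comp hJ.zero
      rw [Real.sqrt_zero] at a2
      exact a2.comp hkt
    have hR' : ∀ᶠ n in (U : Filter ℕ), √(h (kk n)) * |R'| < 1 := by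
      have := hR.mul_const |R'|
      rw [zero_mul] at this
      exact this.eventually_lt_const one_pos
    have hr2 : ∀ᶠ n in (U : Filter ℕ), |(ν (x (kk n)) - ν (pathW θ w0 v1) -
        σ (kk n) * DlW g q (btW θ)) / h (kk n)| < ε / 2 := by
      have := (hrec.comp hkt).abs
      rw [abs_zero] at this
      exact this.eventually_lt_const (by positivity)
    filter_upwards [hGF, hkt.eventually_ge_atTop N, hR', hr2] with n a1 a2 a3 a4 d hd hdR
      e he i hi G hG' hbox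
    set l := kk n with hl
    have hlN : (N : ℝ) ≤ (l : ℝ) := by exact_mod_cast a2
    have hlK : K ≤ l := (le_max_left _ _).trans (hN.trans hlN)
    have hlε : 2 / ε ≤ l := (le_max_right _ _).trans (hN.trans hlN)
    have hl0 : (0 : ℝ) ≤ l := Nat.cast_nonneg _
    have hBp := B.pos n
    have hBp' := B'.pos n
    have hh := hJ.pos l
    have hs0 : 0 < √(h l) := Real.sqrt_pos.2 hh
    have hdn : ‖d‖ ≤ (√(h l))⁻¹ := by
      rw [← one_div, le_div_iff₀ hs0, mul_comm]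
      have := mul_le_mul_of_nonneg_left (hdR.trans (le_abs_self R')) hs0.le
      linarith
    have key := a1 d hd hdn e he i hi G hG' fun j hj k' => by
      refine (hbox j hj k').trans ?_
      have e3 : B.d n ^ natX (fun n => X n + w n • x (kk n)) n k' * B1.d n ^ d k' =
          B.d n ^ X n k' * B'.d n ^ (pathW θ w0 v1 + (σ l • btW θ + h l • d)) k' := by
        rw [hnx, Real.rpow_add hBp, mul_assoc, b1, Real.rpow_mul hBp.le, ← H.ext.win.base,
          ← Real.rpow_mul hBp'.le, ← Real.rpow_add hBp']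
        congr 2
        simp only [Pi.add_apply, Pi.smul_apply, smul_eq_mul, hl]
        ring
      rw [e3]
      exact mul_le_mul_of_nonneg_right (by linarith)
        (mul_pos (Real.rpow_pos_of_pos hBp _) (Real.rpow_pos_of_pos hBp' _)).le
    refine key.trans ?_
    rw [mul_assoc, b1, ← Real.rpow_mul hBp'.le, ← Real.rpow_add hBp']
    refine mul_le_mul_of_nonneg_left ?_ (H.ext.win.T0 n).le
    refine Real.rpow_le_rpow_of_exponent_ge hBp' (B'.lt n).le ?_
    rw [DW_add, map_add, map_smul, map_smul, smul_eq_mul, smul_eq_mul]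
    have h3 : h l / ((l : ℝ) + 1) ≤ h l * (ε / 2) := by
      rw [div_le_iff₀ (by positivity), mul_assoc]
      refine le_mul_of_one_le_right hh.le ?_
      rw [div_le_iff₀ hε] at hlε
      nlinarith
    rw [abs_div, abs_of_pos hh, div_lt_iff₀ hh] at a4
    have h4 := (abs_lt.1 a4).1
    have h5 : h l * (DlW g q d + ε) = h l * DlW g q d + h l * (ε / 2) + ε / 2 * h l := by ring
    linarith
  · -- positivity
    intro R'
    have hX0 : ∀ᶠ n in (U : Filter ℕ), ∀ k, 0 ≤ X n k := by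
      filter_upwards [H.ext.win.legal 0] with n hn k
      have := (hn 0 H.ext.win.zero (by simp)).nonneg k
      simpa using this
    have c1 : ∀ᶠ n in (U : Filter ℕ), h (kk n) * |R'| < 1 / 2 := by
      have := (hJ.zero.comp hkt).mul_const |R'|
      rw [zero_mul] at this
      exact this.eventually_lt_const (by norm_num)
    have c2 : ∀ᶠ n in (U : Filter ℕ), |σ (kk n)| * ‖btW θ‖ < 1 / 2 := by
      have := ((hσ.comp hkt).abs).mul_const ‖btW θ‖
      rw [abs_zero, zero_mul] at this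
      exact this.eventually_lt_const (by norm_num)
    filter_upwards [hX0, c1, c2] with n a1 a2 a3 k
    rw [hnx]
    simp only [Pi.add_apply, Pi.smul_apply, smul_eq_mul]
    have d1 := H.big.path_ge h0.le h1.le k
    have d2 : |σ (kk n) * btW θ k| ≤ 1 / 2 := by
      rw [abs_mul]
      have b1 := norm_le_pi_norm (btW θ) k
      rw [Real.norm_eq_abs] at b1
      exact (mul_le_mul_of_nonneg_left b1 (abs_nonneg _)).trans a3.le
    have d3 : 1 / 2 ≤ pathW θ w0 v1 k + σ (kk n) * btW θ k := by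
      have := (abs_le.1 d2).1
      linarith
    have d4 : R' * (w n * h (kk n)) ≤ w n * (1 / 2) := by
      have e1 : R' * (w n * h (kk n)) = w n * (R' * h (kk n)) := by ring
      rw [e1]
      refine mul_le_mul_of_nonneg_left ?_ (hw n).le
      have := mul_le_mul_of_nonneg_left (le_abs_self R') (hJ.pos (kk n)).le
      linarith
    have d5 := mul_le_mul_of_nonneg_left d3 (hw n).le
    have := a1 k
    linarith

end first

end Crest.Agent.R136.RL478
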