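import Crest.Agent.R136.RL7_478
import Crest.Agent.R136.RL4_626

/-!
# R136 (helper478): walls of the W-chart, the producer

* `exists_recLaw` : object + stage + interior tangent with the law ⊢ `RecLaw` with D-max for all gauges.
* `seamWallG_of` : context + pins of the rungs `4, 3` + interior points with the law at the six walls
  ⊢ `SeamWallG`.
-/

set_option autoImplicit false
set_option linter.unusedVariables false

open Finset Filter Topology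

namespace Crest.Agent.R136.RL478

open Crest.Agent.R136.Net191
open Crest.Agent.R136.NetW191
open Crest.Agent.R136.PrW464
open Crest.Agent.R136.NatW697
open Crest.Agent.R136.LadW697
open Crest.Agent.R136.Top484
open Crest.Agent.R136.NatT550
open Crest.Agent.R136.ThS830
open Crest.Agent.R136.LadT830
open Crest.Agent.R136.LadG697
open Crest.Agent.R136.Zpr779
open Crest.Agent.R136.Qg926
open Crest.Agent.R136.EvW938
open Crest.Agent.R136.Bas938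
open Crest.Agent.R136.AwJ774
open Crest.Agent.R136.K2S774
open Crest.Agent.R136.RL626
open Crest.Agent.R138.Ex926

section chain

variable {θ : Fin 3 → ℝ} {g : ℝ} {q : Fin 3 → ℝ} {V T : Set (Fin 18)} {w0 R T0 : ℝ}
  {B B' : Base} {I0 I : ℕ → Finset (ℕ × ℝ)} {κ : ℕ → ℝ} {u : ℕ → Fin 18 → ℝ}
  {F : ℕ → ℕ × ℝ → FW} {X : ℕ → Fin 18 → ℝ} {w : ℕ → ℝ} {Tn To : ℕ → ℝ}
  {PD : Set (Fin 18 → ℝ)} {ν own : (Fin 18 → ℝ) → ℝ} {c₀ : ℝ}

/-- **from an object with a stage and an interior law to `RecLaw`** -/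
theorem exists_recLaw (H : ZW θ g q V T w0 R T0 B B' I0 I κ u F X w Tn To PD ν own c₀)
    {v1 : ℝ} (h0 : 0 < v1) (h1 : v1 < 1) {s : ℝ} {j : Fin 14} {Vs : Finset (Fin 14)}
    (hS : WallS θ s V j Vs) {lam0 lo0 : (Fin 18 → ℝ) → ℝ}
    (S0 : StW (Leg monW R) ν own 18 (pathW θ w0 v1) θ g q V s lam0 lo0)
    {z : ℝ × ℝ} (hz : z.1 < 0) {k : ℕ → ℝ} (kpos : ∀ l, 0 < k l) (k0 : Tendsto k atTop (𝓝 0))
    {lamI : (Fin 18 → ℝ) → ℝ}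
    (tI : IsTan (cn QW (actW (DrW s))) (cn QW (actW (DrW s))) lam0
      (fun _ => Dg262.X 0 (TW s) (btW θ) z) k lamI)
    (HI : IntLaw θ s V (DrW s) lamI j Vs) :
    ∃ (B1 : Base) (J' : ℕ → Finset (ℕ × ℝ)) (X' : ℕ → Fin 18 → ℝ) (w' Tn' To' : ℕ → ℝ)
      (lam lo : (Fin 18 → ℝ) → ℝ) (gl : ℕ → ℕ × ℝ → (ℕ × ℝ) × (ℕ × ℝ)) (e : ℕ → ℕ × ℝ → ℝ),
      RecLaw θ g q V (DrW s) (Leg monW R) ν own (pathW θ w0 v1) B B1 I0 J' κ u F X' w' Tn' To'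
        lam lo j Vs gl e ∧
      IWG θ g q B B1 I0 J' κ u F X' w' (DrW s) Tn' To' lam lo := by
  obtain ⟨C, hC, hgd⟩ := OwW831.ZW.gd_unif H
  obtain ⟨δ, hδ, hG⟩ := hgd v1 h0 h1
  obtain ⟨B1, X1, w1, T1, To1, W1, -⟩ := exists_iwg H h0 h1 ⟨C, hC, δ, hδ, hG⟩ H.card hS.D3
    (StD.of_StW S0) (fun _ n => |κ n|⁻¹) (fun _ => H.κ0)
  obtain ⟨B2, J', X', w', Tn', To', lam, lo, gl, e, R1, R2, -⟩ := recLaw_of_iwg hS H.u0 H.κ1 W1
    (StD.of_StW S0) hz kpos k0 tI HI (fun _ n => |κ n|⁻¹) (fun _ => W1.iw.kap)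
  exact ⟨B2, J', X', w', Tn', To', lam, lo, gl, e, R1, R2⟩

end chain

/-- **interior point with the law of a wall** (66: `s = 2`; 648, 599: `s = 3, 4`) -/
def ExI (θ : Fin 3 → ℝ) (g : ℝ) (q : Fin 3 → ℝ) (V T : Set (Fin 18)) (s : ℝ) (j : Fin 14)
    (Vs : Finset (Fin 14)) : Prop :=
  ∀ (P : Set (Fin 18 → ℝ)) (ν own : (Fin 18 → ℝ) → ℝ) (r0 : Fin 18 → ℝ)
    (lam lo : (Fin 18 → ℝ) → ℝ), CtxW P ν own 18 r0 θ g q V T →
    StW P ν own 18 r0 θ g q V s lam lo →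
    ∃ z : ℝ × ℝ, z.1 < 0 ∧ ∃ k : ℕ → ℝ, (∀ l, 0 < k l) ∧ Tendsto k atTop (𝓝 0) ∧
      ∃ lamI : (Fin 18 → ℝ) → ℝ,
        IsTan (cn QW (actW (DrW s))) (cn QW (actW (DrW s))) lam
          (fun _ => Dg262.X 0 (TW s) (btW θ) z) k lamI ∧ IntLaw θ s V (DrW s) lamI j Vs

/-- the six walls -/
def Six (s : ℝ) (j : Fin 14) (Vs : Finset (Fin 14)) : Prop :=
  (s = 2 ∧ j = 7 ∧ Vs = {10}) ∨ (s = 2 ∧ j = 8 ∧ Vs = {11}) ∨
    (s = 3 ∧ j = 4 ∧ Vs = {6, 7, 10}) ∨ (s = 3 ∧ j = 2 ∧ Vs = {5}) ∨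
    (s = 3 ∧ j = 1 ∧ Vs = {3}) ∨ (s = 4 ∧ j = 0 ∧ Vs = {1, 3})

/-- **the producer of the resonant walls** -/
theorem seamWallG_of (hC : SeamCtx) (p4 : PinC 4 fun θ V => ∀ k ∈ V, KW θ k < 4)
    (p3 : PinC 3 fun θ V => ∀ k ∈ V, KW θ k < 3)
    (hI : ∀ (θ : Fin 3 → ℝ) (g : ℝ) (q : Fin 3 → ℝ) (V T : Set (Fin 18)) (s : ℝ) (j : Fin 14)
      (Vs : Finset (Fin 14)), SlotOkW θ (fun k => k ∈ V) (fun k => k ∈ T) →
      (∀ k ∈ V, (4 ≤ k ∧ k ≠ 13 ∧ k ≠ 16 ∧ k ≠ 17) ∧ 0 < btW θ k) →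
      Top θ (fun k => k ∈ V) s → WallJ θ s j Vs → Six s j Vs → ExI θ g q V T s j Vs) :
    SeamWallG := by
  intro θ g q V T s hcap hOb hSl hTop h2 hres
  obtain ⟨w0, R, T0, B, B', I0, I, κ, u, F, X, w, Tn, To, PD, ν, own, c₀, H, -⟩ := hOb
  obtain ⟨dr4, hs4, j, Vs, W, hS, h6⟩ := wall_data H.th1 H.vis hTop h2 hres
  have hst := H.init (v1 := 1 / 2) (by norm_num) (by norm_num)
  have C := hC _ _ _ _ _ _ _ _ _ _ _ _ _ _ _ _ _ _ _ _ _ _ _ H hSl (1 / 2)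
    (by norm_num) (by norm_num)
  have hlt : ∀ {t : ℝ}, s < t → ∀ k ∈ V, KW θ k < t :=
    fun ht k hk => (hTop.2 k hk).trans_lt ht
  obtain ⟨lam0, lo0, S0⟩ := StW.down (s := s) (by linarith) (V := V) (fun k hk => by
      obtain ⟨h4, -, h5⟩ := vis_al' hSl hk
      exact ⟨h4, h5.trans_le (hTop.2 k hk)⟩) hst (by
    intro i hi1 hi4 hsi
    rcases j4 hi1 hi4 with rfl | rfl | rfl | rfl
    · exact p4 _ _ _ _ _ _ _ _ _ _ C (hlt (by exact_mod_cast hsi))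
    · exact p3 _ _ _ _ _ _ _ _ _ _ C (hlt (by exact_mod_cast hsi))
    · have : s < 2 := by exact_mod_cast hsi
      linarith
    · rw [Nat.cast_one] at hsi; linarith)
  obtain ⟨z, hz, k, kpos, k0, lamI, tI, HI⟩ := hI θ g q V T s j Vs hSl H.vis hTop W h6 _ _ _ _ _ _
    C S0
  obtain ⟨B1, J', X', w', Tn', To', lam, lo, gl, e, HR, HG⟩ := exists_recLaw H
    (v1 := 1 / 2) (by norm_num) (by norm_num) hS S0 hz kpos k0 tI HI
  obtain ⟨C', hC', hgd⟩ := HG.gdu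
  exact RL66.hasGau_of_recLaw H.th1 H.q1 H.q2 H.q0 H.qg H.qθ H.vis dr4 hcap
    (fun k hk => hk.1) HR ⟨C', hC', hgd.gd⟩ HG.natpos HG.card W.jne (alg_wallS W H.vis dr4 HR)

end Crest.Agent.R136.RL478
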