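import Crest.Agent.R136.Bas4_938
import Crest.Agent.R136.Rt3_478

/-!
# R136: walls `(2,1)`, `(2,2)` of the W-chart, the numbers at an interior point (helper478)

* `n0T q` : offset of the windows (the flag slots below `w_B` resp. `w_A`);
* `ThinF Ma lam q V a` : numbers of an interior tangent `lam` for EVERY `x > 0`;
* `wdT` : the static data are legal; `thinW_of_F` : `ThinF` gives the numbers of `ThinW`;
* `thinF_of` : one point of the rung `2` which is not dead (`-A.1 ≤ 5 - δ`) gives `ThinF`.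
-/

set_option autoImplicit false
set_option linter.unusedVariables false
set_option linter.unusedSectionVars false

open Filter Topology

namespace Crest.Agent.R136.Rt478

open Finset Crest.Agent.R136.NetW191 Crest.Agent.R136.Net191 Crest.Agent.R136.Qg926
open Crest.Agent.R136.EvW938 Crest.Agent.R136.Bas938
open Crest.Agent.R136.Gf356 Crest.Agent.R136.Aw413 Crest.Agent.R136.Dg219
open Crest.Agent.R138.Ex926 (Base U)

/-- offset of the windows -/
def n0T (q : Fin 14) : Fin 18 → ℕ := fun k =>
  if 4 ≤ k.val ∧ k.val ≤ 11 then 1 else if q = 11 ∧ (k.val = 12 ∨ k.val = 14) then 1 else 0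

/-- tops -/
def ntT : Fin 18 → ℕ := fun _ => 1

/-- level slots -/
def ST (q : Fin 14) : Finset (Fin 18) := {0, Fin.natAdd 4 q}

/-- `V : i`, `P : p`, `N : m`, all others `1` -/
def nLT (V : Fin 4) (i p m : ℕ) : Fin 18 → ℕ := fun k =>
  if k = Fin.castAdd 14 V then i else if k = 16 then p else if k = 17 then m else 1

theorem wdT {q : Fin 14} (hq : q = 10 ∨ q = 11) : WDat (n0T q) ntT 1 (ST q) := by
  rcases hq with rfl | rfl <;> decide

theorem okL {q : Fin 14} {V : Fin 4} (hq : (q = 10 ∧ V = 3) ∨ (q = 11 ∧ V = 2)) :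
    OkV (n0T q) 1 (nLT V 0 0 0) ∧ OkV (n0T q) 1 (nLT V 0 0 1) ∧ OkV (n0T q) 1 (nLT V 1 0 1) ∧
      OkV (n0T q) 1 (nLT V 1 1 1) := by
  rcases hq with ⟨rfl, rfl⟩ | ⟨rfl, rfl⟩ <;> decide

/-- `V : i`, `P : p`, `N : m`, all others `x` -/
def vL (V : Fin 4) (x i p m : ℝ) : Fin 18 → ℝ := fun k =>
  if k = Fin.castAdd 14 V then i else if k = 16 then p else if k = 17 then m else x

theorem cut_lt {q : Fin 14} {V : Fin 4} (hq : (q = 10 ∧ V = 3) ∨ (q = 11 ∧ V = 2))
    (x m t : ℝ) : cut (ST q) (lt q V x m t) (scV x ntT) = vL V x t t m := by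
  funext k
  rcases hq with ⟨rfl, rfl⟩ | ⟨rfl, rfl⟩ <;> fin_cases k <;>
    simp [cut, ST, lt, scV, ntT, vL, Fin.natAdd, Fin.castAdd, Fin.castLE, Fin.ext_iff]

theorem vL_sc (V : Fin 4) {x t : ℝ} (i p m i' p' m' : ℕ) :
    scV (x - t) (nLT V i p m) + scV t (nLT V i' p' m') =
      vL V x ((x - t) * i + t * i') ((x - t) * p + t * p') ((x - t) * m + t * m') := by
  funext k
  simp only [Pi.add_apply, scV, nLT, vL]
  split_ifs <;> push_cast <;> ring

section leg

variable {Ma : Mons 18} {Dr : Set (Fin 18)} {q : Fin 14} {V : Fin 4} {x t : ℝ}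

theorem vL_leg0 (hA : ActM Ma Dr) (hq : (q = 10 ∧ V = 3) ∨ (q = 11 ∧ V = 2)) (hx : 0 ≤ x) :
    vL V x 0 0 0 ∈ Leg (offM Ma (scV x (n0T q)) (x * (1 : ℕ))) (x * (1 : ℕ)) := by
  have := leg_scV hA (okL hq).1 (okL hq).1 (y := x) (α := x - 0) (β := 0) (by linarith) le_rfl
    (by ring)
  rw [vL_sc] at this
  simpa using this

theorem vL_leg1 (hA : ActM Ma Dr) (hq : (q = 10 ∧ V = 3) ∨ (q = 11 ∧ V = 2)) (ht : 0 ≤ t)
    (htx : t ≤ x) :
    vL V x t 0 x ∈ Leg (offM Ma (scV x (n0T q)) (x * (1 : ℕ))) (x * (1 : ℕ)) := by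
  have := leg_scV hA (okL hq).2.1 (okL hq).2.2.1 (y := x) (α := x - t) (β := t) (by linarith) ht
    (by ring)
  rw [vL_sc] at this
  simpa using this

theorem vL_leg2 (hA : ActM Ma Dr) (hq : (q = 10 ∧ V = 3) ∨ (q = 11 ∧ V = 2)) (ht : 0 ≤ t)
    (htx : t ≤ x) :
    vL V x t t x ∈ Leg (offM Ma (scV x (n0T q)) (x * (1 : ℕ))) (x * (1 : ℕ)) := by
  have := leg_scV hA (okL hq).2.1 (okL hq).2.2.2 (y := x) (α := x - t) (β := t) (by linarith) ht
    (by ring)
  rw [vL_sc] at this
  simpa using this

end leg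

/-- **numbers of an interior tangent** of the rung `2` (walls `(2,2)`: `q = 10`, `V = 3`,
`(2,1)`: `q = 11`, `V = 2`); `a < 1` = rate of `N` -/
structure ThinF (Ma : Mons 18) (lam : (Fin 18 → ℝ) → ℝ) (q : Fin 14) (V : Fin 4) (a : ℝ) :
    Prop where
  a0 : 0 ≤ a
  a1 : a < 1
  /-- levels and lines are independent -/
  dens : ∀ x, 0 < x → lam (scV x (n0T q) + scV x ntT) - lam (scV x (n0T q)) ≤
    (lam (scV x (n0T q) + cut (ST q) (scV x ntT) 0) - lam (scV x (n0T q))) +
      (lam (scV x (n0T q) + cut (ST q) 0 (scV x ntT)) - lam (scV x (n0T q)))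
  frost : ∀ x y, 0 < x → 0 ≤ y → y ≤ x →
    lam (scV x (n0T q) + Pi.single 0 y) - lam (scV x (n0T q)) ≤ -y
  /-- the position `V` and `P` full, given the rest -/
  full : ∀ x t, 0 < x → 0 ≤ t → t ≤ x →
    t ≤ lam (scV x (n0T q) + vL V x 0 0 x) - lam (scV x (n0T q) + vL V x t t x)
  /-- `N` loses less than its size -/
  loss : ∀ x, 0 < x →
    lam (scV x (n0T q) + vL V x 0 0 0) - lam (scV x (n0T q) + vL V x 0 0 x) ≤ a * x

section

variable {ι : ℕ → Type*} [∀ n, DecidableEq (ι n)] {Ma : Mons 18} {Dr : Set (Fin 18)}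
  {lam : (Fin 18 → ℝ) → ℝ} {q : Fin 14} {V : Fin 4} {a x : ℝ}

/-- **`ThinF` gives the numbers of a window** with offset `scV x (n0T q)` and tops `x` -/
theorem thinW_of_F {W : Wnd 18 ι} (hA : ActM Ma Dr) (H : ThinF Ma lam q V a)
    (hq : (q = 10 ∧ V = 3) ∨ (q = 11 ∧ V = 2)) (hx : 0 < x) {s : ℝ} (hs : s ≤ 1)
    (eS : W.S = ST q) (etop : W.top = scV x ntT)
    (elam : W.lam = fun p => lam (scV x (n0T q) + p) - lam (scV x (n0T q)))
    (eMw : W.Mw = offM Ma (scV x (n0T q)) (x * (1 : ℕ))) (eR : W.R' = x * (1 : ℕ))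
    (hsl : ∀ᶠ n in (U : Filter ℕ), ∀ l ∈ mlW (Fin.natAdd 4 q),
      W.X n (Fin.natAdd 4 q) + x * W.w n ≤ (l.map (W.X n)).sum)
    (tP : ∀ᶠ n in (U : Filter ℕ), W.X n 17 = W.X n 0 + W.X n 16)
    (tV : ∀ᶠ n in (U : Filter ℕ),
      W.X n 17 = W.X n (Fin.castAdd 14 V) + W.X n (Fin.natAdd 4 q)) :
    ThinW W q V x 1 s a where
  x_pos := hx
  hqV := hq
  hS := eS
  top := fun j => by rw [etop]; simp [scV, ntT]
  slack := hsl
  tightP := tP
  tightV := tV
  leg0 := by
    refine ⟨?_, fun s hs => ?_⟩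
    · rw [eS, etop, eMw, eR, cut_lt hq]
      exact vL_leg0 hA hq hx.le
    · rw [etop]
      unfold lt scV ntT
      split_ifs <;> simp [hx.le]
  leg := fun t ht htx => by
    refine ⟨?_, fun s hs => ?_⟩
    · rw [eS, etop, eMw, eR, cut_lt hq]
      exact vL_leg2 hA hq ht htx
    · rw [etop]
      unfold lt scV ntT
      split_ifs <;> simp [hx.le, htx]
  dens := by
    rw [elam, eS, etop]
    exact H.dens x hx
  frost := fun y hy hyx => by
    rw [elam, one_mul]
    exact H.frost x y hx hy hyx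
  full := fun t ht htx => by
    unfold Wnd.nu
    rw [elam, eS, etop, cut_lt hq, cut_lt hq]
    have h1 := H.full x t hx ht htx
    have h2 : s * t ≤ t := by nlinarith
    simp only
    linarith
  loss := by
    unfold Wnd.nu
    rw [elam, eS, etop, cut_lt hq, cut_lt hq]
    have h1 := H.loss x hx
    simp only
    linarith

end

/-! ### the numbers -/

/-- lowering the slot `N` is legal -/
theorem upd17_le {Ma : Mons 18} {Dr : Set (Fin 18)} (hM : ActM Ma Dr) {c : Fin 18 → ℝ}
    (hc : c ∈ coneM Ma) {y : ℝ} (hy : y ≤ c 17) : Function.update c 17 y ∈ coneM Ma := by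
  rw [hM.cone] at hc ⊢
  intro k hk l hl hs
  have e : l.map (Function.update c 17 y) = l.map c := by
    refine List.map_congr_left fun s hs' => ?_
    rw [Function.update_of_ne]
    rintro rfl
    exact no17 k l hl hs'
  rw [e]
  by_cases h : k = 17
  · subst h
    rw [Function.update_self]
    exact hy.trans (hc 17 hk l hl hs)
  · rw [Function.update_of_ne h]
    exact hc k hk l hl hs

section num

variable {B Bo : Base} {I J : ∀ n : ℕ, Finset (ℕ × ℝ)}
  {co : ∀ n : ℕ, ℕ × ℝ → ℕ × ℝ → Fin 18 → ℝ} {kp : ℕ → ℝ} {u : ℕ → Fin 18 → ℝ}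
  {F : ∀ n : ℕ, ℕ × ℝ → FW} {Ma : Mons 18} {Dr : Set (Fin 18)} {C : ℝ}
  {lam : (Fin 18 → ℝ) → ℝ} {a b : Fin 18 → ℝ} {A : ℝ × ℝ} {φ : ℕ → (Fin 18 → ℝ) → ℝ}
  {r : ℕ → ℝ} {κ : Fin 18 → ℝ} {V' Tw : Fin 18 → Prop} {q : Fin 14} {V : Fin 4} {δ : ℝ}

/-- `z, A, B` are full separately -/
theorem full_B (h : PtB B Bo I J co kp u F Ma Dr C lam a b A φ r κ V' Tw)
    (hG : BasG lam Ma Dr a b V') {t : ℝ} (ht : 0 < t) :
    t ≤ lam (v4 t 0 t 0) - lam (v4 t 0 t t) := by
  have m1 : v4 t 0 t 0 ∈ coneM Ma := v4_mem h.act ht.le le_rfl ht.le le_rfl (by linarith)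
    (by linarith) (by linarith)
  have h1 := h.full3 hG ht
  have h2 := h.aew.sharp 0 zero_mem _ m1 fun k => v4_nonneg ht.le le_rfl ht.le le_rfl k
  have e : ∑ s, (v4 t 0 t 0 s - (0 : Fin 18 → ℝ) s) = 2 * t := by
    have e1 : ∀ s : Fin 18, v4 t 0 t 0 s - (0 : Fin 18 → ℝ) s =
        (Pi.single 0 t : Fin 18 → ℝ) s + (Pi.single 2 t : Fin 18 → ℝ) s := by
      intro s
      by_cases s0 : s = 0
      · subst s0
        rw [v4_0, Pi.single_eq_same, Pi.single_eq_of_ne (by decide)]
        simp
      · by_cases s2 : s = 2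
        · subst s2
          rw [v4_2, Pi.single_eq_same, Pi.single_eq_of_ne (by decide)]
          simp
        · rw [Pi.single_eq_of_ne s0, Pi.single_eq_of_ne s2]
          simp [v4, s0, s2]
    rw [sum_congr rfl fun s _ => e1 s, sum_add_distrib, sum_pi_single', sum_pi_single']
    simp
    ring
  rw [h.aew.zero, e] at h2
  linarith

theorem thinF_of (h : PtB B Bo I J co kp u F Ma Dr C lam a b A φ r κ V' Tw)
    (hG : BasG lam Ma Dr a b V') (hnat : ∀ t : ℝ, 0 ≤ t → t • a ∈ coneM Ma)
    (hnn : ∀ k, 0 ≤ a k) (h0 : a 0 = 1) (h2 : a 2 = 1) (h3 : a 3 = 1) (h17 : a 17 = 2)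
    (hq : (q = 10 ∧ V = 3) ∨ (q = 11 ∧ V = 2))
    (gS : ∀ i j, gC a b i = gC a b j → i ∈ ST q → j ∈ ST q ∨ j ∈ Dr)
    (gV : ∀ j, gC a b j = gC a b (Fin.castAdd 14 V) →
      j = Fin.castAdd 14 V ∨ j = 16 ∨ j ∈ Dr)
    (gN : ∀ j, gC a b j = gC a b 17 →
      j = 17 ∨ j ∈ Dr ∨ (a j = 1 ∧ n0T q j = 0 ∧ j ≠ Fin.castAdd 14 V ∧ j ≠ 16))
    (hV' : ∀ k, V' k → k = Fin.natAdd 4 q) (hδ : 0 < δ) (hδ2 : δ ≤ 2) (hA : -A.1 ≤ 5 - δ) :
    ThinF Ma lam q V (1 - δ / 2) := by
  have hq' : q = 10 ∨ q = 11 := hq.imp (fun e => e.1) fun e => e.1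
  have hd := wdT hq'
  have hcone : ∀ {x : ℝ}, 0 ≤ x → Leg (offM Ma (scV x (n0T q)) (x * (1 : ℕ))) (x * (1 : ℕ)) ⊆
      {p | scV x (n0T q) + p ∈ coneM Ma} := fun hx => leg_coneN h.act hd.off hx
  have h0m : ∀ {x : ℝ}, 0 ≤ x → scV x (n0T q) ∈ coneM Ma := by
    intro x hx
    rw [h.act.cone]
    intro k _ l hl _
    rw [sum_scV]
    exact mul_le_mul_of_nonneg_left (by exact_mod_cast hd.off k l hl) hx
  have n00 : n0T q 0 = 0 := hd.z0
  have n0q : n0T q (Fin.natAdd 4 q) = 0 := by rcases hq' with rfl | rfl <;> decide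
  have n0V : n0T q (Fin.castAdd 14 V) = 0 ∧ n0T q 2 = 0 ∧ n0T q 3 = 0 ∧ n0T q 16 = 0 ∧
      n0T q 17 = 0 := by
    rcases hq with ⟨rfl, rfl⟩ | ⟨rfl, rfl⟩ <;> decide
  -- density and Frostman
  have hD : ∀ x : ℝ, 0 < x →
      (wst Ma (n0T q) ntT 1 (ST q) x).Dens (fun p => lam (scV x (n0T q) + p) -
        lam (scV x (n0T q))) 1 x := by
    intro x hx
    refine h.dens (h0m hx.le) (fun k hk => ?_) rfl (wst_ok h.act hd hx.le)
      (fun i j hij hi => (gS i j hij hi).imp id fun e => Or.inr e) (le_of_eq ?_) fun y hy hyx => ?_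
    · rw [hV' k hk]
      simp [scV, n0q, n00]
    · simp [wst, scV, ntT]
    · rw [h.act.cone]
      intro k _ l hl _
      rw [sum_add', sum_scV]
      have h1 : (0:ℝ) ≤ (l.map (Pi.single (0 : Fin 18) y : Fin 18 → ℝ)).sum := by
        refine List.sum_nonneg fun x hx => ?_
        obtain ⟨i, _, rfl⟩ := List.mem_map.1 hx
        by_cases hi : i = 0
        · subst hi; simpa using hy
        · rw [Pi.single_eq_of_ne hi]
      have h2 : x * (n0T q k : ℝ) ≤ x * ((l.map (n0T q)).sum : ℕ) :=
        mul_le_mul_of_nonneg_left (by exact_mod_cast hd.off k l hl) hx.le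
      have h3 : k ≠ 0 := by
        rintro rfl
        have : mlW 0 = [] := by decide
        rw [this] at hl
        exact absurd hl (List.not_mem_nil)
      rw [Pi.add_apply, Pi.single_eq_of_ne h3, add_zero]
      unfold scV
      linarith
  -- the ray with a lowered slot `N`
  have pm : ∀ {w y : ℝ}, 0 ≤ w → y ≤ 2 * w → Function.update (w • a) 17 y ∈ coneM Ma := by
    intro w y hw hy
    refine upd17_le h.act (hnat w hw) ?_
    simp only [Pi.smul_apply, smul_eq_mul, h17]
    linarith
  have hu0 : ∀ {w : ℝ}, 0 < w → lam (Function.update (w • a) 17 0) ≤ -(3 * w) := by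
    intro w hw
    have m2 : v4 w 0 w w ∈ coneM Ma := v4_mem h.act hw.le le_rfl hw.le hw.le (by linarith)
      (by linarith) (by linarith)
    have hle : v4 w 0 w w ≤ Function.update (w • a) 17 0 := by
      intro k
      by_cases hk : k = 17
      · subst hk
        rw [Function.update_self, v4_o _ _ _ _ (by decide)]
      · rw [Function.update_of_ne hk]
        simp only [Pi.smul_apply, smul_eq_mul]
        refine cases4 (P := fun k => v4 w 0 w w k ≤ w * a k) ?_ ?_ ?_ ?_ ?_ k
        · rw [v4_0, h0, mul_one]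
        · rw [v4_1]; exact mul_nonneg hw.le (hnn 1)
        · rw [v4_2, h2, mul_one]
        · rw [v4_3, h3, mul_one]
        · intro k hk
          rw [v4_o _ _ _ _ hk]; exact mul_nonneg hw.le (hnn k)
    exact (h.aew.anti _ m2 _ (pm hw.le (by linarith)) hle).trans (h.full3 hG hw)
  refine ⟨by linarith, by linarith, fun x hx => (hD x hx).dens, fun x y hx hy hyx => ?_,
    fun x t hx ht htx => ?_, fun x hx => ?_⟩
  · have := (hD x hx).frost y hy hyx
    rw [one_mul] at this
    exact this
  · -- `V` and `P` are full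
    rcases ht.eq_or_lt with h00 | ht0
    · rw [← h00]; simp
    have mL : scV x (n0T q) + vL V x 0 0 x ∈ coneM Ma :=
      hcone hx.le (vL_leg1 h.act hq le_rfl hx.le)
    have mM : scV x (n0T q) + vL V x t 0 x ∈ coneM Ma := hcone hx.le (vL_leg1 h.act hq ht htx)
    have mR : scV x (n0T q) + vL V x t t x ∈ coneM Ma := hcone hx.le (vL_leg2 h.act hq ht htx)
    have s1 : lam (scV x (n0T q) + vL V x t t x) ≤ lam (scV x (n0T q) + vL V x t 0 x) := by
      refine h.aew.anti _ mM _ mR fun k => ?_
      simp only [Pi.add_apply, vL]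
      split_ifs <;> linarith
    have s2 : t ≤ lam (scV x (n0T q) + vL V x 0 0 x) - lam (scV x (n0T q) + vL V x t 0 x) := by
      have m00 : v4 t 0 0 0 ∈ coneM Ma := v4_mem h.act ht le_rfl le_rfl le_rfl (by linarith)
        (by linarith) (by linarith)
      have m10 : v4 t 0 t 0 ∈ coneM Ma := v4_mem h.act ht le_rfl ht le_rfl (by linarith)
        (by linarith) (by linarith)
      have m11 : v4 t 0 t t ∈ coneM Ma := v4_mem h.act ht le_rfl ht ht (by linarith)
        (by linarith) (by linarith)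
      rcases hq with ⟨rfl, rfl⟩ | ⟨rfl, rfl⟩
      · refine (full_B h hG ht0).trans (le_of_eq ?_)
        refine h.slot (i := 3) m10 m11 mL mM ?_ ?_ ?_ ?_ ?_
        · intro j hj _
          simp [v4, hj]
        · intro j hj _
          have : j ≠ Fin.castAdd 14 3 := hj
          simp only [Pi.add_apply, vL, if_neg this]
        · simp [v4, vL, scV, n0V.2.2.1, Fin.ext_iff]
        · simp [v4, vL, scV, n0V.2.2.1, Fin.ext_iff]
        · intro j hj hj3 hjD
          rcases gV j hj with e | e | e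
          · exact absurd e hj3
          · subst e
            simp [v4, vL, scV, n0V.2.2.2.1, Fin.ext_iff]
          · exact absurd e hjD
      · refine (h.fullA hG ht0).trans (le_of_eq ?_)
        refine h.slot (i := 2) m00 m10 mL mM ?_ ?_ ?_ ?_ ?_
        · intro j hj _
          simp [v4, hj]
        · intro j hj _
          have : j ≠ Fin.castAdd 14 2 := hj
          simp only [Pi.add_apply, vL, if_neg this]
        · simp [v4, vL, scV, n0V.2.1, Fin.ext_iff]
        · simp [v4, vL, scV, n0V.2.1, Fin.ext_iff]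
        · intro j hj hj3 hjD
          rcases gV j hj with e | e | e
          · exact absurd e hj3
          · subst e
            simp [v4, vL, scV, n0V.2.2.2.1, Fin.ext_iff]
          · exact absurd e hjD
    linarith
  · -- `N`
    have m0 : scV x (n0T q) + vL V x 0 0 0 ∈ coneM Ma := hcone hx.le (vL_leg0 h.act hq hx.le)
    have m1 : scV x (n0T q) + vL V x 0 0 x ∈ coneM Ma :=
      hcone hx.le (vL_leg1 h.act hq le_rfl hx.le)
    have V17 : (17 : Fin 18) ≠ Fin.castAdd 14 V := by
      rcases hq with ⟨rfl, rfl⟩ | ⟨rfl, rfl⟩ <;> decide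
    have e1 : lam (scV x (n0T q) + vL V x 0 0 0) - lam (scV x (n0T q) + vL V x 0 0 x) =
        lam (Function.update (x • a) 17 0) - lam (Function.update (x • a) 17 x) := by
      refine h.slot (i := 17) m0 m1 (pm hx.le (by linarith)) (pm hx.le (by linarith)) ?_ ?_ ?_ ?_
        ?_
      · intro j hj _
        simp only [Pi.add_apply, vL, if_neg hj]
      · intro j hj _
        rw [Function.update_of_ne hj, Function.update_of_ne hj]
      · rw [Function.update_self]
        simp only [Pi.add_apply, vL, if_neg V17, scV, n0V.2.2.2.2]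
        rw [if_neg (by decide)]
        simp
      · rw [Function.update_self]
        simp only [Pi.add_apply, vL, if_neg V17, scV, n0V.2.2.2.2]
        rw [if_neg (by decide)]
        simp
      · intro j hj hj17 hjD
        rw [Function.update_of_ne hj17]
        rcases gN j hj with e | e | ⟨e1, e2, e3, e4⟩
        · exact absurd e hj17
        · exact absurd e hjD
        · simp only [Pi.add_apply, vL, if_neg e3, if_neg e4, if_neg hj17, scV, e2,
            Pi.smul_apply, smul_eq_mul, e1]
          simp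
    rw [e1]
    have hx2 : 0 < x / 2 := by positivity
    have eT : Function.update ((x / 2) • a) 17 x = (x / 2) • a := by
      funext k
      by_cases hk : k = 17
      · subst hk
        rw [Function.update_self]
        simp only [Pi.smul_apply, smul_eq_mul, h17]
        ring
      · rw [Function.update_of_ne hk]
    have hray : lam ((x / 2) • a) = x / 2 * A.1 := out_ray h.aew.out (hnat _ hx2.le)
    have hs := h.aew.submod _ (pm hx2.le (y := x) (by linarith)) _
      (pm hx.le (y := 0) (by linarith)) (by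
        have e : Function.update ((x / 2) • a) 17 x ⊓ Function.update (x • a) 17 0 =
            Function.update ((x / 2) • a) 17 0 := by
          funext k
          by_cases hk : k = 17
          · subst hk
            simp only [Pi.inf_apply, Function.update_self]
            exact min_eq_right hx.le
          · simp only [Pi.inf_apply, Function.update_of_ne hk, Pi.smul_apply, smul_eq_mul]
            refine min_eq_left ?_
            nlinarith [hnn k]
        rw [e]
        exact pm hx2.le (by linarith)) (by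
        have e : Function.update ((x / 2) • a) 17 x ⊔ Function.update (x • a) 17 0 =
            Function.update (x • a) 17 x := by
          funext k
          by_cases hk : k = 17
          · subst hk
            simp only [Pi.sup_apply, Function.update_self]
            exact max_eq_left hx.le
          · simp only [Pi.sup_apply, Function.update_of_ne hk, Pi.smul_apply, smul_eq_mul]
            refine max_eq_right ?_
            nlinarith [hnn k]
        rw [e]
        exact pm hx.le (by linarith))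
    have e3 : Function.update ((x / 2) • a) 17 x ⊓ Function.update (x • a) 17 0 =
        Function.update ((x / 2) • a) 17 0 := by
      funext k
      by_cases hk : k = 17
      · subst hk
        simp only [Pi.inf_apply, Function.update_self]
        exact min_eq_right hx.le
      · simp only [Pi.inf_apply, Function.update_of_ne hk, Pi.smul_apply, smul_eq_mul]
        refine min_eq_left ?_
        nlinarith [hnn k]
    have e4 : Function.update ((x / 2) • a) 17 x ⊔ Function.update (x • a) 17 0 =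
        Function.update (x • a) 17 x := by
      funext k
      by_cases hk : k = 17
      · subst hk
        simp only [Pi.sup_apply, Function.update_self]
        exact max_eq_left hx.le
      · simp only [Pi.sup_apply, Function.update_of_ne hk, Pi.smul_apply, smul_eq_mul]
        refine max_eq_right ?_
        nlinarith [hnn k]
    rw [e3, e4, eT, hray] at hs
    have h5 := hu0 hx2
    nlinarith

end num

end Crest.Agent.R136.Rt478
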