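import Crest.Agent.R136.P0_830
import Crest.Agent.R136.Bas5_938
import Crest.Agent.R136.Rt4_478

/-!
# R136: walls `(2,1)`, `(2,2)` of the W-chart, the F-half (helper478)

* `WallT θ q V` : the wall slope of the flag slot `q` is `2` (`q = 10`: `(2,2)`, `q = 11`: `(2,1)`);
* `thinF_ptC` : a point of the rung `2` (830's `PtC`) which is not dead has the numbers `ThinF`;
* **`hasRigW`** : a stage `StW .. 2 lam lo` over a context `CtxW` has an interior point with the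
  numbers `ThinF` (otherwise it is dead).
-/

set_option autoImplicit false
set_option linter.unusedVariables false
set_option linter.unusedSectionVars false

open Filter Topology

namespace Crest.Agent.R136.Rt478

open Finset Crest.Agent.R136.NetW191 Crest.Agent.R136.Net191 Crest.Agent.R136.Qg926
open Crest.Agent.R136.EvW938 Crest.Agent.R136.Bas938
open Crest.Agent.R136.Gf356 Crest.Agent.R136.Aw413 Crest.Agent.R136.Dg219
open Crest.Agent.R136.PrW464 Crest.Agent.R136.NatW697 Crest.Agent.R136.LadW697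
open Crest.Agent.R136.AwJ774 Crest.Agent.R136.ThB830 Crest.Agent.R136.LadT830
open Crest.Agent.R136.Rc146 (OutA)
open Crest.Agent.R136.Dg262 (X)
open Crest.Agent.R136.K2S774 (cn JT BaseOk Prf)
open Crest.Agent.R136.K2A146 (FLemA deadA)
open Crest.Agent.R138.Ex926 (Base U IsTan)

/-- **the wall of slope `2`** is the wall of the flag slot `q` -/
structure WallT (θ : Fin 3 → ℝ) (q : Fin 14) (V : Fin 4) : Prop where
  hq : (q = 10 ∧ V = 3) ∨ (q = 11 ∧ V = 2)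
  hK : KW θ (Fin.natAdd 4 q) = 2

theorem WallT.n1 {θ : Fin 3 → ℝ} {q : Fin 14} {V : Fin 4} (h : WallT θ q V) :
    (q = 10 ∧ V = 3 ∧ 1 - θ 0 = 2 - 2 * θ 1) ∨ (q = 11 ∧ V = 2 ∧ 1 - θ 0 = 2 - θ 1) := by
  have hK := h.hK
  rcases h.hq with ⟨rfl, rfl⟩ | ⟨rfl, rfl⟩
  · left
    refine ⟨rfl, rfl, ?_⟩
    have e : KW θ (14 : Fin 18) = (1 - θ 0) - wc 14 * θ 1 := KW_flag θ (by decide)
    have e2 : wc 14 = -2 := by decide
    rw [e2] at e
    have : KW θ (14 : Fin 18) = 2 := hK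
    push_cast at e
    linarith
  · right
    refine ⟨rfl, rfl, ?_⟩
    have e : KW θ (15 : Fin 18) = (1 - θ 0) - wc 15 * θ 1 := KW_flag θ (by decide)
    have e2 : wc 15 = -1 := by decide
    rw [e2] at e
    have : KW θ (15 : Fin 18) = 2 := hK
    push_cast at e
    linarith

/-- values of the ray of slope `2` -/
def tv : Fin 18 → ℝ := ![1, 0, 1, 1, 1, 1, 1, 0, 1, 0, 0, 0, 0, 0, 1, 1, 1, 2]

theorem drW2 (k : Fin 18) : k ∈ DrW 2 ↔ k = 4 ∨ k = 5 ∨ k = 6 ∨ k = 8 := by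
  have key : ∀ k : Fin 18, (4 ≤ k ∧ (2 : ℤ) < alW k) ↔ k = 4 ∨ k = 5 ∨ k = 6 ∨ k = 8 := by decide
  rw [← key k]
  simp only [DrW, Set.mem_setOf_eq]
  constructor
  · rintro ⟨h1, h2⟩; exact ⟨h1, by exact_mod_cast h2⟩
  · rintro ⟨h1, h2⟩; exact ⟨h1, by exact_mod_cast h2⟩

theorem tw2 (k : Fin 18) : TW 2 k = tv k := by
  by_cases hD : k ∈ DrW 2
  · rw [TW, if_pos hD]
    rcases (drW2 k).1 hD with rfl | rfl | rfl | rfl <;> simp [tv]
  · by_cases h4 : 4 ≤ k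
    · rw [TW_flag h4 hD]
      have hn := fun h => hD ((drW2 k).2 h)
      have key : ∀ k : Fin 18, 4 ≤ k → ¬ (k = 4 ∨ k = 5 ∨ k = 6 ∨ k = 8) →
          (k = 7 ∨ k = 9 ∨ k = 10 ∨ k = 11 ∨ k = 12 ∨ k = 13) ∧ alW k = 2 ∨
          (k = 14 ∨ k = 15 ∨ k = 16) ∧ alW k = 1 ∨ k = 17 ∧ alW k = 0 := by decide
      rcases key k h4 hn with ⟨h, e⟩ | ⟨h, e⟩ | ⟨h, e⟩
      · rw [e]
        rcases h with rfl | rfl | rfl | rfl | rfl | rfl <;> simp [tv]
      · rw [e]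
        rcases h with rfl | rfl | rfl <;> simp [tv] <;> norm_num
      · rw [e]
        subst h; simp [tv]
    · have : ∀ k : Fin 18, ¬ 4 ≤ k → k = 0 ∨ k = 1 ∨ k = 2 ∨ k = 3 := by decide
      rcases this k h4 with rfl | rfl | rfl | rfl
      · rw [TW_z]; simp [tv]
      · rw [TW_c]; simp [tv]
      · rw [TW_A]; simp [tv]
      · rw [TW_B]; simp [tv]

/-- slope of a slot of the same group -/
theorem gC_slope {θ : Fin 3 → ℝ} {i j : Fin 18} (h : gC (TW 2) (btW θ) j = gC (TW 2) (btW θ) i)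
    (hi : tv i ≠ 0) : tv j ≠ 0 ∧ btW θ j / tv j = btW θ i / tv i := by
  have hi' : TW 2 i ≠ 0 := by rw [tw2]; exact hi
  have hj' : TW 2 j ≠ 0 := by
    intro e
    rw [gC_zero.2 e] at h
    exact hi' (gC_zero.1 h.symm)
  have := (gC_eq hj' hi').1 h
  rw [tw2, tw2] at this
  rw [tw2] at hj'
  exact ⟨hj', this⟩

section slopes

variable {θ : Fin 3 → ℝ} {q : Fin 14} {V : Fin 4}

theorem wall_gS (h : WallT θ q V) (hθ : 0 < θ 1) :
    ∀ i j, gC (TW 2) (btW θ) i = gC (TW 2) (btW θ) j → i ∈ ST q → j ∈ ST q ∨ j ∈ DrW 2 := by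
  intro i j hij hi
  have hi1 : tv i = 1 ∧ btW θ i = 1 := by
    have := h.n1
    simp only [ST, mem_insert, mem_singleton] at hi
    rcases hi with rfl | rfl
    · refine ⟨by simp [tv], ?_⟩
      rw [btW0]
    · rcases this with ⟨rfl, rfl, e⟩ | ⟨rfl, rfl, e⟩
      · refine ⟨by simp [tv, Fin.natAdd], ?_⟩
        have e2 : btW θ (14 : Fin 18) = wz 14 - wc 14 * θ 1 + wn 14 * (1 - θ 0) := btW_val θ 14
        have e3 : wz 14 = -1 ∧ wc 14 = -2 ∧ wn 14 = 1 := by decide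
        rw [e3.1, e3.2.1, e3.2.2] at e2
        have : btW θ (Fin.natAdd 4 (10 : Fin 14)) = btW θ (14 : Fin 18) := rfl
        rw [this, e2]; push_cast; linarith
      · refine ⟨by simp [tv, Fin.natAdd], ?_⟩
        have e2 : btW θ (15 : Fin 18) = wz 15 - wc 15 * θ 1 + wn 15 * (1 - θ 0) := btW_val θ 15
        have e3 : wz 15 = -1 ∧ wc 15 = -1 ∧ wn 15 = 1 := by decide
        rw [e3.1, e3.2.1, e3.2.2] at e2
        have : btW θ (Fin.natAdd 4 (11 : Fin 14)) = btW θ (15 : Fin 18) := rfl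
        rw [this, e2]; push_cast; linarith
  obtain ⟨h1, h2⟩ := gC_slope hij.symm (by rw [hi1.1]; exact one_ne_zero)
  rw [hi1.1, hi1.2, div_one] at h2
  rw [div_eq_iff h1, one_mul] at h2
  have hb := btW_val θ j
  rw [hb] at h2
  rw [drW2]
  rcases h.n1 with ⟨rfl, rfl, e⟩ | ⟨rfl, rfl, e⟩ <;> rw [e] at h2 <;> revert h1 h2 <;>
    fin_cases j <;> simp [tv, ST, wz, wc, wn, Fin.natAdd, Fin.ext_iff] <;>
    (try linarith)

theorem wall_gV (h : WallT θ q V) (hθ : 0 < θ 1) :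
    ∀ j, gC (TW 2) (btW θ) j = gC (TW 2) (btW θ) (Fin.castAdd 14 V) →
      j = Fin.castAdd 14 V ∨ j = 16 ∨ j ∈ DrW 2 := by
  intro j hj
  have hi1 : tv (Fin.castAdd 14 V) = 1 := by
    rcases h.n1 with ⟨rfl, rfl, e⟩ | ⟨rfl, rfl, e⟩ <;> simp [tv, Fin.castAdd, Fin.castLE]
  obtain ⟨h1, h2⟩ := gC_slope hj (by rw [hi1]; exact one_ne_zero)
  rw [hi1, div_one, div_eq_iff h1, btW_val, btW_val] at h2
  rw [drW2]
  rcases h.n1 with ⟨rfl, rfl, e⟩ | ⟨rfl, rfl, e⟩ <;> rw [e] at h2 <;> revert h1 h2 <;>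
    fin_cases j <;> simp [tv, wz, wc, wn, Fin.castAdd, Fin.castLE, Fin.ext_iff] <;>
    (try linarith)

theorem wall_gN (h : WallT θ q V) (hθ : 0 < θ 1) :
    ∀ j, gC (TW 2) (btW θ) j = gC (TW 2) (btW θ) 17 →
      j = 17 ∨ j ∈ DrW 2 ∨ (TW 2 j = 1 ∧ n0T q j = 0 ∧ j ≠ Fin.castAdd 14 V ∧ j ≠ 16) := by
  intro j hj
  have hi1 : tv 17 = 2 := by simp [tv]
  obtain ⟨h1, h2⟩ := gC_slope hj (by rw [hi1]; exact two_ne_zero)
  rw [hi1, div_eq_iff h1, btW_val, btW_val] at h2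
  rw [drW2, tw2]
  rcases h.n1 with ⟨rfl, rfl, e⟩ | ⟨rfl, rfl, e⟩ <;> rw [e] at h2 <;> revert h1 h2 <;>
    fin_cases j <;> simp [tv, wz, wc, wn, n0T, Fin.castAdd, Fin.castLE, Fin.ext_iff] <;>
    (try linarith)

end slopes

section pt

variable {B Bo : Base} {I J : ∀ n : ℕ, Finset (ℕ × ℝ)}
  {co : ∀ n : ℕ, ℕ × ℝ → ℕ × ℝ → Fin 18 → ℝ} {C : ℝ} {κ : ℕ → ℝ} {u : ℕ → Fin 18 → ℝ}
  {f : ℕ → ℕ × ℝ → FW} {K : ℝ} {θ : Fin 3 → ℝ} {qq : Fin 3 → ℝ} {V0 T : Set (Fin 18)}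
  {lam lo : (Fin 18 → ℝ) → ℝ} {A : ℝ × ℝ} {φ : ℕ → (Fin 18 → ℝ) → ℝ} {r : ℕ → ℝ}
  {q : Fin 14} {V : Fin 4}

/-- **a point of the rung `2` which is not dead** has the numbers -/
theorem thinF_ptC (h : PtC B Bo I J co C κ u f K θ qq V0 T 2 lam lo A φ r) (hw : WallT θ q V)
    {δ : ℝ} (hδ : 0 < δ) (hδ2 : δ ≤ 2) (hA : -A.1 ≤ 5 - δ) :
    ThinF (mA monW (actW (DrW 2))) lam q V (1 - δ / 2) := by
  refine thinF_of (P0830.ptB_of h) (P0830.basG_of h) (fun t _ => ray_mem 2 t)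
    (ThB830.TW_nonneg 2 two_pos) (TW_z 2) (TW_A 2) (TW_B 2) (by rw [tw2]; simp [tv]) hw.hq
    (wall_gS hw h.th1) (wall_gV hw h.th1) (wall_gN hw h.th1) ?_ hδ hδ2 hA
  rintro k ⟨hk, hK⟩
  obtain ⟨h4, h5, h6⟩ := h.vis k hk
  have hθ := h.th1
  rw [hK] at h6
  have h7 : alW k = 1 := by
    have h8 : (1 : ℤ) ≤ alW k := by exact_mod_cast h5
    have h9 : alW k < 2 := by exact_mod_cast h6
    omega
  have key : ∀ k : Fin 18, 4 ≤ k → alW k = 1 → k = 14 ∨ k = 15 ∨ k = 16 := by decide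
  have e := KW_flag θ h4
  rw [hK] at e
  rcases key k h4 h7 with rfl | rfl | rfl
  · have e2 : wc 14 = -2 := by decide
    rw [e2] at e
    push_cast at e
    rcases hw.n1 with ⟨rfl, rfl, e'⟩ | ⟨rfl, rfl, e'⟩
    · rfl
    · exfalso; linarith
  · have e2 : wc 15 = -1 := by decide
    rw [e2] at e
    push_cast at e
    rcases hw.n1 with ⟨rfl, rfl, e'⟩ | ⟨rfl, rfl, e'⟩
    · exfalso; linarith
    · rfl
  · have e2 : wc 16 = 0 := by decide
    rw [e2] at e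
    push_cast at e
    rcases hw.n1 with ⟨rfl, rfl, e'⟩ | ⟨rfl, rfl, e'⟩ <;> exfalso <;> linarith

end pt

section rig

variable {P : Set (Fin 18 → ℝ)} {ν own : (Fin 18 → ℝ) → ℝ} {K : ℝ} {r0 : Fin 18 → ℝ}
  {θ : Fin 3 → ℝ} {g : ℝ} {qq : Fin 3 → ℝ} {V0 T : Set (Fin 18)} {lam lo : (Fin 18 → ℝ) → ℝ}
  {q : Fin 14} {V : Fin 4}

/-- **the F-half at the walls `(2,1)`, `(2,2)`** : a stage of slope `2` has an interior point with
the numbers of [RIG-0] -/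
theorem hasRigW (h : CtxW P ν own K r0 θ g qq V0 T) (hst : StW P ν own K r0 θ g qq V0 2 lam lo)
    (hs : ∀ k ∈ V0, KW θ k ≤ 2) (hw : WallT θ q V) :
    ∃ z : ℝ × ℝ, z.1 < 0 ∧ ∃ k : ℕ → ℝ, (∀ l, 0 < k l) ∧ Tendsto k atTop (𝓝 0) ∧
      ∃ (lamI loI : (Fin 18 → ℝ) → ℝ) (a : ℝ),
        IsTan (cn QW (actW (DrW 2))) (cn QW (actW (DrW 2))) lam
          (fun _ => X 0 (TW 2) (btW θ) z) k lamI ∧
        IsTan (cn QW (actW (DrW 2))) (cn QW (actW (DrW 2))) lo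
          (fun _ => X 0 (TW 2) (btW θ) z) k loI ∧
        ThinF (mA monW (actW (DrW 2))) lamI q V a := by
  classical
  by_contra hcon
  have hg := h.g0
  have hq0 := h.q0
  have hqg := h.qg
  have hd : 0 < (g - qq 0) / 2 := by linarith
  refine deadA hst (recW θ _ _) (rungW (J := univ.filter fun k => 4 ≤ k ∧ (alW k : ℝ) = 2)
    two_pos (fun k hk => ?_) (b := btW θ) (fun k _ => rfl) (fun k => by simp)) hd ?_
  · obtain ⟨h4, h1, h2⟩ := vis_al h.slots hk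
    exact ⟨h4, h2.trans_le (hs k hk)⟩
  intro z hz D' hD' k lam' lo' kpos k0 H1 H2 x' h' hJ hB φ rt out _
  by_contra hlt
  rw [not_le] at hlt
  have hloc : locT V0 0 (btW θ) (TW 2) = fun k => k ∈ V0 ∧ KW θ k = 2 := by
    funext k
    simp only [locT, eq_iff_iff]
    constructor
    · rintro ⟨hk, hT⟩
      refine ⟨hk, ?_⟩
      rw [(vis_TWc h.slots hs hk).2, TW_z] at hT
      linarith
    · rintro ⟨hk, hK⟩
      refine ⟨hk, ?_⟩
      rw [(vis_TWc h.slots hs hk).2, TW_z, hK]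
      ring
  obtain ⟨B, Bo, I, J, co, C, κ, u, f, hco, hu, hκ, hκs, hne, hae⟩ := h.ae
  have hA := hae (actW (DrW 2)) x' h' lam' lo' (TW 2) (TW 2) (btW θ) _ φ rt
    (fun k => k ∈ T ∧ k ∈ V0 ∧ KW θ k = 2) hJ hB (fun i hi => by
      rw [(vis_TWc h.slots hs hi).2, TW_z]
      have := hs i hi
      linarith) (fun k hk => by rw [hloc]; exact hk) (by
      rintro ⟨-, hk, -⟩
      exact absurd (vis_al h.slots hk).1 (by decide)) out.toOutS
  rw [hloc] at hA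
  have hP : PtC B Bo I J co C κ u f K θ qq V0 T 2 lam' lo' _ φ rt :=
    { co_eq := hco
      gru := hu
      kp1 := hκ
      kp0 := hκs
      ne := hne
      th1 := h.θ1
      q1 := h.q1
      q2 := h.q2
      s0 := two_pos
      top := hs
      vis := fun k hk => vis_al h.slots hk
      aew := hA
      out := out
      prf := hst.prf.tan kpos H1 H2
      sweep := fun c hc hc1 hcT t ht =>
        hst.sweep (fun k _ => rfl) (nat_btW _ _) (ThB830.TW_nonneg 2 two_pos) hz kpos k0 H1 hc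
          hc1 hcT ht
      ind := fun c hc c' hc' hcc => hst.ind_pt h.θ1 kpos k0 H1 hc hc' hcc }
  rw [DlW_saW] at hlt
  have hF := thinF_ptC hP hw (δ := min ((g - qq 0) / 2) 2) (lt_min hd two_pos)
    (min_le_right _ _) (by
      have := min_le_left ((g - qq 0) / 2) 2
      simp only at hlt ⊢
      linarith)
  exact hcon ⟨z, hz, k, kpos, k0, lam', lo', _, H1, H2, hF⟩

end rig

end Crest.Agent.R136.Rt478
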