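import Crest.Agent.R136.RL0_478
import Crest.Agent.R136.Rt5_478
import Crest.Agent.R136.RL3_626

/-!
# R136, thin branch (helper66): interior law of the walls `(2,2)` and `(2,1)`

* **`intLaw_thin`** : `ThinF` at the interior tangent gives `IntLaw` for `(j, {q}) = (7, {10})` and
  `(8, {11})` (from 478's `strip_intW`, the gauge is constant on the classes).
* **`exists_intLaw2`** : a stage of slope `2` at a resonant wall has an interior tangent with `IntLaw`.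
-/

set_option autoImplicit false
set_option linter.unusedVariables false

open Finset Filter Topology

namespace Crest.Agent.R136.RL66

open Crest.Agent.R136.Net191
open Crest.Agent.R136.NetW191
open Crest.Agent.R136.PrW464
open Crest.Agent.R136.NatW697
open Crest.Agent.R136.LadW697
open Crest.Agent.R136.LadG697
open Crest.Agent.R136.Zpr779
open Crest.Agent.R136.Qg926
open Crest.Agent.R136.EvW938
open Crest.Agent.R136.Bas938
open Crest.Agent.R136.Aw413 Crest.Agent.R136.Gf356 Crest.Agent.R136.Dg219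
open Crest.Agent.R136.AwJ774
open Crest.Agent.R136.K2S774
open Crest.Agent.R136.Rt478 (ThinF PLaw n0T ntT ST wdT strip_intW)
open Crest.Agent.R136.RL478 (OLaw OwC IntLaw)
open Crest.Agent.R138.Ex926

/-- the three data of a wall of the rung `2` -/
def Wl2 (q : Fin 14) (Vp : Fin 4) (j : Fin 14) : Prop :=
  (q = 10 ∧ Vp = 3 ∧ j = 7) ∨ (q = 11 ∧ Vp = 2 ∧ j = 8)

theorem Wl2.hq {q : Fin 14} {Vp : Fin 4} {j : Fin 14} (h : Wl2 q Vp j) :
    (q = 10 ∧ Vp = 3) ∨ (q = 11 ∧ Vp = 2) := h.imp (fun e => ⟨e.1, e.2.1⟩) fun e => ⟨e.1, e.2.1⟩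

theorem Wl2.mem {q : Fin 14} {Vp : Fin 4} {j : Fin 14} (h : Wl2 q Vp j) :
    [0, Fin.natAdd 4 j] ∈ mlW (Fin.natAdd 4 q) := by
  rcases h with ⟨rfl, -, rfl⟩ | ⟨rfl, -, rfl⟩ <;> decide

theorem Wl2.mem17 {q : Fin 14} {Vp : Fin 4} {j : Fin 14} (h : Wl2 q Vp j) :
    [Fin.castAdd 14 Vp, Fin.natAdd 4 q] ∈ mlW 17 := by
  rcases h with ⟨rfl, rfl, -⟩ | ⟨rfl, rfl, -⟩ <;> decide

theorem Wl2.tr {q : Fin 14} {Vp : Fin 4} {j : Fin 14} (h : Wl2 q Vp j) (κ z : ℝ) :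
    NetW191.tr κ (sh z) (Pi.single j 1) q - (Pi.single j 1 : Fin 14 → ℝ) q = z := by
  rcases h with ⟨rfl, -, rfl⟩ | ⟨rfl, -, rfl⟩
  · simp [NetW191.tr, sh]
  · simp [NetW191.tr, sh]

/-- **[RIG-0] in the form `IntLaw`** -/
theorem intLaw_thin {θ : Fin 3 → ℝ} {s a : ℝ} {V Dr : Set (Fin 18)} {lamI : (Fin 18 → ℝ) → ℝ}
    {q j : Fin 14} {Vp : Fin 4} (hw : Wl2 q Vp j)
    (hD : ∀ k ∈ ({0, 16, 17, Fin.castAdd 14 Vp, Fin.natAdd 4 q, Fin.natAdd 4 j} :
      Finset (Fin 18)), k ∉ Dr)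
    (hV : ∀ k ∈ V, KW θ k = s → n0T q k = 0)
    (H : ThinF (mA monW (actW Dr)) lamI q Vp a) : IntLaw θ s V Dr lamI j {q} := by
  intro B B' I0 J κ u F Y w T hu hκ hκS bas hZ η hη hη1
  have hq' : q = 10 ∨ q = 11 := hw.hq.imp (fun e => e.1) fun e => e.1
  have hd := wdT hq'
  have hn00 : n0T q 0 = 0 := hd.z0
  have n0q : n0T q (Fin.natAdd 4 q) = 0 := by rcases hq' with rfl | rfl <;> decide
  have D0 : (0 : Fin 18) ∉ Dr := hD 0 (by simp)
  have D16 : (16 : Fin 18) ∉ Dr := hD 16 (by simp)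
  have D17 : (17 : Fin 18) ∉ Dr := hD 17 (by simp)
  have DV : Fin.castAdd 14 Vp ∉ Dr := hD _ (by simp)
  have Dq : Fin.natAdd 4 q ∉ Dr := hD _ (by simp)
  have Dj : Fin.natAdd 4 j ∉ Dr := hD _ (by simp)
  -- tight walls
  have hact : ∀ (k : Fin 18) (l : List (Fin 18)), k ∉ Dr → l ∈ mlW k → (∀ s ∈ l, s ∉ Dr) →
      ∀ n, Y n k = (l.map (Y n)).sum := by
    intro k l hk hl hs n
    have h1 := bas.act k _ ((actM_mA Dr).iff k (fun s => l.count s) |>.2 ⟨hk, l, hl, hs, rfl⟩) n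
    exact h1.trans (sum_count l (Y n)).symm
  have tP : ∀ n, Y n 17 = Y n 0 + Y n 16 := fun n => by
    have := hact 17 [0, 16] D17 (by decide) (by simp [D0, D16]) n
    simpa using this
  have tV : ∀ n, Y n 17 = Y n (Fin.castAdd 14 Vp) + Y n (Fin.natAdd 4 q) := fun n => by
    have := hact 17 _ D17 hw.mem17 (by simp [DV, Dq]) n
    simpa using this
  have tq : ∀ n, Y n (Fin.natAdd 4 q) = Y n 0 + Y n (Fin.natAdd 4 j) := fun n => by
    have := hact _ _ Dq hw.mem (by simp [D0, Dj]) n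
    simpa using this
  have hZ' : ZWin B B' I0 J (coU u κ F) monW 67 Y w (coneM (mA monW (actW Dr))) T lamI := by
    rw [coneM_mA]; exact hZ
  obtain ⟨y₀, hy0, hy1, J1, hJ1, hev⟩ := strip_intW hZ' (actM_mA Dr)
    (fun n i _ i' _ k => rfl) hu hκ H hw.hq one_pos (Eventually.of_forall tP)
    (Eventually.of_forall tV) hη hη1
  have hc : scV 1 (n0T q) ∈ cn QW (actW Dr) := by
    have : scV 1 (n0T q) ∈ coneM (mA monW (actW Dr)) := by
      rw [(actM_mA Dr).cone]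
      intro k _ l hl _
      rw [sum_scV]
      exact mul_le_mul_of_nonneg_left (by exact_mod_cast hd.off k l hl) zero_le_one
    rwa [coneM_mA] at this
  have hcw : OwC θ s V (scV 1 (n0T q)) := by
    refine ⟨by simp [scV, hn00], fun k hk hks => ?_⟩
    simp [scV, hV k hk hks]
  have hcn : ‖scV 1 (n0T q)‖ ≤ 1 := by
    refine (pi_norm_le_iff_of_nonneg zero_le_one).2 fun k => ?_
    have : n0T q k ≤ 1 := by
      rcases hq' with rfl | rfl <;> (revert k; decide)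
    rw [Real.norm_eq_abs]
    simp only [scV, one_mul, Nat.abs_cast]
    exact_mod_cast this
  refine ⟨y₀, hy0, hy1, _, hc, _, hc, hcw, hcw, hcn, hcn, J1, hJ1, ?_⟩
  filter_upwards [hev] with n hn
  refine ⟨hn.1, fun i hi => ?_⟩
  obtain ⟨mu, h1, h2⟩ := hn.2 i hi
  have hu0 := (hu n).pos 0
  have huq := (hu n).pos (Fin.natAdd 4 q)
  have huj := (hu n).pos (Fin.natAdd 4 j)
  have hg : u n 0 * u n (Fin.natAdd 4 j) = u n (Fin.natAdd 4 q) := by
    have := (hu n).mul _ _ hw.mem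
    simpa using this
  have eD : ∀ k, n0T q k = 0 → (Y n + w n • scV 1 (n0T q)) k = Y n k := by
    intro k hk
    simp [scV, hk]
  have hDp : ∀ v : ℝ, 0 < B.d n ^ v := fun v => Real.rpow_pos_of_pos (B.pos n) v
  set S1 := cls (J1 n) (fun x => (zlab B I0 (coU u κ F) monW 67 Y w n (scV 1 (n0T q)) x,
    zlab B I0 (coU u κ F) monW 67 Y w n (scV 1 (n0T q)) x)) i with hS1
  have hsub : S1 ⊆ cls (J1 n) (zlab B I0 (coU u κ F) monW 67
      (fun n => Y n + w n • scV 1 (n0T q)) w n 0) i := by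
    intro x hx
    obtain ⟨g1, g2⟩ := mem_cls.1 hx
    refine mem_cls.2 ⟨g1, ?_⟩
    have g3 := congrArg Prod.fst g2
    have e : ∀ x, zlab B I0 (coU u κ F) monW 67 (fun n => Y n + w n • scV 1 (n0T q)) w n 0 x =
        zlab B I0 (coU u κ F) monW 67 Y w n (scV 1 (n0T q)) x := fun x => by
      unfold zlab
      rw [smul_zero, add_zero]
    rw [e, e]
    exact g3
  refine ⟨fun _ => mu * u n 0 / u n (Fin.natAdd 4 q), fun i₁ hi₁ => ⟨?_, fun i₂ hi₂ _ => ⟨?_,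
    fun q' hq1 => ?_⟩⟩⟩
  · have e1 : u n (Fin.natAdd 4 j) * |mu * u n 0 / u n (Fin.natAdd 4 q)| = |mu| := by
      rw [abs_div, abs_mul, abs_of_pos hu0, abs_of_pos huq, ← hg]
      field_simp
    rw [e1]
    have h3 : |mu| * B.d n ^ Y n 0 ≤ B'.d n ^ (-(2 * η * y₀)) *
        (B.d n ^ Y n 0 * B.d n ^ Y n (Fin.natAdd 4 j)) := by
      have := h1
      rw [eD 0 hn00, eD _ n0q, tq n, Real.rpow_add (B.pos n)] at this
      exact this
    have h4 : |mu| * B.d n ^ Y n 0 ≤ (B'.d n ^ (-(2 * η * y₀)) *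
        B.d n ^ Y n (Fin.natAdd 4 j)) * B.d n ^ Y n 0 := by
      refine h3.trans (le_of_eq (by ring))
    exact le_of_mul_le_mul_right h4 (hDp _)
  · rw [sub_self, abs_zero, mul_zero]
    exact (mul_pos (Real.rpow_pos_of_pos (B'.pos n) _) (hDp _)).le
  · rw [Finset.mem_singleton] at hq1
    subst hq1
    have h3 := h2 i₁ (hsub hi₁) i₂ (hsub hi₂)
    rw [eD _ n0q] at h3
    rw [hw.tr]
    have e2 : u n (Fin.natAdd 4 q') * |coW (κ n) (F n i₁) (F n i₂) (Fin.natAdd 4 q') -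
        mu * u n 0 / u n (Fin.natAdd 4 q') * coW (κ n) (F n i₁) (F n i₂) 0| =
        |coU u κ F n i₁ i₂ (Fin.natAdd 4 q') - mu * coU u κ F n i₁ i₂ 0| := by
      have hq0 : u n (Fin.natAdd 4 q') ≠ 0 := huq.ne'
      rw [← abs_of_pos huq, ← abs_mul, abs_of_pos huq]
      congr 1
      unfold coU
      field_simp
    rw [e2]
    exact h3

/-- the resonant walls of slope `2` -/
theorem Wl2.intLaw {θ : Fin 3 → ℝ} {a : ℝ} {V : Set (Fin 18)} {lamI : (Fin 18 → ℝ) → ℝ}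
    {q j : Fin 14} {Vp : Fin 4} (hw : Wl2 q Vp j) (W : RL626.WallJ θ 2 j {q})
    (vis : ∀ k ∈ V, 4 ≤ k ∧ 0 < btW θ k)
    (H : ThinF (mA monW (actW (DrW 2))) lamI q Vp a) : IntLaw θ 2 V (DrW 2) lamI j {q} := by
  refine intLaw_thin hw (fun k hk => ?_) (fun k hk hks => ?_) H
  · have key : ∀ (k : Fin 18), k ∈ ({0, 16, 17, Fin.castAdd 14 Vp, Fin.natAdd 4 q,
        Fin.natAdd 4 j} : Finset (Fin 18)) → ¬ (4 ≤ k ∧ 2 < alW k) := by
      rcases hw with ⟨rfl, rfl, rfl⟩ | ⟨rfl, rfl, rfl⟩ <;> decide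
    intro hD
    refine key k hk ⟨hD.1, ?_⟩
    have := hD.2
    exact_mod_cast this
  · obtain ⟨h4, hb⟩ := vis k hk
    have e : Fin.natAdd 4 (⟨k.val - 4, by omega⟩ : Fin 14) = k := by
      apply Fin.ext
      have : (4 : ℕ) ≤ k.val := h4
      simp only [Fin.natAdd]
      omega
    have hq := W.all ⟨k.val - 4, by omega⟩ (by rw [e]; exact hks) (by rw [e]; exact hb)
    rw [mem_singleton] at hq
    rw [← e, hq]
    rcases hw with ⟨rfl, rfl, rfl⟩ | ⟨rfl, rfl, rfl⟩ <;> decide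

/-- **a stage of slope `2` at a resonant wall** has an interior tangent with the law of the wall -/
theorem exists_intLaw2 {P : Set (Fin 18 → ℝ)} {ν own : (Fin 18 → ℝ) → ℝ} {K : ℝ}
    {r0 : Fin 18 → ℝ} {θ : Fin 3 → ℝ} {g : ℝ} {qq : Fin 3 → ℝ} {V0 T : Set (Fin 18)}
    {lam lo : (Fin 18 → ℝ) → ℝ} {q j : Fin 14} {Vp : Fin 4} (hw : Wl2 q Vp j)
    (W : RL626.WallJ θ 2 j {q}) (h : CtxW P ν own K r0 θ g qq V0 T)
    (hst : StW P ν own K r0 θ g qq V0 2 lam lo) (hs : ∀ k ∈ V0, KW θ k ≤ 2)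
    (vis : ∀ k ∈ V0, 4 ≤ k ∧ 0 < btW θ k) :
    ∃ z : ℝ × ℝ, z.1 < 0 ∧ ∃ k : ℕ → ℝ, (∀ l, 0 < k l) ∧ Tendsto k atTop (𝓝 0) ∧
      ∃ (lamI loI : (Fin 18 → ℝ) → ℝ),
        IsTan (cn QW (actW (DrW 2))) (cn QW (actW (DrW 2))) lam
          (fun _ => Dg262.X 0 (TW 2) (btW θ) z) k lamI ∧
        IsTan (cn QW (actW (DrW 2))) (cn QW (actW (DrW 2))) lo
          (fun _ => Dg262.X 0 (TW 2) (btW θ) z) k loI ∧
        IntLaw θ 2 V0 (DrW 2) lamI j {q} := by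
  obtain ⟨z, hz, k, kpos, k0, lamI, loI, a, H1, H2, HF⟩ := Rt478.hasRigW h hst hs
    (q := q) (V := Vp) ⟨hw.hq, (W.pos q (mem_singleton_self q)).1⟩
  exact ⟨z, hz, k, kpos, k0, lamI, loI, H1, H2, hw.intLaw W vis HF⟩

end Crest.Agent.R136.RL66
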