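import Crest.Agent.R136.ReE8_436
import Crest.Agent.R136.WinE9_344
import Crest.Agent.R136.F2z_569
import Crest.Agent.R136.HR12_829
import Crest.Agent.R136.C1e_865
import Crest.Agent.R136.C1sH_940
import Crest.Agent.R138.KMs_630

/-!
# R136 (S0187): rows E and E3 of the thick table (helper436)
-/

set_option autoImplicit false

namespace Crest.Agent.R136.Re436

open Crest.Agent.R136.TopB550

/-- **row E** -/
theorem rowE {η : ℝ} (hη0 : 0 < η) (hη : η ≤ 1 / 8) : Dead η pE :=
  caseE (Crest.Agent.R136.WinC344.winE hη) (Crest.Agent.R136.F2w569.caseF2 hη)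
    (Crest.Agent.R136.HR829.caseA Crest.Agent.R138.KMs630.km32 η)
    (Crest.Agent.R136.C1865.caseC1 hη) (Crest.Agent.R136.C1s940.caseC1s hη0 hη)

/-- **row E3** -/
theorem rowE3 {η : ℝ} (hη0 : 0 < η) (hη : η ≤ 1 / 8) : DeadN η pE3 :=
  caseE3 (Crest.Agent.R136.F2w569.caseF2 hη)
    (Crest.Agent.R136.HR829.caseA Crest.Agent.R138.KMs630.km32 η)
    (Crest.Agent.R136.C1865.caseC1 hη) (Crest.Agent.R136.C1s940.caseC1s hη0 hη)

end Crest.Agent.R136.Re436
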