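import Crest.Agent.R138.TwF_501

/-!
# R136: [RIG-0] a function of the height which is not affine up to a power has `σ ≤ a` (helper501)

Chart free form of the K3core argument, read backwards: in pinned fibres where the normal
coordinate moves by `(z k - z k₀) ΔP - (f k - f k₀) ΔX`, with `(P, X)` of joint loss `≥ s t`,
and where the normal coordinate has at most `ρ^(-a x)` cells, `a < s < σ`, the function `f`
agrees with an affine function of `z` up to a power of `ρ` on a heavy set of heights.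
-/

set_option autoImplicit false
set_option linter.unusedVariables false
set_option linter.unusedSectionVars false

open Filter Topology Finset

namespace Crest.Agent.R136.Rg0_501

open Crest.Agent.R138.Ex926 (Base U)
open Crest.Agent.R138.TwA501 (ev_const ev_const_mul dpow_pos dpow_anti dpow_add dpow_le_one
  energy pair_sum_le)


open Classical in
/-- pairs of heights with many near slopes -/
noncomputable def bpr (Z : Finset ℕ) (z f : ℕ → ℝ) (r c s : ℝ) : Finset (ℕ × ℕ) :=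
  (Z ×ˢ Z).filter fun q => r ^ c ≤ |z q.2 - z q.1| ∧ r ^ s * Z.card ≤
    ((Z.filter fun k => r ^ c ≤ |z k - z q.1| ∧
      |(f k - f q.1) / (z k - z q.1) - (f q.2 - f q.1) / (z q.2 - z q.1)| ≤ r).card : ℝ)

/-- Markov for pins: all but `J θ` of the pins are good. -/
theorem markov_compl (Z : Finset ℕ) (J : ℕ) (bad : ℕ → Finset (ℕ × ℕ)) {θ : ℝ} (hθ : 0 < θ)
    (hbad : ∀ l ∈ range J, ((bad l).card : ℝ) ≤ θ ^ 2 * (Z.card : ℝ) ^ 2) :
    ((Z \ (Z.filter fun k₀ => ∀ l ∈ range J,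
      ((Z.filter fun k => (k₀, k) ∈ bad l).card : ℝ) ≤ θ * Z.card)).card : ℝ) ≤
        J * (θ * Z.card) := by
  classical
  rcases Z.eq_empty_or_nonempty with rfl | hne
  · simp
  have hZc : (0 : ℝ) < Z.card := by exact_mod_cast card_pos.2 hne
  have h1 : ∀ l ∈ range J, ((Z.filter fun k₀ => θ * (Z.card : ℝ) <
      ((Z.filter fun k => (k₀, k) ∈ bad l).card : ℝ)).card : ℝ) ≤ θ * Z.card := by
    intro l hl
    set W := Z.filter fun k₀ => θ * (Z.card : ℝ) < ((Z.filter fun k => (k₀, k) ∈ bad l).card : ℝ)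
      with hW
    have h2 : (W.card : ℝ) * (θ * Z.card) ≤ ∑ k₀ ∈ W, ((Z.filter fun k => (k₀, k) ∈ bad l).card : ℝ) := by
      rw [← nsmul_eq_mul, ← sum_const]
      refine sum_le_sum fun k₀ hk₀ => ?_
      rw [hW, mem_filter] at hk₀
      exact hk₀.2.le
    have h3 : ∑ k₀ ∈ W, ((Z.filter fun k => (k₀, k) ∈ bad l).card : ℝ) ≤ (bad l).card := by
      have h4 : ∑ k₀ ∈ W, (Z.filter fun k => (k₀, k) ∈ bad l).card =
          ((W ×ˢ Z).filter fun q => q ∈ bad l).card := by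
        rw [card_filter, sum_product]
        refine sum_congr rfl fun k₀ _ => ?_
        rw [card_filter]
      have h5 : ((W ×ˢ Z).filter fun q => q ∈ bad l).card ≤ (bad l).card :=
        card_le_card fun q hq => (mem_filter.1 hq).2
      have h6 : (∑ k₀ ∈ W, (Z.filter fun k => (k₀, k) ∈ bad l).card) ≤ (bad l).card := h4 ▸ h5
      exact_mod_cast h6
    have h7 := h2.trans (h3.trans (hbad l hl))
    have h8 : (W.card : ℝ) * (θ * Z.card) ≤ (θ * Z.card) * (θ * Z.card) := by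
      refine h7.trans (le_of_eq ?_); ring
    exact le_of_mul_le_mul_right h8 (by positivity)
  set W := Z.filter fun k₀ => ∀ l ∈ range J,
      ((Z.filter fun k => (k₀, k) ∈ bad l).card : ℝ) ≤ θ * Z.card with hW
  have h2 : Z \ W ⊆ (range J).biUnion fun l => Z.filter fun k₀ => θ * (Z.card : ℝ) <
      ((Z.filter fun k => (k₀, k) ∈ bad l).card : ℝ) := by
    intro k hk
    rw [Finset.mem_sdiff, hW, mem_filter] at hk
    have h3 : ¬ ∀ l ∈ range J, ((Z.filter fun k' => (k, k') ∈ bad l).card : ℝ) ≤ θ * Z.card :=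
      fun h => hk.2 ⟨hk.1, h⟩
    push Not at h3
    obtain ⟨l, hl, h4⟩ := h3
    rw [mem_biUnion]
    exact ⟨l, hl, mem_filter.2 ⟨hk.1, h4⟩⟩
  have h4 := (card_le_card h2).trans card_biUnion_le
  calc ((Z \ W).card : ℝ) ≤ ∑ l ∈ range J, ((Z.filter fun k₀ => θ * (Z.card : ℝ) <
      ((Z.filter fun k => (k₀, k) ∈ bad l).card : ℝ)).card : ℝ) := by exact_mod_cast h4
    _ ≤ ∑ l ∈ range J, θ * (Z.card : ℝ) := sum_le_sum h1
    _ = J * (θ * Z.card) := by rw [sum_const, nsmul_eq_mul, card_range]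

/-- Frostman at all radii `r ∈ [ρ^x, 1]` simultaneously. -/
theorem frost_all' (B : Base) (Z : ℕ → Finset ℕ) (z : ℕ → ℕ → ℝ) {σ x : ℝ} (hσ0 : 0 ≤ σ)
    (hσ1 : σ ≤ 1) (hx : 0 < x)
    (hfr : ∀ y : ℝ, 0 ≤ y → y ≤ x → ∀ ε : ℝ, 0 < ε → ∀ᶠ n in (U : Filter ℕ), ∀ k ∈ Z n,
      (((Z n).filter fun k' => |z n k' - z n k| ≤ B.d n ^ y).card : ℝ) ≤
        B.d n ^ (σ * y - ε) * ((Z n).card : ℝ)) {ε : ℝ} (hε : 0 < ε) :
    ∀ᶠ n in (U : Filter ℕ), ∀ r : ℝ, B.d n ^ x ≤ r → r ≤ 1 → ∀ k ∈ Z n,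
      (((Z n).filter fun k' => |z n k' - z n k| ≤ r).card : ℝ) ≤
        B.d n ^ (-ε) * r ^ σ * (Z n).card := by
  obtain ⟨J, hJ⟩ : ∃ J : ℕ, 2 * x / ε < J := exists_nat_gt _
  have hJ0 : (0 : ℝ) < J := lt_of_le_of_lt (by positivity) hJ
  have hJ1 : x / J ≤ ε / 2 := by
    rw [div_le_iff₀ hJ0]
    rw [div_lt_iff₀ hε] at hJ
    linarith
  have hnet : ∀ᶠ n in (U : Filter ℕ), ∀ j ∈ range (J + 1), ∀ k ∈ Z n,
      (((Z n).filter fun k' => |z n k' - z n k| ≤ B.d n ^ (x * (j / J))).card : ℝ) ≤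
        B.d n ^ (σ * (x * (j / J)) - ε / 2) * ((Z n).card : ℝ) := by
    rw [Filter.eventually_all_finset]
    intro j hj
    have hj1 : (j : ℝ) ≤ J := by
      have : j ≤ J := by simpa [Nat.lt_succ_iff] using hj
      exact_mod_cast this
    have h01 : (j : ℝ) / J ≤ 1 := by rw [div_le_one hJ0]; exact hj1
    refine hfr _ (by positivity) ?_ (ε / 2) (half_pos hε)
    nlinarith
  filter_upwards [hnet] with n hn r hr0 hr1 k hk
  have hrpos : 0 < r := (dpow_pos B n x).trans_le hr0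
  have hex : ∃ j ≤ J, r ≤ B.d n ^ (x * (j / J)) ∧ B.d n ^ (x * ((j + 1 : ℕ) / J)) ≤ r := by
    by_contra hcon
    push Not at hcon
    have hall : ∀ j ≤ J, r ≤ B.d n ^ (x * (j / J)) := by
      intro j
      induction j with
      | zero => intro _; simpa using hr1
      | succ j ih =>
        intro hj
        exact (hcon j (by omega) (ih (by omega))).le
    have h1 := hcon J le_rfl (hall J le_rfl)
    have h2 : B.d n ^ (x * ((J + 1 : ℕ) / J)) ≤ B.d n ^ x := by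
      refine dpow_anti B n ?_
      have : (1 : ℝ) ≤ ((J + 1 : ℕ) : ℝ) / J := by
        rw [le_div_iff₀ hJ0]; push_cast; linarith
      nlinarith
    linarith
  obtain ⟨j, hj, hj1, hj2⟩ := hex
  have h1 := hn j (by simp; omega) k hk
  have h2 : (((Z n).filter fun k' => |z n k' - z n k| ≤ r).card : ℝ) ≤
      (((Z n).filter fun k' => |z n k' - z n k| ≤ B.d n ^ (x * (j / J))).card : ℝ) := by
    have : ((Z n).filter fun k' => |z n k' - z n k| ≤ r) ⊆
        (Z n).filter fun k' => |z n k' - z n k| ≤ B.d n ^ (x * (j / J)) := by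
      intro k' hk'
      rw [mem_filter] at hk' ⊢
      exact ⟨hk'.1, hk'.2.trans hj1⟩
    exact_mod_cast card_le_card this
  refine h2.trans (h1.trans ?_)
  refine mul_le_mul_of_nonneg_right ?_ (Nat.cast_nonneg _)
  have h3 : (B.d n ^ (x * ((j + 1 : ℕ) / J))) ^ σ ≤ r ^ σ :=
    Real.rpow_le_rpow (dpow_pos B n _).le hj2 hσ0
  have h4 : (B.d n ^ (x * ((j + 1 : ℕ) / J))) ^ σ = B.d n ^ (x * ((j + 1 : ℕ) / J) * σ) :=
    (Real.rpow_mul (B.pos n).le _ _).symm
  rw [h4] at h3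
  calc B.d n ^ (σ * (x * (j / J)) - ε / 2)
      ≤ B.d n ^ (-ε + x * ((j + 1 : ℕ) / J) * σ) := by
        refine dpow_anti B n ?_
        have e1 : x * (((j + 1 : ℕ) : ℝ) / J) * σ = σ * (x * (j / J)) + σ * (x / J) := by
          push_cast; field_simp
        rw [e1]
        have : σ * (x / J) ≤ 1 * (ε / 2) :=
          mul_le_mul hσ1 hJ1 (by positivity) (by norm_num)
        linarith
    _ = B.d n ^ (-ε) * B.d n ^ (x * ((j + 1 : ℕ) / J) * σ) := dpow_add B n _ _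
    _ ≤ B.d n ^ (-ε) * r ^ σ := mul_le_mul_of_nonneg_left h3 (dpow_pos B n _).le

/-! ## few common heights of a pair of lines -/

open Classical in
/-- away from the bad pairs, two lines at distance `> w` have few common near heights -/
theorem few_common (Z K : Finset ℕ) (z f : ℕ → ℝ) (hzf : ∀ k ∈ Z, |z k| ≤ 1 ∧ |f k| ≤ 1)
    {k₀ : ℕ} (hk₀ : k₀ ∈ Z) (hKZ : K ⊆ Z) (Q : ℕ → Prop) {DP DX e s1 w t c s : ℝ}
    (hQ : ∀ k ∈ K, Q k → |(z k - z k₀) * DP - (f k - f k₀) * DX| ≤ e) (hs1 : 0 < s1)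
    (hs11 : s1 ≤ 1) (hw0 : 0 < w) (ht0 : 0 ≤ t) (hw : w < max |DP| |DX|)
    (he : 2 * e ≤ s1 * w) (hes : 8 * e ≤ t * (s1 ^ 2 * w)) (hrs : t ^ c ≤ s1)
    (hK : ∀ k ∈ K, s1 < |z k - z k₀| ∧ (k₀, k) ∉ bpr Z z f t c s) :
    ((K.filter Q).card : ℝ) ≤ t ^ s * Z.card := by
  rcases (K.filter Q).eq_empty_or_nonempty with h0 | ⟨k', hk'⟩
  · rw [h0, card_empty, Nat.cast_zero]
    exact mul_nonneg (Real.rpow_nonneg ht0 _) (Nat.cast_nonneg _)
  rw [mem_filter] at hk'
  obtain ⟨hk'K, hg'⟩ := hk'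
  have hk'Z := hKZ hk'K
  obtain ⟨hk's, hk'b⟩ := hK k' hk'K
  have hff : ∀ k ∈ Z, |f k - f k₀| ≤ 2 := by
    intro k hk
    refine (abs_sub _ _).trans ?_
    have := (hzf k hk).2; have := (hzf k₀ hk₀).2; linarith
  have h1 : ¬ (t ^ s * (Z.card : ℝ) ≤ ((Z.filter fun k => t ^ c ≤ |z k - z k₀| ∧
      |(f k - f k₀) / (z k - z k₀) - (f k' - f k₀) / (z k' - z k₀)| ≤ t).card : ℝ)) := by
    intro h2
    apply hk'b
    unfold bpr
    rw [mem_filter, mem_product]
    exact ⟨⟨hk₀, hk'Z⟩, hrs.trans hk's.le, h2⟩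
  refine le_trans ?_ (not_le.1 h1).le
  have h3 : K.filter Q ⊆ Z.filter fun k => t ^ c ≤ |z k - z k₀| ∧
      |(f k - f k₀) / (z k - z k₀) - (f k' - f k₀) / (z k' - z k₀)| ≤ t := by
    intro k hk
    rw [mem_filter] at hk ⊢
    obtain ⟨hkK, hg⟩ := hk
    obtain ⟨hks, -⟩ := hK k hkK
    refine ⟨hKZ hkK, hrs.trans hks.le, ?_⟩
    have h4 := Crest.Agent.R138.TwC501.root_slope (hQ k hkK hg) (hQ k' hk'K hg')
      (hff k (hKZ hkK)) hs1 hs11 hks.le hk's.le hw0 hw he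
    have h5 : 0 < s1 ^ 2 * w := by positivity
    exact le_of_mul_le_mul_right (h4.trans hes) h5
  exact_mod_cast card_le_card h3

end Crest.Agent.R136.Rg0_501
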