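import Crest.Agent.R136.Rg1_501
import Crest.Agent.R136.Gf3_356

/-!
# R136: **[RIG-0]** for the chart-free F-model of 356 (helper501)
-/

set_option autoImplicit false
set_option linter.unusedVariables false
set_option linter.unusedSectionVars false

open Filter Topology Finset

namespace Crest.Agent.R136.Rg2_501

open Crest.Agent.R138.Ex926 (Base U)
open Crest.Agent.R136.Gf356
open Crest.Agent.R136.Rg1_501

/-- the data of [RIG-0] in a chart-free F-model.  `i0` = one line; the pins are all heights at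
which `i0` is alive, the fibre of the pin `k₀` is `box pS (i0, k₀)`; `F` = normal coordinate,
`P`, `X` = velocity and lateral position at the pin (any functions), `f` = height function;
`pT` = box which contains the fibre at the other heights; `Q t` = box which contains two lines
of the fibre with `|ΔP|, |ΔX| ≤ ρ^t`. -/
structure RData {κ : Type} [Fintype κ] [DecidableEq κ] (B : Base) (G : ℕ → GCfg κ) (R : ℝ)
    (ν : (κ → ℝ) → ℝ) (i0 : ℕ → ℕ) (P X : ℕ → ℕ → ℕ → ℝ) (f : ℕ → ℕ → ℝ) (pS pT : κ → ℝ)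
    (F : κ) (Q : ℝ → κ → ℝ) (x s a C1 : ℝ) : Prop where
  x_pos : 0 < x
  x_le : x ≤ R
  C1_pos : 0 < C1
  line0 : ∀ᶠ n in (U : Filter ℕ), i0 n ∈ (G n).L
  bd : ∀ᶠ n in (U : Filter ℕ), ∀ k ∈ (G n).Z, |(G n).z k| ≤ 1 ∧ |f n k| ≤ 1
  memS : ∀ j, 0 ≤ pS j ∧ pS j ≤ R
  memT : ∀ j, 0 ≤ pT j ∧ pT j ≤ R
  memQ : ∀ t : ℝ, 0 ≤ t → t ≤ x → ∀ c, 0 ≤ Q t c ∧ Q t c ≤ R
  TF : pT F ≤ x
  one : ∀ᶠ n in (U : Filter ℕ), ∀ k₀ ∈ (G n).hts (i0 n), ∀ i ∈ (G n).box pS (i0 n) k₀,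
    ∀ i' ∈ (G n).box pS (i0 n) k₀, |P n k₀ i - P n k₀ i'| ≤ 1 ∧ |X n k₀ i - X n k₀ i'| ≤ 1
  mv : ∀ ε : ℝ, 0 < ε → ∀ᶠ n in (U : Filter ℕ), ∀ k₀ ∈ (G n).hts (i0 n), ∀ k ∈ (G n).Z,
    ∀ i ∈ (G n).box pS (i0 n) k₀, ∀ i' ∈ (G n).box pS (i0 n) k₀, (i, k) ∈ (G n).I →
    (i', k) ∈ (G n).I →
    |(G n).co k i F - (G n).co k i' F - (((G n).z k - (G n).z k₀) * (P n k₀ i - P n k₀ i') -
      (f n k - f n k₀) * (X n k₀ i - X n k₀ i'))| ≤ B.d n ^ (x - ε)
  inT : ∀ ε : ℝ, 0 < ε → ∀ᶠ n in (U : Filter ℕ), ∀ k₀ ∈ (G n).hts (i0 n), ∀ k ∈ (G n).Z,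
    ∀ i ∈ (G n).box pS (i0 n) k₀, ∀ i' ∈ (G n).box pS (i0 n) k₀, (i, k) ∈ (G n).I →
    (i', k) ∈ (G n).I → ∀ j, |(G n).co k i' j - (G n).co k i j| ≤ B.d n ^ (pT j - ε)
  inQ : ∀ t : ℝ, 0 ≤ t → t ≤ x → ∀ ε : ℝ, 0 < ε → ∀ᶠ n in (U : Filter ℕ),
    ∀ k₀ ∈ (G n).hts (i0 n), ∀ i ∈ (G n).box pS (i0 n) k₀, ∀ i' ∈ (G n).box pS (i0 n) k₀,
    |P n k₀ i' - P n k₀ i| ≤ B.d n ^ t → |X n k₀ i' - X n k₀ i| ≤ B.d n ^ t →
    ∀ c, |(G n).co k₀ i' c - (G n).co k₀ i c| ≤ B.d n ^ (Q t c - C1 * ε)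
  lossQ : ∀ t : ℝ, 0 ≤ t → t ≤ x → s * t ≤ ν pS - ν (Q t)
  lossF : ν pT - ν (Function.update pT F x) ≤ a * x

open Classical in
/-- **[RIG-0] for `GModel`** -/
theorem rig0_G {σ s a η : ℝ} (ha : 0 ≤ a) (has : a < s) (hsσ : s < σ) (hσ1 : σ ≤ 1)
    (hη : 0 < η) :
    ∃ θ : ℝ, 0 < θ ∧ θ ≤ 1 ∧ ∀ {κ : Type} [Fintype κ] [DecidableEq κ] {B : Base}
      {G : ℕ → GCfg κ} {R : ℝ} {ν : (κ → ℝ) → ℝ} (H : GModel B G σ R ν) (i0 : ℕ → ℕ)
      (P X : ℕ → ℕ → ℕ → ℝ) (f : ℕ → ℕ → ℝ) (pS pT : κ → ℝ) (F : κ) (Q : ℝ → κ → ℝ) (x C1 : ℝ),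
      RData B G R ν i0 P X f pS pT F Q x s a C1 →
      ∀ᶠ n in (U : Filter ℕ), ∃ w μ : ℝ, B.d n ^ x ≤ w ∧ w ≤ B.d n ^ (θ * x) ∧
        |μ| ≤ B.d n ^ (-(η * x)) ∧ ∃ k₁ ∈ (G n).Z, w ^ η * ((G n).Z.card : ℝ) ≤
          (((G n).Z.filter fun k =>
            |f n k - f n k₁ - μ * ((G n).z k - (G n).z k₁)| ≤ w).card : ℝ) := by
  obtain ⟨θ, hθ, hθ1, HE⟩ := rig0_ex ha has hsσ hσ1 hη
  refine ⟨θ, hθ, hθ1, ?_⟩
  intro κ _ _ B G R ν H i0 P X f pS pT F Q x C1 D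
  set m : ℝ := (Fintype.card κ : ℝ) with hm
  have hm0 : 0 ≤ m := Nat.cast_nonneg _
  have hhts : ∀ n i, (G n).hts i = (G n).Z.filter fun k => (i, k) ∈ (G n).I := by
    intro n i
    ext k
    rw [mem_hts, mem_filter]
  have hx := D.x_pos
  refine HE B (fun n => (G n).Z) (fun n => (G n).hts (i0 n)) (fun n => (G n).z) f
    (fun n k₀ => (G n).box pS (i0 n) k₀) (fun n i k => (i, k) ∈ (G n).I)
    (fun n k₀ k i => (G n).co k i F) P X x (2 * m + 4) hx (by positivity) D.bd ?_ ?_ ?_ ?_ ?_ ?_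
    ?_ ?_
  · -- Frostman
    intro y hy0 hyx ε hε
    filter_upwards [H.frost y hy0 (hyx.trans D.x_le) ε hε] with n hn k hk
    refine le_trans (le_of_eq ?_) (hn k hk)
    unfold GCfg.hbox
    rw [H.base n]
  · -- pins
    filter_upwards with n
    obtain ⟨⟨i1, k1⟩, hI1⟩ := H.nonempty n
    exact ⟨⟨k1, H.memZ hI1⟩, fun k hk => (mem_hts.1 hk).1⟩
  · intro ε hε
    filter_upwards [H.line ε hε, D.line0] with n hn h0
    exact hn _ h0
  · filter_upwards [D.one, D.line0] with n h1 h0 k₀ hk₀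
    exact ⟨⟨i0 n, H.self_mem_box (mem_hts.1 hk₀).2 pS⟩, h1 k₀ hk₀⟩
  · -- alive
    intro ε hε
    filter_upwards [H.line ε hε] with n hn k₀ hk₀ i hi
    have hiL := (mem_slice.1 (box_subset_slice hi)).1
    refine (hn i hiL).trans (le_of_eq ?_)
    rw [hhts]
    congr
  · exact D.mv
  · -- cells
    intro ε hε
    set r : κ → ℝ := Function.update pT F x with hr
    have hrm : ∀ j, 0 ≤ r j ∧ r j ≤ R := by
      intro j
      by_cases hj : j = F
      · subst hj; rw [hr, Function.update_self]; exact ⟨hx.le, D.x_le⟩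
      · rw [hr, Function.update_of_ne hj]; exact D.memT j
    have hTr : ∀ j, pT j ≤ r j := by
      intro j
      by_cases hj : j = F
      · subst hj; rw [hr, Function.update_self]; exact D.TF
      · rw [hr, Function.update_of_ne hj]
    filter_upwards [H.card_cells_loss pT r D.memT hrm hTr hε, D.inT ε hε] with n h1 h2 k₀ hk₀ k hk
    set T := ((G n).box pS (i0 n) k₀).filter fun i => (i, k) ∈ (G n).I with hTdef
    set w : κ → ℝ := Function.update (fun j => B.d n ^ pT j) F (B.d n ^ (x - ε)) with hw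
    have hwm : ∀ j, B.d n ^ r j ≤ w j ∧ w j ≤ B.d n ^ (pT j - ε) := by
      intro j
      by_cases hj : j = F
      · subst hj
        rw [hr, hw, Function.update_self, Function.update_self]
        exact ⟨rpow_anti B n (by linarith), rpow_anti B n (by linarith [D.TF])⟩
      · rw [hr, hw, Function.update_of_ne hj, Function.update_of_ne hj]
        exact ⟨le_rfl, rpow_anti B n (by linarith)⟩
    have h3 := h1 k T (by
      intro i hi
      exact H.memSlice.2 (Finset.mem_filter.1 hi).2) (by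
      intro i hi i' hi' j
      obtain ⟨a1, a2⟩ := Finset.mem_filter.1 hi
      obtain ⟨b1, b2⟩ := Finset.mem_filter.1 hi'
      exact h2 k₀ hk₀ k hk i a1 i' b1 a2 b2 j) w hwm
    have h4 : (T.image fun i => ⌊(G n).co k i F / B.d n ^ (x - ε)⌋).card ≤
        (T.image fun i => fun j => ⌊(G n).co k i j / w j⌋).card := by
      have : (T.image fun i => ⌊(G n).co k i F / B.d n ^ (x - ε)⌋) =
          (T.image fun i => fun j => ⌊(G n).co k i j / w j⌋).image fun c => c F := by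
        rw [Finset.image_image]
        apply Finset.image_congr
        intro i _
        simp only [Function.comp_apply, hw, Function.update_self]
      rw [this]
      exact Finset.card_image_le
    have h5 : (((T.image fun i => ⌊(G n).co k i F / B.d n ^ (x - ε)⌋).card : ℕ) : ℝ) ≤
        B.d n ^ (-(ν pT - ν r) - (2 * Fintype.card κ + 4) * ε) :=
      le_trans (by exact_mod_cast h4) h3
    refine le_trans (le_of_eq ?_) (h5.trans (rpow_anti B n ?_))
    · rw [hTdef]; congr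
    · have := D.lossF
      rw [← hm]
      linarith
  · -- close pairs
    intro t ht0 htx ε hε
    set ε' : ℝ := ε / ((m + 1) * C1 + 1) with hε'
    have hC1 := D.C1_pos
    have hden : 0 < (m + 1) * C1 + 1 := by positivity
    have hε'0 : 0 < ε' := by positivity
    have hεe : ((m + 1) * C1 + 1) * ε' = ε := by rw [hε']; field_simp
    filter_upwards [D.inQ t ht0 htx ε' hε'0, H.card_near_loss (Q t) (D.memQ t ht0 htx)
      (show 0 < C1 * ε' by positivity), H.unif pS D.memS ε' hε'0] with n h1 h2 h3 k₀ hk₀ i hi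
    have hI := H.memSlice.1 (box_subset_slice hi)
    have h4 := (h3 (i0 n) k₀ (mem_hts.1 hk₀).2).1
    have h5 : ((((G n).box pS (i0 n) k₀).filter fun i' => |P n k₀ i' - P n k₀ i| ≤ B.d n ^ t ∧
        |X n k₀ i' - X n k₀ i| ≤ B.d n ^ t).card : ℝ) ≤
          B.d n ^ (-ν (Q t) - (Fintype.card κ + 1) * (C1 * ε')) := by
      refine h2 i k₀ hI _ ((Finset.filter_subset _ _).trans box_subset_slice) ?_
      intro i' hi' c
      obtain ⟨a1, a2, a3⟩ := Finset.mem_filter.1 hi'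
      exact h1 k₀ hk₀ i hi i' a1 a2 a3 c
    refine le_trans (le_of_eq ?_) (h5.trans ?_)
    · congr
    · have h6 : B.d n ^ (-ν (Q t) - (Fintype.card κ + 1) * (C1 * ε')) ≤
          B.d n ^ (s * t - ε) * B.d n ^ (-ν pS + ε') := by
        rw [← rpow_add']
        refine rpow_anti B n ?_
        have := D.lossQ t ht0 htx
        rw [← hm]
        linarith
      exact h6.trans (mul_le_mul_of_nonneg_left h4 (rpos B n _).le)

end Crest.Agent.R136.Rg2_501
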