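import Crest.Agent.R136.Rg1_501

/-!
# R136: **[RIG-0]** with losses everywhere (helper501)

`rig0_exE`: as `rig0_ex`, but pins and fibres may depend on `ε` and all hypotheses are asked with
losses `ρ^(-C ε)` (the form needed for relative coordinates, `RUnif` of 356).
-/

set_option autoImplicit false
set_option linter.unusedVariables false
set_option linter.unusedSectionVars false

open Filter Topology Finset

namespace Crest.Agent.R136.Rg3_501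

open Crest.Agent.R138.Ex926 (Base U)
open Crest.Agent.R138.TwA501 (ev_const ev_const_mul dpow_pos dpow_anti dpow_add dpow_le_one)
open Crest.Agent.R136.Rg0_501 Crest.Agent.R136.Rg1_501

/-- the parameters of the proof -/
theorem paramsE {σ s a c x C C2 : ℝ} {J : ℕ} (ha : 0 ≤ a) (has : a < s) (hσ0 : 0 < σ)
    (hσ1 : σ ≤ 1) (hs1 : s < 1) (hc0 : 0 < c) (hc10 : c ≤ 1 / 10) (hx : 0 < x) (hC0 : 0 ≤ C)
    (hC2 : 0 ≤ C2) (hJ4 : 4 < (J : ℝ) * (s - a)) :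
    ∃ ε : ℝ, 0 < ε ∧ 0 < x / ((J : ℝ) + 1) ∧ ((J : ℝ) + 1) * (x / ((J : ℝ) + 1)) = x ∧
      C * ε < σ * (c * (x / ((J : ℝ) + 1))) - ε ∧ C * ε < c * (x / ((J : ℝ) + 1)) / 2 ∧
      C * ε + 2 * (c * (x / ((J : ℝ) + 1))) + x / ((J : ℝ) + 1) / 2 ≤ x / ((J : ℝ) + 1) ∧
      (s - a) * x / 4 + 2 * (C * ε) ≤
        s * (((J : ℝ) - 1) * (x / ((J : ℝ) + 1))) - a * x - 2 * C2 * ε ∧
      c * (x / ((J : ℝ) + 1)) ≤ x := by
  have hsa : 0 < s - a := sub_pos.2 has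
  have hJ0 : (0 : ℝ) < (J : ℝ) + 1 := by positivity
  set hh : ℝ := x / ((J : ℝ) + 1) with hhh
  have hh0 : 0 < hh := by positivity
  have hyh : ((J : ℝ) + 1) * hh = x := by rw [hhh]; field_simp
  have hCC : 0 < C + C2 + 1 := by linarith
  set ε : ℝ := min (σ * c * hh / 8) ((s - a) * x / 8) / (C + C2 + 1) with hε
  have hm0 : 0 < min (σ * c * hh / 8) ((s - a) * x / 8) := lt_min (by positivity) (by positivity)
  have hε0 : 0 < ε := by positivity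
  have hεm : (C + C2 + 1) * ε = min (σ * c * hh / 8) ((s - a) * x / 8) := by
    rw [hε]; field_simp
  have hεa : (C + C2 + 1) * ε ≤ σ * c * hh / 8 := hεm.trans_le (min_le_left _ _)
  have hεb : (C + C2 + 1) * ε ≤ (s - a) * x / 8 := hεm.trans_le (min_le_right _ _)
  clear_value ε hh
  have hCε : 0 ≤ C * ε := by positivity
  have hC2ε : 0 ≤ C2 * ε := by positivity
  have hsplit : (C + C2 + 1) * ε = C * ε + C2 * ε + ε := by ring
  have hch0 : 0 < c * hh := by positivity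
  have hσch : σ * (c * hh) ≤ 1 * (c * hh) := mul_le_mul_of_nonneg_right hσ1 hch0.le
  have hσch0 : 0 < σ * (c * hh) := by positivity
  have hch : c * hh ≤ 1 / 10 * hh := mul_le_mul_of_nonneg_right hc10 hh0.le
  have hεa' : C * ε + C2 * ε + ε ≤ σ * (c * hh) / 8 := by linarith
  have g0 : 4 * hh ≤ (J : ℝ) * (s - a) * hh := mul_le_mul_of_nonneg_right hJ4.le hh0.le
  have g1 : (s - a) * x = (J : ℝ) * (s - a) * hh + (s - a) * hh := by rw [← hyh]; ring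
  have g2 : 0 < (s - a) * hh := by positivity
  have g3 : s * (((J : ℝ) - 1) * hh) = s * x - 2 * (s * hh) := by rw [← hyh]; ring
  have g4 : s * hh ≤ 1 * hh := mul_le_mul_of_nonneg_right hs1.le hh0.le
  have g5 : (s - a) * x = s * x - a * x := by ring
  have g6 : hh ≤ x := by
    rw [← hyh]
    have : 0 ≤ (J : ℝ) * hh := by positivity
    linarith
  refine ⟨ε, hε0, hh0, hyh, by linarith, by linarith, by linarith, by linarith, by linarith⟩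

/-- the final comparison, with losses -/
theorem final_cmpE (B : Base) (n : ℕ) {J : ℕ} {s a x C C2 C0 ε hh : ℝ} (hs0 : 0 < s)
    (hh0 : 0 < hh) (hC0 : 0 ≤ C0)
    (hJs : (s - a) * x / 4 + 2 * (C * ε) ≤ s * (((J : ℝ) - 1) * hh) - a * x - 2 * C2 * ε)
    (hc5 : (8 * (C0 * C0) * ((J : ℝ) + 1)) * B.d n ^ ((s - a) * x / 4) ≤ 1)
    (key : (B.d n ^ (C * ε) / 2) ^ 2 ≤ C0 * B.d n ^ (-(a * x) - C2 * ε) * ∑ j ∈ range (J + 1),
      C0 * B.d n ^ (s * ((j : ℝ) * hh) - C2 * ε) *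
        (if j < J then B.d n ^ (s * (((J - 1 - j : ℕ) : ℝ) * hh)) else 1)) : False := by
  have hJ0 : (0 : ℝ) < (J : ℝ) + 1 := by positivity
  have hterm : ∀ j ∈ range (J + 1), C0 * B.d n ^ (s * ((j : ℝ) * hh) - C2 * ε) *
      (if j < J then B.d n ^ (s * (((J - 1 - j : ℕ) : ℝ) * hh)) else 1) ≤
        C0 * B.d n ^ (s * (((J : ℝ) - 1) * hh) - C2 * ε) := by
    intro j hj
    rw [mul_assoc]
    refine mul_le_mul_of_nonneg_left ?_ hC0
    by_cases hjJ : j < J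
    · rw [if_pos hjJ, ← dpow_add]
      refine dpow_anti B n (le_of_eq ?_)
      rw [cast_sub hjJ]; ring
    · rw [if_neg hjJ, mul_one]
      have : j = J := by
        have : j < J + 1 := by simpa using hj
        omega
      rw [this]
      refine dpow_anti B n ?_
      have : 0 ≤ s * hh := by positivity
      linarith
  have hsum := sum_le_sum hterm
  rw [sum_const, card_range, nsmul_eq_mul] at hsum
  have hM0 : 0 ≤ C0 * B.d n ^ (-(a * x) - C2 * ε) := mul_nonneg hC0 (dpow_pos B n _).le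
  have k1 := key.trans (mul_le_mul_of_nonneg_left hsum hM0)
  have k2 : C0 * B.d n ^ (-(a * x) - C2 * ε) *
      (((J + 1 : ℕ) : ℝ) * (C0 * B.d n ^ (s * (((J : ℝ) - 1) * hh) - C2 * ε))) =
      C0 * C0 * ((J : ℝ) + 1) * B.d n ^ (s * (((J : ℝ) - 1) * hh) - a * x - 2 * C2 * ε) := by
    have : s * (((J : ℝ) - 1) * hh) - a * x - 2 * C2 * ε =
      (-(a * x) - C2 * ε) + (s * (((J : ℝ) - 1) * hh) - C2 * ε) := by ring
    rw [this, dpow_add]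
    push_cast
    ring
  rw [k2] at k1
  have k4 : B.d n ^ (s * (((J : ℝ) - 1) * hh) - a * x - 2 * C2 * ε) ≤
      B.d n ^ ((s - a) * x / 4) * (B.d n ^ (C * ε)) ^ 2 := by
    rw [sq, ← dpow_add, ← dpow_add]
    refine dpow_anti B n ?_
    linarith
  have hu := dpow_pos B n (C * ε)
  have hu2 : 0 < (B.d n ^ (C * ε)) ^ 2 := by positivity
  have k5 : C0 * C0 * ((J : ℝ) + 1) *
      B.d n ^ (s * (((J : ℝ) - 1) * hh) - a * x - 2 * C2 * ε) ≤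
      1 / 8 * (B.d n ^ (C * ε)) ^ 2 := by
    calc _ ≤ C0 * C0 * ((J : ℝ) + 1) * (B.d n ^ ((s - a) * x / 4) * (B.d n ^ (C * ε)) ^ 2) :=
          mul_le_mul_of_nonneg_left k4 (by positivity)
      _ = 1 / 8 * ((8 * (C0 * C0) * ((J : ℝ) + 1)) * B.d n ^ ((s - a) * x / 4)) *
            (B.d n ^ (C * ε)) ^ 2 := by ring
      _ ≤ 1 / 8 * 1 * (B.d n ^ (C * ε)) ^ 2 := by
          refine mul_le_mul_of_nonneg_right ?_ hu2.le
          exact mul_le_mul_of_nonneg_left hc5 (by norm_num)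
      _ = _ := by ring
  have k8 := k1.trans k5
  have k9 : (B.d n ^ (C * ε) / 2) ^ 2 = 1 / 4 * (B.d n ^ (C * ε)) ^ 2 := by ring
  rw [k9] at k8
  linarith

open Classical in
/-- **[RIG-0]** with losses everywhere: the pins `P0 ε n` and the fibres `S ε n k₀` may depend
on `ε`. -/
theorem rig0_exE {σ s a η : ℝ} (ha : 0 ≤ a) (has : a < s) (hsσ : s < σ) (hσ1 : σ ≤ 1)
    (hη : 0 < η) :
    ∃ θ : ℝ, 0 < θ ∧ θ ≤ 1 ∧ ∀ (B : Base) (Z : ℕ → Finset ℕ) (P0 : ℝ → ℕ → Finset ℕ)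
      (z f : ℕ → ℕ → ℝ) (S : ℝ → ℕ → ℕ → Finset ℕ) (al : ℕ → ℕ → ℕ → Prop)
      (F : ℕ → ℕ → ℕ → ℕ → ℝ) (P X : ℕ → ℕ → ℕ → ℝ) (x C C2 C0 : ℝ), 0 < x → 0 ≤ C → 0 ≤ C2 →
      0 ≤ C0 →
      (∀ᶠ n in (U : Filter ℕ), (Z n).Nonempty ∧ ∀ k ∈ Z n, |z n k| ≤ 1 ∧ |f n k| ≤ 1) →
      (∀ y : ℝ, 0 ≤ y → y ≤ x → ∀ ε : ℝ, 0 < ε → ∀ᶠ n in (U : Filter ℕ), ∀ k ∈ Z n,
        ∀ T ⊆ Z n, (∀ k' ∈ T, |z n k' - z n k| ≤ B.d n ^ y) →
        (T.card : ℝ) ≤ B.d n ^ (σ * y - ε) * ((Z n).card : ℝ)) →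
      (∀ ε : ℝ, 0 < ε → ∀ᶠ n in (U : Filter ℕ), P0 ε n ⊆ Z n ∧
        B.d n ^ (C * ε) * ((Z n).card : ℝ) ≤ ((P0 ε n).card : ℝ)) →
      (∀ ε : ℝ, 0 < ε → ∀ᶠ n in (U : Filter ℕ), ∀ k₀ ∈ P0 ε n, (S ε n k₀).Nonempty ∧
        ∀ i ∈ S ε n k₀, ∀ i' ∈ S ε n k₀, |P n k₀ i - P n k₀ i'| ≤ B.d n ^ (-(C * ε)) ∧
          |X n k₀ i - X n k₀ i'| ≤ B.d n ^ (-(C * ε))) →
      (∀ ε : ℝ, 0 < ε → ∀ᶠ n in (U : Filter ℕ), ∀ k₀ ∈ P0 ε n, ∀ i ∈ S ε n k₀,
        ∀ T ⊆ Z n, (∀ k ∈ Z n, al n i k → k ∈ T) →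
        B.d n ^ (C * ε) * ((Z n).card : ℝ) ≤ (T.card : ℝ)) →
      (∀ ε : ℝ, 0 < ε → ∀ᶠ n in (U : Filter ℕ), ∀ k₀ ∈ P0 ε n, ∀ k ∈ Z n, ∀ i ∈ S ε n k₀,
        ∀ i' ∈ S ε n k₀, al n i k → al n i' k →
        |F n k₀ k i - F n k₀ k i' - ((z n k - z n k₀) * (P n k₀ i - P n k₀ i') -
          (f n k - f n k₀) * (X n k₀ i - X n k₀ i'))| ≤ B.d n ^ (x - C * ε)) →
      (∀ ε : ℝ, 0 < ε → ∀ᶠ n in (U : Filter ℕ), ∀ k₀ ∈ P0 ε n, ∀ k ∈ Z n,
        ∀ T ⊆ S ε n k₀, (∀ i ∈ T, al n i k) →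
        ((T.image fun i => ⌊F n k₀ k i / B.d n ^ (x - C * ε)⌋).card : ℝ) ≤
          C0 * B.d n ^ (-(a * x) - C2 * ε)) →
      (∀ t : ℝ, 0 ≤ t → t ≤ x → ∀ ε : ℝ, 0 < ε → ∀ᶠ n in (U : Filter ℕ), ∀ k₀ ∈ P0 ε n,
        ∀ i ∈ S ε n k₀, ∀ T ⊆ S ε n k₀, (∀ i' ∈ T,
          |P n k₀ i' - P n k₀ i| ≤ B.d n ^ (t - C * ε) ∧
          |X n k₀ i' - X n k₀ i| ≤ B.d n ^ (t - C * ε)) →
        (T.card : ℝ) ≤ C0 * B.d n ^ (s * t - C2 * ε) * ((S ε n k₀).card : ℝ)) →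
      ∀ᶠ n in (U : Filter ℕ), ∃ w μ : ℝ, B.d n ^ x ≤ w ∧ w ≤ B.d n ^ (θ * x) ∧
        |μ| ≤ B.d n ^ (-(η * x)) ∧ ∃ k₁ ∈ Z n, w ^ η * ((Z n).card : ℝ) ≤
          (((Z n).filter fun k => |f n k - f n k₁ - μ * (z n k - z n k₁)| ≤ w).card : ℝ) := by
  have hs0 : 0 < s := ha.trans_lt has
  have hσ0 : 0 < σ := hs0.trans hsσ
  have hs1 : s < 1 := hsσ.trans_le hσ1
  obtain ⟨α, c, hα, hα1, hc0, hc10, HB⟩ := few_bad' hσ0 hs0 hsσ hσ1 hη
  obtain ⟨J, hJ⟩ : ∃ J : ℕ, 4 / (s - a) < J := exists_nat_gt _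
  have hsa : 0 < s - a := sub_pos.2 has
  have hJ0 : (0 : ℝ) < (J : ℝ) + 1 := by positivity
  have hJ4 : 4 < (J : ℝ) * (s - a) := by rwa [div_lt_iff₀ hsa] at hJ
  refine ⟨α / (J + 1), by positivity, ?_, ?_⟩
  · rw [div_le_one hJ0]
    linarith [Nat.cast_nonneg (α := ℝ) J]
  intro B Z P0 z f S al F P X x C C2 C0 hx hC hC2 hC0 hzf0 hfrT hP0 hSPX hal hF hcell hnear
  by_contra hcon
  rw [← Ultrafilter.eventually_not] at hcon
  obtain ⟨ε, hε0, hh0, hyh, hp1, hp2, hp3, hp4, hp5⟩ :=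
    paramsE ha has hσ0 hσ1 hs1 hc0 hc10 hx hC hC2 hJ4
  have hθx : α / ((J : ℝ) + 1) * x = α * (x / ((J : ℝ) + 1)) := by ring
  rw [hθx] at hcon
  set hh : ℝ := x / ((J : ℝ) + 1) with hhh
  clear_value hh
  have hzf : ∀ᶠ n in (U : Filter ℕ), ∀ k ∈ Z n, |z n k| ≤ 1 ∧ |f n k| ≤ 1 := by
    filter_upwards [hzf0] with n hn using hn.2
  have hfr : ∀ y : ℝ, 0 ≤ y → y ≤ x → ∀ ε : ℝ, 0 < ε → ∀ᶠ n in (U : Filter ℕ), ∀ k ∈ Z n,
      (((Z n).filter fun k' => |z n k' - z n k| ≤ B.d n ^ y).card : ℝ) ≤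
        B.d n ^ (σ * y - ε) * ((Z n).card : ℝ) := by
    intro y hy0 hyx ε hε
    filter_upwards [hfrT y hy0 hyx ε hε] with n hn k hk
    exact hn k hk _ (filter_subset _ _) fun k' hk' => (mem_filter.1 hk').2
  have hbadAll := HB B Z z f x hh J hh0 hyh hzf hfr hcon
  have hnearAll : ∀ᶠ n in (U : Filter ℕ), ∀ j ∈ range (J + 1), ∀ k₀ ∈ P0 ε n,
      ∀ i ∈ S ε n k₀, ∀ T ⊆ S ε n k₀, (∀ i' ∈ T,
          |P n k₀ i' - P n k₀ i| ≤ B.d n ^ ((j : ℝ) * hh - C * ε) ∧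
          |X n k₀ i' - X n k₀ i| ≤ B.d n ^ ((j : ℝ) * hh - C * ε)) →
        (T.card : ℝ) ≤ C0 * B.d n ^ (s * ((j : ℝ) * hh) - C2 * ε) *
          ((S ε n k₀).card : ℝ) := by
    rw [Filter.eventually_all_finset]
    intro j hj
    have h1 : (j : ℝ) ≤ J := by
      have : j ≤ J := by simpa [Nat.lt_succ_iff] using hj
      exact_mod_cast this
    refine hnear _ (by positivity) ?_ ε hε0
    rw [← hyh]
    exact mul_le_mul_of_nonneg_right (by linarith) hh0.le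
  have hchh : 0 ≤ c * hh := by positivity
  have hsx : 0 < (s - a) * x / 4 := by positivity
  suffices hfalse : ∀ᶠ n in (U : Filter ℕ), False by
    obtain ⟨n, hn⟩ := hfalse.exists
    exact hn
  filter_upwards [hbadAll, hnearAll, hfr (c * hh) hchh hp5 ε hε0, hzf0, hP0 ε hε0, hSPX ε hε0,
    hal ε hε0, hF ε hε0, hcell ε hε0, ev_const_mul B 4 hp1, ev_const_mul B (4 * (J : ℝ)) hp2,
    ev_const B 16 (half_pos hh0), ev_const B (8 * (C0 * C0) * ((J : ℝ) + 1)) hsx]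
    with n hbad hnr hfrn hzfn0 hP0n hSPXn haln hFn hcelln hc1 hc2 hc3 hc5
  obtain ⟨hZne, hzfn⟩ := hzfn0
  obtain ⟨hPZ, hP0c⟩ := hP0n
  have hZc : (0 : ℝ) < (Z n).card := by exact_mod_cast card_pos.2 hZne
  have hde : 0 < B.d n ^ (C * ε) := dpow_pos B n _
  obtain ⟨k₀, hk₀P, K, hKZ, hKc, hK⟩ := good_pin (Z n) (P0 ε n) (z n) (f n) J
    (fun l => bpr (Z n) (z n) (f n) (B.d n ^ (((l + 1 : ℕ) : ℝ) * hh)) c s)
    (θ := B.d n ^ (c * hh / 2)) (de := B.d n ^ (C * ε)) (s1 := B.d n ^ (c * hh))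
    (dpow_pos B n _) hde hZne hPZ hbad hc2 hP0c (fun k hk => by
      refine (hfrn k hk).trans ?_
      refine mul_le_mul_of_nonneg_right ?_ hZc.le
      linarith)
  obtain ⟨hSne, hPX⟩ := hSPXn k₀ hk₀P
  have hk₀ : k₀ ∈ Z n := hPZ hk₀P
  have halK : ∀ i ∈ S ε n k₀, B.d n ^ (C * ε) / 2 * ((Z n).card : ℝ) ≤
      ((K.filter fun k => al n i k).card : ℝ) := by
    intro i hi
    have g1 := haln k₀ hk₀P i hi ((Z n).filter fun k => al n i k) (filter_subset _ _)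
      (fun k hk h => mem_filter.2 ⟨hk, h⟩)
    have g2 : (Z n).filter (fun k => al n i k) ⊆ (K.filter fun k => al n i k) ∪ (Z n \ K) := by
      intro k hk
      rw [mem_filter] at hk
      rw [Finset.mem_union, mem_filter, Finset.mem_sdiff]
      by_cases hkK : k ∈ K
      · exact Or.inl ⟨hkK, hk.2⟩
      · exact Or.inr ⟨hk.1, hkK⟩
    have g3 : (((Z n).filter fun k => al n i k).card : ℝ) ≤
        ((K.filter fun k => al n i k).card : ℝ) + (((Z n) \ K).card : ℝ) := by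
      exact_mod_cast (card_le_card g2).trans (card_union_le _ _)
    linarith
  have key := kauf_fin (Z n) K (S ε n k₀) (z n) (f n) (al n) (F n k₀) (P n k₀) (X n k₀)
    (k₀ := k₀) (J := J) (r := B.d n ^ (x - C * ε)) (M := C0 * B.d n ^ (-(a * x) - C2 * ε))
    (m := B.d n ^ (C * ε) / 2)
    (fun j => B.d n ^ ((j : ℝ) * hh - C * ε))
    (fun j => C0 * B.d n ^ (s * ((j : ℝ) * hh) - C2 * ε))
    (fun j => if j < J then B.d n ^ (s * (((J - 1 - j : ℕ) : ℝ) * hh)) else 1) hKZ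
    (dpow_pos B n _) (by positivity) (mul_nonneg hC0 (dpow_pos B n _).le)
    (fun k hk i hi i' hi' h1 h2 => hFn k₀ hk₀P k (hKZ hk) i hi i' hi' h1 h2)
    (fun k hk => hcelln k₀ hk₀P k (hKZ hk) _ (filter_subset _ _)
      (fun i hi => (mem_filter.1 hi).2)) halK
    (by
      intro i hi i' hi'
      simp only [Nat.cast_zero, zero_mul, zero_sub]
      exact max_le (hPX i hi i' hi').1 (hPX i hi i' hi').2)
    (by
      intro j hj
      split_ifs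
      · exact (dpow_pos B n _).le
      · exact zero_le_one)
    (by
      intro j hj i hi i' hi' hD
      rw [if_pos hj]
      have hD' : B.d n ^ (((j + 1 : ℕ) : ℝ) * hh) <
          max |P n k₀ i - P n k₀ i'| |X n k₀ i - X n k₀ i'| := by
        refine lt_of_le_of_lt (dpow_anti B n ?_) hD
        have : 0 ≤ C * ε := by positivity
        linarith
      exact few_common_mesh B n (Z n) K (z n) (f n) hzfn hk₀ hKZ hj hh0 hc0 hyh hp3 hc3 hK hD')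
    (by simp)
    (by
      intro j hj i hi
      refine hnr j (by simp; omega) k₀ hk₀P i hi _ (filter_subset _ _) ?_
      intro i' hi'
      rw [mem_filter, max_le_iff] at hi'
      rw [abs_sub_comm, abs_sub_comm (X n k₀ i')]
      exact hi'.2)
    hSne hZne
  exact final_cmpE B n hs0 hh0 hC0 hp4 hc5 key

end Crest.Agent.R136.Rg3_501
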