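import Crest.Agent.R136.Rg3_501
import Crest.Agent.R136.Gr2_356

/-!
# R136: **[RIG-0]** for the relative charts with walls of 356 (helper501)
-/

set_option autoImplicit false
set_option linter.unusedVariables false
set_option linter.unusedSectionVars false

open Filter Topology Finset

namespace Crest.Agent.R136.Rg4_501

open Crest.Agent.R138.Ex926 (Base U)
open Crest.Agent.R136.Gf356
open Crest.Agent.R136.Rg3_501

/-- the data of [RIG-0] over `RUnif`.  `i0` = one line, `Z` = good heights, `P0 ⊆ Z` = pins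
(heights at which `i0` is alive), fibre of the pin `k₀` = `box pS ε (i0, k₀)`; `F n k₀ k i` =
normal coordinate of the line `i` at the height `k` (any function), `P`, `X` = velocity and lateral
position at the pin (any functions), `f` = height function; `pT` = box which contains the fibre at
the other heights, `r ≥ pT` = box on which `F` is constant up to `ρ^x`; `Q t` = box which contains
two lines of the fibre with `|ΔP|, |ΔX| ≤ ρ^t`. -/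
structure RDataR {κ : Type} (B : Base) (G : ℕ → RCfg κ) (Leg : Set (κ → ℝ)) (ν : (κ → ℝ) → ℝ)
    (i0 : ℕ → ℕ) (Z P0 : ℕ → Finset ℕ) (z f : ℕ → ℕ → ℝ) (F : ℕ → ℕ → ℕ → ℕ → ℝ)
    (P X : ℕ → ℕ → ℕ → ℝ) (pS pT r : κ → ℝ) (Q : ℝ → κ → ℝ) (σ x s a C1 C4 : ℝ) : Prop where
  x_pos : 0 < x
  C1_nonneg : 0 ≤ C1
  C4_pos : 0 < C4
  bd : ∀ᶠ n in (U : Filter ℕ), (Z n).Nonempty ∧ ∀ k ∈ Z n, |z n k| ≤ 1 ∧ |f n k| ≤ 1
  frost : ∀ y : ℝ, 0 ≤ y → y ≤ x → ∀ ε : ℝ, 0 < ε → ∀ᶠ n in (U : Filter ℕ), ∀ k ∈ Z n,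
    ∀ T ⊆ Z n, (∀ k' ∈ T, |z n k' - z n k| ≤ B.d n ^ y) →
    (T.card : ℝ) ≤ B.d n ^ (σ * y - ε) * ((Z n).card : ℝ)
  pins : ∀ ε : ℝ, 0 < ε → ∀ᶠ n in (U : Filter ℕ), P0 n ⊆ Z n ∧
    B.d n ^ (C1 * ε) * ((Z n).card : ℝ) ≤ ((P0 n).card : ℝ)
  pinI : ∀ᶠ n in (U : Filter ℕ), ∀ k₀ ∈ P0 n, (i0 n, k₀) ∈ (G n).I
  legS : pS ∈ Leg
  legT : pT ∈ Leg
  legr : r ∈ Leg
  Tr : ∀ j, pT j ≤ r j
  legQ : ∀ t : ℝ, 0 ≤ t → t ≤ x → Q t ∈ Leg
  one : ∀ ε : ℝ, 0 < ε → ∀ᶠ n in (U : Filter ℕ), ∀ k₀ ∈ P0 n,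
    ∀ i ∈ (G n).box pS ε (i0 n) k₀, ∀ i' ∈ (G n).box pS ε (i0 n) k₀,
    |P n k₀ i - P n k₀ i'| ≤ B.d n ^ (-(C1 * ε)) ∧ |X n k₀ i - X n k₀ i'| ≤ B.d n ^ (-(C1 * ε))
  alive : ∀ ε : ℝ, 0 < ε → ∀ᶠ n in (U : Filter ℕ), ∀ k₀ ∈ P0 n,
    ∀ i ∈ (G n).box pS ε (i0 n) k₀, ∀ T ⊆ Z n, (∀ k ∈ Z n, (i, k) ∈ (G n).I → k ∈ T) →
    B.d n ^ (C1 * ε) * ((Z n).card : ℝ) ≤ (T.card : ℝ)
  mv : ∀ ε : ℝ, 0 < ε → ∀ᶠ n in (U : Filter ℕ), ∀ k₀ ∈ P0 n, ∀ k ∈ Z n,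
    ∀ i ∈ (G n).box pS ε (i0 n) k₀, ∀ i' ∈ (G n).box pS ε (i0 n) k₀, (i, k) ∈ (G n).I →
    (i', k) ∈ (G n).I →
    |F n k₀ k i - F n k₀ k i' - ((z n k - z n k₀) * (P n k₀ i - P n k₀ i') -
      (f n k - f n k₀) * (X n k₀ i - X n k₀ i'))| ≤ B.d n ^ (x - C1 * ε)
  link : ∀ ε : ℝ, 0 < ε → ∀ᶠ n in (U : Filter ℕ), ∀ k₀ ∈ P0 n, ∀ k ∈ Z n,
    ∀ i ∈ (G n).box pS ε (i0 n) k₀, (i, k) ∈ (G n).I → ∀ l, (l, k) ∈ (G n).I →
    (G n).loose r ε k i l → |F n k₀ k l - F n k₀ k i| ≤ B.d n ^ (x - C1 * ε)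
  inT : ∀ ε : ℝ, 0 < ε → ∀ᶠ n in (U : Filter ℕ), ∀ k₀ ∈ P0 n, ∀ k ∈ Z n,
    ∀ i ∈ (G n).box pS ε (i0 n) k₀, ∀ i' ∈ (G n).box pS ε (i0 n) k₀, (i, k) ∈ (G n).I →
    (i', k) ∈ (G n).I → (G n).loose pT (C1 * ε) k i i'
  inQ : ∀ t : ℝ, 0 ≤ t → t ≤ x → ∀ ε : ℝ, 0 < ε → ∀ᶠ n in (U : Filter ℕ), ∀ k₀ ∈ P0 n,
    ∀ i ∈ (G n).box pS ε (i0 n) k₀, ∀ i' ∈ (G n).box pS ε (i0 n) k₀,
    |P n k₀ i' - P n k₀ i| ≤ B.d n ^ (t - C1 * ε) →
    |X n k₀ i' - X n k₀ i| ≤ B.d n ^ (t - C1 * ε) → (G n).loose (Q t) (C4 * ε) k₀ i i'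
  lossQ : ∀ t : ℝ, 0 ≤ t → t ≤ x → s * t ≤ ν pS - ν (Q t)
  lossF : ν pT - ν r ≤ a * x

open Classical in
/-- **[RIG-0] for `RUnif`** -/
theorem rig0_R {σ s a η : ℝ} (ha : 0 ≤ a) (has : a < s) (hsσ : s < σ) (hσ1 : σ ≤ 1)
    (hη : 0 < η) :
    ∃ θ : ℝ, 0 < θ ∧ θ ≤ 1 ∧ ∀ {κ : Type} {B : Base} {G : ℕ → RCfg κ} {Leg : Set (κ → ℝ)}
      {ν : (κ → ℝ) → ℝ} {D : ℝ} (H : RUnif B G Leg ν D) (i0 : ℕ → ℕ) (Z P0 : ℕ → Finset ℕ)
      (z f : ℕ → ℕ → ℝ) (F : ℕ → ℕ → ℕ → ℕ → ℝ) (P X : ℕ → ℕ → ℕ → ℝ) (pS pT r : κ → ℝ)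
      (Q : ℝ → κ → ℝ) (x C1 C4 : ℝ),
      RDataR B G Leg ν i0 Z P0 z f F P X pS pT r Q σ x s a C1 C4 →
      ∀ᶠ n in (U : Filter ℕ), ∃ w μ : ℝ, B.d n ^ x ≤ w ∧ w ≤ B.d n ^ (θ * x) ∧
        |μ| ≤ B.d n ^ (-(η * x)) ∧ ∃ k₁ ∈ Z n, w ^ η * ((Z n).card : ℝ) ≤
          (((Z n).filter fun k => |f n k - f n k₁ - μ * (z n k - z n k₁)| ≤ w).card : ℝ) := by
  obtain ⟨θ, hθ, hθ1, HE⟩ := rig0_exE ha has hsσ hσ1 hη
  refine ⟨θ, hθ, hθ1, ?_⟩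
  intro κ B G Leg ν D H i0 Z P0 z f F P X pS pT r Q x C1 C4 A
  have hx := A.x_pos
  have hC1 := A.C1_nonneg
  have hC4 := A.C4_pos
  have hD := H.D1
  have hD0 : 0 < D := by linarith
  set C2 : ℝ := D * (D * (C1 + 1)) + D * C4 + 3 with hC2
  have hDD : 0 ≤ D * (D * (C1 + 1)) := by positivity
  have hDC4 : 0 ≤ D * C4 := by positivity
  refine HE B Z (fun _ n => P0 n) z f (fun ε n k₀ => (G n).box pS ε (i0 n) k₀)
    (fun n i k => (i, k) ∈ (G n).I) F P X x C1 C2 3 hx hC1 (by linarith) (by norm_num) A.bd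
    A.frost A.pins ?_ A.alive A.mv ?_ ?_
  · intro ε hε
    filter_upwards [A.one ε hε, A.pinI] with n h1 h0 k₀ hk₀
    exact ⟨⟨i0 n, H.self_mem_box pS ε (h0 k₀ hk₀)⟩, h1 k₀ hk₀⟩
  · -- cells
    intro ε hε
    have hCε : 0 < (C1 + 1) * ε := by positivity
    filter_upwards [H.sub_loose_box pT r A.legT A.Tr hCε,
      H.up pT A.legT (D * ((C1 + 1) * ε)) (by positivity), H.low r A.legr ε hε, A.inT ε hε,
      A.link ε hε] with n h1 h2 h3 h4 h5 k₀ hk₀ k hk T hTS hTal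
    have hpow : ∀ t : ℝ, 0 < B.d n ^ t := fun t => rpos B n t
    rcases T.eq_empty_or_nonempty with hTe | ⟨t0, ht0⟩
    · rw [hTe]
      simp only [image_empty, card_empty, Nat.cast_zero]
      exact mul_nonneg (by norm_num) (hpow _).le
    have b1 := hTS ht0
    have b2 := hTal t0 ht0
    have key := cells_le_abs T ((G n).box pT (D * ((C1 + 1) * ε)) t0 k)
      (fun i (_ : Unit) => F n k₀ k i)
      (fun _ => B.d n ^ (x - C1 * ε)) (fun _ => hpow _) (m0 := B.d n ^ (-ν r + ε)) (by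
        intro i hi
        have a1 := hTS hi
        have a2 := hTal i hi
        have hl1 : (G n).loose pT ((C1 + 1) * ε) k t0 i :=
          H.loose_mono (fun _ => le_rfl) (by nlinarith) (h4 k₀ hk₀ k hk t0 b1 i a1 b2 a2)
        refine ⟨(G n).box r ε i k, ?_, ?_, h3 i k a2⟩
        · intro l hl
          have hl2 := RCfg.mem_box.1 hl
          exact h1 k t0 i b2 a2 hl1 (RCfg.mem_box.2 ⟨hl2.1,
            H.loose_mono (fun _ => le_rfl) (by nlinarith) hl2.2⟩)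
        · intro l hl _
          obtain ⟨l1, l2⟩ := RCfg.mem_box.1 hl
          exact h5 k₀ hk₀ k hk i a1 a2 l (H.memSlice.1 l1) l2)
    simp only [Fintype.card_unit, pow_one] at key
    have e0 : (T.image fun i => ⌊F n k₀ k i / B.d n ^ (x - C1 * ε)⌋).card ≤
        (T.image fun i => fun _ : Unit => ⌊F n k₀ k i / B.d n ^ (x - C1 * ε)⌋).card := by
      have : (T.image fun i => ⌊F n k₀ k i / B.d n ^ (x - C1 * ε)⌋) =
          (T.image fun i => fun _ : Unit => ⌊F n k₀ k i / B.d n ^ (x - C1 * ε)⌋).image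
            fun c => c () := by
        rw [Finset.image_image]
        rfl
      rw [this]
      exact Finset.card_image_le
    have e1 : B.d n ^ (-ν r + ε) * B.d n ^ (ν r - ε) = 1 := by
      rw [← rpow_add']
      have : -ν r + ε + (ν r - ε) = 0 := by ring
      rw [this, Real.rpow_zero]
    calc (((T.image fun i => ⌊F n k₀ k i / B.d n ^ (x - C1 * ε)⌋).card : ℕ) : ℝ)
        ≤ ((T.image fun i => fun _ : Unit => ⌊F n k₀ k i / B.d n ^ (x - C1 * ε)⌋).card : ℝ) := by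
          exact_mod_cast e0
      _ = ((T.image fun i => fun _ : Unit => ⌊F n k₀ k i / B.d n ^ (x - C1 * ε)⌋).card : ℝ) *
          B.d n ^ (-ν r + ε) * B.d n ^ (ν r - ε) := by rw [mul_assoc, e1, mul_one]
      _ ≤ 3 * (((G n).box pT (D * ((C1 + 1) * ε)) t0 k).card : ℝ) * B.d n ^ (ν r - ε) :=
          mul_le_mul_of_nonneg_right key (hpow _).le
      _ ≤ 3 * B.d n ^ (-ν pT - D * (D * ((C1 + 1) * ε))) * B.d n ^ (ν r - ε) := by
          refine mul_le_mul_of_nonneg_right ?_ (hpow _).le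
          exact mul_le_mul_of_nonneg_left (h2 t0 k b2) (by norm_num)
      _ = 3 * B.d n ^ (-(ν pT - ν r) - (D * (D * (C1 + 1)) + 1) * ε) := by
          rw [mul_assoc, ← rpow_add']
          congr 2
          ring
      _ ≤ _ := by
          refine mul_le_mul_of_nonneg_left (rpow_anti B n ?_) (by norm_num)
          have g1 := A.lossF
          have g2 : 0 ≤ (D * C4 + 2) * ε := by positivity
          have g3 : C2 * ε = (D * (D * (C1 + 1)) + 1) * ε + (D * C4 + 2) * ε := by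
            rw [hC2]; ring
          linarith
  · -- close pairs
    intro t ht0 htx ε hε
    filter_upwards [A.inQ t ht0 htx ε hε, H.up (Q t) (A.legQ t ht0 htx) (C4 * ε) (by positivity),
      H.low pS A.legS ε hε, A.pinI] with n h1 h2 h3 h0 k₀ hk₀ i hi T hTS hT
    have hI := H.memSlice.1 (RCfg.box_subset_slice hi)
    have hsub : T ⊆ (G n).box (Q t) (C4 * ε) i k₀ := by
      intro i' hi'
      have a1 := hTS hi'
      obtain ⟨a2, a3⟩ := hT i' hi'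
      exact RCfg.mem_box.2 ⟨RCfg.box_subset_slice a1, h1 k₀ hk₀ i hi i' a1 a2 a3⟩
    have h4 := h3 (i0 n) k₀ (h0 k₀ hk₀)
    have h5 : (T.card : ℝ) ≤ B.d n ^ (-ν (Q t) - D * (C4 * ε)) :=
      le_trans (mod_cast Finset.card_le_card hsub) (h2 i k₀ hI)
    have h6 : B.d n ^ (-ν (Q t) - D * (C4 * ε)) ≤
        B.d n ^ (s * t - C2 * ε) * B.d n ^ (-ν pS + ε) := by
      rw [← rpow_add']
      refine rpow_anti B n ?_
      have g1 := A.lossQ t ht0 htx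
      have g2 : 0 ≤ (D * (D * (C1 + 1)) + 2) * ε := by positivity
      have g3 : C2 * ε = D * (C4 * ε) + ε + (D * (D * (C1 + 1)) + 2) * ε := by
        rw [hC2]; ring
      linarith
    have h7 : B.d n ^ (s * t - C2 * ε) * B.d n ^ (-ν pS + ε) ≤
        B.d n ^ (s * t - C2 * ε) * (((G n).box pS ε (i0 n) k₀).card : ℝ) :=
      mul_le_mul_of_nonneg_left h4 (rpos B n _).le
    have h8 : 0 ≤ B.d n ^ (s * t - C2 * ε) * (((G n).box pS ε (i0 n) k₀).card : ℝ) :=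
      mul_nonneg (rpos B n _).le (Nat.cast_nonneg _)
    linarith

end Crest.Agent.R136.Rg4_501
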