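import Crest.Agent.R136.Rg3_501

/-!
# R136: **[RIG-0]** with labels (helper501)

`rig0_lab`: as `rig0_exE`, but the pin data are relative (`DP n k₀ i i'`, `DX n k₀ i i'`) and the
cells of the normal coordinate are given by labels: no absolute coordinate is used.
-/

set_option autoImplicit false
set_option linter.unusedVariables false
set_option linter.unusedSectionVars false

open Filter Topology Finset

namespace Crest.Agent.R136.Rg5_501

open Crest.Agent.R138.Ex926 (Base U)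
open Crest.Agent.R138.TwA501 (ev_const ev_const_mul dpow_pos dpow_anti dpow_add dpow_le_one
  energy pair_sum_le)
open Crest.Agent.R136.Rg0_501 Crest.Agent.R136.Rg1_501 Crest.Agent.R136.Rg3_501

open Classical in
/-- the finite Kaufman inequality at one pin, with labels -/
theorem kauf_finL (Z K S : Finset ℕ) (z f : ℕ → ℝ) (al : ℕ → ℕ → Prop)
    (DP DX : ℕ → ℕ → ℝ) {k₀ : ℕ} {J : ℕ} {r M m : ℝ} (tt aa bb : ℕ → ℝ) (hKZ : K ⊆ Z)
    (hm : 0 ≤ m) (hM0 : 0 ≤ M)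
    (hlab : ∀ k ∈ K, ∃ lab : ℕ → ℕ, (∀ i ∈ S, ∀ i' ∈ S, al i k → al i' k → lab i = lab i' →
      |(z k - z k₀) * DP i i' - (f k - f k₀) * DX i i'| ≤ r) ∧
      (((S.filter fun i => al i k).image lab).card : ℝ) ≤ M)
    (hal : ∀ i ∈ S, m * (Z.card : ℝ) ≤ ((K.filter fun k => al i k).card : ℝ))
    (h0 : ∀ i ∈ S, ∀ i' ∈ S, max |DP i i'| |DX i i'| ≤ tt 0)
    (hb : ∀ j ≤ J, 0 ≤ bb j)
    (h1 : ∀ j < J, ∀ i ∈ S, ∀ i' ∈ S, tt (j + 1) < max |DP i i'| |DX i i'| →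
      ((K.filter fun k => |(z k - z k₀) * DP i i' - (f k - f k₀) * DX i i'| ≤ r).card : ℝ) ≤
        bb j * Z.card)
    (h2 : (1 : ℝ) ≤ bb J)
    (hnear : ∀ j ≤ J, ∀ i ∈ S, ((S.filter fun i' => max |DP i i'| |DX i i'| ≤
      tt j).card : ℝ) ≤ aa j * S.card) (hS : S.Nonempty) (hZ : Z.Nonempty) :
    m ^ 2 ≤ M * ∑ j ∈ range (J + 1), aa j * bb j := by
  have hZc : (0 : ℝ) < Z.card := by exact_mod_cast card_pos.2 hZ
  have hSc : (0 : ℝ) < S.card := by exact_mod_cast card_pos.2 hS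
  choose! lab hl1 hl2 using hlab
  have e1 := energy (S := S) (K := K) (fun k => S.filter fun i => al i k)
    (fun k _ => filter_subset _ _) (fun k i => (lab k i : ℤ))
    (fun k i i' => |(z k - z k₀) * DP i i' - (f k - f k₀) * DX i i'| ≤ r) M (by
      intro k hk i hi i' hi' hl
      rw [mem_filter] at hi hi'
      exact hl1 k hk i hi.1 i' hi'.1 hi.2 hi'.2 (by exact_mod_cast hl))
    (by
      intro k hk
      refine le_trans ?_ (hl2 k hk)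
      have : ((S.filter fun i => al i k).image fun i => (lab k i : ℤ)) =
          ((S.filter fun i => al i k).image (lab k)).image (fun m : ℕ => (m : ℤ)) := by
        rw [Finset.image_image]; rfl
      rw [this]
      exact_mod_cast card_image_le)
  have e2 := pair_sum_le (S := S)
    (fun i i' => ((K.filter fun k => |(z k - z k₀) * DP i i' -
      (f k - f k₀) * DX i i'| ≤ r).card : ℝ))
    (fun i i' => max |DP i i'| |DX i i'|) tt (fun j => bb j * Z.card) J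
    (fun j hj => mul_nonneg (hb j hj) hZc.le) h0
    (fun j hj i hi i' hi' hD => h1 j hj i hi i' hi' hD)
    (fun i hi i' hi' => by
      calc ((K.filter fun k => |(z k - z k₀) * DP i i' -
            (f k - f k₀) * DX i i'| ≤ r).card : ℝ) ≤ Z.card := by
            exact_mod_cast card_le_card ((filter_subset _ _).trans hKZ)
        _ = 1 * Z.card := (one_mul _).symm
        _ ≤ _ := mul_le_mul_of_nonneg_right h2 hZc.le)
    (fun j => aa j * S.card) hnear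
  have e3 : ∑ k ∈ K, (((S.filter fun i => al i k).card : ℕ) : ℝ) =
      ∑ i ∈ S, ((K.filter fun k => al i k).card : ℝ) := by
    have g1 : ∀ k ∈ K, (((S.filter fun i => al i k).card : ℕ) : ℝ) =
        ∑ i ∈ S, (if al i k then (1 : ℝ) else 0) := by
      intro k _
      rw [card_filter]; push_cast; rfl
    have g2 : ∀ i ∈ S, (((K.filter fun k => al i k).card : ℕ) : ℝ) =
        ∑ k ∈ K, (if al i k then (1 : ℝ) else 0) := by
      intro i _
      rw [card_filter]; push_cast; rfl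
    rw [sum_congr rfl g1, sum_congr rfl g2, sum_comm]
  have e4 : m * Z.card * S.card ≤ ∑ k ∈ K, (((S.filter fun i => al i k).card : ℕ) : ℝ) := by
    rw [e3]
    calc m * Z.card * S.card = ∑ i ∈ S, m * (Z.card : ℝ) := by
          rw [sum_const, nsmul_eq_mul]; ring
      _ ≤ _ := sum_le_sum hal
  have hsum : ∑ j ∈ range (J + 1), aa j * (S.card : ℝ) * (bb j * Z.card) =
      (S.card : ℝ) * Z.card * ∑ j ∈ range (J + 1), (aa j * bb j) := by
    rw [mul_sum]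
    refine sum_congr rfl fun j _ => ?_
    ring
  rw [hsum] at e2
  have e5 : (m * Z.card * S.card) ^ 2 ≤ (Z.card : ℝ) * (M *
      (S.card * ((S.card : ℝ) * Z.card * ∑ j ∈ range (J + 1), (aa j * bb j)))) := by
    refine (pow_le_pow_left₀ (by positivity) e4 2).trans (e1.trans ?_)
    have g1 : (K.card : ℝ) ≤ Z.card := by exact_mod_cast card_le_card hKZ
    refine mul_le_mul g1 (mul_le_mul_of_nonneg_left e2 hM0) ?_ hZc.le
    refine mul_nonneg hM0 (sum_nonneg fun i _ => sum_nonneg fun i' _ => Nat.cast_nonneg _)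
  have e6 : m ^ 2 * ((Z.card : ℝ) * S.card) ^ 2 ≤
      (M * ∑ j ∈ range (J + 1), aa j * bb j) * ((Z.card : ℝ) * S.card) ^ 2 := by
    calc _ = (m * Z.card * S.card) ^ 2 := by ring
      _ ≤ _ := e5
      _ = _ := by ring
  exact le_of_mul_le_mul_right e6 (by positivity)

open Classical in
/-- few common heights, on the mesh (radius `≤ 2 ρ^(x - ε)`) -/
theorem few_common_mesh' (B : Base) (n : ℕ) (Z K : Finset ℕ) (z f : ℕ → ℝ)
    (hzf : ∀ k ∈ Z, |z k| ≤ 1 ∧ |f k| ≤ 1) {k₀ : ℕ} (hk₀ : k₀ ∈ Z) (hKZ : K ⊆ Z)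
    {J j : ℕ} (hj : j < J) {hh c s x ε DP DX : ℝ} (hh0 : 0 < hh) (hc0 : 0 < c)
    (hyh : ((J : ℝ) + 1) * hh = x)
    (hex : ε + 2 * (c * hh) + hh / 2 ≤ hh) (hc16 : 16 * B.d n ^ (hh / 2) ≤ 1)
    (hK : ∀ k ∈ K, B.d n ^ (c * hh) < |z k - z k₀| ∧ ∀ l ∈ range J,
      (k₀, k) ∉ bpr Z z f (B.d n ^ (((l + 1 : ℕ) : ℝ) * hh)) c s)
    (hD : B.d n ^ (((j + 1 : ℕ) : ℝ) * hh) < max |DP| |DX|) :
    ((K.filter fun k => |(z k - z k₀) * DP - (f k - f k₀) * DX| ≤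
      B.d n ^ (x - ε)).card : ℝ) ≤
        B.d n ^ (s * (((J - 1 - j : ℕ) : ℝ) * hh)) * Z.card := by
  refine le_trans ?_ (few_common_mesh B n Z K z f hzf hk₀ hKZ hj hh0 hc0 hyh hex hc16 hK hD)
  have : K.filter (fun k => |(z k - z k₀) * DP - (f k - f k₀) * DX| ≤ B.d n ^ (x - ε)) ⊆
      K.filter (fun k => |(z k - z k₀) * DP - (f k - f k₀) * DX| ≤ 2 * B.d n ^ (x - ε)) := by
    intro k hk
    rw [mem_filter] at hk ⊢
    exact ⟨hk.1, hk.2.trans (by linarith [dpow_pos B n (x - ε)])⟩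
  exact_mod_cast card_le_card this

open Classical in
/-- **[RIG-0]** with labels and losses everywhere: the pins `P0 ε n` and the fibres `S ε n k₀` may
depend on `ε`; `DP n k₀ i i'`, `DX n k₀ i i'` = relative velocity and lateral position at the pin;
`lab` = cells of the normal coordinate at the height `k`. -/
theorem rig0_lab {σ s a η : ℝ} (ha : 0 ≤ a) (has : a < s) (hsσ : s < σ) (hσ1 : σ ≤ 1)
    (hη : 0 < η) :
    ∃ θ : ℝ, 0 < θ ∧ θ ≤ 1 ∧ ∀ (B : Base) (Z : ℕ → Finset ℕ) (P0 : ℝ → ℕ → Finset ℕ)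
      (z f : ℕ → ℕ → ℝ) (S : ℝ → ℕ → ℕ → Finset ℕ) (al : ℕ → ℕ → ℕ → Prop)
      (DP DX : ℕ → ℕ → ℕ → ℕ → ℝ) (x C C2 C0 : ℝ), 0 < x → 0 ≤ C → 0 ≤ C2 → 0 ≤ C0 →
      (∀ᶠ n in (U : Filter ℕ), (Z n).Nonempty ∧ ∀ k ∈ Z n, |z n k| ≤ 1 ∧ |f n k| ≤ 1) →
      (∀ y : ℝ, 0 ≤ y → y ≤ x → ∀ ε : ℝ, 0 < ε → ∀ᶠ n in (U : Filter ℕ), ∀ k ∈ Z n,
        ∀ T ⊆ Z n, (∀ k' ∈ T, |z n k' - z n k| ≤ B.d n ^ y) →
        (T.card : ℝ) ≤ B.d n ^ (σ * y - ε) * ((Z n).card : ℝ)) →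
      (∀ ε : ℝ, 0 < ε → ∀ᶠ n in (U : Filter ℕ), P0 ε n ⊆ Z n ∧
        B.d n ^ (C * ε) * ((Z n).card : ℝ) ≤ ((P0 ε n).card : ℝ)) →
      (∀ ε : ℝ, 0 < ε → ∀ᶠ n in (U : Filter ℕ), ∀ k₀ ∈ P0 ε n, (S ε n k₀).Nonempty ∧
        ∀ i ∈ S ε n k₀, ∀ i' ∈ S ε n k₀, |DP n k₀ i i'| ≤ B.d n ^ (-(C * ε)) ∧
          |DX n k₀ i i'| ≤ B.d n ^ (-(C * ε))) →
      (∀ ε : ℝ, 0 < ε → ∀ᶠ n in (U : Filter ℕ), ∀ k₀ ∈ P0 ε n, ∀ i ∈ S ε n k₀,
        ∀ T ⊆ Z n, (∀ k ∈ Z n, al n i k → k ∈ T) →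
        B.d n ^ (C * ε) * ((Z n).card : ℝ) ≤ (T.card : ℝ)) →
      (∀ ε : ℝ, 0 < ε → ∀ᶠ n in (U : Filter ℕ), ∀ k₀ ∈ P0 ε n, ∀ k ∈ Z n,
        ∀ T ⊆ S ε n k₀, (∀ i ∈ T, al n i k) → ∃ lab : ℕ → ℕ,
        (∀ i ∈ T, ∀ i' ∈ T, lab i = lab i' →
          |(z n k - z n k₀) * DP n k₀ i i' - (f n k - f n k₀) * DX n k₀ i i'| ≤
            B.d n ^ (x - C * ε)) ∧
        ((T.image lab).card : ℝ) ≤ C0 * B.d n ^ (-(a * x) - C2 * ε)) →
      (∀ t : ℝ, 0 ≤ t → t ≤ x → ∀ ε : ℝ, 0 < ε → ∀ᶠ n in (U : Filter ℕ), ∀ k₀ ∈ P0 ε n,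
        ∀ i ∈ S ε n k₀, ∀ T ⊆ S ε n k₀, (∀ i' ∈ T,
          |DP n k₀ i i'| ≤ B.d n ^ (t - C * ε) ∧ |DX n k₀ i i'| ≤ B.d n ^ (t - C * ε)) →
        (T.card : ℝ) ≤ C0 * B.d n ^ (s * t - C2 * ε) * ((S ε n k₀).card : ℝ)) →
      ∀ᶠ n in (U : Filter ℕ), ∃ w μ : ℝ, B.d n ^ x ≤ w ∧ w ≤ B.d n ^ (θ * x) ∧
        |μ| ≤ B.d n ^ (-(η * x)) ∧ ∃ k₁ ∈ Z n, w ^ η * ((Z n).card : ℝ) ≤
          (((Z n).filter fun k => |f n k - f n k₁ - μ * (z n k - z n k₁)| ≤ w).card : ℝ) := by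
  have hs0 : 0 < s := ha.trans_lt has
  have hσ0 : 0 < σ := hs0.trans hsσ
  have hs1 : s < 1 := hsσ.trans_le hσ1
  obtain ⟨α, c, hα, hα1, hc0, hc10, HB⟩ := few_bad' hσ0 hs0 hsσ hσ1 hη
  obtain ⟨J, hJ⟩ : ∃ J : ℕ, 4 / (s - a) < J := exists_nat_gt _
  have hsa : 0 < s - a := sub_pos.2 has
  have hJ0 : (0 : ℝ) < (J : ℝ) + 1 := by positivity
  have hJ4 : 4 < (J : ℝ) * (s - a) := by rwa [div_lt_iff₀ hsa] at hJ
  refine ⟨α / (J + 1), by positivity, ?_, ?_⟩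
  · rw [div_le_one hJ0]
    linarith [Nat.cast_nonneg (α := ℝ) J]
  intro B Z P0 z f S al DP DX x C C2 C0 hx hC hC2 hC0 hzf0 hfrT hP0 hSPX hal hcell hnear
  by_contra hcon
  rw [← Ultrafilter.eventually_not] at hcon
  obtain ⟨ε, hε0, hh0, hyh, hp1, hp2, hp3, hp4, hp5⟩ :=
    paramsE ha has hσ0 hσ1 hs1 hc0 hc10 hx hC hC2 hJ4
  have hθx : α / ((J : ℝ) + 1) * x = α * (x / ((J : ℝ) + 1)) := by ring
  rw [hθx] at hcon
  set hh : ℝ := x / ((J : ℝ) + 1) with hhh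
  clear_value hh
  have hzf : ∀ᶠ n in (U : Filter ℕ), ∀ k ∈ Z n, |z n k| ≤ 1 ∧ |f n k| ≤ 1 := by
    filter_upwards [hzf0] with n hn using hn.2
  have hfr : ∀ y : ℝ, 0 ≤ y → y ≤ x → ∀ ε : ℝ, 0 < ε → ∀ᶠ n in (U : Filter ℕ), ∀ k ∈ Z n,
      (((Z n).filter fun k' => |z n k' - z n k| ≤ B.d n ^ y).card : ℝ) ≤
        B.d n ^ (σ * y - ε) * ((Z n).card : ℝ) := by
    intro y hy0 hyx ε hε
    filter_upwards [hfrT y hy0 hyx ε hε] with n hn k hk
    exact hn k hk _ (filter_subset _ _) fun k' hk' => (mem_filter.1 hk').2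
  have hbadAll := HB B Z z f x hh J hh0 hyh hzf hfr hcon
  have hnearAll : ∀ᶠ n in (U : Filter ℕ), ∀ j ∈ range (J + 1), ∀ k₀ ∈ P0 ε n,
      ∀ i ∈ S ε n k₀, ∀ T ⊆ S ε n k₀, (∀ i' ∈ T,
          |DP n k₀ i i'| ≤ B.d n ^ ((j : ℝ) * hh - C * ε) ∧
          |DX n k₀ i i'| ≤ B.d n ^ ((j : ℝ) * hh - C * ε)) →
        (T.card : ℝ) ≤ C0 * B.d n ^ (s * ((j : ℝ) * hh) - C2 * ε) *
          ((S ε n k₀).card : ℝ) := by
    rw [Filter.eventually_all_finset]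
    intro j hj
    have h1 : (j : ℝ) ≤ J := by
      have : j ≤ J := by simpa [Nat.lt_succ_iff] using hj
      exact_mod_cast this
    refine hnear _ (by positivity) ?_ ε hε0
    rw [← hyh]
    exact mul_le_mul_of_nonneg_right (by linarith) hh0.le
  have hchh : 0 ≤ c * hh := by positivity
  have hsx : 0 < (s - a) * x / 4 := by positivity
  suffices hfalse : ∀ᶠ n in (U : Filter ℕ), False by
    obtain ⟨n, hn⟩ := hfalse.exists
    exact hn
  filter_upwards [hbadAll, hnearAll, hfr (c * hh) hchh hp5 ε hε0, hzf0, hP0 ε hε0, hSPX ε hε0,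
    hal ε hε0, hcell ε hε0, ev_const_mul B 4 hp1, ev_const_mul B (4 * (J : ℝ)) hp2,
    ev_const B 16 (half_pos hh0), ev_const B (8 * (C0 * C0) * ((J : ℝ) + 1)) hsx]
    with n hbad hnr hfrn hzfn0 hP0n hSPXn haln hcelln hc1 hc2 hc3 hc5
  obtain ⟨hZne, hzfn⟩ := hzfn0
  obtain ⟨hPZ, hP0c⟩ := hP0n
  have hZc : (0 : ℝ) < (Z n).card := by exact_mod_cast card_pos.2 hZne
  have hde : 0 < B.d n ^ (C * ε) := dpow_pos B n _
  obtain ⟨k₀, hk₀P, K, hKZ, hKc, hK⟩ := good_pin (Z n) (P0 ε n) (z n) (f n) J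
    (fun l => bpr (Z n) (z n) (f n) (B.d n ^ (((l + 1 : ℕ) : ℝ) * hh)) c s)
    (θ := B.d n ^ (c * hh / 2)) (de := B.d n ^ (C * ε)) (s1 := B.d n ^ (c * hh))
    (dpow_pos B n _) hde hZne hPZ hbad hc2 hP0c (fun k hk => by
      refine (hfrn k hk).trans ?_
      refine mul_le_mul_of_nonneg_right ?_ hZc.le
      linarith)
  obtain ⟨hSne, hPX⟩ := hSPXn k₀ hk₀P
  have hk₀ : k₀ ∈ Z n := hPZ hk₀P
  have halK : ∀ i ∈ S ε n k₀, B.d n ^ (C * ε) / 2 * ((Z n).card : ℝ) ≤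
      ((K.filter fun k => al n i k).card : ℝ) := by
    intro i hi
    have g1 := haln k₀ hk₀P i hi ((Z n).filter fun k => al n i k) (filter_subset _ _)
      (fun k hk h => mem_filter.2 ⟨hk, h⟩)
    have g2 : (Z n).filter (fun k => al n i k) ⊆ (K.filter fun k => al n i k) ∪ (Z n \ K) := by
      intro k hk
      rw [mem_filter] at hk
      rw [Finset.mem_union, mem_filter, Finset.mem_sdiff]
      by_cases hkK : k ∈ K
      · exact Or.inl ⟨hkK, hk.2⟩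
      · exact Or.inr ⟨hk.1, hkK⟩
    have g3 : (((Z n).filter fun k => al n i k).card : ℝ) ≤
        ((K.filter fun k => al n i k).card : ℝ) + (((Z n) \ K).card : ℝ) := by
      exact_mod_cast (card_le_card g2).trans (card_union_le _ _)
    linarith
  have key := kauf_finL (Z n) K (S ε n k₀) (z n) (f n) (al n) (DP n k₀) (DX n k₀)
    (k₀ := k₀) (J := J) (r := B.d n ^ (x - C * ε)) (M := C0 * B.d n ^ (-(a * x) - C2 * ε))
    (m := B.d n ^ (C * ε) / 2)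
    (fun j => B.d n ^ ((j : ℝ) * hh - C * ε))
    (fun j => C0 * B.d n ^ (s * ((j : ℝ) * hh) - C2 * ε))
    (fun j => if j < J then B.d n ^ (s * (((J - 1 - j : ℕ) : ℝ) * hh)) else 1) hKZ
    (by positivity) (mul_nonneg hC0 (dpow_pos B n _).le)
    (fun k hk => by
      obtain ⟨lab, h1, h2⟩ := hcelln k₀ hk₀P k (hKZ hk) ((S ε n k₀).filter fun i => al n i k)
        (filter_subset _ _) (fun i hi => (mem_filter.1 hi).2)
      exact ⟨lab, fun i hi i' hi' ha ha' hl => h1 i (mem_filter.2 ⟨hi, ha⟩) i'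
        (mem_filter.2 ⟨hi', ha'⟩) hl, h2⟩) halK
    (by
      intro i hi i' hi'
      simp only [Nat.cast_zero, zero_mul, zero_sub]
      exact max_le (hPX i hi i' hi').1 (hPX i hi i' hi').2)
    (by
      intro j hj
      split_ifs
      · exact (dpow_pos B n _).le
      · exact zero_le_one)
    (by
      intro j hj i hi i' hi' hD
      rw [if_pos hj]
      have hD' : B.d n ^ (((j + 1 : ℕ) : ℝ) * hh) <
          max |DP n k₀ i i'| |DX n k₀ i i'| := by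
        refine lt_of_le_of_lt (dpow_anti B n ?_) hD
        have : 0 ≤ C * ε := by positivity
        linarith
      exact few_common_mesh' B n (Z n) K (z n) (f n) hzfn hk₀ hKZ hj hh0 hc0 hyh hp3 hc3 hK hD')
    (by simp)
    (by
      intro j hj i hi
      refine hnr j (by simp; omega) k₀ hk₀P i hi _ (filter_subset _ _) ?_
      intro i' hi'
      rw [mem_filter, max_le_iff] at hi'
      exact hi'.2)
    hSne hZne
  exact final_cmpE B n hs0 hh0 hC0 hp4 hc5 key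

end Crest.Agent.R136.Rg5_501
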