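import Crest.Agent.R136.Rg5_501
import Crest.Agent.R136.Gr2_356

/-!
# R136: **[RIG-0]** for the relative charts with walls of 356, label version (helper501)
-/

set_option autoImplicit false
set_option linter.unusedVariables false
set_option linter.unusedSectionVars false

open Filter Topology Finset

namespace Crest.Agent.R136.Rg6_501

open Crest.Agent.R138.Ex926 (Base U)
open Crest.Agent.R136.Gf356
open Crest.Agent.R136.Rg5_501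

/-- the data of [RIG-0] over `RUnif`, purely relative.  `i0` = one line, `Z` = good heights,
`P0 ⊆ Z` = pins (heights at which `i0` is alive), fibre of the pin `k₀` = `box pS ε (i0, k₀)`;
`DP n k₀ i i'`, `DX n k₀ i i'` = relative velocity and lateral position of `i'` seen from `i` at
the pin (any functions, e.g. `rel k₀ i i' sP`, `rel k₀ i i' sX`), `f` = height function;
`pT` = box which contains the fibre at the other heights, `r ≥ pT` = box on which the normal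
coordinate is constant up to `ρ^x`; `Q t` = box which contains the lines `i'` of the fibre with
`|DP i i'|, |DX i i'| ≤ ρ^t`. -/
structure RDataL {κ : Type} (B : Base) (G : ℕ → RCfg κ) (Leg : Set (κ → ℝ)) (ν : (κ → ℝ) → ℝ)
    (i0 : ℕ → ℕ) (Z P0 : ℕ → Finset ℕ) (z f : ℕ → ℕ → ℝ) (DP DX : ℕ → ℕ → ℕ → ℕ → ℝ)
    (pS pT r : κ → ℝ) (Q : ℝ → κ → ℝ) (σ x s a C1 C4 : ℝ) : Prop where
  x_pos : 0 < x
  C1_nonneg : 0 ≤ C1
  C4_pos : 0 < C4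
  bd : ∀ᶠ n in (U : Filter ℕ), (Z n).Nonempty ∧ ∀ k ∈ Z n, |z n k| ≤ 1 ∧ |f n k| ≤ 1
  frost : ∀ y : ℝ, 0 ≤ y → y ≤ x → ∀ ε : ℝ, 0 < ε → ∀ᶠ n in (U : Filter ℕ), ∀ k ∈ Z n,
    ∀ T ⊆ Z n, (∀ k' ∈ T, |z n k' - z n k| ≤ B.d n ^ y) →
    (T.card : ℝ) ≤ B.d n ^ (σ * y - ε) * ((Z n).card : ℝ)
  pins : ∀ ε : ℝ, 0 < ε → ∀ᶠ n in (U : Filter ℕ), P0 n ⊆ Z n ∧
    B.d n ^ (C1 * ε) * ((Z n).card : ℝ) ≤ ((P0 n).card : ℝ)
  pinI : ∀ᶠ n in (U : Filter ℕ), ∀ k₀ ∈ P0 n, (i0 n, k₀) ∈ (G n).I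
  legS : pS ∈ Leg
  legT : pT ∈ Leg
  legr : r ∈ Leg
  Tr : ∀ j, pT j ≤ r j
  legQ : ∀ t : ℝ, 0 ≤ t → t ≤ x → Q t ∈ Leg
  one : ∀ ε : ℝ, 0 < ε → ∀ᶠ n in (U : Filter ℕ), ∀ k₀ ∈ P0 n,
    ∀ i ∈ (G n).box pS ε (i0 n) k₀, ∀ i' ∈ (G n).box pS ε (i0 n) k₀,
    |DP n k₀ i i'| ≤ B.d n ^ (-(C1 * ε)) ∧ |DX n k₀ i i'| ≤ B.d n ^ (-(C1 * ε))
  alive : ∀ ε : ℝ, 0 < ε → ∀ᶠ n in (U : Filter ℕ), ∀ k₀ ∈ P0 n,
    ∀ i ∈ (G n).box pS ε (i0 n) k₀, ∀ T ⊆ Z n, (∀ k ∈ Z n, (i, k) ∈ (G n).I → k ∈ T) →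
    B.d n ^ (C1 * ε) * ((Z n).card : ℝ) ≤ (T.card : ℝ)
  mv : ∀ ε : ℝ, 0 < ε → ∀ᶠ n in (U : Filter ℕ), ∀ k₀ ∈ P0 n, ∀ k ∈ Z n,
    ∀ i ∈ (G n).box pS ε (i0 n) k₀, ∀ i' ∈ (G n).box pS ε (i0 n) k₀, (i, k) ∈ (G n).I →
    (i', k) ∈ (G n).I → (G n).loose r ε k i i' →
    |(z n k - z n k₀) * DP n k₀ i i' - (f n k - f n k₀) * DX n k₀ i i'| ≤ B.d n ^ (x - C1 * ε)
  inT : ∀ ε : ℝ, 0 < ε → ∀ᶠ n in (U : Filter ℕ), ∀ k₀ ∈ P0 n, ∀ k ∈ Z n,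
    ∀ i ∈ (G n).box pS ε (i0 n) k₀, ∀ i' ∈ (G n).box pS ε (i0 n) k₀, (i, k) ∈ (G n).I →
    (i', k) ∈ (G n).I → (G n).loose pT (C1 * ε) k i i'
  inQ : ∀ t : ℝ, 0 ≤ t → t ≤ x → ∀ ε : ℝ, 0 < ε → ∀ᶠ n in (U : Filter ℕ), ∀ k₀ ∈ P0 n,
    ∀ i ∈ (G n).box pS ε (i0 n) k₀, ∀ i' ∈ (G n).box pS ε (i0 n) k₀,
    |DP n k₀ i i'| ≤ B.d n ^ (t - ε) → |DX n k₀ i i'| ≤ B.d n ^ (t - ε) →
    (G n).loose (Q t) (C4 * ε) k₀ i i'
  lossQ : ∀ t : ℝ, 0 ≤ t → t ≤ x → s * t ≤ ν pS - ν (Q t)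
  lossF : ν pT - ν r ≤ a * x

open Classical in
/-- **[RIG-0] for `RUnif`**, label version -/
theorem rig0_RL {σ s a η : ℝ} (ha : 0 ≤ a) (has : a < s) (hsσ : s < σ) (hσ1 : σ ≤ 1)
    (hη : 0 < η) :
    ∃ θ : ℝ, 0 < θ ∧ θ ≤ 1 ∧ ∀ {κ : Type} {B : Base} {G : ℕ → RCfg κ} {Leg : Set (κ → ℝ)}
      {ν : (κ → ℝ) → ℝ} {D : ℝ} (H : RUnif B G Leg ν D) (i0 : ℕ → ℕ) (Z P0 : ℕ → Finset ℕ)
      (z f : ℕ → ℕ → ℝ) (DP DX : ℕ → ℕ → ℕ → ℕ → ℝ) (pS pT r : κ → ℝ)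
      (Q : ℝ → κ → ℝ) (x C1 C4 : ℝ),
      RDataL B G Leg ν i0 Z P0 z f DP DX pS pT r Q σ x s a C1 C4 →
      ∀ᶠ n in (U : Filter ℕ), ∃ w μ : ℝ, B.d n ^ x ≤ w ∧ w ≤ B.d n ^ (θ * x) ∧
        |μ| ≤ B.d n ^ (-(η * x)) ∧ ∃ k₁ ∈ Z n, w ^ η * ((Z n).card : ℝ) ≤
          (((Z n).filter fun k => |f n k - f n k₁ - μ * (z n k - z n k₁)| ≤ w).card : ℝ) := by
  obtain ⟨θ, hθ, hθ1, HE⟩ := rig0_lab ha has hsσ hσ1 hη
  refine ⟨θ, hθ, hθ1, ?_⟩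
  intro κ B G Leg ν D H i0 Z P0 z f DP DX pS pT r Q x C1 C4 A
  have hx := A.x_pos
  have hC1 := A.C1_nonneg
  have hC4 := A.C4_pos
  have hD := H.D1
  have hD0 : 0 < D := by linarith
  have hD5 : 1 ≤ D ^ 5 := one_le_pow₀ hD
  -- the loss constants
  set E : ℝ := D ^ 5 * (C1 + 1) with hE
  have hE1 : 1 ≤ E := by nlinarith
  set C : ℝ := C1 * E + C1 + 1 with hC
  have hCC : 1 ≤ C := by nlinarith
  have hC1C : C1 ≤ C := by nlinarith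
  set C2 : ℝ := (D ^ 2 + 1) * (C1 + 1) + D * (C4 * C) + 1 with hC2
  have h1 : 0 ≤ (D ^ 2 + 1) * (C1 + 1) := by positivity
  have h2 : 0 ≤ D * (C4 * C) := by positivity
  have hdn : ∀ n {s t : ℝ}, s ≤ t → B.d n ^ t ≤ B.d n ^ s := fun n {s t} h => rpow_anti B n h
  refine HE B Z (fun _ n => P0 n) z f (fun ε n k₀ => (G n).box pS ε (i0 n) k₀)
    (fun n i k => (i, k) ∈ (G n).I) DP DX x C C2 1 hx (by linarith) (by linarith) zero_le_one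
    A.bd A.frost ?_ ?_ ?_ ?_ ?_
  · -- pins
    intro ε hε
    filter_upwards [A.pins ε hε] with n hn
    refine ⟨hn.1, le_trans ?_ hn.2⟩
    exact mul_le_mul_of_nonneg_right (hdn n (mul_le_mul_of_nonneg_right hC1C hε.le))
      (Nat.cast_nonneg _)
  · -- size of the pin data
    intro ε hε
    filter_upwards [A.one ε hε, A.pinI] with n h1 h0 k₀ hk₀
    refine ⟨⟨i0 n, H.self_mem_box pS ε (h0 k₀ hk₀)⟩, fun i hi i' hi' => ?_⟩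
    obtain ⟨a1, a2⟩ := h1 k₀ hk₀ i hi i' hi'
    have : -(C * ε) ≤ -(C1 * ε) := neg_le_neg (mul_le_mul_of_nonneg_right hC1C hε.le)
    exact ⟨a1.trans (hdn n this), a2.trans (hdn n this)⟩
  · -- alive
    intro ε hε
    filter_upwards [A.alive ε hε] with n hn k₀ hk₀ i hi T hT hTal
    refine le_trans ?_ (hn k₀ hk₀ i hi T hT hTal)
    exact mul_le_mul_of_nonneg_right (hdn n (mul_le_mul_of_nonneg_right hC1C hε.le))
      (Nat.cast_nonneg _)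
  · -- cells
    intro ε hε
    have hε1 : 0 < (C1 + 1) * ε := by positivity
    have hε2 : 0 < E * ε := by positivity
    have hεE : ε ≤ E * ε := by nlinarith
    filter_upwards [H.exists_lab_loose pT r A.legT A.legr A.Tr hε1, A.inT ε hε,
      A.mv (E * ε) hε2] with n g1 g2 g3 k₀ hk₀ k hk T hTS hTal
    have hTsl : T ⊆ (G n).slice k := fun i hi => H.memSlice.2 (hTal i hi)
    obtain ⟨lab, l1, l2⟩ := g1 k T hTsl (by
      intro i hi i' hi'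
      exact H.loose_mono (fun _ => le_rfl) (by nlinarith)
        (g2 k₀ hk₀ k hk i (hTS hi) i' (hTS hi') (hTal i hi) (hTal i' hi')))
    have hbox : ∀ i ∈ T, i ∈ (G n).box pS (E * ε) (i0 n) k₀ := by
      intro i hi
      obtain ⟨b1, b2⟩ := RCfg.mem_box.1 (hTS hi)
      exact RCfg.mem_box.2 ⟨b1, H.loose_mono (fun _ => le_rfl) hεE b2⟩
    refine ⟨lab, fun i hi i' hi' hl => ?_, ?_⟩
    · have b1 := l1 i hi i' hi' hl
      have e1 : D ^ 5 * ((C1 + 1) * ε) = E * ε := by rw [hE]; ring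
      rw [e1] at b1
      refine (g3 k₀ hk₀ k hk i (hbox i hi) i' (hbox i' hi') (hTal i hi) (hTal i' hi') b1).trans
        (hdn n ?_)
      have : C1 * (E * ε) ≤ C * ε := by
        have : C1 * E ≤ C := by rw [hC]; linarith
        calc C1 * (E * ε) = C1 * E * ε := by ring
          _ ≤ _ := mul_le_mul_of_nonneg_right this hε.le
      linarith
    · rw [one_mul]
      refine l2.trans (hdn n ?_)
      have g4 := A.lossF
      have g5 : 0 ≤ (D * (C4 * C) + 1) * ε := by positivity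
      have g6 : C2 * ε = (D ^ 2 + 1) * ((C1 + 1) * ε) + (D * (C4 * C) + 1) * ε := by
        rw [hC2]; ring
      linarith
  · -- close pairs
    intro t ht0 htx ε hε
    have hε1 : 0 < C * ε := by positivity
    have hεC : ε ≤ C * ε := by nlinarith
    filter_upwards [A.inQ t ht0 htx (C * ε) hε1,
      H.up (Q t) (A.legQ t ht0 htx) (C4 * (C * ε)) (by positivity),
      H.low pS A.legS ε hε, A.pinI] with n g1 g2 g3 h0 k₀ hk₀ i hi T hTS hT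
    have hI := H.memSlice.1 (RCfg.box_subset_slice hi)
    have hbox : ∀ i ∈ (G n).box pS ε (i0 n) k₀, i ∈ (G n).box pS (C * ε) (i0 n) k₀ := by
      intro i hi
      obtain ⟨b1, b2⟩ := RCfg.mem_box.1 hi
      exact RCfg.mem_box.2 ⟨b1, H.loose_mono (fun _ => le_rfl) hεC b2⟩
    have hsub : T ⊆ (G n).box (Q t) (C4 * (C * ε)) i k₀ := by
      intro i' hi'
      have a1 := hTS hi'
      obtain ⟨a2, a3⟩ := hT i' hi'
      exact RCfg.mem_box.2 ⟨RCfg.box_subset_slice a1,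
        g1 k₀ hk₀ i (hbox i hi) i' (hbox i' a1) a2 a3⟩
    have h4 := g3 (i0 n) k₀ (h0 k₀ hk₀)
    have h5 : (T.card : ℝ) ≤ B.d n ^ (-ν (Q t) - D * (C4 * (C * ε))) :=
      le_trans (mod_cast Finset.card_le_card hsub) (g2 i k₀ hI)
    have h6 : B.d n ^ (-ν (Q t) - D * (C4 * (C * ε))) ≤
        B.d n ^ (s * t - C2 * ε) * B.d n ^ (-ν pS + ε) := by
      rw [← rpow_add']
      refine rpow_anti B n ?_
      have g4 := A.lossQ t ht0 htx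
      have g5 : 0 ≤ ((D ^ 2 + 1) * (C1 + 1)) * ε := by positivity
      have g6 : C2 * ε = D * (C4 * (C * ε)) + ε + ((D ^ 2 + 1) * (C1 + 1)) * ε := by
        rw [hC2]; ring
      linarith
    rw [one_mul]
    calc (T.card : ℝ) ≤ B.d n ^ (s * t - C2 * ε) * B.d n ^ (-ν pS + ε) := h5.trans h6
      _ ≤ _ := mul_le_mul_of_nonneg_left h4 (rpos B n _).le

end Crest.Agent.R136.Rg6_501
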