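import Crest.Agent.R136.Rg6_501
import Crest.Agent.R136.Ev6_356

/-!
# R136: window instance of [RIG-0] for the lightlike surface, part 1 (helper501)

* `frost_unif` : Frostman condition uniform in the scale;
* `lv x n t` : exponent vectors (`E, F_a, C_a, C_b, X_a : x`, `P, X_b : t`, `N : n`);
* `LightW` : the hypotheses on a window;
* `LightW.rdata` : the data `RDataL` of `rig0_RL`.
-/

set_option autoImplicit false
set_option linter.unusedVariables false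
set_option linter.unusedSectionVars false

open Filter Topology Finset

namespace Crest.Agent.R136.Rgl501

open Crest.Agent.R138.Ex926 (Base U)
open Crest.Agent.R136.Gf356 Crest.Agent.R136.Qg926 Crest.Agent.R136.Ev356
open Crest.Agent.R136.NetQ186 Crest.Agent.R136.Rg6_501

/-- Frostman condition, uniform in the scale -/
theorem frost_unif {κ : Type} {B : Base} {G : ℕ → RCfg κ} {σ R : ℝ} {Leg : Set (κ → ℝ)}
    {ν : (κ → ℝ) → ℝ} {D : ℝ} (H : RModel B G σ R Leg ν D) {ε : ℝ} (hε : 0 < ε) :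
    ∀ᶠ n in (U : Filter ℕ), ∀ y : ℝ, 0 ≤ y → y ≤ R → ∀ k ∈ (G n).Z,
      (((G n).hbox y k).card : ℝ) ≤ B.d n ^ (σ * y - ε) * ((G n).Z.card : ℝ) := by
  have hσ0 := H.σ_nonneg
  have hσ1 := H.σ_le
  set δ : ℝ := ε / 2 with hδ
  have hδ0 : 0 < δ := by positivity
  set J : ℕ := ⌊R / δ⌋₊ with hJ
  have hgrid : ∀ᶠ n in (U : Filter ℕ), ∀ j ∈ range (J + 1), (j : ℝ) * δ ≤ R → ∀ k ∈ (G n).Z,
      (((G n).hbox ((j : ℝ) * δ) k).card : ℝ) ≤
        B.d n ^ (σ * ((j : ℝ) * δ) - ε / 2) * ((G n).Z.card : ℝ) := by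
    rw [Filter.eventually_all_finset]
    intro j hj
    by_cases hjR : (j : ℝ) * δ ≤ R
    · exact (H.frost _ (by positivity) hjR (ε / 2) (by positivity)).mono fun n hn _ => hn
    · exact Eventually.of_forall fun n h => absurd h hjR
  filter_upwards [hgrid] with n hn y hy0 hyR k hk
  set j : ℕ := ⌊y / δ⌋₊ with hj
  have h1 : (j : ℝ) ≤ y / δ := Nat.floor_le (by positivity)
  have h2 : y / δ < j + 1 := Nat.lt_floor_add_one _
  rw [le_div_iff₀ hδ0] at h1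
  rw [div_lt_iff₀ hδ0] at h2
  have hjJ : j ∈ range (J + 1) := by
    rw [mem_range]
    have : j ≤ J := Nat.floor_mono (div_le_div_of_nonneg_right hyR hδ0.le)
    omega
  have h3 := hn j hjJ (h1.trans hyR) k hk
  have hsub : (G n).hbox y k ⊆ (G n).hbox ((j : ℝ) * δ) k := by
    intro k' hk'
    unfold RCfg.hbox at hk' ⊢
    rw [mem_filter] at hk' ⊢
    refine ⟨hk'.1, hk'.2.trans ?_⟩
    rw [H.base n]
    exact rpow_anti B n h1
  refine (Nat.cast_le.2 (card_le_card hsub)).trans (h3.trans ?_)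
  refine mul_le_mul_of_nonneg_right (rpow_anti B n ?_) (Nat.cast_nonneg _)
  have : σ * y ≤ σ * ((j : ℝ) * δ) + δ := by nlinarith
  linarith

/-- two members of one box are close -/
theorem pair_box {κ : Type} {B : Base} {G : ℕ → RCfg κ} {Leg : Set (κ → ℝ)}
    {ν : (κ → ℝ) → ℝ} {D : ℝ} (H : RUnif B G Leg ν D) {p : κ → ℝ} (hp : p ∈ Leg) {ε : ℝ}
    (hε : 0 < ε) : ∀ᶠ n in (U : Filter ℕ), ∀ i0 k₀, (i0, k₀) ∈ (G n).I →
      ∀ i ∈ (G n).box p ε i0 k₀, ∀ i' ∈ (G n).box p ε i0 k₀,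
      (G n).loose p (D * (D * ε)) k₀ i i' := by
  have hD := H.D1
  filter_upwards [H.symm p hp ε hε, H.tri p hp (D * ε) (by positivity)] with n h1 h2 i0 k₀ h0
    i hi i' hi'
  obtain ⟨a1, a2⟩ := RCfg.mem_box.1 hi
  obtain ⟨b1, b2⟩ := RCfg.mem_box.1 hi'
  have a3 := H.memSlice.1 a1
  have b3 := H.memSlice.1 b1
  exact h2 k₀ i i0 i' a3 h0 b3 (h1 k₀ i0 i h0 a3 a2)
    (H.loose_mono (fun _ => le_rfl) (by nlinarith) b2)

/-- exponent vectors: `E, F_a, C_a, C_b, X_a : x`, `P, X_b : t`, `N : n` -/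
def lv (x n t : ℝ) : Fin 11 → ℝ := ![0, 0, x, 0, x, x, x, t, x, t, n]

variable {ι : ℕ → Type*} [∀ n, DecidableEq (ι n)]

/-- **hypotheses on a window at the lightlike surface**, reach `x` -/
structure LightW (W : Wnd 11 ι) (x σ s a : ℝ) : Prop where
  x_pos : 0 < x
  hS : W.S = {0, 3}
  kz : W.kz = 0
  top : ∀ j, x ≤ W.top j
  slack : ∀ᶠ n in (U : Filter ℕ), W.X n 7 + x * W.w n ≤ W.X n 0 + W.X n 1
  tight7 : ∀ᶠ n in (U : Filter ℕ), W.X n 10 = W.X n 0 + W.X n 7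
  tight9 : ∀ᶠ n in (U : Filter ℕ), W.X n 10 = W.X n 3 + W.X n 9
  leg0 : lv x 0 0 ∈ W.legW
  leg : ∀ t : ℝ, 0 ≤ t → t ≤ x → lv x x t ∈ W.legW
  dens : W.lam W.top ≤ W.lam (cut W.S W.top 0) + W.lam (cut W.S 0 W.top)
  frost : ∀ y : ℝ, 0 ≤ y → y ≤ x → W.lam (Pi.single 0 y) ≤ -(σ * y)
  full : ∀ t : ℝ, 0 ≤ t → t ≤ x → s * t ≤ W.nu (lv x x 0) - W.nu (lv x x t)
  loss : W.nu (lv x 0 0) - W.nu (lv x x 0) ≤ a * x

section

variable {W : Wnd 11 ι} {f : ∀ n, ι n → Fq4} {x σ s a : ℝ} {E : ∀ n, Finset (ι n)}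

/-- a line of the configuration -/
noncomputable def ln0 (W : Wnd 11 ι) (E : ∀ n, Finset (ι n)) (n : ℕ) : ℕ :=
  (Wnd.cfg_nonempty (W := W) E n).choose.1

theorem ln0_spec (n : ℕ) : ∃ k, (ln0 W E n, k) ∈ (W.cfg E n).I :=
  ⟨(Wnd.cfg_nonempty (W := W) E n).choose.2, (Wnd.cfg_nonempty (W := W) E n).choose_spec⟩

/-- relative velocity, normalised -/
noncomputable def DPl (W : Wnd 11 ι) (E : ∀ n, Finset (ι n)) (n k₀ i i' : ℕ) : ℝ :=
  cf W n 0 7 10 * (W.cfg E n).rel k₀ i i' 7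

/-- relative lateral position, normalised -/
noncomputable def DXl (W : Wnd 11 ι) (E : ∀ n, Finset (ι n)) (n k₀ i i' : ℕ) : ℝ :=
  cf W n 3 9 10 * (W.cfg E n).rel k₀ i i' 9

theorem LightW.notMem (L : LightW W x σ s a) {j : Fin 11} (h0 : j ≠ 0) (h3 : j ≠ 3) : j ∉ W.S := by
  rw [L.hS]
  simp [h0, h3]

theorem own_zero (L : LightW W x σ s a) (n k₀ k : ℕ) (e b : ℝ) :
    own W n k₀ k e b 2 = 0 ∧ own W n k₀ k e b 4 = 0 ∧
      own W n k₀ k e b 0 = mot W n k₀ k 0 ∧ own W n k₀ k e b 3 = mot W n k₀ k 3 := by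
  have h4 : (4 : Fin 11) ∉ W.S := L.notMem (by decide) (by decide)
  have h2 : (2 : Fin 11) ∉ W.S := L.notMem (by decide) (by decide)
  refine ⟨?_, ?_, ?_, ?_⟩
  · simp [own, mot, h2]
  · simp [own, h4]
  · simp [own]
  · simp [own]

theorem mot_S (L : LightW W x σ s a) (n k₀ k : ℕ) {j : Fin 11} (hj : j = 0 ∨ j = 3) :
    mot W n k₀ k j = W.crd n (W.zrep n k₀) (W.zrep n k) j := by
  have : j ∈ W.S := by rw [L.hS]; rcases hj with rfl | rfl <;> simp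
  simp [mot, this]

/-- the facts used at one `n` -/
structure Fct (W : Wnd 11 ι) (E : ∀ n, Finset (ι n)) (x : ℝ) (n : ℕ) : Prop where
  evo : ∀ k₀ k i l, (i, k₀) ∈ (W.cfg E n).I → (i, k) ∈ (W.cfg E n).I →
      (l, k₀) ∈ (W.cfg E n).I → (l, k) ∈ (W.cfg E n).I → ∀ s, s ∉ W.S →
      |(W.cfg E n).rel k i l s -
        evoG W n (own W n k₀ k (fsl W n i k₀ 2) (fsl W n i k₀ 3)) ((W.cfg E n).rel k₀ i l) s| ≤
        CE W * W.B'.d n ^ x
  relb : ∀ k i l, (i, k) ∈ (W.cfg E n).I → (l, k) ∈ (W.cfg E n).I →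
      ∀ s, |(W.cfg E n).rel k i l s| ≤ MW W
  flgb : ∀ k ∈ (W.cfg E n).Z, ∀ s, |flg W n k s| ≤ MW W
  mot0 : ∀ k₀ ∈ (W.cfg E n).Z, ∀ k ∈ (W.cfg E n).Z,
      mot W n k₀ k 0 = flg W n k 0 - flg W n k₀ 0
  mot3 : ∀ k₀ ∈ (W.cfg E n).Z, ∀ k ∈ (W.cfg E n).Z,
      mot W n k₀ k 3 = flg W n k 3 - flg W n k₀ 3
  motb : ∀ k₀ ∈ (W.cfg E n).Z, ∀ k ∈ (W.cfg E n).Z, ∀ s, |mot W n k₀ k s| ≤ MW W
  cfb : CfB W n (MW W)
  c017 : |cf W n 0 1 7| ≤ MW W * W.B'.d n ^ x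
  c0710 : cf W n 0 7 10 = W.kap 0 * W.kap 7 / W.kap 10
  c3910 : cf W n 3 9 10 = W.kap 3 * W.kap 9 / W.kap 10
  zeq : ∀ k, (W.cfg E n).z k = flg W n k 0

theorem ev_fct (h : QWnd W f) (L : LightW W x σ s a)
    (hc : ∀ᶠ n in (U : Filter ℕ), W.Good n ∧ E n ⊆ W.Cl n ∧ W.cfg E n = W.cfg0 n (E n)) :
    ∀ᶠ n in (U : Filter ℕ), Fct W E x n := by
  have h0S : (0 : Fin 11) ∈ W.S := by rw [L.hS]; simp
  filter_upwards [h.evoR hc h0S L.top, h.rel_MW hc, h.mot_eq hc, hc, L.slack, L.tight7, L.tight9,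
    h.z_eq L.kz hc] with n h1 h2 h3 h4 h5 h6 h7 h8
  have hk := h.ok.kap
  refine
    { evo := h1, relb := h2.1, flgb := h2.2.1
      mot0 := fun k₀ hk₀ k hk => ?_
      mot3 := fun k₀ hk₀ k hk => ?_
      motb := h2.2.2.1
      cfb := h.cfB h4.1
      c017 := ?_
      c0710 := h.cf_eq h6
      c3910 := h.cf_eq h7
      zeq := h8 }
  · rw [mot_S L n k₀ k (Or.inl rfl)]
    exact (h3 k₀ hk₀ k hk).1 0 (by simp)
  · rw [mot_S L n k₀ k (Or.inr rfl)]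
    exact (h3 k₀ hk₀ k hk).1 3 (by simp)
  · rw [abs_of_pos (h.cf_pos n 0 1 7)]
    refine (h.cf_small h5).trans ?_
    refine mul_le_mul_of_nonneg_right ?_ (Real.rpow_nonneg (W.B'.pos n).le _)
    exact (h.MW_le 7).2.2.1 0 1

theorem lv_cases {x m t : ℝ} {P : Fin 11 → ℝ → Prop} (h0 : ∀ j, P j 0)
    (hx : ∀ j, j = 2 ∨ j = 4 ∨ j = 5 ∨ j = 6 ∨ j = 8 → P j x) (ht : ∀ j, j = 7 ∨ j = 9 → P j t)
    (hm : P 10 m) (j : Fin 11) : P j (lv x m t j) := by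
  fin_cases j
  · exact h0 0
  · exact h0 1
  · exact hx 2 (by simp)
  · exact h0 3
  · exact hx 4 (by simp)
  · exact hx 5 (by simp)
  · exact hx 6 (by simp)
  · exact ht 7 (by simp)
  · exact hx 8 (by simp)
  · exact ht 9 (by simp)
  · exact hm

theorem mem_Z {n k i : ℕ} (hi : (i, k) ∈ (W.cfg E n).I) : k ∈ (W.cfg E n).Z :=
  (mem_product.1 (Wnd.cfg_sub (W := W) E n hi)).2

/-- the moving functional, finite form -/
theorem mv_fin (h : QWnd W f) (L : LightW W x σ s a) {n : ℕ} (F : Fct W E x n) {k₀ k i l : ℕ}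
    (h1 : (i, k₀) ∈ (W.cfg E n).I) (h2 : (i, k) ∈ (W.cfg E n).I) (h3 : (l, k₀) ∈ (W.cfg E n).I)
    (h4 : (l, k) ∈ (W.cfg E n).I) {e1 e2 : ℝ} (g1 : |(W.cfg E n).rel k i l 10| ≤ e1)
    (g2 : |(W.cfg E n).rel k₀ i l 10| ≤ e2) (g3 : |(W.cfg E n).rel k₀ i l 6| ≤ e2) :
    |(flg W n k 0 - flg W n k₀ 0) * DPl W E n k₀ i l -
      (flg W n k 3 - flg W n k₀ 3) * DXl W E n k₀ i l| ≤
      (CE W + MW W ^ 5) * W.B'.d n ^ x + e1 + (1 + MW W ^ 4) * e2 := by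
  have h10 := F.evo k₀ k i l h1 h2 h3 h4 10 (L.notMem (by decide) (by decide))
  obtain ⟨o2, o4, o0, o3⟩ := own_zero L n k₀ k (fsl W n i k₀ 2) (fsl W n i k₀ 3)
  have hZ0 := mem_Z h1
  have hZ := mem_Z h2
  set b := (W.cfg E n).rel k₀ i l with hb
  set A := own W n k₀ k (fsl W n i k₀ 2) (fsl W n i k₀ 3) with hA
  have e10 : evoG W n A b 10 = b 10 + cf W n 0 7 10 * (A 0 * b 7) +
      cf W n 0 7 10 * (A 0 * (cf W n 0 1 7 * (A 0 * b 1))) -
      cf W n 4 8 10 * (A 4 * (b 8 + cf W n 0 5 8 * (A 0 * b 5))) -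
      cf W n 3 9 10 * (A 3 * (b 9 + cf W n 0 6 9 * (A 0 * b 6))) := by
    unfold evoG
    rw [if_neg (by decide)]
    simp only [evoN, Matrix.cons_val]
  rw [e10, o4] at h10
  have m0 := F.mot0 k₀ hZ0 k hZ
  have m3 := F.mot3 k₀ hZ0 k hZ
  have b0 := F.motb k₀ hZ0 k hZ 0
  have b3 := F.motb k₀ hZ0 k hZ 3
  rw [← o0] at m0 b0
  rw [← o3] at m3 b3
  rw [← m0, ← m3]
  obtain ⟨c256, c017, c457, c367, c058, c069, c289, c0710, c4810, c3910, c234⟩ := F.cfb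
  have hM := h.MW_one
  have hM0 : 0 ≤ MW W := by linarith
  have hρ : 0 ≤ W.B'.d n ^ x := Real.rpow_nonneg (W.B'.pos n).le _
  have he2 : 0 ≤ e2 := (abs_nonneg _).trans g2
  have hb1 := F.relb k₀ i l h1 h3 1
  have t1 : |cf W n 0 7 10 * (A 0 * (cf W n 0 1 7 * (A 0 * b 1)))| ≤ MW W ^ 5 * W.B'.d n ^ x := by
    rw [abs_mul, abs_mul, abs_mul, abs_mul]
    calc |cf W n 0 7 10| * (|A 0| * (|cf W n 0 1 7| * (|A 0| * |b 1|)))
        ≤ MW W * (MW W * ((MW W * W.B'.d n ^ x) * (MW W * MW W))) := by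
          refine mul_le_mul c0710 ?_ (by positivity) hM0
          refine mul_le_mul b0 ?_ (by positivity) hM0
          refine mul_le_mul F.c017 ?_ (by positivity) (by positivity)
          exact mul_le_mul b0 hb1 (abs_nonneg _) hM0
      _ = _ := by ring
  have t2 : |cf W n 3 9 10 * (A 3 * (cf W n 0 6 9 * (A 0 * b 6)))| ≤ MW W ^ 4 * e2 := by
    rw [abs_mul, abs_mul, abs_mul, abs_mul]
    calc |cf W n 3 9 10| * (|A 3| * (|cf W n 0 6 9| * (|A 0| * |b 6|)))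
        ≤ MW W * (MW W * (MW W * (MW W * e2))) := by
          refine mul_le_mul c3910 ?_ (by positivity) hM0
          refine mul_le_mul b3 ?_ (by positivity) hM0
          refine mul_le_mul c069 ?_ (by positivity) hM0
          exact mul_le_mul b0 g3 (abs_nonneg _) hM0
      _ = _ := by ring
  have key : A 0 * DPl W E n k₀ i l - A 3 * DXl W E n k₀ i l =
      -((W.cfg E n).rel k i l 10 - (b 10 + cf W n 0 7 10 * (A 0 * b 7) +
      cf W n 0 7 10 * (A 0 * (cf W n 0 1 7 * (A 0 * b 1))) -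
      cf W n 4 8 10 * (0 * (b 8 + cf W n 0 5 8 * (A 0 * b 5))) -
      cf W n 3 9 10 * (A 3 * (b 9 + cf W n 0 6 9 * (A 0 * b 6))))) +
      (W.cfg E n).rel k i l 10 - b 10 -
      cf W n 0 7 10 * (A 0 * (cf W n 0 1 7 * (A 0 * b 1))) +
      cf W n 3 9 10 * (A 3 * (cf W n 0 6 9 * (A 0 * b 6))) := by
    unfold DPl DXl
    rw [← hb]; ring
  rw [key]
  rw [abs_le] at h10 g1 g2 t1 t2 ⊢
  constructor
  · linarith [h10.1, h10.2, g1.1, g1.2, g2.1, g2.2, t1.1, t1.2, t2.1, t2.2]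
  · linarith [h10.1, h10.2, g1.1, g1.2, g2.1, g2.2, t1.1, t1.2, t2.1, t2.2]

/-- the other slots, finite form -/
theorem inT_fin (h : QWnd W f) (L : LightW W x σ s a) {n : ℕ} (F : Fct W E x n) {k₀ k i l : ℕ}
    (h1 : (i, k₀) ∈ (W.cfg E n).I) (h2 : (i, k) ∈ (W.cfg E n).I) (h3 : (l, k₀) ∈ (W.cfg E n).I)
    (h4 : (l, k) ∈ (W.cfg E n).I) {e2 : ℝ}
    (g : ∀ j, j = 2 ∨ j = 4 ∨ j = 5 ∨ j = 6 ∨ j = 8 → |(W.cfg E n).rel k₀ i l j| ≤ e2) (j : Fin 11)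
    (hj : j = 2 ∨ j = 4 ∨ j = 5 ∨ j = 6 ∨ j = 8) :
    |(W.cfg E n).rel k i l j| ≤ CE W * W.B'.d n ^ x + (1 + MW W ^ 2) * e2 := by
  have hjS : j ∉ W.S := by
    rcases hj with rfl | rfl | rfl | rfl | rfl <;> exact L.notMem (by decide) (by decide)
  have hev := F.evo k₀ k i l h1 h2 h3 h4 j hjS
  obtain ⟨o2, o4, o0, o3⟩ := own_zero L n k₀ k (fsl W n i k₀ 2) (fsl W n i k₀ 3)
  have hZ0 := mem_Z h1
  have hZ := mem_Z h2
  set b := (W.cfg E n).rel k₀ i l with hb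
  set A := own W n k₀ k (fsl W n i k₀ 2) (fsl W n i k₀ 3) with hA
  have b0 := F.motb k₀ hZ0 k hZ 0
  have b3 := F.motb k₀ hZ0 k hZ 3
  rw [← o0] at b0
  rw [← o3] at b3
  obtain ⟨c256, c017, c457, c367, c058, c069, c289, c0710, c4810, c3910, c234⟩ := F.cfb
  have hM := h.MW_one
  have hM0 : 0 ≤ MW W := by linarith
  have he2 : 0 ≤ e2 := (abs_nonneg _).trans (g 2 (by simp))
  have gj := g j hj
  have hprod : ∀ u v w : ℝ, |u| ≤ MW W → |v| ≤ MW W → |w| ≤ e2 → |u * (v * w)| ≤ MW W ^ 2 * e2 := by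
    intro u v w hu hv hw
    rw [abs_mul, abs_mul]
    calc |u| * (|v| * |w|) ≤ MW W * (MW W * e2) :=
          mul_le_mul hu (mul_le_mul hv hw (abs_nonneg _) hM0) (by positivity) hM0
      _ = _ := by ring
  have fin : ∀ q : ℝ, |q| ≤ MW W ^ 2 * e2 → |evoG W n A b j - (b j + q)| ≤ 0 →
      |(W.cfg E n).rel k i l j| ≤ CE W * W.B'.d n ^ x + (1 + MW W ^ 2) * e2 := by
    intro q hq he
    have e : evoG W n A b j = b j + q := by
      have := abs_nonpos_iff.1 he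
      linarith
    rw [e] at hev
    rw [abs_le] at hev hq gj ⊢
    constructor
    · linarith [hev.1, hev.2, hq.1, hq.2, gj.1, gj.2]
    · linarith [hev.1, hev.2, hq.1, hq.2, gj.1, gj.2]
  have z0 : |(0 : ℝ)| ≤ MW W ^ 2 * e2 := by rw [abs_zero]; positivity
  rcases hj with rfl | rfl | rfl | rfl | rfl
  · refine fin 0 z0 ?_
    unfold evoG
    rw [if_neg (by decide)]
    simp only [evoN, Matrix.cons_val]
    simp
  · refine fin (-(cf W n 2 3 4 * (A 3 * b 2))) ?_ ?_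
    · rw [abs_neg]
      exact hprod _ _ _ c234 b3 (g 2 (by simp))
    · unfold evoG
      rw [if_pos rfl, o2]
      have : b 4 + cf W n 2 3 4 * (0 * b 3 - b 2 * A 3) - (b 4 + -(cf W n 2 3 4 * (A 3 * b 2))) =
        0 := by ring
      rw [this]; simp
  · refine fin 0 z0 ?_
    unfold evoG
    rw [if_neg (by decide)]
    simp only [evoN, Matrix.cons_val]
    simp
  · refine fin 0 z0 ?_
    unfold evoG
    rw [if_neg (by decide)]
    simp only [evoN, Matrix.cons_val]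
    rw [o2]; simp
  · refine fin (cf W n 0 5 8 * (A 0 * b 5)) (hprod _ _ _ c058 b0 (g 5 (by simp))) ?_
    unfold evoG
    rw [if_neg (by decide)]
    simp only [evoN, Matrix.cons_val]
    simp

end

end Crest.Agent.R136.Rgl501
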