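import Crest.Agent.R136.Rgl2_501

/-!
# R136: window instance of [RIG-0] for the lightlike surface, part 3 (helper501)

`rig0_light` : in a window at the lightlike surface (`LightW`) the flag `F_b` is an affine function
of the height, up to `ρ^y`, on a part `G'` of the incidences of the class with `#G' ≥ T ρ^(η y)`.
-/

set_option autoImplicit false
set_option linter.unusedVariables false
set_option linter.unusedSectionVars false

open Filter Topology Finset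

namespace Crest.Agent.R136.Rgl501

open Crest.Agent.R138.Ex926 (Base U)
open Crest.Agent.R136.Gf356 Crest.Agent.R136.Qg926 Crest.Agent.R136.Ev356
open Crest.Agent.R136.NetQ186 Crest.Agent.R136.Rg6_501

set_option maxHeartbeats 1600000 in
/-- **[RIG-0] in a lightlike window** -/
theorem rig0_light {σ s a η : ℝ} (ha : 0 ≤ a) (has : a < s) (hsσ : s < σ) (hσ1 : σ ≤ 1)
    (hη : 0 < η) (hη1 : η ≤ 1) :
    ∃ θ : ℝ, 0 < θ ∧ θ ≤ 1 ∧ ∀ {ι : ℕ → Type*} [∀ n, DecidableEq (ι n)] {W : Wnd 11 ι}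
      {f : ∀ n, ι n → Fq4} (h : QWnd W f) {x : ℝ} (L : LightW W x σ s a),
      ∀ᶠ n in (U : Filter ℕ), ∃ y : ℝ, θ * x ≤ y ∧ y ≤ x ∧ ∃ (G' : Finset (ι n)) (μ β : ℝ),
        G' ⊆ W.Cl n ∧ W.T n * W.B'.d n ^ (η * y) ≤ (G'.card : ℝ) ∧
        |μ| ≤ W.B'.d n ^ (-(η * y)) ∧ ∀ i ∈ G',
          |W.crd n (W.s₀ n) i 3 - β - μ * W.crd n (W.s₀ n) i 0| ≤ W.B'.d n ^ y := by
  have hσ0 : 0 < σ := by linarith
  set η₀ : ℝ := η * σ / 8 with hη₀
  have hη₀0 : 0 < η₀ := by positivity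
  have hη₀8 : η₀ ≤ η / 8 := by
    have := mul_le_mul_of_nonneg_left hσ1 hη.le
    rw [hη₀]; linarith
  obtain ⟨θ₀, hθ₀, hθ₀1, HE⟩ := rig0_RL ha has hsσ hσ1 hη₀0
  refine ⟨θ₀ * (5 / 8), by positivity, by linarith, ?_⟩
  intro ι _ W f h x L
  have hx := L.x_pos
  have hM := h.MW_one
  have hM0 : 0 < MW W := by linarith
  -- the model
  have hkz := L.kz
  have hxk : x ≤ W.top W.kz := L.top _
  have hfr : ∀ y, 0 ≤ y → y ≤ x → W.lam (Pi.single W.kz y) ≤ -(σ * y) := by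
    rw [hkz]; exact L.frost
  have hEo := h.ok.eok_class
  obtain ⟨E', g, hP, hg, H⟩ := Wnd.EOk.exists_model h.ok hEo (fun _ _ _ => 0)
    (g₀ := fun n => W.B'.L n) W.B'.L_tendsto L.dens hσ0.le hσ1 hxk hfr
  have hc := h.ev_hc hEo hP
  have hdata := rdata_light h L hc H
  have hU := H.toRUnif
  set τ : ℝ := η₀ * θ₀ * x / 8 with hτ
  have hτ0 : 0 < τ := by positivity
  have hd : ∀ n (u : ℝ), 0 < W.B'.d n ^ u := fun n u => rpos W.B' n u
  have hdn : ∀ n {u v : ℝ}, u ≤ v → W.B'.d n ^ v ≤ W.B'.d n ^ u := fun n {u v} h' =>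
    rpow_anti W.B' n h'
  filter_upwards [HE hU _ _ _ _ _ _ _ _ _ _ _ _ _ _ hdata, ev_fct h L hc,
    Wnd.ev_hts h.ok hEo hP L.dens hτ0, h.ok.card_zc_le hτ0, h.ok.cls.big τ hτ0, hP.gsub τ hτ0,
    frost_unif H hτ0, Gf356.ev_const_le W.B' hτ0 (3 * MW W), hc] with
    n g1 F g2 g3 g4 g5 g6 g7 g8
  obtain ⟨w, μ, hw1, hw2, hμ, k₁, hk₁, hpop⟩ := g1
  obtain ⟨hgood, hEC, hcfg⟩ := g8
  set ρ := W.B'.d n with hρ
  have hρ0 : 0 < ρ := W.B'.pos n
  have hρ1 : ρ < 1 := W.B'.lt n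
  have hw0 : 0 < w := (hd n x).trans_le hw1
  -- the exponent
  set yw : ℝ := Real.logb ρ w with hyw
  have hwρ : ρ ^ yw = w := Real.rpow_logb hρ0 hρ1.ne hw0
  have hyx : yw ≤ x := by
    rw [← hwρ] at hw1
    exact (Real.rpow_le_rpow_left_iff_of_base_lt_one hρ0 hρ1).1 hw1
  have hyθ : θ₀ * x ≤ yw := by
    rw [← hwρ] at hw2
    exact (Real.rpow_le_rpow_left_iff_of_base_lt_one hρ0 hρ1).1 hw2
  have hyw0 : 0 < yw := lt_of_lt_of_le (by positivity) hyθ
  have hτy : 8 * τ ≤ η₀ * yw := by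
    have : 8 * τ = η₀ * (θ₀ * x) := by rw [hτ]; ring
    rw [this]
    exact mul_le_mul_of_nonneg_left hyθ hη₀0.le
  have hη₀y : η₀ * yw ≤ η / 8 * yw := mul_le_mul_of_nonneg_right hη₀8 hyw0.le
  have hτy2 : 64 * τ ≤ η * yw := by linarith
  have hηyw : η * yw ≤ 1 * yw := mul_le_mul_of_nonneg_right hη1 hyw0.le
  set Z := (W.cfg E' n).Z with hZ
  set Z'' := Z.filter fun k => |fl W n k - fl W n k₁ - μ * (zl W n k - zl W n k₁)| ≤ w with hZ''
  have hZ0 : (0 : ℝ) < Z.card := by exact_mod_cast card_pos.2 ⟨k₁, hk₁⟩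
  -- unscaled relation
  have hrel : ∀ k ∈ Z'', |(flg W n k 3 - flg W n k₁ 3) - μ * (flg W n k 0 - flg W n k₁ 0)| ≤
      MW W * w := by
    intro k hk
    have h1 := (mem_filter.1 hk).2
    have e1 : fl W n k - fl W n k₁ - μ * (zl W n k - zl W n k₁) =
        ((flg W n k 3 - flg W n k₁ 3) - μ * (flg W n k 0 - flg W n k₁ 0)) / MW W := by
      unfold fl zl; ring
    rw [e1, abs_div, abs_of_pos hM0, div_le_iff₀ hM0] at h1
    linarith
  -- two distant heights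
  set y₁ : ℝ := η / 4 * yw with hy₁
  have hy₁0 : 0 ≤ y₁ := by positivity
  have hy₁x : y₁ ≤ x := by rw [hy₁]; linarith
  obtain ⟨k₂, hk₂, hk₂z⟩ : ∃ k ∈ Z'', ρ ^ y₁ < |flg W n k 0 - flg W n k₁ 0| := by
    by_contra hcon
    push Not at hcon
    have hsub : Z'' ⊆ (W.cfg E' n).hbox y₁ k₁ := by
      intro k hk
      unfold RCfg.hbox
      rw [mem_filter]
      refine ⟨(mem_filter.1 hk).1, ?_⟩
      rw [F.zeq, F.zeq, H.base n]
      exact hcon k hk
    have h1 := g6 y₁ hy₁0 hy₁x k₁ hk₁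
    have h2 : w ^ η₀ * (Z.card : ℝ) ≤ ρ ^ (σ * y₁ - τ) * (Z.card : ℝ) :=
      hpop.trans ((Nat.cast_le.2 (card_le_card hsub)).trans h1)
    have h3 := le_of_mul_le_mul_right h2 hZ0
    rw [← hwρ, ← Real.rpow_mul hρ0.le] at h3
    have h4 := (Real.rpow_le_rpow_left_iff_of_base_lt_one hρ0 hρ1).1 h3
    have e2 : σ * y₁ = 2 * (η₀ * yw) := by rw [hy₁, hη₀]; ring
    rw [e2] at h4
    linarith
  have hk₂Z := (mem_filter.1 hk₂).1
  have hw1' : w ≤ 1 := by
    rw [← hwρ]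
    exact Real.rpow_le_one hρ0.le hρ1.le hyw0.le
  -- the slope
  have hμ1 : |μ| ≤ ρ ^ (-(y₁ + τ)) := by
    have h1 := hrel k₂ hk₂
    have b1 := F.flgb k₂ hk₂Z 3
    have b2 := F.flgb k₁ hk₁ 3
    have h2 : |μ| * |flg W n k₂ 0 - flg W n k₁ 0| ≤ 3 * MW W := by
      rw [← abs_mul]
      have h3 : |μ * (flg W n k₂ 0 - flg W n k₁ 0)| ≤ MW W * w + 2 * MW W := by
        rw [abs_le] at h1 b1 b2 ⊢
        constructor <;> linarith [h1.1, h1.2, b1.1, b1.2, b2.1, b2.2]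
      have h5 := mul_le_mul_of_nonneg_left hw1' hM0.le
      linarith
    have h3 : |μ| * ρ ^ y₁ ≤ ρ ^ (-τ) :=
      (mul_le_mul_of_nonneg_left hk₂z.le (abs_nonneg _)).trans (h2.trans g7)
    have h4 : ρ ^ (-(y₁ + τ)) * ρ ^ y₁ = ρ ^ (-τ) := by
      rw [← rpow_add']; congr 1; ring
    rw [← h4] at h3
    exact le_of_mul_le_mul_right h3 (hd n y₁)
  set y : ℝ := yw * (1 - 3 * η / 8) with hy
  have hyy : yw * (5 / 8) ≤ y := mul_le_mul_of_nonneg_left (by linarith) hyw0.le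
  have hyyw : y ≤ yw := by
    have : 0 ≤ η * yw := by positivity
    rw [hy]; linarith
  have hηy : η * (yw * (5 / 8)) ≤ η * y := mul_le_mul_of_nonneg_left hyy hη.le
  refine ⟨y, by linarith, hyyw.trans hyx, ?_⟩
  set G' := (E' n).filter fun i => W.zc n i ∈ Z'' with hG'
  refine ⟨G', μ, flg W n k₁ 3 - μ * flg W n k₁ 0, (filter_subset _ _).trans hEC, ?_, ?_, ?_⟩
  · -- mass
    have hZim : Z = (E' n).image (W.zc n) := by rw [hZ, hcfg]; rfl
    have c1 : (G'.card : ℝ) = ∑ k ∈ Z'', (((E' n).filter fun i => W.zc n i = k).card : ℝ) := by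
      have h1 : G'.card = ∑ k ∈ Z'', (G'.filter fun i => W.zc n i = k).card :=
        card_eq_sum_card_fiberwise fun i hi => (mem_filter.1 hi).2
      rw [h1]
      push_cast
      refine sum_congr rfl fun k hk => ?_
      congr 2
      ext i
      simp only [hG', mem_filter]
      constructor
      · rintro ⟨⟨a1, a2⟩, a3⟩; exact ⟨a1, a3⟩
      · rintro ⟨a1, a3⟩; exact ⟨⟨a1, a3 ▸ hk⟩, a3⟩
    set N0 : ℝ := (((W.Cl n).image (W.zc n)).card : ℝ) with hN0
    have hCl0 : (0 : ℝ) < (W.Cl n).card :=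
      lt_of_lt_of_le (mul_pos (h.ok.cls.T0 n) (hd n _)) g4
    have hN00 : 0 < N0 := by
      have h1 : (W.Cl n).Nonempty := card_pos.1 (by exact_mod_cast hCl0)
      have h2 := (h1.image (W.zc n)).card_pos
      rw [hN0]
      exact_mod_cast h2
    have hg1 := hP.g1 n
    have c2 : ∀ k ∈ Z'', ((W.Cl n).card : ℝ) / (ρ ^ (-τ) * N0) ≤
        (((E' n).filter fun i => W.zc n i = k).card : ℝ) := by
      intro k hk
      have hkZ := (mem_filter.1 hk).1
      rw [hZim] at hkZ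
      obtain ⟨i, hi, rfl⟩ := mem_image.1 hkZ
      have h1 := hP.slices n i hi
      rw [div_le_iff₀ (mul_pos (hd n _) hN00)]
      have e1 : R138.Ex926.cls (E' n) (W.zc n) i = (E' n).filter fun j => W.zc n j = W.zc n i := by
        ext j
        rw [R138.Ex926.mem_cls, mem_filter]
      rw [e1] at h1
      refine h1.trans ?_
      have h2 : (0 : ℝ) ≤ (((E' n).filter fun j => W.zc n j = W.zc n i).card : ℝ) :=
        Nat.cast_nonneg _
      calc g n * N0 * (((E' n).filter fun j => W.zc n j = W.zc n i).card : ℝ)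
          ≤ ρ ^ (-τ) * N0 * (((E' n).filter fun j => W.zc n j = W.zc n i).card : ℝ) := by
            refine mul_le_mul_of_nonneg_right ?_ h2
            exact mul_le_mul_of_nonneg_right g5 hN00.le
        _ = _ := by ring
    have c3 : (Z''.card : ℝ) * (((W.Cl n).card : ℝ) / (ρ ^ (-τ) * N0)) ≤ (G'.card : ℝ) := by
      rw [c1, ← nsmul_eq_mul, ← sum_const]
      exact sum_le_sum c2
    -- number of heights
    obtain ⟨k, hk⟩ := ln0_spec (W := W) (E := E') n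
    have c4 : ρ ^ (W.lam (cut W.S 0 W.top) + τ) ≤ (Z.card : ℝ) := by
      have h1 := hU.memL hk
      rw [hcfg] at h1
      refine (g2 _ h1).trans ?_
      rw [hZ, hcfg]
      exact Nat.cast_le.2 (card_le_card fun k hk => (RCfg.mem_hts.1 hk).1)
    have c5 : N0 ≤ ρ ^ (W.lam (cut W.S 0 W.top) - τ) := g3 (W.Cl n) (Subset.refl _)
    have c6 : ρ ^ (η₀ * yw) * ρ ^ (W.lam (cut W.S 0 W.top) + τ) ≤ (Z''.card : ℝ) := by
      refine le_trans ?_ hpop
      rw [← hwρ, ← Real.rpow_mul hρ0.le, mul_comm yw η₀]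
      exact mul_le_mul_of_nonneg_left c4 (hd n _).le
    have hT0 := h.ok.cls.T0 n
    refine le_trans ?_ c3
    rw [← mul_div_assoc, le_div_iff₀ (mul_pos (hd n _) hN00)]
    calc W.T n * ρ ^ (η * y) * (ρ ^ (-τ) * N0)
        ≤ W.T n * ρ ^ (η * y) * (ρ ^ (-τ) * ρ ^ (W.lam (cut W.S 0 W.top) - τ)) := by
          refine mul_le_mul_of_nonneg_left ?_ (mul_pos hT0 (hd n _)).le
          exact mul_le_mul_of_nonneg_left c5 (hd n _).le
      _ = W.T n * ρ ^ (η * y + (-τ + (W.lam (cut W.S 0 W.top) - τ))) := by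
          rw [rpow_add', rpow_add']; ring
      _ ≤ W.T n * ρ ^ (η₀ * yw + (W.lam (cut W.S 0 W.top) + τ) + τ) := by
          refine mul_le_mul_of_nonneg_left (hdn n ?_) hT0.le
          linarith
      _ = ρ ^ (η₀ * yw) * ρ ^ (W.lam (cut W.S 0 W.top) + τ) * (W.T n * ρ ^ τ) := by
          rw [rpow_add', rpow_add']; ring
      _ ≤ (Z''.card : ℝ) * ((W.Cl n).card : ℝ) :=
          mul_le_mul c6 g4 (mul_pos hT0 (hd n _)).le (Nat.cast_nonneg _)
  · -- slope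
    refine hμ1.trans (hdn n ?_)
    rw [hy₁]
    linarith
  · -- precision
    intro i hi
    obtain ⟨hiE, hiZ⟩ := mem_filter.1 hi
    have hiC := hEC hiE
    set k := W.zc n i with hk
    obtain ⟨r1, r2⟩ := W.zrep_spec hiC
    have hl : W.zc n (W.zrep n k) = W.zc n i := r2
    have a3 := h.crd_add hgood hgood.s0 r1 hiC (s := 3) (by simp)
    have a0 := h.crd_add hgood hgood.s0 r1 hiC (s := 0) (by simp)
    have hS3 : (3 : Fin 11) ∈ W.S := by rw [L.hS]; simp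
    have hS0 : (0 : Fin 11) ∈ W.S := by rw [L.hS]; simp
    have l3 := h.crd_lev hgood r1 hiC hl hS3 (L.top 3)
    have l0 := h.crd_lev hgood r1 hiC hl hS0 (L.top 0)
    have m3 := (h.MW_le 3).1
    have m0 := (h.MW_le 0).1
    have hrk := hrel k hiZ
    have hwx : ρ ^ x ≤ w := hw1
    have l3' : |W.crd n (W.zrep n k) i 3| ≤ MW W * w := l3.trans (by
      refine mul_le_mul (by linarith) hwx (hd n _).le hM0.le)
    have l0' : |W.crd n (W.zrep n k) i 0| ≤ MW W * w := l0.trans (by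
      refine mul_le_mul (by linarith) hwx (hd n _).le hM0.le)
    have hμ0 : 1 ≤ ρ ^ (-(y₁ + τ)) :=
      Real.one_le_rpow_of_pos_of_le_one_of_nonpos hρ0 hρ1.le (by linarith)
    have e1 : W.crd n (W.s₀ n) i 3 - (flg W n k₁ 3 - μ * flg W n k₁ 0) -
        μ * W.crd n (W.s₀ n) i 0 =
        ((flg W n k 3 - flg W n k₁ 3) - μ * (flg W n k 0 - flg W n k₁ 0)) +
        W.crd n (W.zrep n k) i 3 - μ * W.crd n (W.zrep n k) i 0 := by
      rw [a3, a0]
      unfold flg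
      ring
    rw [e1]
    have hμl : |μ * W.crd n (W.zrep n k) i 0| ≤ ρ ^ (-(y₁ + τ)) * (MW W * w) := by
      rw [abs_mul]
      exact mul_le_mul hμ1 l0' (abs_nonneg _) (hd n _).le
    have hMw : MW W * w ≤ ρ ^ (-(y₁ + τ)) * (MW W * w) :=
      le_mul_of_one_le_left (by positivity) hμ0
    have t1 : |((flg W n k 3 - flg W n k₁ 3) - μ * (flg W n k 0 - flg W n k₁ 0)) +
        W.crd n (W.zrep n k) i 3 - μ * W.crd n (W.zrep n k) i 0| ≤
        3 * (ρ ^ (-(y₁ + τ)) * (MW W * w)) := by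
      rw [abs_le] at hrk l3' hμl ⊢
      constructor <;> linarith [hrk.1, hrk.2, l3'.1, l3'.2, hμl.1, hμl.2]
    refine t1.trans ?_
    calc 3 * (ρ ^ (-(y₁ + τ)) * (MW W * w)) = (3 * MW W) * (ρ ^ (-(y₁ + τ)) * ρ ^ yw) := by
          rw [hwρ]; ring
      _ ≤ ρ ^ (-τ) * (ρ ^ (-(y₁ + τ)) * ρ ^ yw) :=
          mul_le_mul_of_nonneg_right g7 (mul_pos (hd n _) (hd n _)).le
      _ = ρ ^ (-τ + (-(y₁ + τ) + yw)) := by rw [← rpow_add', ← rpow_add']
      _ ≤ ρ ^ y := hdn n (by rw [hy, hy₁]; linarith)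

end Crest.Agent.R136.Rgl501
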