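import Crest.Agent.R136.WkL3_626
import Crest.Agent.R136.GauD_66
import Crest.Agent.R136.C2e_355
import Crest.Agent.R136.Rgl4_480

/-!
# R136 (helper480), T.L (A), part 1: homogeneous interior tangents of the lightlike surface

Plane `z.1 • tM + z.2 • eN` (`tM` = natural ray with the slot `R` moving along).

* `lightF_of` : rate of `N` given `X_a` is `< 1` ⊢ `LightF`;
* `slope_of` : rate `1` ⊢ slope `≤ -5`.
-/

set_option autoImplicit false
set_option linter.unusedSectionVars false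
set_option linter.unusedVariables false

open Filter Topology

namespace Crest.Agent.R136.Rgl480

open Crest.Agent.R136.Dg219 (gC dhC nC Tn lf gset OutS dirC gC_eq gC_zero mem_gset)
open Crest.Agent.R136.Rc146 (OutA)
open Crest.Agent.R136.WkL626
open Crest.Agent.R136.Gau66 (eN tN cu LightF)
open Crest.Agent.R136.NatR550 (coneN nL)
open Crest.Agent.R136.Qg926 (cut)
open Crest.Agent.R136.Rgl501 (lv)
open Crest.Agent.R136.Wk323 (vec fAll fPos fDir qv)
open Crest.Agent.R136.C2355 (v11 v11_mem v11_zero v11_le)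

/-- natural ray, the slot `R` moves along -/
def tM : Fin 11 → ℝ := ![1, 1, 0, 1, 1, 0, 0, 1, 1, 1, 2]

theorem wqL_iff {c : Fin 11 → ℝ} : WqL c ↔ c ∈ coneN :=
  ⟨fun h => ⟨h.1, h.2, h.3, h.4, h.5, h.6, h.7, h.8, h.9, h.10⟩,
    fun ⟨h1, h2, h3, h4, h5, h6, h7, h8, h9, h10⟩ => ⟨h1, h2, h3, h4, h5, h6, h7, h8, h9, h10⟩⟩

theorem g_iff (i j : Fin 11) : gC tM eN i = gC tM eN j ↔ (tM i = 0 ∧ tM j = 0) ∨
    (tM i ≠ 0 ∧ tM j ≠ 0 ∧ eN i / tM i = eN j / tM j) := by
  by_cases hi : tM i = 0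
  · rw [gC_zero.2 hi]
    constructor
    · intro h
      exact Or.inl ⟨hi, gC_zero.1 h.symm⟩
    · rintro (⟨-, h⟩ | ⟨h, -⟩)
      · rw [gC_zero.2 h]
      · exact absurd hi h
  · by_cases hj : tM j = 0
    · constructor
      · intro h
        rw [gC_zero.2 hj] at h
        exact absurd (gC_zero.1 h) hi
      · rintro (⟨h, -⟩ | ⟨-, h, -⟩)
        · exact absurd h hi
        · exact absurd hj h
    · rw [gC_eq hi hj]
      constructor
      · intro h; exact Or.inr ⟨hi, hj, h⟩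
      · rintro (⟨h, -⟩ | ⟨-, -, h⟩)
        · exact absurd h hi
        · exact h

theorem dhM (i : Fin 11) : 0 < dhC tM eN i := by
  fin_cases i <;> simp [dhC, tM, eN]

/-- **the groups** -/
theorem grpM : LGrpA (gC tM eN) coneN tM eN (dhC tM eN) where
  leg := fun c h => wqL_iff.1 h
  g8 := fun i => by
    rw [g_iff, show tM 8 = 1 from rfl, show eN 8 = 1 from rfl]
    fin_cases i <;> norm_num [tM, eN, Fin.ext_iff]
  g5 := fun i => by
    rw [g_iff, show tM 5 = 0 from rfl, show eN 5 = 1 from rfl]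
    fin_cases i <;> norm_num [tM, eN, Fin.ext_iff]
  g7 := fun i => by
    rw [g_iff, show tM 7 = 1 from rfl, show eN 7 = 2 from rfl]
    fin_cases i <;> norm_num [tM, eN, Fin.ext_iff]
  g3 := by
    rw [g_iff, show tM 3 = 1 from rfl, show eN 3 = 0 from rfl, show tM 0 = 1 from rfl,
      show eN 0 = 0 from rfl]
    norm_num
  dh8 := fun i _ => dhM i
  dh5 := fun i _ => dhM i
  dh7 := fun i _ => dhM i
  a4 := rfl
  a8 := rfl
  a10 := rfl
  b0 := rfl
  b1 := rfl
  b3 := rfl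

/-- only the values on the cone matter -/
theorem outA_congr {κ : Type*} [DecidableEq κ] {g : Fin 11 → κ} {L : Set (Fin 11 → ℝ)}
    {a b dh : Fin 11 → ℝ} {n : κ → ℝ × ℝ} {lam lam' : (Fin 11 → ℝ) → ℝ} {A : ℝ × ℝ}
    {φ : κ → (Fin 11 → ℝ) → ℝ} {r : κ → ℝ} (H : OutA g L a b dh n lam A φ r)
    (h : ∀ c ∈ L, lam' c = lam c) : OutA g L a b dh n lam' A φ r :=
  { toOutS := { H.toOutS with sum := fun c hc => by rw [h c hc]; exact H.sum c hc }
    add := H.add
    smods := H.smods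
    der := H.der }

/-- **homogeneous tangent at an interior point of the lightlike surface** -/
structure HT (lam : (Fin 11 → ℝ) → ℝ) (A : ℝ × ℝ) (φ : ℕ → (Fin 11 → ℝ) → ℝ) (r : ℕ → ℝ)
    (m : ℝ) : Prop where
  out : OutA (gC tM eN) coneN tM eN (dhC tM eN) (nC tM eN) lam A φ r
  hom : Hom (gC tM eN) coneN (dhC tM eN) φ
  slot : ∀ c ∈ coneN, ∀ c' ∈ coneN, (∀ i, i ≠ 1 → c i = c' i) → lam c = lam c'
  frost : ∀ y, 0 ≤ y → lam (Pi.single 0 y) ≤ -y
  m0 : 0 < m
  ca : lam e5 ≤ -m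
  /-- `X_a` full -/
  xa : 1 ≤ lam (v11 1 1 0 0 0 0 0 0 0 0) - lam (v11 1 1 0 0 0 0 0 1 0 0)
  /-- `X_b` full -/
  xb : ∃ δ : ℝ, 0 < δ ∧ δ ≤ 1 ∧ δ ≤ lam (v11 1 1 δ 0 0 0 0 0 0 0) - lam (v11 1 1 δ 0 0 0 0 0 δ 0)

namespace HT

variable {lam : (Fin 11 → ℝ) → ℝ} {A : ℝ × ℝ} {φ : ℕ → (Fin 11 → ℝ) → ℝ} {r : ℕ → ℝ} {m : ℝ}

/-- rate of `N` given `X_a` -/
noncomputable def aN (φ : ℕ → (Fin 11 → ℝ) → ℝ) : ℝ := GF8.aN (φ (gC tM eN 8))

theorem topL_mem {x : ℝ} (hx : 0 ≤ x) : topL x ∈ coneN := by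
  rw [top_vL]
  exact wqL_iff.1 (vL_wq hx hx (by linarith) (by linarith) (by linarith) (by linarith)
    (by linarith) (by linarith))

theorem full7 (H : HT lam A φ r m) : φ (gC tM eN 7) (topL 1) ≤ -1 := by
  obtain ⟨δ, hδ, hδ1, h⟩ := H.xb
  have m1 : v11 1 1 δ 0 0 0 0 0 0 0 ∈ coneN := by apply v11_mem <;> linarith
  have m2 : v11 1 1 δ 0 0 0 0 0 δ 0 ∈ coneN := by apply v11_mem <;> linarith
  have d1 := dif_A H.out (mem_gset 7) m1 m2 (fun i hi => by
    have hi' : ¬ (i = 7 ∨ i = 9) := fun h => hi ((grpM.g7 i).2 h)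
    revert hi'
    fin_cases i <;> simp [v11])
  have e0 : φ (gC tM eN 7) (v11 1 1 δ 0 0 0 0 0 0 0) = 0 := H.out.zero _ _ fun i hi => by
    rcases (grpM.g7 i).1 hi with rfl | rfl <;> simp [v11]
  have e1 := (H.out.mono (gC tM eN 7) _ m2 (δ • topL 1) (by
    rw [show δ • topL 1 = topL δ by funext i; simp [topL]]
    exact topL_mem hδ.le) fun i hi => by
      rcases (grpM.g7 i).1 hi with rfl | rfl <;> simp [v11, topL, hδ.le]).1
  rw [H.hom _ grpM.dh7 _ (topL_mem zero_le_one) δ hδ.le] at e1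
  have e2 : δ * φ (gC tM eN 7) (topL 1) ≤ δ * -1 := by linarith
  exact le_of_mul_le_mul_left e2 hδ

theorem aN_nonneg (H : HT lam A φ r m) : 0 ≤ aN φ := by
  have w : ∀ y : ℝ, 0 ≤ y → y ≤ 1 → vN 4 1 0 y ∈ coneN := fun y h0 h1 =>
    wqL_iff.1 (GF8.wq1 ⟨h0, h1⟩)
  exact (H.out.mono (gC tM eN 8) _ (w 0 le_rfl zero_le_one) _ (w 1 zero_le_one le_rfl)
    fun i hi => by rcases (grpM.g8 i).1 hi with rfl | rfl | rfl <;> simp [vN]).1

theorem tn_eq (τ : ℝ) : Tn tM eN (0, τ) = τ • eN := by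
  funext i; simp [Tn, mul_comm]

theorem en_mem (τ : ℝ) : τ • eN ∈ coneN := by
  refine ⟨?_, ?_, ?_, ?_, ?_, ?_, ?_, ?_, ?_, ?_⟩ <;> simp [eN] <;> linarith

theorem cn_add' {c d : Fin 11 → ℝ} (hc : c ∈ coneN) (hd : d ∈ coneN) : c + d ∈ coneN := by
  obtain ⟨h1, h2, h3, h4, h5, h6, h7, h8, h9, h10⟩ := hc
  obtain ⟨k1, k2, k3, k4, k5, k6, k7, k8, k9, k10⟩ := hd
  refine ⟨?_, ?_, ?_, ?_, ?_, ?_, ?_, ?_, ?_, ?_⟩ <;> simp only [Pi.add_apply] <;> linarith

/-- **rate of `N` less than `1`** ⊢ all numbers of an interior tangent -/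
theorem lightF (H : HT lam A φ r m) (ha : aN φ < 1) : LightF coneN lam (aN φ) m := by
  have hT : ∀ x : ℝ, ∀ s, s ≠ 1 → topL x s = x := fun x s hs => by simp [topL, hs]
  refine ⟨H.aN_nonneg, ha, H.m0, ?_, H.frost, ?_, ?_, ?_, ?_, ?_, ?_, H.slot⟩
  · intro x hx
    set lam' : (Fin 11 → ℝ) → ℝ := fun c => lam (Function.update c 1 0) with hlam
    have hu : ∀ c ∈ coneN, Function.update c 1 0 ∈ coneN := by
      rintro c ⟨h1, h2, h3, h4, h5, h6, h7, h8, h9, h10⟩
      exact ⟨h1, h2, h3, h4, h5, h6, h7, h8, h9, h10⟩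
    have H' := outA_congr (lam' := lam') H.out fun c hc => H.slot _ (hu c hc) _ hc fun i hi => by
      simp [hi]
    have key := num_dens H' grpM hx (hT x) fun c c' h => by
      simp only [hlam]
      congr 1
      funext i
      by_cases hi : i = 1
      · subst hi; simp
      · simp [hi, h i hi]
    have e : ∀ c : Fin 11 → ℝ, c 1 = 0 → lam' c = lam c := fun c hc => by
      simp only [hlam]
      congr 1
      rw [← hc]; exact Function.update_eq_self _ _
    rw [e _ (by simp [topL]), e _ (by simp [topL, cut]), e _ (by simp [cut])] at key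
    exact key
  · intro x t ht htx
    have h1 := num_full H.out H.hom grpM (ht.trans htx) (hT x) ht htx
    have h2 := H.full7
    have h3 : t * 1 ≤ t * -φ (gC tM eN 7) (topL 1) :=
      mul_le_mul_of_nonneg_left (by linarith) ht
    unfold cu
    linarith
  · intro x hx
    exact num_loss H.out H.hom grpM hx (hT x)
  · intro x hx
    have h1 := num_dec H.out grpM hx (hT x)
    unfold cu
    linarith
  · intro x y hy hyx
    have h1 := num_fib H.out H.hom grpM (hy.trans hyx) (hT x) hy hyx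
    unfold cu aN
    linarith
  · intro x y hy hyx
    have h1 := num_conc H.out H.hom grpM (hy.trans hyx) (hT x) hy hyx
    have h2 := num_m H.out (fun c h => wqL_iff.1 h) H.ca
    have h3 := mul_le_mul_of_nonneg_right h2 hy
    unfold cu
    linarith
  · intro τ c hc
    have h1 := num_add H.out grpM τ (by rw [tn_eq]; exact en_mem τ)
      (fun c hc => by rw [tn_eq]; exact cn_add' (en_mem τ) hc) hc
    rwa [tn_eq] at h1

theorem tM_mem (u : ℝ) : u • tM ∈ coneN := by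
  refine ⟨?_, ?_, ?_, ?_, ?_, ?_, ?_, ?_, ?_, ?_⟩ <;> simp [tM] <;> linarith

/-- rates -/
theorem rate_T (H : HT lam A φ r m) (i : Fin 11) (hi : tM i ≠ 0) (u : ℝ) :
    φ (gC tM eN i) (u • tM) = -(r (gC tM eN i) * u) :=
  H.out.rate _ _ (tM_mem u) u fun j hj => by
    have hj' : tM j ≠ 0 := by
      intro h0
      rw [gC_zero.2 h0] at hj
      exact hi (gC_zero.1 hj.symm)
    simp [dhC, hj']

theorem r_nonneg (H : HT lam A φ r m) (k : ℕ) : 0 ≤ r k := H.out.r_nonneg k fun i _ => dhM i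

theorem lam_zero (H : HT lam A φ r m) : lam 0 = 0 := by
  rw [H.out.sum 0 (by rw [← v11_zero]; apply v11_mem <;> linarith)]
  exact Finset.sum_eq_zero fun k _ => H.out.zero k 0 fun i _ => rfl

theorem r0 (H : HT lam A φ r m) : 1 ≤ r (gC tM eN 0) := by
  have h1 := H.rate_T 0 (by simp [tM]) 1
  rw [one_smul, mul_one] at h1
  have m0 : (0 : Fin 11 → ℝ) ∈ coneN := by rw [← v11_zero]; apply v11_mem <;> linarith
  have m1 : (Pi.single 0 1 : Fin 11 → ℝ) ∈ coneN := C2355.m_0 zero_le_one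
  have h2 := (H.out.mono (gC tM eN 0) _ m1 tM (by rw [← one_smul ℝ tM]; exact tM_mem 1)
    fun i hi => by
      by_cases h0 : i = 0
      · subst h0; simp [tM]
      · rw [Pi.single_eq_of_ne h0]
        fin_cases i <;> simp [tM]).1
  have d1 := dif_A H.out (mem_gset 0) m0 m1 (fun i hi => by
    have hi' : i ≠ 0 := fun h => hi (by rw [h])
    simp [hi'])
  have h3 := H.frost 1 zero_le_one
  have h4 : φ (gC tM eN 0) 0 = 0 := H.out.zero _ _ fun i _ => rfl
  rw [H.lam_zero, h4] at d1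
  linarith

theorem r7 (H : HT lam A φ r m) : 1 ≤ r (gC tM eN 7) := by
  have h1 := H.rate_T 7 (by simp [tM]) 1
  rw [one_smul, mul_one] at h1
  have h2 : φ (gC tM eN 7) tM = φ (gC tM eN 7) (topL 1) := H.out.loc _ _ _ fun i hi => by
    rcases (grpM.g7 i).1 hi with rfl | rfl <;> simp [tM, topL]
  have h3 := H.full7
  linarith

/-- **`N` full given `X_a`** ⊢ the rate of `{F_a, X_a, N}` is at least `3` -/
theorem r8 (H : HT lam A φ r m) (ha : 1 ≤ aN φ) : 3 ≤ r (gC tM eN 8) := by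
  set k := gC tM eN 8 with hk
  have m0 : (0 : Fin 11 → ℝ) ∈ coneN := by rw [← v11_zero]; apply v11_mem <;> linarith
  -- `X_a` full
  have ma : v11 1 1 0 0 0 0 0 0 0 0 ∈ coneN := by apply v11_mem <;> linarith
  have mb : v11 1 1 0 0 0 0 0 1 0 0 ∈ coneN := by apply v11_mem <;> linarith
  have d1 := dif_A H.out (mem_gset 8) ma mb (fun i hi => by
    have hi' : ¬ (i = 4 ∨ i = 8 ∨ i = 10) := fun h => hi ((grpM.g8 i).2 h)
    revert hi'
    fin_cases i <;> simp [v11])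
  have e1 : φ k (v11 1 1 0 0 0 0 0 0 0 0) = 0 := H.out.zero _ _ fun i hi => by
    rcases (grpM.g8 i).1 hi with rfl | rfl | rfl <;> simp [v11]
  have e2 : φ k (v11 1 1 0 0 0 0 0 1 0 0) = φ k (vN 4 1 0 0) := H.out.loc _ _ _ fun i hi => by
    rcases (grpM.g8 i).1 hi with rfl | rfl | rfl <;> simp [v11, vN]
  have h1 := H.xa
  have h2 : φ k (vN 4 1 0 0) - φ k (vN 4 1 0 1) = aN φ := rfl
  -- the half step
  set c : Fin 11 → ℝ := v11 1 0 0 (-(1 / 2)) 1 1 0 (1 / 2) 0 0 with hc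
  set c0 : Fin 11 → ℝ := v11 1 0 0 0 1 1 0 (1 / 2) 0 0 with hc0
  have mc : c ∈ coneN := by rw [hc]; apply v11_mem <;> linarith
  have mc0 : c0 ∈ coneN := by rw [hc0]; apply v11_mem <;> linarith
  have h3 := H.out.add k grpM.dh8 (1 / 2, 0) c mc
  have e3 : Tn tM eN (1 / 2, 0) = (1 / 2 : ℝ) • tM := by funext i; simp [Tn, mul_comm]
  rw [e3] at h3
  have h4 := H.rate_T 8 (by simp [tM]) (1 / 2)
  have e4 : φ k ((1 / 2 : ℝ) • tM + c) = φ k (vN 4 1 0 1) := H.out.loc _ _ _ fun i hi => by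
    rcases (grpM.g8 i).1 hi with rfl | rfl | rfl <;>
      simp only [hc, v11, vN, tM, Pi.add_apply, Pi.smul_apply, smul_eq_mul, Matrix.cons_val] <;>
      norm_num
  have h5 := (H.out.mono k c mc c0 mc0 fun i hi => by
    rcases (grpM.g8 i).1 hi with rfl | rfl | rfl <;>
      simp only [hc, hc0, v11, Matrix.cons_val] <;> norm_num).1
  have h6 := (H.out.mono k 0 m0 c0 mc0 fun i hi => by
    rcases (grpM.g8 i).1 hi with rfl | rfl | rfl <;>
      simp only [hc0, v11, Pi.zero_apply, Matrix.cons_val] <;> norm_num).2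
  rw [sum_f8 grpM] at h6
  have e6 : (c0 4 - (0 : Fin 11 → ℝ) 4) + (c0 8 - (0 : Fin 11 → ℝ) 8) +
      (c0 10 - (0 : Fin 11 → ℝ) 10) = 1 / 2 := by
    simp only [hc0, v11, Pi.zero_apply, Matrix.cons_val]; norm_num
  rw [e6, H.out.zero k 0 fun i _ => rfl] at h6
  change φ k ((1 / 2 : ℝ) • tM) = -(r k * (1 / 2)) at h4
  linarith

/-- **rate `1`** ⊢ the slope of the ray -/
theorem slope (H : HT lam A φ r m) (ha : 1 ≤ aN φ) : A.1 ≤ -5 := by
  have h0 := H.r0
  have h7 := H.r7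
  have h8 := H.r8 ha
  have ht := H.out.total (1, 0)
  have e1 : lf A (1, 0) = A.1 := by simp [lf]
  rw [e1] at ht
  have hne : ∀ i j : Fin 11, tM i ≠ 0 → tM j ≠ 0 → eN i / tM i ≠ eN j / tM j →
      gC tM eN i ≠ gC tM eN j := fun i j hi hj h e => h ((gC_eq hi hj).1 e)
  have n08 := hne 0 8 (by simp [tM]) (by simp [tM]) (by
    simp only [tM, eN, Matrix.cons_val]; norm_num)
  have n07 := hne 0 7 (by simp [tM]) (by simp [tM]) (by
    simp only [tM, eN, Matrix.cons_val]; norm_num)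
  have n78 := hne 7 8 (by simp [tM]) (by simp [tM]) (by
    simp only [tM, eN, Matrix.cons_val]; norm_num)
  have key : ∑ k ∈ ({gC tM eN 0, gC tM eN 7, gC tM eN 8} : Finset ℕ),
      r k * lf (nC tM eN k) (1, 0) ≤ ∑ k ∈ gset (gC tM eN), r k * lf (nC tM eN k) (1, 0) := by
    refine Finset.sum_le_sum_of_subset_of_nonneg ?_ ?_
    · intro k hk
      simp only [Finset.mem_insert, Finset.mem_singleton] at hk
      rcases hk with rfl | rfl | rfl <;> exact mem_gset _
    · intro k hk _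
      refine mul_nonneg (H.r_nonneg k) ?_
      by_cases hk0 : k = 0
      · subst hk0; rw [Dg219.nC_zero]; simp [lf]
      · obtain ⟨i, -, rfl⟩ := Finset.mem_image.1 hk
        have hi : tM i ≠ 0 := fun h => hk0 (gC_zero.2 h)
        rw [Dg219.nC_of hi]; simp [lf]
  rw [Finset.sum_insert (by simp [n07, n08]), Finset.sum_insert (by simp [n78]),
    Finset.sum_singleton, Dg219.nC_of (by simp [tM]), Dg219.nC_of (by simp [tM]),
    Dg219.nC_of (by simp [tM])] at key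
  simp only [lf, mul_one, mul_zero, add_zero] at key ht
  linarith

end HT

end Crest.Agent.R136.Rgl480
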