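import Crest.Agent.R136.Rgl5_480
import Crest.Agent.R136.AwJ_774
import Crest.Agent.R136.K2B_146
import Crest.Agent.R136.K2Y_774
import Crest.Agent.R136.LdF3_511
import Crest.Agent.R136.TL1_196

/-!
# R136 (helper480), T.L (A), part 2: windows and sweeps at interior points

* `ht_of` : a homogeneous tangent at a point left of the record line is an `HT`.
-/

set_option autoImplicit false
set_option linter.unusedSectionVars false
set_option linter.unusedVariables false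

open Filter Topology Set

namespace Crest.Agent.R136.Rgl480

open Crest.Agent.R136.Dg219 (gC dhC nC Tn lf gset OutS dirC gC_eq gC_zero mem_gset mw BUp
  bup_of_tan)
open Crest.Agent.R136.Dg262 (X)
open Crest.Agent.R136.Rc146 (OutA)
open Crest.Agent.R136.WkL626
open Crest.Agent.R136.Gau66 (eN tN cu LightF)
open Crest.Agent.R136.NatR550 (coneN nL)
open Crest.Agent.R136.C2355 (v11 v11_mem v11_zero v11_le)
open Crest.Agent.R136.Net191 Crest.Agent.R136.Qg926 Crest.Agent.R136.Gf356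
open Crest.Agent.R136.NetQ186 Crest.Agent.R136.Aw413
open Crest.Agent.R136.K2S774 (cn Prf JT Stage RecD RungD BaseOk Nat cn_closed cn_zero cn_add
  cn_smul cn_nat_add X_zero)
open Crest.Agent.R136.LdF3511
open Crest.Agent.R136.AwJ774
open Crest.Agent.R136.K2B146
open Crest.Agent.R138 (Ex926.IsTan)
open Crest.Agent.R138.Ex926 (Base U IsTan)

theorem tN_eq : tN = nL 1 0 0 1 := by
  funext i; fin_cases i <;> norm_num [tN, nL]

theorem eN_eq : eN = nL 0 1 2 2 := by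
  funext i; fin_cases i <;> norm_num [eN, nL]

theorem hcn : cn (mw monQ) (AF ∅) = coneN := cn_W10

theorem baseOk_congr {m : ℕ} {Tie Tie' : Set (Fin m)} {kz : Fin m} {o o' T T' r0 : Fin m → ℝ}
    {x : ℕ → Fin m → ℝ} {h : ℕ → ℝ} (H : BaseOk Tie kz o T r0 x h) (hs : ∀ i ∈ Tie', i ∈ Tie)
    (ho : ∀ i ∈ Tie', o' i = o i) (hT : ∀ i ∈ Tie', T' i = T i) (hz : T' kz = T kz) :
    BaseOk Tie' kz o' T' r0 x h where
  eq := fun l i hi h => by
    rw [ho i hi]
    exact H.eq l i (hs i hi) (by rw [hT i hi, hz, ho i hi] at h; exact h)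
  le := fun l i hi h => by
    rw [ho i hi]
    exact H.le l i (hs i hi) (by rw [hT i hi, hz, ho i hi] at h; exact h)
  slack := fun i hi h => by
    rw [ho i hi]
    exact H.slack i (hs i hi) (by rw [hT i hi, hz, ho i hi] at h; exact h)

/-- **profile data of the lightlike case** -/
structure LIn {ι : ℕ → Type} [∀ n, DecidableEq (ι n)] [∀ n, Nonempty (ι n)] (B : Base)
    (I J : ∀ n, Finset (ι n)) (co : ∀ n, ι n → ι n → Fin 11 → ℝ) (f : ∀ n, ι n → Fq4)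
    (C R w0 : ℝ) (ow : ℝ → Fin 11 → ℝ) (T0 : Fin 11 → Prop) (ν own : (Fin 11 → ℝ) → ℝ)
    (Tie : Set (Fin 11)) (κ r0 : Fin 11 → ℝ) (θ1 : ℝ) : Prop where
  src : Src B I J co monQ C R 0 w0 0 ow T0 ν own Tie κ r0
  chart : ∀ n, ∀ i ∈ I n, ∀ j ∈ I n, co n i j = coQ (f n i) (f n j)
  slot : ∀ n, ∀ i ∈ I n, ∀ j ∈ I n, co n i j 1 = 0
  T3 : T0 3
  t3 : 3 ∈ Tie
  tie : ∀ i ∈ Tie, i = 3 ∨ i = 4
  κ3 : κ 3 = 1
  κ4 : κ 4 = 1 - θ1
  θpos : 0 < θ1

section

variable {ι : ℕ → Type} [∀ n, DecidableEq (ι n)] [∀ n, Nonempty (ι n)] {B : Base}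
  {I J : ∀ n, Finset (ι n)} {co : ∀ n, ι n → ι n → Fin 11 → ℝ} {f : ∀ n, ι n → Fq4}
  {C R w0 : ℝ} {ow : ℝ → Fin 11 → ℝ} {T0 : Fin 11 → Prop} {ν own : (Fin 11 → ℝ) → ℝ}
  {Tie : Set (Fin 11)} {κ r0 : Fin 11 → ℝ} {θ1 : ℝ}

/-- `lam` does not see the slot `R` -/
theorem LIn.slot_jt (L : LIn B I J co f C R w0 ow T0 ν own Tie κ r0 θ1)
    {x : ℕ → Fin 11 → ℝ} {h : ℕ → ℝ} {lam lo : (Fin 11 → ℝ) → ℝ}
    (HJ : JT (mw monQ) (AF ∅) (Leg monQ R) ν own r0 x h lam lo) :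
    ∀ c ∈ coneN, ∀ c' ∈ coneN, (∀ i, i ≠ 1 → c i = c' i) → lam c = lam c' := by
  intro c hc c' hc' hcc
  rw [← hcn] at hc hc'
  exact tan_slot HJ.pos HJ.tan (fun p hp q hq hpq => nu_slot L.src.prof L.slot hp hq hpq) hc hc' hcc

/-- **a homogeneous tangent at an interior point** -/
theorem LIn.ht (L : LIn B I J co f C R w0 ow T0 ν own Tie κ r0 θ1)
    {x : ℕ → Fin 11 → ℝ} {h : ℕ → ℝ} {lam lo : (Fin 11 → ℝ) → ℝ}
    (HJ : JT (mw monQ) (AF ∅) (Leg monQ R) ν own r0 x h lam lo)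
    (HB : BaseOk Tie 0 κ tM r0 x h) {A : ℝ × ℝ} {φ ψ : ℕ → (Fin 11 → ℝ) → ℝ} {r r' : ℕ → ℝ}
    (OM : OutA (gC tM eN) coneN tM eN (dhC tM eN) (nC tM eN) lam A φ r)
    (hom : Hom (gC tM eN) coneN (dhC tM eN) φ)
    (ON : OutA (gC tN eN) coneN tN eN (dhC tN eN) (nC tN eN) lam A ψ r')
    {m1 m2 : ℝ} (hm1 : 0 < m1) (hm2 : 0 < m2)
    (S1 : ∀ x : ℝ, 0 ≤ x → m1 * x ≤ lam 0 - lam (Pi.single 5 x))
    (S2 : ∀ x : ℝ, 0 ≤ x → m2 * x ≤ lam 0 - lam (Pi.single 2 x + Pi.single 6 x)) :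
    HT lam A φ r m1 := by
  have hcone : coneM (mA monQ (AF ∅)) = coneN := coneM_mA.trans hcn
  have HB' : BaseOk Tie 0 κ tN r0 x h := baseOk_congr HB (fun i hi => hi) (fun _ _ => rfl)
    (fun i hi => by rcases L.tie i hi with rfl | rfl <;> simp [tN, tM]) (by simp [tN, tM])
  have hT : ∀ i ∈ Tie, κ i * tN 0 ≤ tN i := by
    intro i hi
    rcases L.tie i hi with rfl | rfl
    · rw [L.κ3]; simp [tN]
    · rw [L.κ4]
      have := L.θpos
      simp only [tN, Matrix.cons_val]; linarith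
  have out : OutS (gC tN eN) (cn (mw monQ) (AF ∅)) (dhC tN eN) (nC tN eN) lam A ψ r' := by
    rw [hcn]; exact ON.toOutS
  have hA := aew_of_jt (Tw := fun k => k = 3) L.src HJ HB' hT (by
    rintro k rfl
    refine ⟨L.T3, L.t3, ?_⟩
    rw [L.κ3]; simp [tN]) (by decide) out
  rw [tN_eq, eN_eq, sub_zero] at hA
  obtain ⟨B', G, Lg, ν', D, F, L0, H, -⟩ := C2355.c2d_of_aew (c := min m1 m2) one_pos one_pos
    (by norm_num) (by norm_num) hA hcone L.chart L.src.prof.ne (by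
      rintro k ⟨hk, hk2⟩
      rcases L.tie k hk with rfl | rfl
      · right; rfl
      · exfalso
        rw [L.κ4] at hk2
        have := L.θpos
        simp only [nL, Matrix.cons_val] at hk2
        linarith) rfl (lt_min hm1 hm2)
    (fun x hx _ => (mul_le_mul_of_nonneg_right (min_le_left _ _) hx).trans (S1 x hx))
    (fun x hx _ => (mul_le_mul_of_nonneg_right (min_le_right _ _) hx).trans (S2 x hx))
  have hz := H.zero
  refine ⟨OM, hom, L.slot_jt HJ, fun y hy => ?_, hm1, ?_, H.xa one_pos le_rfl, H.xb⟩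
  · have := H.own y hy
    linarith
  · have := S1 1 zero_le_one
    rw [hz] at this
    unfold e5
    linarith

end

end Crest.Agent.R136.Rgl480
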