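import Crest.Agent.R136.Rgl5_501

/-!
# R136: window instance of [RIG-0] for the lightlike surface, STRAIGHT chart, part 2 (helper501)

`rdata_light` : the data `RDataL` of `rig0_RL`.
-/

set_option autoImplicit false
set_option linter.unusedVariables false
set_option linter.unusedSectionVars false

open Filter Topology Finset

namespace Crest.Agent.R136.RglS501

open Crest.Agent.R138.Ex926 (Base U)
open Crest.Agent.R136.Gf356 Crest.Agent.R136.Qg926 Crest.Agent.R136.Ev356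
open Crest.Agent.R136.NetQ186 Crest.Agent.R136.Rg6_501
open Crest.Agent.R136.Rgl501 (StrQ evoRS lv frost_unif pair_box lv_cases)

variable {ι : ℕ → Type*} [∀ n, DecidableEq (ι n)]

section

variable {W : Wnd 11 ι} {f : ∀ n, ι n → Fq4} {x σ s a : ℝ} {E : ∀ n, Finset (ι n)}

/-- heights, scaled -/
noncomputable def zl (W : Wnd 11 ι) (n k : ℕ) : ℝ := flg W n k 0 / MW W

/-- flags of the heights, scaled -/
noncomputable def fl (W : Wnd 11 ι) (n k : ℕ) : ℝ := flg W n k 3 / MW W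

set_option maxHeartbeats 1600000 in
/-- **the data of [RIG-0] in the window** -/
theorem rdata_light (h : QWnd W f) (L : LightS W f x σ s a)
    (hc : ∀ᶠ n in (U : Filter ℕ), W.Good n ∧ E n ⊆ W.Cl n ∧ W.cfg E n = W.cfg0 n (E n))
    (H : RModel W.B' (W.cfg E) σ x W.legW W.nu W.Dc) :
    RDataL W.B' (W.cfg E) W.legW W.nu (ln0 W E) (fun n => (W.cfg E n).Z)
      (fun n => (W.cfg E n).hts (ln0 W E n)) (zl W) (fl W) (DPl W E) (DXl W E)
      (lv x x 0) (lv x 0 0) (lv x x 0) (fun t => lv x x t) σ x s a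
      (W.Dc ^ 2 + 8) (W.Dc ^ 2 + 8) := by
  have hx := L.x_pos
  have hM := h.MW_one
  have hM0 : 0 < MW W := by linarith
  have hD := H.D1
  have hD0 : 0 < W.Dc := by linarith
  have hD2 : 0 < W.Dc ^ 2 := by positivity
  have hU := H.toRUnif
  have hd : ∀ n (u : ℝ), 0 < W.B'.d n ^ u := fun n u => rpos W.B' n u
  have hdn : ∀ n {u v : ℝ}, u ≤ v → W.B'.d n ^ v ≤ W.B'.d n ^ u := fun n {u v} h' =>
    rpow_anti W.B' n h'
  have hfct := ev_fct h L hc
  have legS : lv x x 0 ∈ W.legW := L.leg 0 le_rfl hx.le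
  have hbase : ∀ n, (W.cfg E n).ρ = W.B'.d n := H.base
  refine
    { x_pos := hx, C1_nonneg := by positivity, C4_pos := by positivity
      bd := ?_, frost := ?_, pins := ?_, pinI := ?_, legS := legS, legT := L.leg0, legr := legS
      Tr := ?_, legQ := L.leg, one := ?_, alive := ?_, mv := ?_, inT := ?_, inQ := ?_
      lossQ := L.full, lossF := L.loss }
  · -- bd
    filter_upwards [hfct] with n F
    refine ⟨?_, fun k hk => ?_⟩
    · obtain ⟨k, hk⟩ := ln0_spec (W := W) (E := E) n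
      exact ⟨k, mem_Z hk⟩
    · unfold zl fl
      rw [abs_div, abs_div, abs_of_pos hM0, div_le_one hM0, div_le_one hM0]
      exact ⟨F.flgb k hk 0, F.flgb k hk 3⟩
  · -- frost
    intro y hy0 hyx ε hε
    filter_upwards [hfct, frost_unif H (ε := ε / 2) (by positivity),
      Gf356.ev_const_le W.B' (t := ε / 2) (by positivity) (MW W)] with n F g1 g2 k hk T hT hTk
    have hσ0 := H.σ_nonneg
    have hσ1 := H.σ_le
    rcases le_or_gt (y - ε / 2) 0 with hy | hy
    · calc (T.card : ℝ) ≤ 1 * ((W.cfg E n).Z.card : ℝ) := by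
            rw [one_mul]; exact_mod_cast card_le_card hT
        _ ≤ _ := by
            refine mul_le_mul_of_nonneg_right ?_ (Nat.cast_nonneg _)
            rw [← Real.rpow_zero (W.B'.d n)]
            exact hdn n (by nlinarith)
    · have h1 := g1 (y - ε / 2) hy.le (by linarith) k hk
      have hsub : T ⊆ (W.cfg E n).hbox (y - ε / 2) k := by
        intro k' hk'
        unfold RCfg.hbox
        rw [mem_filter]
        refine ⟨hT hk', ?_⟩
        have h2 := hTk k' hk'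
        unfold zl at h2
        rw [← sub_div, abs_div, abs_of_pos hM0, div_le_iff₀ hM0] at h2
        rw [F.zeq, F.zeq, hbase]
        calc |flg W n k' 0 - flg W n k 0| ≤ W.B'.d n ^ y * MW W := h2
          _ ≤ W.B'.d n ^ y * W.B'.d n ^ (-(ε / 2)) := mul_le_mul_of_nonneg_left g2 (hd n y).le
          _ = _ := by rw [← rpow_add']; congr 1
      refine (Nat.cast_le.2 (card_le_card hsub)).trans (h1.trans ?_)
      refine mul_le_mul_of_nonneg_right (hdn n ?_) (Nat.cast_nonneg _)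
      nlinarith
  · -- pins
    intro ε hε
    filter_upwards [H.line ε hε] with n g1
    refine ⟨fun k hk => (RCfg.mem_hts.1 hk).1, ?_⟩
    obtain ⟨k, hk⟩ := ln0_spec (W := W) (E := E) n
    refine le_trans ?_ (g1 _ (hU.memL hk))
    refine mul_le_mul_of_nonneg_right (hdn n ?_) (Nat.cast_nonneg _)
    nlinarith
  · -- pinI
    filter_upwards with n k hk
    exact (RCfg.mem_hts.1 hk).2
  · -- Tr
    intro j
    refine lv_cases (x := x) (m := 0) (t := 0) (P := fun j v => v ≤ lv x x 0 j) ?_ ?_ ?_ ?_ j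
    · intro j
      exact lv_cases (x := x) (m := x) (t := 0) (P := fun _ v => 0 ≤ v) (fun _ => le_rfl)
        (fun _ _ => hx.le) (fun _ _ => le_rfl) hx.le j
    · intro j hj
      rcases hj with rfl | rfl | rfl | rfl | rfl <;> exact le_rfl
    · intro j hj
      rcases hj with rfl | rfl <;> exact le_rfl
    · exact hx.le
  · -- one
    intro ε hε
    filter_upwards [hfct, h.ev_CE hε] with n F g k₀ hk₀ i hi i' hi'
    have hi1 := hU.memSlice.1 (RCfg.box_subset_slice hi)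
    have hi1' := hU.memSlice.1 (RCfg.box_subset_slice hi')
    obtain ⟨c256, c017, c457, c367, c058, c069, c289, c0710, c4810, c3910, c234⟩ := F.cfb
    have key : ∀ u v : ℝ, |u| ≤ MW W → |v| ≤ MW W →
        |u * v| ≤ W.B'.d n ^ (-((W.Dc ^ 2 + 8) * ε)) := by
      intro u v hu hv
      rw [abs_mul]
      calc |u| * |v| ≤ W.B'.d n ^ (-ε) * W.B'.d n ^ (-ε) :=
            mul_le_mul (hu.trans g.2) (hv.trans g.2) (abs_nonneg _) (hd n _).le
        _ = W.B'.d n ^ (-ε + -ε) := (rpow_add' _ _ _ _).symm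
        _ ≤ _ := hdn n (by nlinarith)
    exact ⟨key _ _ c0710 (F.relb k₀ i i' hi1 hi1' 7), key _ _ c3910 (F.relb k₀ i i' hi1 hi1' 9)⟩
  · -- alive
    intro ε hε
    filter_upwards [H.line ε hε] with n g1 k₀ hk₀ i hi T hT hTa
    have hi1 := hU.memSlice.1 (RCfg.box_subset_slice hi)
    have h1 : (W.cfg E n).hts i ⊆ T := fun k hk => by
      obtain ⟨a1, a2⟩ := RCfg.mem_hts.1 hk
      exact hTa k a1 a2
    refine le_trans ?_ ((g1 i (hU.memL hi1)).trans (Nat.cast_le.2 (card_le_card h1)))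
    refine mul_le_mul_of_nonneg_right (hdn n ?_) (Nat.cast_nonneg _)
    nlinarith
  · -- mv
    intro ε hε
    filter_upwards [hfct, h.ev_CE hε, pair_box hU legS hε, Gf356.ev_const_le W.B' hε 5]
      with n F g gp g5 k₀ hk₀ k hk i hi i' hi' hik hik' hl
    have hi1 := hU.memSlice.1 (RCfg.box_subset_slice hi)
    have hi1' := hU.memSlice.1 (RCfg.box_subset_slice hi')
    have hpair := gp _ _ (RCfg.mem_hts.1 hk₀).2 i hi i' hi'
    have g10 := hpair 10
    have g6 := hpair 6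
    have gk := hl 10
    rw [hbase] at g10 g6 gk
    change _ ≤ W.B'.d n ^ (x - W.Dc * (W.Dc * ε)) at g10
    change _ ≤ W.B'.d n ^ (x - W.Dc * (W.Dc * ε)) at g6
    change _ ≤ W.B'.d n ^ (x - ε) at gk
    have hmv := mv_fin h L F hi1 hik hi1' hik' gk g10 g6
    have e1 : (zl W n k - zl W n k₀) * DPl W E n k₀ i i' -
        (fl W n k - fl W n k₀) * DXl W E n k₀ i i' =
        ((flg W n k 0 - flg W n k₀ 0) * DPl W E n k₀ i i' -
        (flg W n k 3 - flg W n k₀ 3) * DXl W E n k₀ i i') / MW W := by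
      unfold zl fl; ring
    rw [e1, abs_div, abs_of_pos hM0]
    refine (div_le_self (abs_nonneg _) hM).trans (hmv.trans ?_)
    set ρ := W.B'.d n with hρ
    -- all terms are at most ρ ^ (x - (D²+7) ε)
    have hMe : MW W ≤ ρ ^ (-ε) := g.2
    have hCE : CE W ≤ ρ ^ (-ε) := g.1
    have p4 : MW W ^ 4 ≤ ρ ^ (-(4 * ε)) := by
      calc MW W ^ 4 ≤ (ρ ^ (-ε)) ^ 4 := pow_le_pow_left₀ hM0.le hMe 4
        _ = ρ ^ (-(4 * ε)) := by
            rw [← Real.rpow_natCast, ← Real.rpow_mul (W.B'.pos n).le]; congr 1; push_cast; ring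
    have p5 : MW W ^ 5 ≤ ρ ^ (-(5 * ε)) := by
      calc MW W ^ 5 ≤ (ρ ^ (-ε)) ^ 5 := pow_le_pow_left₀ hM0.le hMe 5
        _ = ρ ^ (-(5 * ε)) := by
            rw [← Real.rpow_natCast, ← Real.rpow_mul (W.B'.pos n).le]; congr 1; push_cast; ring
    set q : ℝ := ρ ^ (x - (W.Dc ^ 2 + 7) * ε) with hq
    have s1 : CE W * ρ ^ x ≤ q := by
      calc CE W * ρ ^ x ≤ ρ ^ (-ε) * ρ ^ x := mul_le_mul_of_nonneg_right hCE (hd n x).le
        _ = ρ ^ (-ε + x) := (rpow_add' _ _ _ _).symm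
        _ ≤ q := hdn n (by nlinarith)
    have s2 : MW W ^ 5 * ρ ^ x ≤ q := by
      calc MW W ^ 5 * ρ ^ x ≤ ρ ^ (-(5 * ε)) * ρ ^ x := mul_le_mul_of_nonneg_right p5 (hd n x).le
        _ = ρ ^ (-(5 * ε) + x) := (rpow_add' _ _ _ _).symm
        _ ≤ q := hdn n (by nlinarith)
    have s3 : ρ ^ (x - ε) ≤ q := hdn n (by nlinarith)
    have s4 : ρ ^ (x - W.Dc * (W.Dc * ε)) ≤ q := hdn n (by nlinarith)
    have s5 : MW W ^ 4 * ρ ^ (x - W.Dc * (W.Dc * ε)) ≤ q := by
      calc MW W ^ 4 * ρ ^ (x - W.Dc * (W.Dc * ε)) ≤ ρ ^ (-(4 * ε)) *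
            ρ ^ (x - W.Dc * (W.Dc * ε)) := mul_le_mul_of_nonneg_right p4 (hd n _).le
        _ = ρ ^ (-(4 * ε) + (x - W.Dc * (W.Dc * ε))) := (rpow_add' _ _ _ _).symm
        _ ≤ q := hdn n (by nlinarith)
    calc (CE W + MW W ^ 5) * ρ ^ x + ρ ^ (x - ε) + (1 + MW W ^ 4) * ρ ^ (x - W.Dc * (W.Dc * ε))
        = CE W * ρ ^ x + MW W ^ 5 * ρ ^ x + ρ ^ (x - ε) + ρ ^ (x - W.Dc * (W.Dc * ε)) +
          MW W ^ 4 * ρ ^ (x - W.Dc * (W.Dc * ε)) := by ring
      _ ≤ 5 * q := by linarith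
      _ ≤ ρ ^ (-ε) * q := mul_le_mul_of_nonneg_right g5 (hd n _).le
      _ = ρ ^ (-ε + (x - (W.Dc ^ 2 + 7) * ε)) := (rpow_add' _ _ _ _).symm
      _ ≤ _ := hdn n (by linarith)
  · -- inT
    intro ε hε
    filter_upwards [hfct, h.ev_CE hε, pair_box hU legS hε, Gf356.ev_const_le W.B' hε 3]
      with n F g gp g5 k₀ hk₀ k hk i hi i' hi' hik hik'
    have hi1 := hU.memSlice.1 (RCfg.box_subset_slice hi)
    have hi1' := hU.memSlice.1 (RCfg.box_subset_slice hi')
    have hpair := gp _ _ (RCfg.mem_hts.1 hk₀).2 i hi i' hi'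
    have g2 : ∀ j, j = 2 ∨ j = 4 ∨ j = 5 ∨ j = 6 ∨ j = 8 →
        |(W.cfg E n).rel k₀ i i' j| ≤ W.B'.d n ^ (x - W.Dc * (W.Dc * ε)) := by
      intro j hj
      have := hpair j
      rw [hbase] at this
      rcases hj with rfl | rfl | rfl | rfl | rfl <;> exact this
    have hT := inT_fin h L F hi1 hik hi1' hik' g2
    set ρ := W.B'.d n with hρ
    have hMe : MW W ≤ ρ ^ (-ε) := g.2
    have hCE : CE W ≤ ρ ^ (-ε) := g.1
    have p2 : MW W ^ 2 ≤ ρ ^ (-(2 * ε)) := by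
      calc MW W ^ 2 ≤ (ρ ^ (-ε)) ^ 2 := pow_le_pow_left₀ hM0.le hMe 2
        _ = ρ ^ (-(2 * ε)) := by
            rw [← Real.rpow_natCast, ← Real.rpow_mul (W.B'.pos n).le]; congr 1; push_cast; ring
    set q : ℝ := ρ ^ (x - (W.Dc ^ 2 + 7) * ε) with hq
    have s1 : CE W * ρ ^ x ≤ q := by
      calc CE W * ρ ^ x ≤ ρ ^ (-ε) * ρ ^ x := mul_le_mul_of_nonneg_right hCE (hd n x).le
        _ = ρ ^ (-ε + x) := (rpow_add' _ _ _ _).symm
        _ ≤ q := hdn n (by nlinarith)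
    have s4 : ρ ^ (x - W.Dc * (W.Dc * ε)) ≤ q := hdn n (by nlinarith)
    have s5 : MW W ^ 2 * ρ ^ (x - W.Dc * (W.Dc * ε)) ≤ q := by
      calc MW W ^ 2 * ρ ^ (x - W.Dc * (W.Dc * ε)) ≤ ρ ^ (-(2 * ε)) *
            ρ ^ (x - W.Dc * (W.Dc * ε)) := mul_le_mul_of_nonneg_right p2 (hd n _).le
        _ = ρ ^ (-(2 * ε) + (x - W.Dc * (W.Dc * ε))) := (rpow_add' _ _ _ _).symm
        _ ≤ q := hdn n (by nlinarith)
    have hfin : CE W * ρ ^ x + (1 + MW W ^ 2) * ρ ^ (x - W.Dc * (W.Dc * ε)) ≤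
        ρ ^ (x - (W.Dc ^ 2 + 8) * ε) := by
      calc CE W * ρ ^ x + (1 + MW W ^ 2) * ρ ^ (x - W.Dc * (W.Dc * ε))
          = CE W * ρ ^ x + ρ ^ (x - W.Dc * (W.Dc * ε)) +
            MW W ^ 2 * ρ ^ (x - W.Dc * (W.Dc * ε)) := by ring
        _ ≤ 3 * q := by linarith
        _ ≤ ρ ^ (-ε) * q := mul_le_mul_of_nonneg_right g5 (hd n _).le
        _ = ρ ^ (-ε + (x - (W.Dc ^ 2 + 7) * ε)) := (rpow_add' _ _ _ _).symm
        _ ≤ _ := hdn n (by linarith)
    have h0 : ∀ j, |(W.cfg E n).rel k i i' j| ≤ ρ ^ (0 - (W.Dc ^ 2 + 8) * ε) := fun j =>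
      (F.relb k i i' hik hik' j).trans (hMe.trans (hdn n (by nlinarith)))
    intro j
    rw [hbase]
    exact lv_cases (x := x) (m := 0) (t := 0)
      (P := fun j v => |(W.cfg E n).rel k i i' j| ≤ ρ ^ (v - (W.Dc ^ 2 + 8) * ε))
      h0 (fun j hj => (hT j hj).trans hfin) (fun j _ => h0 j) (h0 10) j
  · -- inQ
    intro t ht0 htx ε hε
    have hk0 := h.ok.kap 0
    have hk3 := h.ok.kap 3
    have hk7 := h.ok.kap 7
    have hk9 := h.ok.kap 9
    have hk10 := h.ok.kap 10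
    set c7 : ℝ := W.kap 0 * W.kap 7 / W.kap 10 with hc7
    set c9 : ℝ := W.kap 3 * W.kap 9 / W.kap 10 with hc9
    have hc70 : 0 < c7 := by positivity
    have hc90 : 0 < c9 := by positivity
    filter_upwards [hfct, pair_box hU legS hε, Gf356.ev_const_le W.B' hε (1 / c7),
      Gf356.ev_const_le W.B' hε (1 / c9), h.ev_CE hε] with n F gp g7 g9 g k₀ hk₀ i hi i' hi' hP hX
    have hi1 := hU.memSlice.1 (RCfg.box_subset_slice hi)
    have hi1' := hU.memSlice.1 (RCfg.box_subset_slice hi')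
    have hpair := gp _ _ (RCfg.mem_hts.1 hk₀).2 i hi i' hi'
    set ρ := W.B'.d n with hρ
    have small : ∀ (c v : ℝ), 0 < c → 1 / c ≤ ρ ^ (-ε) → |c * v| ≤ ρ ^ (t - ε) →
        |v| ≤ ρ ^ (t - (W.Dc ^ 2 + 8) * ε) := by
      intro c v hc0 hcε hcv
      rw [abs_mul, abs_of_pos hc0] at hcv
      calc |v| = 1 / c * (c * |v|) := by field_simp
        _ ≤ ρ ^ (-ε) * ρ ^ (t - ε) := mul_le_mul hcε hcv (by positivity) (hd n _).le
        _ = ρ ^ (-ε + (t - ε)) := (rpow_add' _ _ _ _).symm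
        _ ≤ _ := hdn n (by nlinarith)
    unfold DPl at hP
    unfold DXl at hX
    rw [F.c0710] at hP
    rw [F.c3910] at hX
    have r7 := small c7 _ hc70 g7 hP
    have r9 := small c9 _ hc90 g9 hX
    have h0 : ∀ j, |(W.cfg E n).rel k₀ i i' j| ≤ ρ ^ (0 - (W.Dc ^ 2 + 8) * ε) := fun j =>
      (F.relb k₀ i i' hi1 hi1' j).trans (g.2.trans (hdn n (by nlinarith)))
    have hgx : ρ ^ (x - W.Dc * (W.Dc * ε)) ≤ ρ ^ (x - (W.Dc ^ 2 + 8) * ε) :=
      hdn n (by nlinarith)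
    intro j
    rw [hbase]
    refine lv_cases (x := x) (m := x) (t := t)
      (P := fun j v => |(W.cfg E n).rel k₀ i i' j| ≤ ρ ^ (v - (W.Dc ^ 2 + 8) * ε))
      h0 ?_ ?_ ?_ j
    · intro j hj
      have := hpair j
      rw [hbase] at this
      rcases hj with rfl | rfl | rfl | rfl | rfl <;> exact this.trans hgx
    · intro j hj
      rcases hj with rfl | rfl
      · exact r7
      · exact r9
    · have := hpair 10
      rw [hbase] at this
      exact this.trans hgx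

end

end Crest.Agent.R136.RglS501
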