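import Crest.Agent.R136.Rgl6_480

/-!
# R136 (helper480), T.L (A), part 3: stage of the ladder at the lightlike surface

* `stage_conv`, `recD_L`, `rungD_L` : the stage with natural D-max directions.
* `sweep1`, `sweep2` : `C_a` and `{E, C_b}` cost at every interior point.
* **`hasRig_gen`**.
-/

set_option autoImplicit false
set_option linter.unusedSectionVars false
set_option linter.unusedVariables false

open Filter Topology Set MeasureTheory

namespace Crest.Agent.R136.Rgl480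

open Crest.Agent.R136.Dg219 (gC dhC nC Tn lf gset OutS dirC gC_eq gC_zero mem_gset mw BUp
  bup_of_tan)
open Crest.Agent.R136.Dg262 (X)
open Crest.Agent.R136.Rc146 (OutA)
open Crest.Agent.R136.WkL626
open Crest.Agent.R136.Gau66 (eN tN cu LightF)
open Crest.Agent.R136.NatR550 (coneN nL)
open Crest.Agent.R136.C2355 (v11 v11_mem v11_zero v11_le)
open Crest.Agent.R136.Net191 Crest.Agent.R136.Qg926 Crest.Agent.R136.Gf356
open Crest.Agent.R136.NetQ186 Crest.Agent.R136.Aw413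
open Crest.Agent.R136.K2S774 (cn Prf JT Stage RecD RungD BaseOk Nat cn_closed cn_zero cn_add
  cn_smul cn_nat_add X_zero)
open Crest.Agent.R136.LdF3511 Crest.Agent.R136.LdF511
open Crest.Agent.R136.AwJ774
open Crest.Agent.R136.K2B146
open Crest.Agent.R136.Top484
open Crest.Agent.R138.Ex926 (Base U IsTan)

/-- natural directions for D-max -/
def QdN (θ : Fin 3 → ℝ) : Set (Fin 11 → ℝ) :=
  {d | ∃ v t1 t2 t3, d = nL v t1 t2 t3 ∧ (θ 0 = 1 → v + t3 ≤ 0)}

section gen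

variable {m : ℕ} {W : Type*} [Fintype W] {Q : Dg219.Walls (Fin m) W} {A : W → Prop}
  {P : Set (Fin m → ℝ)} {ν own : (Fin m → ℝ) → ℝ} {K : ℝ}
  {r0 ρ : Fin m → ℝ} {Dl : (Fin m → ℝ) →ₗ[ℝ] ℝ} {Qd : Set (Fin m → ℝ)} {Z Tie : Set (Fin m)}
  {kz : Fin m} {o : Fin m → ℝ} {τ : ℝ} {lam lo : (Fin m → ℝ) → ℝ}

theorem stage_conv (H : Stage Q P ν own K r0 ρ Dl Qd Z Tie kz o τ A ∅ lam lo)
    {Qd' Z' : Set (Fin m → ℝ)} {Z'' : Set (Fin m)} (h : ∀ d ∈ Qd', d ∈ Qd) :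
    Stage Q P ν own K r0 ρ Dl Qd' Z'' Tie kz o τ A ∅ lam lo where
  jt := H.jt
  prf := H.prf
  noD := H.noD
  ZD := fun i _ => notMem_empty i
  TD := H.TD
  zD := H.zD
  ind := fun c _ c' _ h _ => by rw [funext fun i => h i (notMem_empty i)]
  rcd := H.rcd
  dmx := fun c hc d hd hdc => H.dmx c hc d (h d hd) hdc
  ownr := H.ownr
  ownu := H.ownu

end gen

theorem nat_tM {w : WI} (hw : AF ∅ w) : tM ((mw monQ).hd w) = (mw monQ).rhs w tM := by
  refine AF_all ∅ (fun k e => tM k = ∑ s, (e s : ℝ) * tM s) ?_ w hw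
  refine (monQ_all (fun k e => (e 1 = 0 ∧ k ∉ (∅ : Finset (Fin 11)) ∧
    ∀ s ∈ (∅ : Finset (Fin 11)), e s = 0) → tM k = ∑ s, (e s : ℝ) * tM s)).2
    ⟨?_, ?_, ?_, ?_, ?_, ?_, ?_, ?_, ?_, ?_, ?_, ?_, ?_, ?_, ?_, ?_, ?_, ?_⟩ <;>
    rintro ⟨e1, -, -⟩ <;> first
    | exact absurd e1 (by decide)
    | (rw [sm]; simp only [tM, Matrix.cons_val]; push_cast; ring)

theorem NatM : Nat (mw monQ) (AF ∅) tM := fun w hw => nat_tM hw

theorem NatnL (v t1 t2 t3 : ℝ) : Nat (mw monQ) (AF ∅) (nL v t1 t2 t3) :=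
  fun w hw => nat_AF v t1 t2 t3 hw

theorem NatN : Nat (mw monQ) (AF ∅) tN := by rw [tN_eq]; exact NatnL _ _ _ _

theorem NatE : Nat (mw monQ) (AF ∅) eN := by rw [eN_eq]; exact NatnL _ _ _ _

variable {θ : Fin 3 → ℝ}

theorem NatR : Nat (mw monQ) (AF ∅) (rhoF θ) := NatnL _ _ _ _

theorem recD_L {Tie : Set (Fin 11)} {o : Fin 11 → ℝ}
    (ht : ∀ i ∈ Tie, rhoF θ i = o i * rhoF θ 0) :
    RecD (mw monQ) (AF ∅) (rhoF θ) (QdN θ) Tie 0 o where
  full := fun w hw => AF_full hw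
  nat := fun w hw => nat_AF _ _ _ _ hw
  qd := by
    rintro d ⟨v, t1, t2, t3, rfl, h⟩ ξ t ht
    refine ⟨ξ * 1 + t * v, ξ * -θ 1 + t * t1, ξ * -θ 2 + t * t2, ξ * -θ 0 + t * t3, ?_, ?_⟩
    · unfold rhoF
      rw [nL_smul, nL_smul, nL_add]
    · intro h0
      have := mul_nonneg ht (neg_nonneg.2 (h h0))
      rw [h0]; linarith
  tie := ht

theorem rungD_L {Tie : Set (Fin 11)} :
    RungD (mw monQ) (AF ∅) ∅ {1, 2, 5, 6} Tie 0 (QdN θ) (rhoF θ) tN tN (rhoF θ) ∅ where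
  T0 := fun i => by fin_cases i <;> simp [tN]
  TJ := fun i hi => absurd hi (Finset.notMem_empty i)
  TZ := fun i _ hi => by
    revert hi
    fin_cases i <;> simp [tN]
  natT := NatN
  bρ := fun _ _ => rfl
  TT := fun _ _ => rfl
  qd := by
    refine ⟨-1, -0, -0, -1, by rw [tN_eq, nL_neg], fun _ => by norm_num⟩
  head := fun w _ h => absurd h (Finset.notMem_empty _)
  JZ := fun i hi => absurd hi (Finset.notMem_empty i)
  JT := fun i hi => absurd hi (Finset.notMem_empty i)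
  Jz := Finset.notMem_empty _

section sweeps

variable {P : Set (Fin 11 → ℝ)} {ν own : (Fin 11 → ℝ) → ℝ} {K : ℝ} {r0 : Fin 11 → ℝ}
  {p : Par4} {Z Tie : Set (Fin 11)} {o : Fin 11 → ℝ} {τ : ℝ} {lam lo lam' : (Fin 11 → ℝ) → ℝ}

/-- loss at the record points along a box direction `u` whose closure `u + e_j` is natural -/
theorem rec_loss (H : Stage (mw monQ) P ν own K r0 (rhoF p.θ) (DlFL p) (QdN p.θ) Z Tie 0 o τ
    (AF ∅) ∅ lam lo) {u u' d : Fin 11 → ℝ} (hd : d ∈ QdN p.θ) (hdu : ∀ i, d i ≤ u' i)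
    (huu : ∀ i, u i ≤ u' i) (hsum : ∑ i, (u' i - u i) ≤ 1) (hu' : u' ∈ coneN) {mm : ℝ}
    (hD : DlFL p d ≤ -(1 + mm)) (σ h : ℝ) (hh : 0 ≤ h)
    (hm : σ • rhoF p.θ + h • u ∈ cn (mw monQ) (AF ∅)) :
    mm * h ≤ lam (σ • rhoF p.θ) - lam (σ • rhoF p.θ + h • u) := by
  have hm' : σ • rhoF p.θ + h • u' ∈ cn (mw monQ) (AF ∅) :=
    cn_nat_add (NatR.smul σ) (by rw [hcn]; exact hu') hh
  obtain ⟨v, t1, t2, t3, rfl, h0⟩ := hd
  have h1 := H.dmx _ hm' (σ • rhoF p.θ + h • nL v t1 t2 t3)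
    ((recD_L (θ := p.θ) (Tie := ∅) (o := o) (fun i hi => absurd hi (notMem_empty i))).qd _
      ⟨v, t1, t2, t3, rfl, h0⟩ σ h hh) fun i _ => by
      have := mul_le_mul_of_nonneg_left (hdu i) hh
      simp only [Pi.add_apply, Pi.smul_apply, smul_eq_mul]
      linarith
  rw [map_add, map_smul, map_smul, smul_eq_mul, smul_eq_mul] at h1
  have h2 := H.prf.sharp _ hm _ hm' (fun i => by
    have := mul_le_mul_of_nonneg_left (huu i) hh
    simp only [Pi.add_apply, Pi.smul_apply, smul_eq_mul]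
    linarith)
  have h3 : ∑ i, ((σ • rhoF p.θ + h • u') i - (σ • rhoF p.θ + h • u) i) =
      h * ∑ i, (u' i - u i) := by
    rw [Finset.mul_sum]
    exact Finset.sum_congr rfl fun i _ => by
      simp only [Pi.add_apply, Pi.smul_apply, smul_eq_mul]; ring
  rw [h3] at h2
  have h4 := mul_le_mul_of_nonneg_left hsum hh
  have h5 := mul_le_mul_of_nonneg_left hD hh
  have h6 := H.rcd σ
  linarith

/-- `E, C_b` -/
def e26 : Fin 11 → ℝ := ![0, 0, 1, 0, 0, 0, 1, 0, 0, 0, 0]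

/-- `E, C_b, X_b` -/
def e269 : Fin 11 → ℝ := ![0, 0, 1, 0, 0, 0, 1, 0, 0, 1, 0]

theorem e26_eq (x : ℝ) : x • e26 = Pi.single 2 x + Pi.single 6 x := by
  funext i; fin_cases i <;> simp [e26]

theorem e5_eq (x : ℝ) : x • e5 = Pi.single 5 x := by
  funext i
  by_cases h : i = 5
  · subst h; simp [e5]
  · simp [e5, h]

/-- **`C_a` costs at every interior point** -/
theorem sweep1 (H : Stage (mw monQ) P ν own K r0 (rhoF p.θ) (DlFL p) (QdN p.θ) Z Tie 0 o τ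
    (AF ∅) ∅ lam lo) {z : ℝ × ℝ} (hz : z.1 < 0) {k : ℕ → ℝ} (kpos : ∀ l, 0 < k l)
    (k0 : Tendsto k atTop (𝓝 0))
    (H1 : IsTan (cn (mw monQ) (AF ∅)) (cn (mw monQ) (AF ∅)) lam
      (fun _ => X 0 tN (rhoF p.θ) z) k lam') :
    ∀ x : ℝ, 0 ≤ x → p.q 1 * x ≤ lam' 0 - lam' (Pi.single 5 x) := by
  intro x hx
  have key := H.sweepR (T := tN) (b := rhoF p.θ) NatR (fun i => by fin_cases i <;> simp [tN]) NatN
    (fun _ _ => rfl) hz kpos k0 H1 (u := e5) (c' := 0) (mm := p.q 1) (σ := 0) (h := x)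
    (fun i => by
      by_cases h : i = 5
      · subst h; simp [e5]
      · simp [e5, h]) hx
    (rec_loss H (u' := e58) (d := nL 0 1 0 0) ⟨0, 1, 0, 0, rfl, fun _ => by norm_num⟩
      (fun i => by fin_cases i <;> simp [nL, e58]) e5_le (le_of_eq sum58)
      (by refine ⟨?_, ?_, ?_, ?_, ?_, ?_, ?_, ?_, ?_, ?_⟩ <;>
        simp only [e58, Matrix.cons_val] <;> norm_num)
      (by
        show DlF p (nL 0 1 0 0) ≤ _
        rw [DlF_nL]; linarith))
    cn_zero (by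
      rw [zero_add, e5_eq, hcn]
      exact C2355.m_5 hx)
    (fun i _ _ => by simp) (fun i _ hi => by
      by_cases h : i = 5
      · subst h; simp [tN]
      · exact absurd (by simp [e5, h]) hi)
  rwa [zero_add, e5_eq] at key

/-- **`E, C_b` cost at every interior point** -/
theorem sweep2 (H : Stage (mw monQ) P ν own K r0 (rhoF p.θ) (DlFL p) (QdN p.θ) Z Tie 0 o τ
    (AF ∅) ∅ lam lo) {z : ℝ × ℝ} (hz : z.1 < 0) {k : ℕ → ℝ} (kpos : ∀ l, 0 < k l)
    (k0 : Tendsto k atTop (𝓝 0))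
    (H1 : IsTan (cn (mw monQ) (AF ∅)) (cn (mw monQ) (AF ∅)) lam
      (fun _ => X 0 tN (rhoF p.θ) z) k lam') :
    ∀ x : ℝ, 0 ≤ x → p.q 2 * x ≤ lam' 0 - lam' (Pi.single 2 x + Pi.single 6 x) := by
  intro x hx
  have key := H.sweepR (T := tN) (b := rhoF p.θ) NatR (fun i => by fin_cases i <;> simp [tN]) NatN
    (fun _ _ => rfl) hz kpos k0 H1 (u := e26) (c' := 0) (mm := p.q 2) (σ := 0) (h := x)
    (fun i => by fin_cases i <;> simp [e26]) hx
    (rec_loss H (u' := e269) (d := nL 0 0 1 0) ⟨0, 0, 1, 0, rfl, fun _ => by norm_num⟩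
      (fun i => by fin_cases i <;> norm_num [nL, e269]) (fun i => by
        fin_cases i <;> norm_num [e26, e269])
      (by simp [e26, e269, Fin.sum_univ_succ])
      (by
        refine ⟨?_, ?_, ?_, ?_, ?_, ?_, ?_, ?_, ?_, ?_⟩ <;>
        simp only [e269, Matrix.cons_val] <;> norm_num)
      (by
        show DlF p (nL 0 0 1 0) ≤ _
        rw [DlF_nL]; linarith))
    cn_zero (by
      rw [zero_add, e26_eq, hcn]
      exact C2355.m_26 hx)
    (fun i _ _ => by simp) (fun i _ hi => by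
      revert hi
      fin_cases i <;> simp [e26, tN])
  rwa [zero_add, e26_eq] at key

end sweeps

end Crest.Agent.R136.Rgl480
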