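import Crest.Agent.R136.Rgl7_480

/-!
# R136 (helper480), T.L (A), part 4: `hasRig_gen`
-/

set_option autoImplicit false
set_option linter.unusedSectionVars false
set_option linter.unusedVariables false

open Filter Topology Set MeasureTheory

namespace Crest.Agent.R136.Rgl480

open Crest.Agent.R136.Dg219 (gC dhC nC Tn lf gset OutS dirC gC_eq gC_zero mem_gset mw BUp
  bup_of_tan)
open Crest.Agent.R136.Dg262 (X)
open Crest.Agent.R136.Rc146 (OutA)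
open Crest.Agent.R136.WkL626
open Crest.Agent.R136.Gau66 (eN tN cu LightF)
open Crest.Agent.R136.NatR550 (coneN nL)
open Crest.Agent.R136.C2355 (v11 v11_mem v11_zero v11_le)
open Crest.Agent.R136.Net191 Crest.Agent.R136.Qg926 Crest.Agent.R136.Gf356
open Crest.Agent.R136.NetQ186 Crest.Agent.R136.Aw413
open Crest.Agent.R136.K2S774 (cn Prf JT Stage RecD RungD BaseOk Nat cn_closed cn_zero cn_add
  cn_smul cn_nat_add X_zero)
open Crest.Agent.R136.LdF3511 Crest.Agent.R136.LdF511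
open Crest.Agent.R136.AwJ774
open Crest.Agent.R136.K2B146
open Crest.Agent.R136.Top484
open Crest.Agent.R138.Ex926 (Base U IsTan)

theorem cone_slot {c c' : Fin 11 → ℝ} (hc : c ∈ coneN) (h : ∀ i, i ≠ 1 → c i = c' i) :
    c' ∈ coneN := by
  obtain ⟨h1, h2, h3, h4, h5, h6, h7, h8, h9, h10⟩ := hc
  rw [h 4 (by decide), h 2 (by decide), h 3 (by decide)] at h1
  rw [h 6 (by decide), h 2 (by decide), h 5 (by decide)] at h2
  rw [h 7 (by decide), h 4 (by decide), h 5 (by decide)] at h3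
  rw [h 7 (by decide), h 3 (by decide), h 6 (by decide)] at h4
  rw [h 8 (by decide), h 0 (by decide), h 5 (by decide)] at h5
  rw [h 9 (by decide), h 0 (by decide), h 6 (by decide)] at h6
  rw [h 9 (by decide), h 2 (by decide), h 8 (by decide)] at h7
  rw [h 10 (by decide), h 0 (by decide), h 7 (by decide)] at h8
  rw [h 10 (by decide), h 4 (by decide), h 8 (by decide)] at h9
  rw [h 10 (by decide), h 3 (by decide), h 9 (by decide)] at h10
  exact ⟨h1, h2, h3, h4, h5, h6, h7, h8, h9, h10⟩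

/-- the base point may be moved in an invisible slot -/
theorem tan_move {lam lam' : (Fin 11 → ℝ) → ℝ} {y y' : Fin 11 → ℝ} {k : ℕ → ℝ}
    (hs : ∀ c ∈ coneN, ∀ c' ∈ coneN, (∀ i, i ≠ 1 → c i = c' i) → lam c = lam c')
    (hy : y ∈ coneN) (hyy : ∀ i, i ≠ 1 → y i = y' i)
    (H : IsTan coneN coneN lam (fun _ => y) k lam') :
    IsTan coneN coneN lam (fun _ => y') k lam' := by
  intro C ε hε
  filter_upwards [H C ε hε] with l hl c hc hcC
  obtain ⟨m1, h1⟩ := hl c hc hcC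
  have e1 : ∀ i, i ≠ 1 → (y + k l • c) i = (y' + k l • c) i := fun i hi => by
    simp only [Pi.add_apply]; rw [hyy i hi]
  have m2 := cone_slot m1 e1
  refine ⟨m2, ?_⟩
  rw [← hs _ m1 _ m2 e1, ← hs y hy y' (cone_slot hy hyy) hyy]
  exact h1

theorem tM_slot (z : ℝ × ℝ) (i : Fin 11) (hi : i ≠ 1) :
    X 0 tM eN z i = X 0 tN eN z i := by
  fin_cases i <;> first | exact absurd rfl hi | simp [X, tM, tN]

/-- record direction -/
theorem rho_eq {θ : Fin 3 → ℝ} (h2 : θ 2 = 2 * θ 1) (h0 : θ 2 - θ 0 = 1) :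
    rhoF θ = tN - θ 1 • eN := by
  have e0 : θ 0 = 2 * θ 1 - 1 := by linarith
  funext i
  unfold rhoF
  rw [e0, h2]
  fin_cases i <;> simp [nL, tN, eN] <;> ring

theorem X_rho {θ : Fin 3 → ℝ} (h2 : θ 2 = 2 * θ 1) (h0 : θ 2 - θ 0 = 1) (z : ℝ × ℝ) :
    X 0 tN (rhoF θ) z = X 0 tN eN (z.1 + z.2, -(θ 1 * z.2)) := by
  rw [rho_eq h2 h0]
  funext i
  simp only [X, Pi.sub_apply, Pi.smul_apply, smul_eq_mul, Pi.zero_apply]
  ring

/-- tangent at an interior point with the numbers `LightF` -/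
def RigAt (lam lo : (Fin 11 → ℝ) → ℝ) (y : Fin 11 → ℝ) : Prop :=
  ∃ k : ℕ → ℝ, (∀ l, 0 < k l) ∧ Tendsto k atTop (𝓝 0) ∧
    ∃ (lamI loI : (Fin 11 → ℝ) → ℝ) (a m : ℝ), IsTan coneN coneN lam (fun _ => y) k lamI ∧
      IsTan coneN coneN lo (fun _ => y) k loI ∧ LightF coneN lamI a m

section

variable {ι : ℕ → Type} [∀ n, DecidableEq (ι n)] [∀ n, Nonempty (ι n)] {B : Base}
  {I J : ∀ n, Finset (ι n)} {co : ∀ n, ι n → ι n → Fin 11 → ℝ} {f : ∀ n, ι n → Fq4}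
  {C R w0 : ℝ} {ow : ℝ → Fin 11 → ℝ} {T0 : Fin 11 → Prop} {ν own : (Fin 11 → ℝ) → ℝ}
  {Tie' Tie : Set (Fin 11)} {κ r0 o : Fin 11 → ℝ} {p : Par4} {K : ℝ}
  {lam lo : (Fin 11 → ℝ) → ℝ}

/-- **a.e. point left of the record line**: either an interior tangent with the numbers `LightF`, or
the slope of the ray is `≤ -5` -/
theorem rig_ae (L : LIn B I J co f C R w0 ow T0 ν own Tie' κ r0 (p.θ 1))
    (H : Stage (mw monQ) (Leg monQ R) ν own K r0 (rhoF p.θ) (DlFL p) (QdN p.θ) {1, 2, 5, 6} Tie 0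
      o 1 (AF ∅) ∅ lam lo)
    (hs : ∀ i ∈ Tie', i ∈ Tie) (ho : ∀ i ∈ Tie', κ i = o i)
    (hrt : ∀ i ∈ Tie, rhoF p.θ i = o i * rhoF p.θ 0)
    (h2 : p.θ 2 = 2 * p.θ 1) (h0 : p.θ 2 - p.θ 0 = 1) (hq1 : 0 < p.q 1) (hq2 : 0 < p.q 2) :
    ∀ᵐ z : ℝ × ℝ, z.1 < 0 → ∃ E : ℝ × ℝ →L[ℝ] ℝ,
      HasFDerivAt (fun z => lam (X 0 tN (rhoF p.θ) z)) E z ∧
      (RigAt lam lo (X 0 tN (rhoF p.θ) z) ∨ 5 ≤ -E (1, 0)) := by
  have tM0 : ∀ i, 0 ≤ tM i := fun i => by fin_cases i <;> simp [tM]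
  have tN0 : ∀ i, 0 ≤ tN i := fun i => by fin_cases i <;> simp [tN]
  have hθ := L.θpos
  obtain ⟨xj, hj, HJ0, -⟩ := H.jt
  have hslot := L.slot_jt HJ0
  have aM := K2A146.cn_outA H.prf (fun w hw => AF_full hw) (x0 := 0) (a := tM) (b := eN) tM0
    K2S774.Nat.zero NatM NatE
  have aN := K2A146.cn_outA H.prf (fun w hw => AF_full hw) (x0 := 0) (a := tN) (b := eN) tN0
    K2S774.Nat.zero NatN NatE
  filter_upwards [K2S774.ae_lin (aM.and aN) (0, 0) (r := (1, 0)) (e := (-1, p.θ 1))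
    (by simp; exact hθ.ne')] with z hz hz1
  have ew : ((0, 0) : ℝ × ℝ) + z.1 • ((1, 0) : ℝ × ℝ) - z.2 • ((-1, p.θ 1) : ℝ × ℝ) =
      (z.1 + z.2, -(p.θ 1 * z.2)) := by
    ext <;> simp [mul_comm]
  rw [ew] at hz
  set w : ℝ × ℝ := (z.1 + z.2, -(p.θ 1 * z.2)) with hw
  obtain ⟨⟨DM, hDM, hM⟩, ⟨DN, hDN, hN⟩⟩ := hz
  have memN : ∀ w : ℝ × ℝ, X 0 tN eN w ∈ coneN := fun w => by
    rw [← hcn, X_zero]; exact ((NatN.smul _).add (NatE.smul _)).mem
  have memM : ∀ w : ℝ × ℝ, X 0 tM eN w ∈ coneN := fun w => by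
    rw [← hcn, X_zero]; exact ((NatM.smul _).add (NatE.smul _)).mem
  have efun : (fun z => lam (X 0 tM eN z)) = fun z => lam (X 0 tN eN z) := by
    funext w
    exact hslot _ (memM w) _ (memN w) fun i hi => tM_slot w i hi
  rw [efun] at hDM
  have eD : DM = DN := hDM.unique hDN
  subst eD
  -- the derivative in the plane `(tN, ρ)`
  set Ll : ℝ × ℝ →L[ℝ] ℝ × ℝ :=
    ((ContinuousLinearMap.fst ℝ ℝ ℝ) + (ContinuousLinearMap.snd ℝ ℝ ℝ)).prod
      (-(p.θ 1 • ContinuousLinearMap.snd ℝ ℝ ℝ)) with hLl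
  have eL : ∀ z : ℝ × ℝ, Ll z = (z.1 + z.2, -(p.θ 1 * z.2)) := fun z => by simp [hLl]
  have hE : HasFDerivAt (fun z => lam (X 0 tN (rhoF p.θ) z)) (DM.comp Ll) z := by
    have h1 : HasFDerivAt (fun z => lam (X 0 tN eN z)) DM (Ll z) := by rw [eL]; exact hDN
    have h3 := h1.comp z Ll.hasFDerivAt
    have h4 : (fun z => lam (X 0 tN (rhoF p.θ) z)) = (fun z => lam (X 0 tN eN z)) ∘ Ll := by
      funext z'
      simp only [Function.comp]
      rw [X_rho h2 h0, eL]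
    rw [h4]; exact h3
  refine ⟨DM.comp Ll, hE, ?_⟩
  -- tangents
  have eX : X 0 tN (rhoF p.θ) z = X 0 tN eN w := X_rho h2 h0 z
  have hy : Nat (mw monQ) (AF ∅) (X 0 tN (rhoF p.θ) z) := by
    rw [X_zero]; exact (NatN.smul _).add (NatR.smul _)
  obtain ⟨φs, hφs, lam', lo', H1, H2, x', h', hJ, hJt, hJl, hJs⟩ := H.at_pt hy
    (k := fun l => 1 / ((l : ℝ) + 1)) (fun l => by positivity)
    tendsto_one_div_add_atTop_nhds_zero_nat
  set k1 : ℕ → ℝ := fun l => 1 / ((φs l : ℕ) + 1 : ℝ) with hk1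
  have k1pos : ∀ l, 0 < k1 l := fun l => by positivity
  have k10 : Tendsto k1 atTop (𝓝 0) :=
    tendsto_one_div_add_atTop_nhds_zero_nat.comp hφs.tendsto_atTop
  have hyi : ∀ i, X 0 tN (rhoF p.θ) z i = z.1 * tN i + z.2 * rhoF p.θ i := fun i => by
    rw [X_zero]; simp only [Pi.add_apply, Pi.smul_apply, smul_eq_mul]
  have hB1 : BaseOk Tie 0 o tN r0 x' h' :=
    ⟨fun l i hi hT' => hJt l i hi (by
      rw [hyi, hyi, hT', hrt i hi]; ring), fun l i hi hT' => hJl l i hi (by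
      have h3 := mul_le_mul_of_nonneg_left hT' (neg_nonneg.2 (le_of_lt hz1))
      rw [hyi, hyi, hrt i hi]
      nlinarith), fun i hi hT' => hJs i hi (by
      have h3 := mul_lt_mul_of_pos_left hT' (neg_pos.2 hz1)
      rw [hyi, hyi, hrt i hi]
      nlinarith)⟩
  have hB2 : BaseOk Tie' 0 κ tM r0 x' h' := baseOk_congr hB1 hs ho
    (fun i hi => by rcases L.tie i hi with rfl | rfl <;> simp [tN, tM]) (by simp [tN, tM])
  have hbN : BUp (cn (mw monQ) (AF ∅)) (cn (mw monQ) (AF ∅)) lam (X 0 tN eN w) k1 lam' := by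
    rw [← eX]; exact bup_of_tan k1pos k10 H1
  have hbM : BUp (cn (mw monQ) (AF ∅)) (cn (mw monQ) (AF ∅)) lam (X 0 tM eN w) k1 lam' := by
    refine bup_of_tan k1pos k10 ?_
    have h3 := H1
    rw [eX] at h3
    rw [hcn] at h3 ⊢
    exact tan_move hslot (memN w) (fun i hi => (tM_slot w i hi).symm) h3
  obtain ⟨φM, rM, OM⟩ := hM k1 lam' hbM
  obtain ⟨φN, rN, ON⟩ := hN k1 lam' hbN
  have hP' := H.prf.tan (x := fun _ => X 0 tN (rhoF p.θ) z) k1pos H1 H2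
  obtain ⟨t, lam2, lo2, x2, h2', φ2, tpos, t0, H3, H4, hJ2, hBB, hP2, hO2, hhom, -⟩ :=
    exists_hom (fun w hw => AF_full hw) tM0 NatM NatE hJ hP' hB2 OM
  obtain ⟨ψ2, ON2, -, -⟩ := cn_zoom hP' (fun w hw => AF_full hw) tN0 NatN NatE ON
    (bup_of_tan tpos t0 H3)
  -- tangent of a tangent
  obtain ⟨ψa, ha⟩ := TL196.tan_comp k1pos tpos H1 (y := fun _ => 0) (fun _ => cn_zero) H3
  obtain ⟨ψb, hb⟩ := TL196.tan_comp k1pos tpos H2 (y := fun _ => 0) (fun _ => cn_zero) H4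
  set ψ : ℕ → ℕ := fun l => max (max (ψa l) (ψb l)) l with hψ
  have ha' := ha ψ fun m => (le_max_left _ _).trans (le_max_left _ _)
  have hb' := hb ψ fun m => (le_max_right _ _).trans (le_max_left _ _)
  simp only [smul_zero, add_zero] at ha' hb'
  have hψt : Tendsto ψ atTop atTop := tendsto_atTop_mono (fun l => le_max_right _ _) tendsto_id
  have k2pos : ∀ l, 0 < k1 (ψ l) * t l := fun l => mul_pos (k1pos _) (tpos l)
  have k20 : Tendsto (fun l => k1 (ψ l) * t l) atTop (𝓝 0) := by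
    have := (k10.comp hψt).mul t0
    rwa [zero_mul] at this
  have S1 := sweep1 H hz1 k2pos k20 ha'
  have S2 := sweep2 H hz1 k2pos k20 ha'
  rw [hcn] at hO2 hhom ON2 ha' hb'
  have ht := L.ht hJ2 hBB hO2 (fun k hk c hc t ht => hhom k hk c hc t ht) ON2 hq1 hq2 S1 S2
  by_cases haN : HT.aN φ2 < 1
  · left
    exact ⟨_, k2pos, k20, lam2, lo2, _, _, ha', hb', ht.lightF haN⟩
  · right
    have h5 := ht.slope (not_lt.1 haN)
    have h6 : (DM.comp Ll) (1, 0) = DM (1, 0) := by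
      rw [ContinuousLinearMap.comp_apply, eL]; simp
    rw [h6]
    change DM (1, 0) ≤ -5 at h5
    linarith

/-- **`HasRig`** : there is an interior tangent with the numbers `LightF` -/
theorem hasRig_gen (L : LIn B I J co f C R w0 ow T0 ν own Tie' κ r0 (p.θ 1)) {Qd : Set (Fin 11 → ℝ)}
    {Z : Set (Fin 11)}
    (H : Stage (mw monQ) (Leg monQ R) ν own K r0 (rhoF p.θ) (DlFL p) Qd Z Tie 0
      o 1 (AF ∅) ∅ lam lo)
    (hQd : ∀ v t1 t2 t3, (p.θ 0 = 1 → v + t3 ≤ 0) → nL v t1 t2 t3 ∈ Qd)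
    (hs : ∀ i ∈ Tie', i ∈ Tie) (ho : ∀ i ∈ Tie', κ i = o i)
    (hrt : ∀ i ∈ Tie, rhoF p.θ i = o i * rhoF p.θ 0)
    (h2 : p.θ 2 = 2 * p.θ 1) (h0 : p.θ 2 - p.θ 0 = 1) (hq1 : 0 < p.q 1) (hq2 : 0 < p.q 2)
    (hg : 0 < p.g - p.q 0) :
    ∃ z : ℝ × ℝ, z.1 < 0 ∧ RigAt lam lo (X 0 tN (rhoF p.θ) z) := by
  by_contra hcon
  push Not at hcon
  have H' : Stage (mw monQ) (Leg monQ R) ν own K r0 (rhoF p.θ) (DlFL p) (QdN p.θ) {1, 2, 5, 6} Tie
      0 o 1 (AF ∅) ∅ lam lo :=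
    stage_conv (Z' := ∅) H (by rintro d ⟨v, t1, t2, t3, rfl, h⟩; exact hQd v t1 t2 t3 h)
  have hae := rig_ae L H' hs ho hrt h2 h0 hq1 hq2
  have hDl : DlFL p tN = p.g - 5 - p.q 0 := by
    show DlF p tN = _
    rw [tN_eq, DlF_nL]; ring
  have hd := (H'.ray (recD_L hrt) rungD_L).dead hg one_pos (O := {z : ℝ × ℝ | z.1 < 0})
    (fun ξ _ s hs _ => by
      show (K2S774.pt 0 (0, 1) (1, 0) ξ s).1 < 0
      simp [K2S774.pt]; exact hs) (by
      filter_upwards [hae] with z hz hz1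
      obtain ⟨E, h1, h3⟩ := hz hz1
      refine ⟨E, h1, ?_⟩
      rcases h3 with h3 | h3
      · exact absurd h3 (hcon z hz1)
      · rw [hDl]; linarith)
  obtain ⟨ξ, hξ⟩ := hd.exists
  exact hξ (mem_univ _)

end

end Crest.Agent.R136.Rgl480
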