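import Crest.Agent.R136.Rgl9_480
import Crest.Agent.R136.GauC1_66

/-!
# R136 (helper480), T.L: `SeamWin`, no open hypothesis

`hasRig66` : `HasRig c` (66's literal); **`seamWin`** : `η < 1 → SeamWin η`.
-/

set_option autoImplicit false

open Filter Topology

namespace Crest.Agent.R136.Rgl480

open Crest.Agent.R136.NatR550 (coneN nL)
open Crest.Agent.R136.TL196
open Crest.Agent.R136.Gau66 (HasRig seamWin_of)

/-- 66's `HasRig` -/
theorem hasRig66 {η : ℝ} (hη : η < 1) (c : LCtx) (ok : c.Ok η) : HasRig c := by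
  intro ξ₀ ξ h lam lo H
  obtain ⟨z, hz, k, kpos, k0, lamI, loI, a, m, t1, t2, LF⟩ := hasRig ok hη H
  refine ⟨z, hz, k, kpos, k0, lamI, a, m, ?_, LF⟩
  rwa [Crest.Agent.R136.K2S774.X_zero] at t1

/-- **`SeamWin`** of T.L -/
theorem seamWin {η : ℝ} (hη : η < 1) : SeamWin η := seamWin_of fun c ok => hasRig66 hη c ok

end Crest.Agent.R136.Rgl480
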