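import Crest.Agent.R136.Rnm_648

/-!
# R136, wall resonances (helper648): the numbers at the four walls

`num32`, `num33`, `num34`, `num44` : a point `PtC` of the rung `K` which is not dead has the numbers
of the resonance windows `zY`, `AY`, `BY`, `YY`.
-/

set_option autoImplicit false
set_option linter.unusedSectionVars false
set_option linter.unusedVariables false
set_option linter.style.longLine false
set_option maxRecDepth 4000

open Filter Topology

namespace Crest.Agent.R136.Rnm648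

open Finset Crest.Agent.R138.Ex926 Crest.Agent.R136.Net191 Crest.Agent.R136.Gf356
open Crest.Agent.R136.Qg926 Crest.Agent.R136.Dg219 Crest.Agent.R136.Aw413
open Crest.Agent.R136.NetW191 Crest.Agent.R136.EvW938 Crest.Agent.R136.PrW464
open Crest.Agent.R136.LadW697 Crest.Agent.R136.AwJ774 Crest.Agent.R136.Bas938
open Crest.Agent.R136.ThB830 Crest.Agent.R136.Pin851 Crest.Agent.R136.NatW697
open Crest.Agent.R136.Lfz648 Crest.Agent.R136.Pinv648 Crest.Agent.R136.Rnl648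
open Crest.Agent.R136.Res2648 Crest.Agent.R136.LadT830
open Crest.Agent.R136.Rc146 (OutA)
open Crest.Agent.R136.K2S774 (cn)

/-- level slots of `zY`, `AY`, `BY`, `YY` -/
def S32 : Finset (Fin 18) := {0, 4, 5, 6, 7, 9, 10, 11, 14, 15}
def S33 : Finset (Fin 18) := {0, 5, 7, 9, 14}
def S34 : Finset (Fin 18) := {0, 7}
def S44 : Finset (Fin 18) := {0, 5, 7, 9}

theorem drW3 : DrW (((3 : ℤ) : ℝ)) = ↑({4} : Finset (Fin 18)) := by
  have key : ∀ k : Fin 18, (4 ≤ k ∧ (3 : ℤ) < alW k) ↔ k = 4 := by decide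
  ext k
  rw [Finset.mem_coe, mem_singleton, ← key k]
  simp only [DrW, Set.mem_setOf_eq]
  constructor
  · rintro ⟨h1, h2⟩; exact ⟨h1, by exact_mod_cast h2⟩
  · rintro ⟨h1, h2⟩; exact ⟨h1, by exact_mod_cast h2⟩

theorem drW4 : DrW (((4 : ℤ) : ℝ)) = ↑(∅ : Finset (Fin 18)) := by
  have key : ∀ k : Fin 18, ¬ (4 ≤ k ∧ (4 : ℤ) < alW k) := by decide
  ext k
  simp only [DrW, Set.mem_setOf_eq, Finset.coe_empty, Set.mem_empty_iff_false, iff_false]
  rintro ⟨h1, h2⟩; exact key k ⟨h1, by exact_mod_cast h2⟩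

theorem bN_eq {θ : Fin 3 → ℝ} {s : ℝ} {b : ℤ} (h1 : 0 < θ 1)
    (hw : s = 1 - θ 0 + (b : ℝ) * θ 1) : bN θ s = (b : ℝ) := by
  unfold bN
  rw [hw]
  field_simp
  ring

section pt

variable {B Bo : Base} {I J : ℕ → Finset (ℕ × ℝ)} {co : ∀ n : ℕ, ℕ × ℝ → ℕ × ℝ → Fin 18 → ℝ}
  {C : ℝ} {κ : ℕ → ℝ} {u : ℕ → Fin 18 → ℝ} {f : ℕ → ℕ × ℝ → FW} {K : ℝ}
  {θ : Fin 3 → ℝ} {q : Fin 3 → ℝ} {V T : Set (Fin 18)} {s : ℝ}
  {lam lo : (Fin 18 → ℝ) → ℝ} {A : ℝ × ℝ} {φ : ℕ → (Fin 18 → ℝ) → ℝ} {r : ℕ → ℝ}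
  {Dr : Finset (Fin 18)}

theorem TW_dr (hDr : DrW s = ↑Dr) {i : Fin 18} (hi : i ∈ Dr) : TW s i = 1 := by
  rw [TW, if_pos (by rw [hDr]; exact hi)]

theorem ind_ptC (h : PtC B Bo I J co C κ u f K θ q V T s lam lo A φ r) (hDr : DrW s = ↑Dr) :
    Ind Dr lam := by
  have hind := h.ind
  rw [hDr] at hind
  exact fun c hc c' hc' hcc => hind c hc c' hc' fun i hi => hcc i fun h' => hi (Finset.mem_coe.2 h')

/-- own loss of the height -/
theorem frost_ptC (h : PtC B Bo I J co C κ u f K θ q V T s lam lo A φ r) (hDr : DrW s = ↑Dr) :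
    ∀ y : ℝ, 0 ≤ y → lam (Pi.single 0 y) ≤ -y := by
  intro y hy
  have ha := h.aew
  rw [hDr] at ha
  have e : (Pi.single 0 y : Fin 18 → ℝ) = ind {0} y := by
    funext k
    by_cases hk : k = 0
    · subst hk; rw [Pi.single_eq_same, ind_mem (by simp)]
    · rw [Pi.single_eq_of_ne hk, ind_notMem (by simpa using hk)]
  have up : UpW Dr ({0} : Finset (Fin 18)) := by
    intro k hk l hl _
    rw [mem_singleton.1 hk, mlW0] at hl
    exact absurd hl (List.not_mem_nil)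
  have m1 := mem_ind up hy
  have h1 := ha.own 0 zero_mem _ (by rw [cone_eq]; exact m1) (fun k => ind_nonneg hy k)
    (fun k _ => by simp)
  rw [ind_mem (mem_singleton_self _), ha.zero] at h1
  simp only [Pi.zero_apply, sub_zero, one_mul] at h1
  rw [e]
  linarith

/-- supermodularity -/
theorem smod_ptC (h : PtC B Bo I J co C κ u f K θ q V T s lam lo A φ r) (hDr : DrW s = ↑Dr) :
    ∀ c ∈ CL Dr, ∀ c' ∈ CL Dr, c ⊓ c' ∈ CL Dr → c ⊔ c' ∈ CL Dr →
      lam c + lam c' ≤ lam (c ⊔ c') + lam (c ⊓ c') := by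
  have ha := h.aew
  rw [hDr] at ha
  intro c hc c' hc' h1 h2
  exact ha.submod c (by rw [cone_eq]; exact hc) c' (by rw [cone_eq]; exact hc')
    (by rw [cone_eq]; exact h1) (by rw [cone_eq]; exact h2)

theorem G_zero (θ : Fin 3 → ℝ) (s : ℝ) : ∀ i, gC (TW s) (btW θ) i = 0 ↔ TW s i = 0 :=
  fun i => gC_zero

/-- a slot with `T = 0` -/
theorem TW_z0 {j : ℤ} (hDr : DrW (j : ℝ) = ↑Dr) (h1 : 0 < θ 1) {i : Fin 18} (hi : i ∉ Dr)
    (h0 : sI j i = 0) : TW (j : ℝ) i = 0 := by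
  rw [(grp_of h1 hDr).hT i hi, h0, Int.cast_zero]

theorem TW_z1 {j : ℤ} (hDr : DrW (j : ℝ) = ↑Dr) (h1 : 0 < θ 1) {i : Fin 18}
    (h0 : TW (j : ℝ) i = 0) : i ∉ Dr ∧ sI j i = 0 := by
  have hi : i ∉ Dr := fun h => by
    rw [TW_dr hDr h] at h0
    exact one_ne_zero h0
  rw [(grp_of h1 hDr).hT i hi, Int.cast_eq_zero] at h0
  exact ⟨hi, h0⟩

/-! ### `(w, K) = (3, 2)` -/

/-- bad fractions -/
def bad2 : List (ℤ × ℤ) := [(3, 1), (4, 1), (5, 1), (6, 1)]

theorem bad2_ok : ∀ v ∈ bad2, (((2 : ℤ) : ℝ)) * v.2 ≠ v.1 := by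
  intro v hv
  simp only [bad2, List.mem_cons, List.not_mem_nil, or_false] at hv
  rcases hv with rfl | rfl | rfl | rfl <;> norm_num

theorem num32 (h : PtC B Bo I J co C κ u f K θ q V T (((3 : ℤ) : ℝ)) lam lo A φ r)
    (hw : ((3 : ℤ) : ℝ) = 1 - θ 0 + ((2 : ℤ) : ℝ) * θ 1) (hnd : ¬ 3 + ((3 : ℤ) : ℝ) ≤ -A.1) :
    NumW S32 {6, 7, 10} lam ∧ NumR S32 {1} 2 1 lam ∧
      NumR S32 {2, 12} 1 (q 1 + 2 * q 2) lam := by
  have hDr := drW3
  have hth := h.th1
  have H := pinV_of h hDr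
  have hG := grp_of (θ := θ) hth hDr
  rw [bN_eq hth hw] at hG
  obtain ⟨hA, hB⟩ := frames_ptC h
  have hi := ind_ptC h hDr
  have hout := h.out.toOutS
  rw [hDr] at hout
  have dead : ∀ (P : Finset (Fin 18)) (f : Fin 18) (L : List Stp), f ≠ 17 →
      Okc noHT 3 bad2 {4} P f L → ¬ Vis lam P f := fun P f L hf hk hv =>
    hnd (row_end h hDr (H.chain hG hA hB bad2_ok L hv hf hk))
  have n15 : NoV {4} lam 15 := noV_of H (P := {0, 1, 2, 3, 6, 10, 17})
    (aloneE hG (by decide) (by decide)) (by decide) (by decide) (by decide)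
    (dead _ _ [Stp.leaf 2 11 13 1 0 {0, 1, 3, 6, 10}] (by decide) (by decide))
  have n9 : NoV {4} lam 9 := noV_of H (P := {0, 1, 2, 3, 15})
    (aloneE hG (by decide) (by decide)) (by decide) (by decide) (by decide)
    (dead _ _ [Stp.leaf 3 5 11 1 0 {0, 1, 2}, Stp.leaf 2 11 13 1 0 {0, 1, 3, 6, 10}] (by decide)
      (by decide))
  have n7 : NoV {4} lam 7 := noV_of H (P := {0, 2, 3, 14})
    (aloneE hG (by decide) (by decide)) (by decide) (by decide) (by decide)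
    (dead _ _ [Stp.leaf 3 3 10 2 0 {0, 2}, Stp.leaf 3 10 13 1 0 {0, 2, 7}] (by decide)
      (by decide))
  have f5 : Free lam (TW (((3 : ℤ) : ℝ))) {4} (insert 5 ∅) :=
    (H.free_or H.free_empty (j := 5) (TW_z0 hDr hth (by decide) (by decide)) (by decide)
      (by decide) (by decide) (by decide)).resolve_left
      (dead _ _ [Stp.leaf 2 1 5 2 1 {0, 7}, Stp.leaf 3 5 11 1 0 {0, 1, 2},
        Stp.leaf 2 11 13 1 0 {0, 1, 3, 6, 10}] (by decide) (by decide))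
  have f6 : Free lam (TW (((3 : ℤ) : ℝ))) {4} (insert 6 (insert 5 ∅)) :=
    (H.free_or f5 (j := 6) (TW_z0 hDr hth (by decide) (by decide)) (by decide)
      (by decide) (by decide) (by decide)).resolve_left
      (dead _ _ [Stp.leaf 2 2 6 3 1 {0, 5, 7, 9}, Stp.leaf 2 6 11 2 0 {0, 1, 3, 6},
        Stp.leaf 2 11 13 1 0 {0, 1, 3, 6, 10}] (by decide) (by decide))
  refine ⟨⟨fun x hx => ?_, frost_ptC h hDr, fun x hx => ?_⟩, ⟨one_pos, fun x t ht htx => ?_⟩,
    ⟨H.m0, fun x t ht htx => ?_⟩⟩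
  · refine dens_of hout (G_zero θ _) hi (by decide) (by decide) (by decide)
      (wholeE hG (by decide)) hx ?_
    rw [phi0_eq (Fr := insert 6 (insert 5 ∅)) hout (G_zero θ _) (TW_c _) (by decide)
      (fun i hi => ?_) (fun i hi => ?_) hx, f6.free x hx]
    · exact TW_z0 hDr hth ((by decide : ∀ i ∈ (insert 6 (insert 5 ∅) : Finset (Fin 18)),
        i ∉ ({4} : Finset (Fin 18))) i hi) ((by decide : ∀ i ∈ (insert 6 (insert 5 ∅) :
        Finset (Fin 18)), sI 3 i = 0) i hi)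
    · obtain ⟨h1, h2⟩ := TW_z1 hDr hth hi
      exact (by decide : ∀ i : Fin 18, i ∉ ({4} : Finset (Fin 18)) → sI 3 i = 0 →
        (i ∈ S32 \ {4} ↔ i ∈ (insert 6 (insert 5 ∅) : Finset (Fin 18)))) i h1 h2
  · rw [cut_lines, cut_lines]
    have e1 := smod_ind (A := univ \ S32) (B := insert 6 (insert 5 ∅)) (smod_ptC h hDr) H.zero
      (by decide) (by decide) (by decide) (by decide) hx (f6.free x hx)
    have e2 := n7 ((univ \ S32) ∪ insert 6 (insert 5 ∅)) (by decide) (by decide) x hx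
    have e3 := n9 (insert 7 ((univ \ S32) ∪ insert 6 (insert 5 ∅))) (by decide) (by decide) x hx
    have e4 := n15 (insert 9 (insert 7 ((univ \ S32) ∪ insert 6 (insert 5 ∅)))) (by decide)
      (by decide) x hx
    rw [ind_drop hi (S := univ \ S0 {6, 7, 10}) (by decide) hx,
      show (univ \ S0 {6, 7, 10}) \ {4} =
        insert 15 (insert 9 (insert 7 ((univ \ S32) ∪ insert 6 (insert 5 ∅)))) from by decide]
    linarith
  · rw [one_mul, cut_update (by decide), cut_bxs]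
    exact rateA H hi hA (by decide) (by decide) (by decide) (by decide) (by decide)
      (fun i hi hiD => neE hG hiD (by decide) ((by decide : ∀ i ∈ S32 ∪ {1},
        i ∉ ({4} : Finset (Fin 18)) → sepE 3 2 i 2) i hi hiD)) ht htx
  · rw [cut_update (by decide), cut_bxs]
    refine H.closs f6 (by decide) (by decide) (fun i hi hi1 => ?_) ht htx
    obtain ⟨h1, h2⟩ := TW_z1 hDr hth hi
    exact (by decide : ∀ i : Fin 18, i ∉ ({4} : Finset (Fin 18)) → sI 3 i = 0 → i ≠ 1 →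
        (i ∈ S32 ∪ {2, 12} ↔ i ∈ (insert 6 (insert 5 ∅) : Finset (Fin 18)))) i h1 h2 hi1

end pt

end Crest.Agent.R136.Rnm648
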