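import Crest.Agent.R136.PinV_648
import Crest.Agent.R136.RnB_648
import Crest.Agent.R136.Rt5_478

/-!
# R136, wall resonances (helper648): tools for the numbers at an interior point

* `cut_bxs`, .. : the boxes of `NumW`, `NumR` are boxes `ind`
* `dens_of`, `phi0_eq`, `smod_ind` : groups and supermodularity
* `PinV.rateA`, `PinV.rateB`, `PinV.noV` : rates of the frame slots, slots which cost nothing
* `pinV_of`, `frames_ptC` : a point `PtC` has the structure `PinV`; `A`, `B` are full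
-/

set_option autoImplicit false
set_option linter.unusedSectionVars false
set_option linter.unusedVariables false
set_option linter.style.longLine false

open Filter Topology

namespace Crest.Agent.R136.Rnm648

open Finset Crest.Agent.R138.Ex926 Crest.Agent.R136.Net191 Crest.Agent.R136.Gf356
open Crest.Agent.R136.Qg926 Crest.Agent.R136.Dg219 Crest.Agent.R136.Aw413
open Crest.Agent.R136.NetW191 Crest.Agent.R136.EvW938 Crest.Agent.R136.PrW464
open Crest.Agent.R136.LadW697 Crest.Agent.R136.AwJ774 Crest.Agent.R136.Bas938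
open Crest.Agent.R136.ThB830 Crest.Agent.R136.Pin851 Crest.Agent.R136.NatW697
open Crest.Agent.R136.Lfz648 Crest.Agent.R136.Pinv648 Crest.Agent.R136.Rnl648
open Crest.Agent.R136.Res2648 Crest.Agent.R136.LadT830
open Crest.Agent.R136.Rc146 (OutA)
open Crest.Agent.R136.K2S774 (cn)

/-! ### boxes -/

theorem cut_bxs (S T : Finset (Fin 18)) (x : ℝ) :
    cut S (bxs T x) (fun _ => x) = ind (S ∪ T) x := by
  funext k
  by_cases h : k ∈ S
  · rw [cut_of_mem h, ind_mem (mem_union_left _ h)]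
  · rw [cut_of_notMem h]
    by_cases hT : k ∈ T
    · rw [ind_mem (mem_union_right _ hT)]; exact if_pos hT
    · rw [ind_notMem (by simp [h, hT])]; exact if_neg hT

theorem cut_update {S : Finset (Fin 18)} {a : Fin 18} (ha : a ∉ S) (p q : Fin 18 → ℝ) (t : ℝ) :
    cut S (Function.update p a t) q = Function.update (cut S p q) a t := by
  funext k
  by_cases hk : k = a
  · subst hk; rw [cut_of_notMem ha, Function.update_self, Function.update_self]
  · rw [Function.update_of_ne hk]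
    by_cases h : k ∈ S
    · rw [cut_of_mem h, cut_of_mem h]
    · rw [cut_of_notMem h, cut_of_notMem h, Function.update_of_ne hk]

theorem cut_lines (S : Finset (Fin 18)) (x : ℝ) : cut S (fun _ => x) 0 = ind (univ \ S) x := by
  funext k
  by_cases h : k ∈ S
  · rw [cut_of_mem h, ind_notMem (by simp [h])]; rfl
  · rw [cut_of_notMem h, ind_mem (by simp [h])]

theorem cut_lev (S : Finset (Fin 18)) (x : ℝ) : cut S 0 (fun _ => x) = ind S x := by
  funext k
  by_cases h : k ∈ S
  · rw [cut_of_mem h, ind_mem h]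
  · rw [cut_of_notMem h, ind_notMem h]; rfl

theorem ind_zero (V : Finset (Fin 18)) : ind V (0 : ℝ) = 0 := by funext k; simp [ind]

/-! ### groups -/

/-- the slots `i`, `j` are in different groups, exact second slope `b` -/
def sepE (s b : ℤ) (i j : Fin 18) : Prop :=
  (sI s i = 0 ∧ sI s j ≠ 0) ∨ (sI s i ≠ 0 ∧ sI s j = 0) ∨
  (sI s i ≠ 0 ∧ sI s j ≠ 0 ∧ sI s i * (wc j + b * wn j) ≠ sI s j * (wc i + b * wn i))

instance (s b : ℤ) (i j : Fin 18) : Decidable (sepE s b i j) := by
  unfold sepE; infer_instance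

section grp

variable {Dr : Finset (Fin 18)} {T : Fin 18 → ℝ} {G : Fin 18 → ℕ} {s b : ℤ}

theorem neE (h : Grp Dr T G s (b : ℝ)) {i j : Fin 18} (hi : i ∉ Dr) (hj : j ∉ Dr)
    (hs : sepE s b i j) : G i ≠ G j := by
  intro hG
  have hTi := h.hT i hi
  have hTj := h.hT j hj
  have z : ∀ n : ℤ, (n : ℝ) = 0 ↔ n = 0 := fun n => Int.cast_eq_zero
  rcases hs with ⟨h1, h2⟩ | ⟨h1, h2⟩ | ⟨h1, h2, h3⟩
  · have h3 : G i = 0 := (h.G0 i).2 (by rw [hTi, h1]; simp)
    rw [hG] at h3
    have h4 := (h.G0 j).1 h3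
    rw [hTj, z] at h4
    exact h2 h4
  · have h3 : G j = 0 := (h.G0 j).2 (by rw [hTj, h2]; simp)
    rw [← hG] at h3
    have h4 := (h.G0 i).1 h3
    rw [hTi, z] at h4
    exact h1 h4
  · have h4 := h.par i j hi hj (by rw [hTi, Ne, z]; exact h1) (by rw [hTj, Ne, z]; exact h2) hG
    exact h3 (by exact_mod_cast h4)

/-- a slot alone in its group, up to dropped slots -/
theorem aloneE (h : Grp Dr T G s (b : ℝ)) {k : Fin 18} (hk : k ∉ Dr)
    (hs : ∀ i, i ∉ Dr → i ≠ k → sepE s b i k) : ∀ i, i ∉ Dr → G i = G k → i = k := by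
  intro i hiD hi
  by_contra hik
  exact neE h hiD hk (hs i hiD hik) hi

/-- whole groups, up to dropped slots -/
theorem wholeE (h : Grp Dr T G s (b : ℝ)) {S : Finset (Fin 18)}
    (hs : ∀ i ∈ S, i ∉ Dr → sI s i ≠ 0 → ∀ j, j ∉ Dr → j ∉ S → sepE s b i j) :
    ∀ i j, i ∉ Dr → j ∉ Dr → G i = G j → T i ≠ 0 → i ∈ S → j ∈ S := by
  intro i j hiD hjD hij hT hi
  by_contra hj
  have hi0 : sI s i ≠ 0 := fun h0 => hT (by rw [h.hT i hiD, h0]; simp)
  exact neE h hiD hjD (hs i hi hiD hi0 j hjD hj) hij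

end grp

section phi

variable {Dr : Finset (Fin 18)} {T dh : Fin 18 → ℝ} {G : Fin 18 → ℕ} {lam : (Fin 18 → ℝ) → ℝ}
  {n : ℕ → ℝ × ℝ} {A : ℝ × ℝ} {φ : ℕ → (Fin 18 → ℝ) → ℝ} {r : ℕ → ℝ} {S Fr : Finset (Fin 18)}
  {x : ℝ}

/-- the dropped slots of a box do not matter -/
theorem ind_drop (hi : Ind Dr lam) (hS : UpW Dr S) (hx : 0 ≤ x) :
    lam (ind S x) = lam (ind (S \ Dr) x) := by
  have h2 : UpW Dr (S \ Dr) := fun k hk l hl hD => by
    obtain ⟨j, hj, hjS⟩ := hS k (mem_sdiff.1 hk).1 l hl hD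
    exact ⟨j, hj, mem_sdiff.2 ⟨hjS, hD j hj⟩⟩
  refine hi _ (mem_ind hS hx) _ (mem_ind h2 hx) fun i hiD => ?_
  by_cases h : i ∈ S
  · rw [ind_mem h, ind_mem (mem_sdiff.2 ⟨h, hiD⟩)]
  · rw [ind_notMem h, ind_notMem fun h' => h (mem_sdiff.1 h').1]

theorem up_sdiff (hS : UpW Dr S) : UpW Dr (S \ Dr) := fun k hk l hl hD => by
  obtain ⟨j, hj, hjS⟩ := hS k (mem_sdiff.1 hk).1 l hl hD
  exact ⟨j, hj, mem_sdiff.2 ⟨hjS, hD j hj⟩⟩

/-- **density** -/
theorem dens_of (out : OutS G (CL Dr) dh n lam A φ r) (G0 : ∀ i, G i = 0 ↔ T i = 0)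
    (hi : Ind Dr lam) (hS : UpW Dr S) (hSc : UpW Dr (univ \ S)) (hU : UpW Dr univ)
    (gS : ∀ i j, i ∉ Dr → j ∉ Dr → G i = G j → T i ≠ 0 → i ∈ S → j ∈ S) (hx : 0 ≤ x)
    (h0 : 0 ≤ φ 0 (ind (S \ Dr) x)) :
    lam (fun _ => x) ≤ lam (cut S (fun _ => x) 0) + lam (cut S 0 (fun _ => x)) := by
  have e0 : (fun _ => x : Fin 18 → ℝ) = ind univ x := by
    funext k; rw [ind_mem (mem_univ _)]
  rw [e0]
  have e1 : cut S (ind univ x) 0 = ind (univ \ S) x := by rw [← e0]; exact cut_lines S x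
  have e2 : cut S 0 (ind univ x) = ind S x := by rw [← e0]; exact cut_lev S x
  rw [e1, e2, ind_drop hi hU hx, ind_drop hi hSc hx, ind_drop hi hS hx]
  have m1 := mem_ind (up_sdiff hU) hx
  have m2 := mem_ind (up_sdiff hSc) hx
  have m3 := mem_ind (up_sdiff hS) hx
  rw [out.sum _ m1, out.sum _ m2, out.sum _ m3, ← sum_add_distrib]
  have v1 : ∀ j, ind (univ \ Dr) x j = if j ∈ Dr then 0 else x := fun j => by
    by_cases h : j ∈ Dr
    · rw [if_pos h, ind_notMem (by simp [h])]
    · rw [if_neg h, ind_mem (by simp [h])]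
  refine sum_le_sum fun k _ => ?_
  by_cases hk : k = 0
  · subst hk
    have h1 := (out.mono 0 _ m2 _ m1 (fun i _ => by
      rw [v1]
      by_cases h : i ∈ Dr
      · rw [if_pos h, ind_notMem (by simp [h])]
      · rw [if_neg h]; exact ind_le hx i)).1
    linarith
  · by_cases hex : ∃ i ∈ S, i ∉ Dr ∧ G i = k
    · obtain ⟨i, hi, hiD, rfl⟩ := hex
      have hT : T i ≠ 0 := fun h => hk ((G0 i).2 h)
      have e1 : φ (G i) (ind (univ \ Dr) x) = φ (G i) (ind (S \ Dr) x) :=
        out.loc _ _ _ fun j hj => by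
          rw [v1]
          by_cases h : j ∈ Dr
          · rw [if_pos h, ind_notMem (by simp [h])]
          · rw [if_neg h, ind_mem (mem_sdiff.2 ⟨gS i j hiD h hj.symm hT hi, h⟩)]
      have e2 : φ (G i) (ind ((univ \ S) \ Dr) x) = 0 := out.zero _ _ fun j hj => by
          by_cases h : j ∈ Dr
          · exact ind_notMem (by simp [h])
          · exact ind_notMem (by simp [gS i j hiD h hj.symm hT hi])
      rw [e1, e2, zero_add]
    · push Not at hex
      have e1 : φ k (ind (univ \ Dr) x) = φ k (ind ((univ \ S) \ Dr) x) :=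
        out.loc _ _ _ fun j hj => by
          rw [v1]
          by_cases h : j ∈ Dr
          · rw [if_pos h, ind_notMem (by simp [h])]
          · have hjS : j ∉ S := fun h' => hex j h' h hj
            rw [if_neg h, ind_mem (by simp [h, hjS])]
      have e2 : φ k (ind (S \ Dr) x) = 0 := out.zero _ _ fun j hj => by
          by_cases h : j ∈ Dr
          · exact ind_notMem (by simp [h])
          · exact ind_notMem fun h' => hex j (mem_sdiff.1 h').1 h hj
      rw [e1, e2, add_zero]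

/-- the part of group `0` -/
theorem phi0_eq (out : OutS G (CL Dr) dh n lam A φ r) (G0 : ∀ i, G i = 0 ↔ T i = 0)
    (h1 : T 1 = 0) (hFr : UpW Dr Fr) (hT : ∀ i ∈ Fr, T i = 0)
    (hSF : ∀ i, T i = 0 → (i ∈ S ↔ i ∈ Fr)) (hx : 0 ≤ x) :
    φ 0 (ind S x) = lam (ind Fr x) := by
  rw [out.sum _ (mem_ind hFr hx), Finset.sum_eq_single 0]
  · refine out.loc 0 _ _ fun i hi => ?_
    have h2 := (G0 i).1 hi
    by_cases h : i ∈ S
    · rw [ind_mem h, ind_mem ((hSF i h2).1 h)]
    · rw [ind_notMem h, ind_notMem fun h' => h ((hSF i h2).2 h')]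
  · intro k _ hk
    exact out.zero k _ fun i hi => ind_notMem fun h => hk (hi ▸ (G0 i).2 (hT i h))
  · intro h
    exact absurd (((G0 1).2 h1) ▸ mem_gset (grp := G) 1) h

end phi

section pv

variable {Dr : Finset (Fin 18)} {T : Fin 18 → ℝ} {G : Fin 18 → ℕ} {m : ℝ}
  {lam : (Fin 18 → ℝ) → ℝ} {A B W P : Finset (Fin 18)} {x t : ℝ} {k : Fin 18} {c : Fin 18 → ℝ}

/-- supermodularity -/
theorem smod_ind (sm : ∀ c ∈ CL Dr, ∀ c' ∈ CL Dr, c ⊓ c' ∈ CL Dr → c ⊔ c' ∈ CL Dr →
    lam c + lam c' ≤ lam (c ⊔ c') + lam (c ⊓ c')) (z : lam 0 = 0) (hA : UpW Dr A)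
    (hB : UpW Dr B) (hAB : Disjoint A B) (hU : UpW Dr (A ∪ B)) (hx : 0 ≤ x)
    (h0 : lam (ind B x) = 0) : lam (ind A x) ≤ lam (ind (A ∪ B) x) := by
  have e1 : ind A x ⊓ ind B x = 0 := by
    funext k
    rw [Pi.inf_apply]
    by_cases h : k ∈ A
    · rw [ind_notMem (fun hB => Finset.disjoint_left.1 hAB h hB)]
      exact min_eq_right (ind_nonneg hx k)
    · rw [ind_notMem h]
      exact min_eq_left (ind_nonneg hx k)
  have e2 : ind A x ⊔ ind B x = ind (A ∪ B) x := by
    funext k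
    rw [Pi.sup_apply]
    by_cases h : k ∈ A
    · rw [ind_mem h, ind_mem (mem_union_left _ h)]
      exact max_eq_left (ind_le hx k)
    · rw [ind_notMem h]
      by_cases h' : k ∈ B
      · rw [ind_mem h', ind_mem (mem_union_right _ h')]
        exact max_eq_right hx
      · rw [ind_notMem h', ind_notMem (by simp [h, h'])]
        exact max_eq_left le_rfl
  have h3 := sm _ (mem_ind hA hx) _ (mem_ind hB hx) (by rw [e1]; exact K2S774.cn_zero)
    (by rw [e2]; exact mem_ind hU hx)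
  rw [e1, e2, h0, z] at h3
  linarith

/-- `k` costs nothing -/
def NoV (Dr : Finset (Fin 18)) (lam : (Fin 18 → ℝ) → ℝ) (k : Fin 18) : Prop :=
  ∀ W, Up2 Dr W k → Disjoint W Dr → ∀ x : ℝ, 0 ≤ x → lam (ind W x) ≤ lam (ind (insert k W) x)

/-- a slot alone in its group which is not visible costs nothing -/
theorem noV_of (H : PinV Dr T G m lam) (hk : ∀ i, i ∉ Dr → G i = G k → i = k) (hkD : k ∉ Dr)
    (hP : Up2 Dr P k) (hPD : Disjoint P Dr) (hv : ¬ Vis lam P k) : NoV Dr lam k := by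
  intro W hW hWD x hx
  by_contra hcon
  push Not at hcon
  refine hv ⟨x, lam (ind W x) - lam (ind (insert k W) x), by linarith, hx, fun y hy => le_of_eq ?_⟩
  rw [ind_insert hW.2.2]
  refine H.dec k x (ind W x) (ind P y) (mem_ind hW.1 hx) (mem_upd hW.1 hW.2.1 hW.2.2 hx le_rfl)
    (mem_ind hP.1 (hx.trans hy)) (mem_upd hP.1 hP.2.1 hP.2.2 hx hy) fun i hi => ?_
  by_cases hiD : i ∈ Dr
  · rw [ind_notMem (Finset.disjoint_right.1 hWD hiD), ind_notMem (Finset.disjoint_right.1 hPD hiD)]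
  · have := hk i hiD hi
    subst this
    rw [ind_notMem hW.2.2, ind_notMem hP.2.2]

/-- the rate of `A` -/
theorem rateA (H : PinV Dr T G m lam) (hi : Ind Dr lam) (hA : XF lam {0} 2) (uA : Up2 Dr {0} 2)
    (hW : Up2 Dr W 2) (h0 : 0 ∈ W) (d0 : 0 ∉ Dr) (d2 : 2 ∉ Dr)
    (hG : ∀ i ∈ W, i ∉ Dr → G i ≠ G 2) (ht : 0 ≤ t) (htx : t ≤ x) :
    t ≤ lam (ind W x) - lam (Function.update (ind W x) 2 t) := by
  have hx := ht.trans htx
  have h1 := hA t ht
  rw [ind_insert uA.2.2] at h1
  have hW' : Up2 Dr (W \ Dr) 2 := by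
    refine ⟨up_sdiff hW.1, ?_, fun h => hW.2.2 (mem_sdiff.1 h).1⟩
    have := up_sdiff hW.2.1
    rwa [insert_sdiff_of_notMem _ d2] at this
  have e1 : lam (ind W x) = lam (ind (W \ Dr) x) := ind_drop hi hW.1 hx
  have e2 : lam (Function.update (ind W x) 2 t) = lam (Function.update (ind (W \ Dr) x) 2 t) := by
    refine hi _ (mem_upd hW.1 hW.2.1 hW.2.2 ht htx) _ (mem_upd hW'.1 hW'.2.1 hW'.2.2 ht htx)
      fun i hiD => ?_
    by_cases h2 : i = 2
    · subst h2; rw [Function.update_self, Function.update_self]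
    · rw [Function.update_of_ne h2, Function.update_of_ne h2]
      by_cases h : i ∈ W
      · rw [ind_mem h, ind_mem (mem_sdiff.2 ⟨h, hiD⟩)]
      · rw [ind_notMem h, ind_notMem fun h' => h (mem_sdiff.1 h').1]
  rw [e1, e2]
  refine h1.trans (le_of_eq ?_)
  refine H.dec 2 t _ _ (mem_ind uA.1 ht) (mem_upd uA.1 uA.2.1 uA.2.2 ht le_rfl)
    (mem_ind hW'.1 hx) (mem_upd hW'.1 hW'.2.1 hW'.2.2 ht htx) fun i hi => ?_
  by_cases hiD : i ∈ Dr
  · rw [ind_notMem (fun h => (mem_sdiff.1 h).2 hiD), ind_notMem fun h => d0 (by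
      rw [← mem_singleton.1 h]; exact hiD)]
  · have hiW : i ∉ W := fun h => hG i h hiD hi
    have hi0 : i ∉ ({0} : Finset (Fin 18)) := fun h => by
      rw [mem_singleton.1 h] at hiW
      exact hiW h0
    rw [ind_notMem (fun h => hiW (mem_sdiff.1 h).1), ind_notMem hi0]

/-- the rate of `B`, any box -/
theorem rateB (H : PinV Dr T G m lam) (hB : XF lam {0, 2} 3) (uB : Up2 Dr {0, 2} 3)
    (hc : c ∈ CL Dr) (hc' : Function.update c 3 t ∈ CL Dr) (ht : 0 ≤ t) (d0 : 0 ∉ Dr)
    (d2 : 2 ∉ Dr) (g0 : G 0 ≠ G 3) (g2 : G 2 ≠ G 3) (hG : ∀ i, G i = G 3 → c i = 0) :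
    t ≤ lam c - lam (Function.update c 3 t) := by
  have h1 := hB t ht
  rw [ind_insert uB.2.2] at h1
  refine h1.trans (le_of_eq ?_)
  refine H.dec 3 t _ _ (mem_ind uB.1 ht) (mem_upd uB.1 uB.2.1 uB.2.2 ht le_rfl) hc hc' fun i hi => ?_
  have hi0 : i ∉ ({0, 2} : Finset (Fin 18)) := fun h => by
    rcases mem_insert.1 h with h | h
    · exact g0 (h ▸ hi)
    · exact g2 ((mem_singleton.1 h) ▸ hi)
  rw [hG i hi, ind_notMem hi0]

end pv

/-! ### a point of a rung -/

section pt

variable {B Bo : Base} {I J : ℕ → Finset (ℕ × ℝ)} {co : ∀ n : ℕ, ℕ × ℝ → ℕ × ℝ → Fin 18 → ℝ}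
  {C : ℝ} {κ : ℕ → ℝ} {u : ℕ → Fin 18 → ℝ} {f : ℕ → ℕ × ℝ → FW} {K : ℝ}
  {θ : Fin 3 → ℝ} {q : Fin 3 → ℝ} {V T : Set (Fin 18)} {s : ℝ}
  {lam lo : (Fin 18 → ℝ) → ℝ} {A : ℝ × ℝ} {φ : ℕ → (Fin 18 → ℝ) → ℝ} {r : ℕ → ℝ}
  {Dr : Finset (Fin 18)}

/-- a touching slot has `btW = TW` -/
theorem btW_nonneg (h : PtC B Bo I J co C κ u f K θ q V T s lam lo A φ r) {k : Fin 18}
    (hk : k ∈ V) (hK : KW θ k = s) : 0 ≤ btW θ k := by
  obtain ⟨h4, h1, h2⟩ := h.vis k hk
  rw [hK] at h2
  have hD : k ∉ DrW s := fun hD => absurd hD.2 (not_lt.2 h2.le)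
  have h3 := TW_flag h4 hD
  have h5 := btW_KW θ h4
  rw [hK] at h5
  linarith

/-- **the structure `PinV` at every point of every rung** -/
theorem pinV_of (h : PtC B Bo I J co C κ u f K θ q V T s lam lo A φ r) (hDr : DrW s = ↑Dr) :
    PinV Dr (TW s) (gC (TW s) (btW θ)) (q 1 + 2 * q 2) lam := by
  have hleaf := ptC_leafZ h hDr
  have ha := h.aew
  have hout := h.out
  have hsw := h.sweep
  rw [hDr] at ha hout hsw
  have d0 : (0 : Fin 18) ∉ Dr := frame_notMem hDr (by decide)
  have hsh : ∀ c ∈ CL Dr, ∀ c' ∈ CL Dr, c ≤ c' → lam c - lam c' ≤ ∑ i, (c' i - c i) :=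
    fun c hc c' hc' hcc => ha.sharp c (by rw [cone_eq]; exact hc) c' (by rw [cone_eq]; exact hc') hcc
  refine
    { zero := ha.zero
      anti := fun c hc c' hc' hcc =>
        ha.anti c (by rw [cone_eq]; exact hc) c' (by rw [cone_eq]; exact hc') hcc
      sharp := hsh
      G0 := fun i => gC_zero
      T0 := TW_nonneg s h.s0
      T1 := ⟨TW_z s, TW_c s, TW_A s, TW_B s⟩
      nT := TW_mem h.s0 hDr
      dec := fun i y c c' hc hc1 hc' hc1' hG => ?_
      zw := fun x y hx hxy => ?_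
      m0 := by have := h.q1; have := h.q2; linarith
      sweep := fun t ht => ?_
      addT := fun v hv c hc => ?_
      leaf := hleaf }
  · refine loss_slot hout.toOutS i hc hc1 hc' hc1' (fun j hj => (Function.update_of_ne hj _ _).symm)
      (fun j hj => (Function.update_of_ne hj _ _).symm) hG ?_
    rw [Function.update_self, Function.update_self]
  · have up3 : UpW Dr ({0, 2, 3} : Finset (Fin 18)) := by
      intro k hk l hl _
      simp only [mem_insert, mem_singleton] at hk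
      rcases hk with rfl | rfl | rfl
      · rw [mlW0] at hl; exact absurd hl (List.not_mem_nil)
      · have e2 : mlW 2 = [[1, 0]] := by decide
        rw [e2] at hl
        rw [List.mem_singleton.1 hl]; exact ⟨0, by simp, by simp⟩
      · have e3 : mlW 3 = [[1, 2], [1, 1, 0]] := by decide
        rw [e3] at hl
        rcases List.mem_cons.1 hl with h1 | h1
        · rw [h1]; exact ⟨2, by simp, by simp⟩
        · rw [List.mem_singleton.1 h1]; exact ⟨0, by simp, by simp⟩
    have m1 : ind ({0, 2, 3} : Finset (Fin 18)) x ∈ CL Dr := mem_ind up3 hx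
    have m2 : Function.update (ind ({0, 2, 3} : Finset (Fin 18)) x) 0 y ∈ CL Dr := by
      refine mem_max (fun k => ?_) fun k l hl hD => ?_
      · rw [Function.update_apply]; split_ifs; exacts [hx.trans hxy, ind_nonneg hx k]
      · by_cases hk : k = 0
        · subst hk; rw [mlW0] at hl; exact absurd hl (List.not_mem_nil)
        · rw [Function.update_of_ne hk]
          by_cases hkP : k ∈ ({0, 2, 3} : Finset (Fin 18))
          · obtain ⟨j, hj, hjP⟩ := up3 k hkP l hl hD
            refine ⟨j, hj, ?_⟩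
            rw [ind_mem hkP, Function.update_apply]
            split_ifs
            · exact hxy
            · rw [ind_mem hjP]
          · obtain ⟨j, hj⟩ := List.exists_mem_of_ne_nil l (mlW_ne k l hl)
            refine ⟨j, hj, ?_⟩
            rw [ind_notMem hkP, Function.update_apply]
            split_ifs
            · exact hx.trans hxy
            · exact ind_nonneg hx j
    have m0 : ind ({0, 2, 3} : Finset (Fin 18)) x 0 = x := ind_mem (by decide)
    have h1 := ha.own _ (by rw [cone_eq]; exact m1) _ (by rw [cone_eq]; exact m2)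
      (le_upd (by rw [m0]; exact hxy)) (fun k hk => by
        obtain ⟨h4, -, -⟩ := h.vis k hk.1
        have hk4 : k ∉ ({0, 2, 3} : Finset (Fin 18)) := by
          intro hk'
          simp only [mem_insert, mem_singleton] at hk'
          rcases hk' with rfl | rfl | rfl <;> exact absurd h4 (by decide)
        rw [ind_notMem hk4, m0]
        exact mul_nonneg (btW_nonneg h hk.1 hk.2) hx)
    rw [Function.update_self, m0, one_mul] at h1
    exact h1
  · have h1 := hsw 0 K2S774.cn_zero rfl (fun _ _ _ => le_rfl) t ht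
    rw [ha.zero, zero_add] at h1
    have e : t • e1W = Function.update (0 : Fin 18 → ℝ) 1 t := by
      funext i
      simp only [Pi.smul_apply, smul_eq_mul, e1W]
      by_cases hi : i = 1
      · subst hi; rw [Pi.single_eq_same, Function.update_self, mul_one]
      · rw [Pi.single_eq_of_ne hi, Function.update_of_ne hi, mul_zero]; rfl
    rw [e] at h1
    linarith
  · have e : v • TW s = Tn (TW s) (btW θ) (v, 0) := by
      funext i; simp only [Tn, Pi.smul_apply, smul_eq_mul]; ring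
    have m1 : v • TW s ∈ CL Dr := K2S774.cn_smul (TW_mem h.s0 hDr) hv
    have m2 : v • TW s + c ∈ CL Dr := K2S774.cn_add m1 hc
    rw [hout.sum _ m2, hout.sum _ m1, hout.sum _ hc, ← sum_add_distrib]
    refine sum_congr rfl fun k _ => ?_
    by_cases hk : k = 0
    · subst hk
      have a1 : φ 0 (v • TW s) = 0 := hout.zero 0 _ fun i hi => by
        rw [Pi.smul_apply, gC_zero.1 hi, smul_zero]
      have a2 : φ 0 (v • TW s + c) = φ 0 c := hout.loc 0 _ _ fun i hi => by
        rw [Pi.add_apply, Pi.smul_apply, gC_zero.1 hi, smul_zero, zero_add]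
      rw [a1, a2, zero_add]
    · rw [e]
      refine hout.add k (fun i hi => ?_) (v, 0) c hc
      have hT : TW s i ≠ 0 := fun hT => hk (by rw [← hi]; exact gC_zero.2 hT)
      rw [dhC, if_neg hT]
      exact lt_of_le_of_ne (TW_nonneg s h.s0 i) hT.symm

/-- **`A` is full, `B` is full given `A`** at every point -/
theorem frames_ptC (h : PtC B Bo I J co C κ u f K θ q V T s lam lo A φ r) :
    XF lam {0} 2 ∧ XF lam {0, 2} 3 := by
  have hp := P0830.ptB_of h
  have hG := P0830.basG_of h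
  have e0 : ∀ x : ℝ, ind ({0} : Finset (Fin 18)) x = v4 x 0 0 0 := fun x => by
    funext k
    by_cases h0 : k = 0
    · subst h0; rw [ind_mem (by decide), v4, if_pos rfl]
    · rw [ind_notMem (by simpa using h0), v4, if_neg h0]; split_ifs <;> rfl
  have e2 : ∀ x : ℝ, ind (insert 2 ({0} : Finset (Fin 18))) x = v4 x 0 x 0 := fun x => by
    funext k
    by_cases h0 : k = 0
    · subst h0; rw [ind_mem (by decide), v4, if_pos rfl]
    by_cases h2 : k = 2
    · subst h2; rw [ind_mem (by decide), v4, if_neg (by decide), if_neg (by decide), if_pos rfl]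
    · rw [ind_notMem (by simp [h0, h2]), v4, if_neg h0]; simp [h2]
  have e2' : ∀ x : ℝ, ind ({0, 2} : Finset (Fin 18)) x = v4 x 0 x 0 := fun x => by
    rw [← e2 x, show ({0, 2} : Finset (Fin 18)) = insert 2 {0} from by decide]
  have e3 : ∀ x : ℝ, ind (insert 3 ({0, 2} : Finset (Fin 18))) x = v4 x 0 x x := fun x => by
    funext k
    by_cases h0 : k = 0
    · subst h0; rw [ind_mem (by decide), v4, if_pos rfl]
    by_cases h2 : k = 2
    · subst h2; rw [ind_mem (by decide), v4, if_neg (by decide), if_neg (by decide), if_pos rfl]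
    by_cases h3 : k = 3
    · subst h3
      rw [ind_mem (by decide), v4, if_neg (by decide), if_neg (by decide), if_neg (by decide),
        if_pos rfl]
    · rw [ind_notMem (by simp [h0, h2, h3]), v4, if_neg h0]; simp [h2, h3]
  have hz := h.aew.zero
  refine ⟨fun x hx => ?_, fun x hx => ?_⟩
  · rcases hx.eq_or_lt with h0 | h0
    · rw [← h0, ind_zero, ind_zero, hz]; simp
    · rw [e0, e2]; exact hp.fullA hG h0
  · rcases hx.eq_or_lt with h0 | h0
    · rw [← h0, ind_zero, ind_zero, hz]; simp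
    · rw [e2', e3]; exact Rt478.full_B hp hG h0

end pt

end Crest.Agent.R136.Rnm648
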