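import Crest.Agent.R136.Rgl1_501
import Crest.Agent.R136.RowX_619

/-!
# R136: window instance of [RIG-0] in the W-chart, part 1 (helper478)

Walls `(2,2)` (`q = 10` = flag slot `w_B` (18-slot 14), `V = 3` = `B`) and `(2,1)` (`q = 11` = flag
slot `w_A` (18-slot 15), `V = 2` = `A`): the own rotation of the flag slot `q` is seen by the fibre
`(P, V)` through `N' = N + u P - e(u) V`.

* `lt q V x m t` : exponent vectors (`P, V : t`, `N : m`, level slots `0`, all others `x`);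
* `ThinW` : the hypotheses on a window;
* `ev_fct`, `mv_fin`, `inT_fin` : the facts used at one `n`.
-/

set_option autoImplicit false
set_option linter.unusedVariables false
set_option linter.unusedSectionVars false

open Filter Topology

namespace Crest.Agent.R136.Rt478

open Finset Crest.Agent.R136.NetW191 Crest.Agent.R136.Net191 Crest.Agent.R136.Qg926
open Crest.Agent.R136.EvW938 Crest.Agent.R136.RowW619
open Crest.Agent.R136.Gf356
open Crest.Agent.R138.Ex926 (Base U)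

/-- exponent vectors: `P, V : t`, `N : m`, level slots `0`, all others `x` -/
def lt (q : Fin 14) (V : Fin 4) (x m t : ℝ) : Fin 18 → ℝ := fun j =>
  if j = 0 ∨ j = Fin.natAdd 4 q then 0 else if j = Fin.castAdd 14 V ∨ j = 16 then t
    else if j = 17 then m else x

/-- the slots at `x` -/
def Oth (q : Fin 14) (V : Fin 4) (j : Fin 18) : Prop :=
  j ≠ 0 ∧ j ≠ Fin.natAdd 4 q ∧ j ≠ Fin.castAdd 14 V ∧ j ≠ 16 ∧ j ≠ 17

theorem lt_oth {q : Fin 14} {V : Fin 4} {x m t : ℝ} {j : Fin 18} (h : Oth q V j) :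
    lt q V x m t j = x := by
  unfold lt
  rw [if_neg (by rintro (h' | h'); exacts [h.1 h', h.2.1 h']),
    if_neg (by rintro (h' | h'); exacts [h.2.2.1 h', h.2.2.2.1 h']), if_neg h.2.2.2.2]

theorem lt_cases {q : Fin 14} {V : Fin 4} {x m t : ℝ} {P : Fin 18 → ℝ → Prop} (h0 : ∀ j, P j 0)
    (hx : ∀ j, Oth q V j → P j x) (ht : ∀ j, j = Fin.castAdd 14 V ∨ j = 16 → P j t)
    (hm : P 17 m) (j : Fin 18) : P j (lt q V x m t j) := by
  unfold lt
  split_ifs with h1 h2 h3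
  · exact h0 j
  · exact ht j h2
  · rw [h3]; exact hm
  · push Not at h1 h2
    exact hx j ⟨h1.1, h1.2, h2.1, h2.2, h3⟩

theorem lt_17 {q : Fin 14} {V : Fin 4} (hq : q ≠ 13) {x m t : ℝ} : lt q V x m t 17 = m := by
  unfold lt
  rw [if_neg, if_neg, if_pos rfl]
  · rintro (h' | h')
    · have := congrArg Fin.val h'
      simp at this
      have := V.isLt; omega
    · exact absurd h' (by decide)
  · rintro (h' | h')
    · exact absurd h' (by decide)
    · have := congrArg Fin.val h'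
      simp [Fin.natAdd] at this
      exact hq (Fin.ext (by simp; omega))

variable {ι : ℕ → Type*} [∀ n, DecidableEq (ι n)]

/-- **hypotheses on a window** at a wall `(2,1)`, `(2,2)`, reach `x` -/
structure ThinW (W : Wnd 18 ι) (q : Fin 14) (V : Fin 4) (x σ s a : ℝ) : Prop where
  x_pos : 0 < x
  hqV : (q = 10 ∧ V = 3) ∨ (q = 11 ∧ V = 2)
  hS : W.S = {0, Fin.natAdd 4 q}
  top : ∀ j, x ≤ W.top j
  slack : ∀ᶠ n in (U : Filter ℕ), ∀ l ∈ mlW (Fin.natAdd 4 q),
    W.X n (Fin.natAdd 4 q) + x * W.w n ≤ (l.map (W.X n)).sum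
  tightP : ∀ᶠ n in (U : Filter ℕ), W.X n 17 = W.X n 0 + W.X n 16
  tightV : ∀ᶠ n in (U : Filter ℕ), W.X n 17 = W.X n (Fin.castAdd 14 V) + W.X n (Fin.natAdd 4 q)
  leg0 : lt q V x 0 0 ∈ W.legW
  leg : ∀ t : ℝ, 0 ≤ t → t ≤ x → lt q V x x t ∈ W.legW
  dens : W.lam W.top ≤ W.lam (cut W.S W.top 0) + W.lam (cut W.S 0 W.top)
  frost : ∀ y : ℝ, 0 ≤ y → y ≤ x → W.lam (Pi.single 0 y) ≤ -(σ * y)
  full : ∀ t : ℝ, 0 ≤ t → t ≤ x → s * t ≤ W.nu (lt q V x x 0) - W.nu (lt q V x x t)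
  loss : W.nu (lt q V x 0 0) - W.nu (lt q V x x 0) ≤ a * x

section

variable {W : Wnd 18 ι} {κ : ℕ → ℝ} {lam : ℕ → Fin 18 → ℝ} {f : ∀ n, ι n → FW} {q : Fin 14}
  {V : Fin 4} {x σ s a : ℝ} {E : ∀ n, Finset (ι n)}

/-- a line of the configuration -/
noncomputable def ln0 (W : Wnd 18 ι) (E : ∀ n, Finset (ι n)) (n : ℕ) : ℕ :=
  (Wnd.cfg_nonempty (W := W) E n).choose.1

theorem ln0_spec (n : ℕ) : ∃ k, (ln0 W E n, k) ∈ (W.cfg E n).I :=
  ⟨(Wnd.cfg_nonempty (W := W) E n).choose.2, (Wnd.cfg_nonempty (W := W) E n).choose_spec⟩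

/-- level coordinate of a height -/
noncomputable def fg (W : Wnd 18 ι) (n k : ℕ) (s : Fin 18) : ℝ :=
  W.crd n (W.s₀ n) (W.zrep n k) s

/-- relative velocity, normalised -/
noncomputable def DPt (W : Wnd 18 ι) (lam : ℕ → Fin 18 → ℝ) (E : ∀ n, Finset (ι n))
    (n k₀ i i' : ℕ) : ℝ :=
  cfl W lam n [0, 16] 17 * (W.cfg E n).rel k₀ i i' 16

/-- relative lateral position, normalised -/
noncomputable def DXt (W : Wnd 18 ι) (lam : ℕ → Fin 18 → ℝ) (q : Fin 14) (V : Fin 4)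
    (E : ∀ n, Finset (ι n)) (n k₀ i i' : ℕ) : ℝ :=
  cfl W lam n [Fin.castAdd 14 V, Fin.natAdd 4 q] 17 * (W.cfg E n).rel k₀ i i' (Fin.castAdd 14 V)

/-- slack walls: small coefficients -/
theorem cfl_small (h : WWnd W κ lam f) {n : ℕ} {l : List (Fin 18)} {s : Fin 18} (hl : l ∈ mlW s)
    {x : ℝ} (ht : W.X n s + x * W.w n ≤ (l.map (W.X n)).sum) :
    cfl W lam n l s ≤ (l.map W.kap).prod / W.kap s * W.B'.d n ^ x := by
  have e1 : (l.map (un W lam n)).prod = (l.map W.kap).prod *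
      (W.B.d n ^ (l.map (W.X n)).sum / (l.map (lam n)).prod) := by
    clear hl ht
    induction l with
    | nil => simp
    | cons a l ih =>
      simp only [List.map_cons, List.prod_cons, List.sum_cons, ih]
      unfold un sd
      rw [Real.rpow_add (W.B.pos n)]
      field_simp
  have hk : 0 < (l.map W.kap).prod := kprod_pos h l
  have h1 := h.ok.kap s
  have h2 := (h.hl n).pos s
  have h3 := Real.rpow_pos_of_pos (W.B.pos n) (W.X n s)
  have hd : W.B.d n ^ (l.map (W.X n)).sum ≤ W.B.d n ^ W.X n s * W.B'.d n ^ x := by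
    rw [h.ok.cls.base n, ← Real.rpow_mul (W.B.pos n).le, ← Real.rpow_add (W.B.pos n)]
    refine Real.rpow_le_rpow_of_exponent_ge (W.B.pos n) (W.B.lt n).le ?_
    linarith
  unfold cfl
  rw [e1, (h.hl n).mul s l hl]
  unfold un sd
  have e2 : (l.map W.kap).prod * (W.B.d n ^ (l.map (W.X n)).sum / lam n s) /
      (W.kap s * (W.B.d n ^ W.X n s / lam n s)) =
      (l.map W.kap).prod / W.kap s * (W.B.d n ^ (l.map (W.X n)).sum / W.B.d n ^ W.X n s) := by
    field_simp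
  rw [e2]
  refine mul_le_mul_of_nonneg_left ?_ (by positivity)
  rw [div_le_iff₀ h3]
  linarith

/-- the facts used at one `n` -/
structure Fct (W : Wnd 18 ι) (lam : ℕ → Fin 18 → ℝ) (q : Fin 14) (V : Fin 4)
    (E : ∀ n, Finset (ι n)) (x : ℝ) (n : ℕ) : Prop where
  good : W.Good n
  sub : E n ⊆ W.Cl n
  cfg : W.cfg E n = W.cfg0 n (E n)
  small : ∀ t ∈ tms q, cfl W lam n t.idx (Fin.natAdd 4 q) ≤ CfW W * W.B'.d n ^ x
  cP : cfl W lam n [0, 16] 17 = W.kap 0 * W.kap 16 / W.kap 17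
  cV : cfl W lam n [Fin.castAdd 14 V, Fin.natAdd 4 q] 17 =
    W.kap (Fin.castAdd 14 V) * W.kap (Fin.natAdd 4 q) / W.kap 17

theorem mem_mlV {q : Fin 14} {V : Fin 4} (h : (q = 10 ∧ V = 3) ∨ (q = 11 ∧ V = 2)) :
    [Fin.castAdd 14 V, Fin.natAdd 4 q] ∈ mlW 17 := by
  rcases h with ⟨rfl, rfl⟩ | ⟨rfl, rfl⟩ <;> decide

theorem mem_mlP : [(0 : Fin 18), 16] ∈ mlW 17 := by decide

theorem ev_fct (h : WWnd W κ lam f) (L : ThinW W q V x σ s a)
    (hc : ∀ᶠ n in (U : Filter ℕ), W.Good n ∧ E n ⊆ W.Cl n ∧ W.cfg E n = W.cfg0 n (E n)) :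
    ∀ᶠ n in (U : Filter ℕ), Fct W lam q V E x n := by
  filter_upwards [hc, L.slack, L.tightP, L.tightV] with n h4 h5 h6 h7
  refine
    { good := h4.1, sub := h4.2.1, cfg := h4.2.2
      small := fun t ht => ?_
      cP := ?_
      cV := ?_ }
  · have hm : t.idx ∈ mlW (Fin.natAdd 4 q) := by
      rw [mlW_right]; exact List.mem_map_of_mem ht
    refine (cfl_small h hm (h5 _ hm)).trans ?_
    exact mul_le_mul_of_nonneg_right ((CfW_le h).2.1 q t ht)
      (Real.rpow_nonneg (W.B'.pos n).le _)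
  · rw [h.cfl_eq mem_mlP (by simp [h6])]
    simp
  · rw [h.cfl_eq (mem_mlV L.hqV) (by simp [h7])]
    simp

/-- error of the composition in the slot `q` -/
noncomputable def dT (W : Wnd 18 ι) : ℝ := 67 * (CfW W * MW W ^ 7)

/-- **the slot `q` is additive** up to `dT ρ^x` -/
theorem comp_q (h : WWnd W κ lam f) {n : ℕ} (F : Fct W lam q V E x n) {y₁ y₂ y₃ : ι n}
    (h1 : y₁ ∈ W.Cl n) (h2 : y₂ ∈ W.Cl n) (h3 : y₃ ∈ W.Cl n) :
    |W.crd n y₁ y₃ (Fin.natAdd 4 q) - (W.crd n y₁ y₂ (Fin.natAdd 4 q) +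
      W.crd n y₂ y₃ (Fin.natAdd 4 q))| ≤ dT W * W.B'.d n ^ x := by
  have e := comp_flag h F.good h1 h2 h3 q
  have hM := (MW_le h).1
  have hC := (CfW_le h).1
  have hρ : 0 ≤ W.B'.d n ^ x := Real.rpow_nonneg (W.B'.pos n).le _
  have hmix : ∀ s, |mix (W.crd n y₁ y₂) (W.crd n y₂ y₃) s| ≤ MW W := by
    intro s
    refine Fin.addCases (m := 4) (n := 14) (fun i => ?_) (fun q' => ?_) s
    · rw [mix_left]; exact crd_MW h F.good h2 h3 _
    · rw [mix_right]; exact crd_MW h F.good h1 h2 _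
  have hD : 0 ≤ CfW W * W.B'.d n ^ x * MW W ^ 7 := by positivity
  have key := abs_sum_le (tmN W κ lam n q (W.crd n y₁ y₂) (W.crd n y₂ y₃)) (fun t => t.n) _ hD
    (tms q) (fun _ => true) (fun t ht _ => by
      refine tmN_le h.hκ (h.cfl_pos n _ _).le (F.small t ht) ?_
      refine (prod_le_pow hM hmix t.idx).trans ?_
      exact pow_le_pow_right₀ hM (idx_len q t ht))
  rw [List.filter_true] at key
  have g2 : ((((tms q).map fun t => t.n.natAbs).sum : ℕ) : ℝ) ≤ 67 := by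
    exact_mod_cast tms_sum q
  have e2 : W.crd n y₁ y₃ (Fin.natAdd 4 q) - (W.crd n y₁ y₂ (Fin.natAdd 4 q) +
      W.crd n y₂ y₃ (Fin.natAdd 4 q)) =
      ((tms q).map (tmN W κ lam n q (W.crd n y₁ y₂) (W.crd n y₂ y₃))).sum := by
    rw [e]; ring
  rw [e2]
  refine key.trans ((mul_le_mul_of_nonneg_right g2 hD).trans (le_of_eq ?_))
  unfold dT
  ring

theorem q_mem (L : ThinW W q V x σ s a) : Fin.natAdd 4 q ∈ W.S := by rw [L.hS]; simp

theorem mem_S_iff (L : ThinW W q V x σ s a) {j : Fin 18} :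
    j ∈ W.S ↔ j = 0 ∨ j = Fin.natAdd 4 q := by rw [L.hS]; simp

/-- error of the own motion in the slots `0`, `q` -/
noncomputable def oT (W : Wnd 18 ι) : ℝ := 3 * dT W + 2 * MW W

theorem dT_nonneg (h : WWnd W κ lam f) : 0 ≤ dT W := by
  have hM := (MW_le h).1
  have hC := (CfW_le h).1
  unfold dT; positivity

/-- **own motion of a line = difference of the flags of the heights** -/
theorem own_q (h : WWnd W κ lam f) (L : ThinW W q V x σ s a) {n : ℕ} (F : Fct W lam q V E x n)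
    {k₀ k i : ℕ} (h1 : (i, k₀) ∈ (W.cfg0 n (E n)).I) (h2 : (i, k) ∈ (W.cfg0 n (E n)).I) :
    |ownC W n i k₀ k (Fin.natAdd 4 q) - (fg W n k (Fin.natAdd 4 q) -
      fg W n k₀ (Fin.natAdd 4 q))| ≤ oT W * W.B'.d n ^ x := by
  have g := F.good
  obtain ⟨a1, a2, a3⟩ := Wnd.rep_of_mem F.sub h1
  obtain ⟨b1, b2, b3⟩ := Wnd.rep_of_mem F.sub h2
  obtain ⟨y, hy, hy1, hy2⟩ := Wnd.mem_I.1 h1
  obtain ⟨y', hy', hy1', hy2'⟩ := Wnd.mem_I.1 h2
  have r1 := W.zrep_spec (F.sub hy)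
  have r2 := W.zrep_spec (F.sub hy')
  rw [hy2] at r1
  rw [hy2'] at r2
  have f1 := comp_q h F g.s0 r1.1 r2.1
  have f2 := comp_q h F r1.1 a1 r2.1
  have f3 := comp_q h F a1 b1 r2.1
  have l1 := lev_MW h g r1.1 a1 (r1.2.trans a3.symm) (q_mem L) (L.top _)
  have l2 := lev_MW h g b1 r2.1 (b3.trans r2.2.symm) (q_mem L) (L.top _)
  unfold fg ownC oT
  rw [abs_le] at f1 f2 f3 l1 l2 ⊢
  constructor
  · nlinarith [f1.1, f1.2, f2.1, f2.2, f3.1, f3.2, l1.1, l1.2, l2.1, l2.2]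
  · nlinarith [f1.1, f1.2, f2.1, f2.2, f3.1, f3.2, l1.1, l1.2, l2.1, l2.2]

theorem z_fg (h : WWnd W κ lam f) {n : ℕ} (k : ℕ) : (W.cfg0 n (E n)).z k = fg W n k 0 := by
  show W.crd n (W.s₀ n) (W.zrep n k) W.kz = _
  rw [h.kz]; rfl

/-- the height slot of the own motion -/
theorem own_z (h : WWnd W κ lam f) (L : ThinW W q V x σ s a) {n : ℕ} (F : Fct W lam q V E x n)
    {k₀ k i : ℕ} (h1 : (i, k₀) ∈ (W.cfg0 n (E n)).I) (h2 : (i, k) ∈ (W.cfg0 n (E n)).I) :
    |ownC W n i k₀ k 0 - (fg W n k 0 - fg W n k₀ 0)| ≤ oT W * W.B'.d n ^ x := by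
  have e := h.own_zero F.good F.sub h1 h2 (L.top 0)
  rw [z_fg h, z_fg h] at e
  refine e.trans ?_
  have h3 := (MW_le h).2 0
  have h4 := dT_nonneg h
  have h5 : 0 ≤ W.B'.d n ^ x := Real.rpow_nonneg (W.B'.pos n).le _
  have e2 : 2 * W.K0 * W.B'.d n ^ x / W.kap 0 = 2 * (W.K0 / W.kap 0) * W.B'.d n ^ x := by ring
  rw [e2]
  refine mul_le_mul_of_nonneg_right ?_ h5
  unfold oT
  linarith

/-- the constant of `mv_fin` and `inT_fin` -/
noncomputable def CT (W : Wnd 18 ι) : ℝ :=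
  2 * (oT W * (CfW W * MW W)) + CX W + 1 + CX W * ME W + CfW W * (ME W * MW W) + ME W

theorem CT_spec (h : WWnd W κ lam f) : 1 ≤ CT W ∧ 0 ≤ oT W := by
  have hM := (MW_le h).1
  have hC := (CfW_le h).1
  have hX := (CX_pos h).1
  have hE := (MW_ME h).1
  have h4 := dT_nonneg h
  have h5 : 0 ≤ oT W := by unfold oT; linarith
  refine ⟨?_, h5⟩
  have t1 : 0 ≤ 2 * (oT W * (CfW W * MW W)) := by positivity
  have t2 : 0 ≤ CX W * ME W := by positivity
  have t3 : 0 ≤ CfW W * (ME W * MW W) := by positivity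
  unfold CT
  linarith

/-- first set of narrow slots -/
def N1 : Finset (Fin 18) := (univ.erase 0).erase 16

/-- second set of narrow slots -/
def N2 (q : Fin 14) (V : Fin 4) : Finset (Fin 18) :=
  (univ.erase (Fin.castAdd 14 V)).erase (Fin.natAdd 4 q)

theorem live1 : ∀ q' : Fin 14, q' ≠ 13 → live N1 q' = [] := by decide

theorem live1' : live N1 13 = [⟨1, 0, [0], 12⟩] := by decide

theorem live2 {q : Fin 14} {V : Fin 4} (h : (q = 10 ∧ V = 3) ∨ (q = 11 ∧ V = 2)) :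
    ∀ q' : Fin 14, q' ≠ 13 → live (N2 q V) q' = [] := by
  rcases h with ⟨rfl, rfl⟩ | ⟨rfl, rfl⟩ <;> decide

theorem live2' {q : Fin 14} {V : Fin 4} (h : (q = 10 ∧ V = 3) ∨ (q = 11 ∧ V = 2)) :
    live (N2 q V) 13 = [⟨1, 0, [V], q⟩] := by
  rcases h with ⟨rfl, rfl⟩ | ⟨rfl, rfl⟩ <;> decide

/-- evolved lateral slots, `c` narrow -/
theorem evF_near (h : WWnd W κ lam f) {n : ℕ} (g : W.Good n) {a b : Fin 18 → ℝ}
    (ha : |a 0| ≤ MW W) (hb : ∀ s, |b s| ≤ MW W) {e2 : ℝ} (h1 : |b 1| ≤ e2) (i : Fin 4)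
    (hi : i ≠ 0) : |evF W κ lam n a b (Fin.castAdd 14 i) - b (Fin.castAdd 14 i)| ≤
      CfW W * (MW W * (MW W * e2)) := by
  have hM := (MW_le h).1
  have hC := (CfW_le h).1
  have hk := h.hκ n
  have he2 : 0 ≤ e2 := (abs_nonneg _).trans h1
  have hM0 : 0 ≤ MW W := by linarith
  have hC0 : 0 ≤ CfW W := by linarith
  fin_cases i
  · exact absurd rfl hi
  · show |evF W κ lam n a b 1 - b 1| ≤ _
    have e1 : evF W κ lam n a b 1 = b 1 := by
      unfold evF
      rw [if_neg (by decide), h.evoC1]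
    rw [e1, sub_self, abs_zero]
    positivity
  · show |evF W κ lam n a b 2 - b 2| ≤ _
    have e1 : evF W κ lam n a b 2 - b 2 = cfl W lam n [1, 0] 2 * (a 0 * b 1) := by
      unfold evF
      rw [if_neg (by decide), h.evoC2]; ring
    rw [e1, abs_mul, abs_mul, abs_of_pos (h.cfl_pos n _ _)]
    refine mul_le_mul (cfl2_CfW h g) ?_ (by positivity) hC0
    refine (mul_le_mul ha h1 (abs_nonneg _) hM0).trans ?_
    exact mul_le_mul_of_nonneg_left (le_mul_of_one_le_left he2 hM) hM0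
  · show |evF W κ lam n a b 3 - b 3| ≤ _
    have e1 : evF W κ lam n a b 3 - b 3 =
        -(κ n * cfl W lam n [1, 1, 0] 3 * (a 0 * (b 1 * b 1))) := by
      unfold evF
      rw [if_neg (by decide), h.evoC3]; ring
    rw [e1, abs_neg, abs_mul, abs_mul, abs_mul, abs_mul, abs_of_pos (h.cfl_pos n _ _)]
    have k1 : |κ n| * cfl W lam n [1, 1, 0] 3 ≤ 1 * CfW W :=
      mul_le_mul hk (cfl3'_CfW h g) (h.cfl_pos n _ _).le zero_le_one
    rw [one_mul] at k1
    refine mul_le_mul k1 ?_ (by positivity) hC0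
    exact mul_le_mul ha (mul_le_mul (hb 1) h1 (abs_nonneg _) hM0) (by positivity) hM0

theorem V_ne (L : ThinW W q V x σ s a) : V ≠ 0 ∧ V ≠ 1 ∧ q ≠ 12 ∧ q ≠ 13 := by
  rcases L.hqV with ⟨rfl, rfl⟩ | ⟨rfl, rfl⟩ <;> decide

/-- the row of the flag slot `q'` -/
theorem row_fin (h : WWnd W κ lam f) (L : ThinW W q V x σ s a) {n : ℕ} (F : Fct W lam q V E x n)
    {k₀ k i l : ℕ} (h1 : (i, k₀) ∈ (W.cfg0 n (E n)).I) (h2 : (i, k) ∈ (W.cfg0 n (E n)).I)
    (h3 : (l, k₀) ∈ (W.cfg0 n (E n)).I) (h4 : (l, k) ∈ (W.cfg0 n (E n)).I) {e2 : ℝ}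
    (g2 : ∀ j, Oth q V j ∨ j = 17 → |(W.cfg0 n (E n)).rel k₀ i l j| ≤ e2) {q' : Fin 14}
    (hq' : q' ≠ q) :
    |(W.cfg0 n (E n)).rel k i l (Fin.natAdd 4 q') -
      ((W.cfg0 n (E n)).rel k₀ i l (Fin.natAdd 4 q') + ((live N1 q').map
        (tmN W κ lam n q' (offV W.S ((W.cfg0 n (E n)).rel k₀ i l))
          (shF (ownC W n i k₀ k)))).sum -
      ((live (N2 q V) q').map (tmN W κ lam n q' (onV W.S (ownC W n i k₀ k))
        (evF W κ lam n (ownC W n i k₀ k) ((W.cfg0 n (E n)).rel k₀ i l)))).sum)| ≤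
      CX W * (W.B'.d n ^ x + ME W * e2) := by
  obtain ⟨v0, v1, v2, v3⟩ := V_ne L
  have he1 : |(W.cfg0 n (E n)).rel k₀ i l 1| ≤ e2 := g2 1 (Or.inl ⟨by decide, fun h' => by
      have := congrArg Fin.val h'; simp [Fin.natAdd] at this; omega, fun h' => v1 (by
      have := congrArg Fin.val h'; simp at this; exact Fin.ext this.symm), by decide, by decide⟩)
  have he2 : 0 ≤ e2 := (abs_nonneg _).trans he1
  have hE := MW_ME h
  have hM := (MW_le h).1
  have hC := (CfW_le h).1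
  have hη : 0 ≤ ME W * e2 := mul_nonneg (by linarith [hE.1]) he2
  have he2' : e2 ≤ ME W * e2 := le_mul_of_one_le_left he2 hE.1
  refine evo_row h F.good F.sub h1 h2 h3 h4 L.top (q := q') ?_ hη (N1 := N1) (N2 := N2 q V)
    (by decide) ?_ ?_ ?_
  · rw [mem_S_iff L]
    rintro (h' | h')
    · have := congrArg Fin.val h'; simp [Fin.natAdd] at this
    · exact hq' (Fin.natAdd_injective _ _ h')
  · intro q'' hq'' hS''
    refine (g2 _ ?_).trans he2'
    rw [mem_S_iff L] at hS''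
    push Not at hS''
    by_cases h17 : (Fin.natAdd 4 q'' : Fin 18) = 17
    · exact Or.inr h17
    · refine Or.inl ⟨hS''.1, hS''.2, fun h' => ?_, fun h' => ?_, h17⟩
      · have := congrArg Fin.val h'; simp [Fin.natAdd] at this
        have := V.isLt; omega
      · rw [h'] at hq''
        revert hq''; decide
  · intro q'' hq'' hS''
    exfalso
    rw [mem_S_iff L] at hS''
    rcases hS'' with h' | h'
    · have := congrArg Fin.val h'; simp [Fin.natAdd] at this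
    · rw [h'] at hq''
      unfold N2 at hq''
      simp at hq''
  · intro i' hi' hiN
    have hb := rel_MW' h F.good F.sub h1 h3
    have ha := own_MW' h F.good F.sub h1 h2 0
    have k1 := evF_near h F.good ha hb he1 i' hi'
    have k2 : |(W.cfg0 n (E n)).rel k₀ i l (Fin.castAdd 14 i')| ≤ e2 := by
      refine g2 _ (Or.inl ⟨fun h' => hi' (Fin.ext ?_), fun h' => ?_, fun h' => ?_, fun h' => ?_,
        fun h' => ?_⟩)
      · have := congrArg Fin.val h'; simpa using this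
      · have := congrArg Fin.val h'; simp [Fin.natAdd] at this
        have := i'.isLt; omega
      · rw [h'] at hiN
        unfold N2 at hiN
        simp at hiN
      · have := congrArg Fin.val h'; simp at this
        have := i'.isLt; omega
      · have := congrArg Fin.val h'; simp at this
        have := i'.isLt; omega
    have k3 : CfW W * (MW W * (MW W * e2)) + e2 ≤ ME W * e2 := by
      have e : CfW W * (MW W * (MW W * e2)) + e2 = (CfW W * MW W ^ 2 + 1) * e2 := by ring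
      rw [e]
      refine mul_le_mul_of_nonneg_right ?_ he2
      unfold ME
      have p2 : MW W ^ 2 ≤ MW W ^ 3 := pow_le_pow_right₀ hM (by norm_num)
      have p3 : 1 ≤ MW W ^ 3 := one_le_pow₀ hM
      nlinarith
    have e : evF W κ lam n (ownC W n i k₀ k) ((W.cfg0 n (E n)).rel k₀ i l) (Fin.castAdd 14 i') =
        (evF W κ lam n (ownC W n i k₀ k) ((W.cfg0 n (E n)).rel k₀ i l) (Fin.castAdd 14 i') -
        (W.cfg0 n (E n)).rel k₀ i l (Fin.castAdd 14 i')) +
        (W.cfg0 n (E n)).rel k₀ i l (Fin.castAdd 14 i') := by ring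
    rw [e]
    exact (abs_add_le _ _).trans ((add_le_add k1 k2).trans k3)

/-- monomial `z P` of `N` -/
theorem tm_zP {n : ℕ} (b c : Fin 18 → ℝ) :
    tmN W κ lam n 13 b c ⟨1, 0, [0], 12⟩ = cfl W lam n [0, 16] 17 * (c 0 * b 16) := by
  unfold tmN
  simp only [List.map_cons, List.map_nil, List.prod_cons, List.prod_nil, mul_one, Int.cast_one,
    pow_zero, one_mul]
  rfl

/-- monomial `V w` of `N` -/
theorem tm_V {n : ℕ} (b c : Fin 18 → ℝ) :
    tmN W κ lam n 13 b c ⟨1, 0, [V], q⟩ = cfl W lam n [Fin.castAdd 14 V, Fin.natAdd 4 q] 17 *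
      (c (Fin.castAdd 14 V) * b (Fin.natAdd 4 q)) := by
  unfold tmN
  simp only [List.map_cons, List.map_nil, List.prod_cons, List.prod_nil, mul_one, Int.cast_one,
    pow_zero, one_mul]
  rfl

/-- **the moving functional, finite form** -/
theorem mv_fin (h : WWnd W κ lam f) (L : ThinW W q V x σ s a) {n : ℕ} (F : Fct W lam q V E x n)
    {k₀ k i l : ℕ} (h1 : (i, k₀) ∈ (W.cfg E n).I) (h2 : (i, k) ∈ (W.cfg E n).I)
    (h3 : (l, k₀) ∈ (W.cfg E n).I) (h4 : (l, k) ∈ (W.cfg E n).I) {e1 e2 : ℝ}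
    (g1 : |(W.cfg E n).rel k i l 17| ≤ e1)
    (g2 : ∀ j, Oth q V j ∨ j = 17 → |(W.cfg E n).rel k₀ i l j| ≤ e2) :
    |(fg W n k 0 - fg W n k₀ 0) * DPt W lam E n k₀ i l -
      (fg W n k (Fin.natAdd 4 q) - fg W n k₀ (Fin.natAdd 4 q)) * DXt W lam q V E n k₀ i l| ≤
      e1 + CT W * (W.B'.d n ^ x + e2) := by
  obtain ⟨v0, v1, v2, v3⟩ := V_ne L
  unfold DPt DXt
  rw [F.cfg] at h1 h2 h3 h4 g1 g2 ⊢
  have hrow := row_fin h L F h1 h2 h3 h4 g2 (q' := 13) (fun h' => v3 h'.symm)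
  rw [live1', live2' L.hqV] at hrow
  simp only [List.map_cons, List.map_nil, List.sum_cons, List.sum_nil, add_zero] at hrow
  rw [tm_zP, tm_V] at hrow
  have oq := own_q h L F h1 h2
  have oz := own_z h L F h1 h2
  have hbM := rel_MW' h F.good F.sub h1 h3
  have haM := own_MW' h F.good F.sub h1 h2
  set a := ownC W n i k₀ k with ha
  set b := (W.cfg0 n (E n)).rel k₀ i l with hb
  have e16 : offV W.S b 16 = b 16 := by
    unfold offV
    rw [if_neg]
    rw [mem_S_iff L]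
    rintro (h' | h')
    · exact absurd h' (by decide)
    · have := congrArg Fin.val h'; simp [Fin.natAdd] at this
      exact v2 (Fin.ext (by simp; omega))
  have eq' : onV W.S a (Fin.natAdd 4 q) = a (Fin.natAdd 4 q) := by
    unfold onV
    rw [if_pos (q_mem L)]
  have e0 : shF a 0 = a 0 := by simp [shF]
  rw [e16, eq', e0] at hrow
  have he1 : |b 1| ≤ e2 := g2 1 (Or.inl ⟨by decide, fun h' => by
      have := congrArg Fin.val h'; simp [Fin.natAdd] at this; omega, fun h' => v1 (by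
      have := congrArg Fin.val h'; simp at this; exact Fin.ext this.symm), by decide, by decide⟩)
  have he2 : 0 ≤ e2 := (abs_nonneg _).trans he1
  have b17 : |b 17| ≤ e2 := g2 17 (Or.inr rfl)
  have hV := evF_near h F.good (haM 0) hbM he1 V v0
  set EV := evF W κ lam n a b (Fin.castAdd 14 V) with hEV
  set bV := b (Fin.castAdd 14 V) with hbV
  set aq := a (Fin.natAdd 4 q) with haq
  have hE := MW_ME h
  have hM := (MW_le h).1
  have hC := (CfW_le h).1
  have hM0 : 0 ≤ MW W := by linarith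
  have hC0 : 0 ≤ CfW W := by linarith
  have hρ : 0 ≤ W.B'.d n ^ x := Real.rpow_nonneg (W.B'.pos n).le _
  have cP0 := h.cfl_pos n [0, 16] 17
  have cV0 := h.cfl_pos n [Fin.castAdd 14 V, Fin.natAdd 4 q] 17
  have cP1 : cfl W lam n [0, 16] 17 ≤ CfW W := cfl_CfW h F.good (q := 13)
    (t := ⟨1, 0, [0], 12⟩) (by decide)
  have cV1 : cfl W lam n [Fin.castAdd 14 V, Fin.natAdd 4 q] 17 ≤ CfW W := by
    have : (⟨1, 0, [V], q⟩ : Tm) ∈ tms 13 := by
      rcases L.hqV with ⟨rfl, rfl⟩ | ⟨rfl, rfl⟩ <;> decide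
    exact cfl_CfW h F.good (q := 13) this
  set cP := cfl W lam n [0, 16] 17 with hcP
  set cV := cfl W lam n [Fin.castAdd 14 V, Fin.natAdd 4 q] 17 with hcV
  have t1 : |(a 0 - (fg W n k 0 - fg W n k₀ 0)) * (cP * b 16)| ≤
      oT W * W.B'.d n ^ x * (CfW W * MW W) := by
    rw [abs_mul, abs_mul, abs_of_pos cP0]
    exact mul_le_mul oz (mul_le_mul cP1 (hbM 16) (abs_nonneg _) hC0) (by positivity)
      ((abs_nonneg _).trans oz)
  have t2 : |(aq - (fg W n k (Fin.natAdd 4 q) - fg W n k₀ (Fin.natAdd 4 q))) * (cV * bV)| ≤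
      oT W * W.B'.d n ^ x * (CfW W * MW W) := by
    rw [abs_mul, abs_mul, abs_of_pos cV0]
    exact mul_le_mul oq (mul_le_mul cV1 (hbM _) (abs_nonneg _) hC0) (by positivity)
      ((abs_nonneg _).trans oq)
  have t3 : |cV * ((EV - bV) * aq)| ≤ CfW W * (CfW W * (MW W * (MW W * e2)) * MW W) := by
    rw [abs_mul, abs_mul, abs_of_pos cV0]
    exact mul_le_mul cV1 (mul_le_mul hV (haM _) (abs_nonneg _) (by positivity))
      (by positivity) hC0
  have t4 : CfW W * (CfW W * (MW W * (MW W * e2)) * MW W) ≤ CfW W * (ME W * MW W) * e2 := by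
    have e : CfW W * (CfW W * (MW W * (MW W * e2)) * MW W) =
        CfW W * ((CfW W * MW W ^ 2) * MW W) * e2 := by ring
    rw [e]
    refine mul_le_mul_of_nonneg_right ?_ he2
    refine mul_le_mul_of_nonneg_left ?_ hC0
    refine mul_le_mul_of_nonneg_right ?_ hM0
    unfold ME
    have p2 : MW W ^ 2 ≤ MW W ^ 3 := pow_le_pow_right₀ hM (by norm_num)
    have p3 : 0 ≤ MW W ^ 3 := by positivity
    nlinarith
  have key : (fg W n k 0 - fg W n k₀ 0) * (cP * b 16) -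
      (fg W n k (Fin.natAdd 4 q) - fg W n k₀ (Fin.natAdd 4 q)) * (cV * bV) =
      -((W.cfg0 n (E n)).rel k i l (Fin.natAdd 4 (13 : Fin 14)) - (b (Fin.natAdd 4 (13 : Fin 14)) +
        cP * (a 0 * b 16) - cV * (EV * aq))) + (W.cfg0 n (E n)).rel k i l 17 - b 17 +
        cV * ((EV - bV) * aq) - (a 0 - (fg W n k 0 - fg W n k₀ 0)) * (cP * b 16) +
        (aq - (fg W n k (Fin.natAdd 4 q) - fg W n k₀ (Fin.natAdd 4 q))) * (cV * bV) := by
    have e17 : (Fin.natAdd 4 (13 : Fin 14) : Fin 18) = 17 := rfl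
    rw [e17]
    ring
  rw [key]
  have hX := (CX_pos h).1
  have hME0 : 0 ≤ ME W := by linarith [hE.1]
  have hoT := (CT_spec h).2
  have fin : oT W * W.B'.d n ^ x * (CfW W * MW W) + oT W * W.B'.d n ^ x * (CfW W * MW W) +
      CX W * (W.B'.d n ^ x + ME W * e2) + e2 + CfW W * (ME W * MW W) * e2 ≤
      CT W * (W.B'.d n ^ x + e2) := by
    have e : CT W * (W.B'.d n ^ x + e2) - (oT W * W.B'.d n ^ x * (CfW W * MW W) +
        oT W * W.B'.d n ^ x * (CfW W * MW W) + CX W * (W.B'.d n ^ x + ME W * e2) + e2 +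
        CfW W * (ME W * MW W) * e2) = (1 + CX W * ME W + CfW W * (ME W * MW W) + ME W) *
        W.B'.d n ^ x + (2 * (oT W * (CfW W * MW W)) + CX W + ME W) * e2 := by
      unfold CT; ring
    have : 0 ≤ (1 + CX W * ME W + CfW W * (ME W * MW W) + ME W) *
        W.B'.d n ^ x + (2 * (oT W * (CfW W * MW W)) + CX W + ME W) * e2 := by positivity
    linarith
  rw [abs_le] at hrow g1 b17 t1 t2 t3 ⊢
  constructor
  · linarith [hrow.1, hrow.2, g1.1, g1.2, b17.1, b17.2, t1.1, t1.2, t2.1, t2.2, t3.1, t3.2]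
  · linarith [hrow.1, hrow.2, g1.1, g1.2, b17.1, b17.2, t1.1, t1.2, t2.1, t2.2, t3.1, t3.2]

/-- **the other slots, finite form** -/
theorem inT_fin (h : WWnd W κ lam f) (L : ThinW W q V x σ s a) {n : ℕ} (F : Fct W lam q V E x n)
    {k₀ k i l : ℕ} (h1 : (i, k₀) ∈ (W.cfg E n).I) (h2 : (i, k) ∈ (W.cfg E n).I)
    (h3 : (l, k₀) ∈ (W.cfg E n).I) (h4 : (l, k) ∈ (W.cfg E n).I) {e2 : ℝ}
    (g2 : ∀ j, Oth q V j ∨ j = 17 → |(W.cfg E n).rel k₀ i l j| ≤ e2) {j : Fin 18}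
    (hj : Oth q V j) : |(W.cfg E n).rel k i l j| ≤ CT W * (W.B'.d n ^ x + e2) := by
  obtain ⟨v0, v1, v2, v3⟩ := V_ne L
  rw [F.cfg] at h1 h2 h3 h4 g2 ⊢
  have hbM := rel_MW' h F.good F.sub h1 h3
  have haM := own_MW' h F.good F.sub h1 h2
  have he1 : |(W.cfg0 n (E n)).rel k₀ i l 1| ≤ e2 := g2 1 (Or.inl ⟨by decide, fun h' => by
      have := congrArg Fin.val h'; simp [Fin.natAdd] at this; omega, fun h' => v1 (by
      have := congrArg Fin.val h'; simp at this; exact Fin.ext this.symm), by decide, by decide⟩)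
  have he2 : 0 ≤ e2 := (abs_nonneg _).trans he1
  have hbj := g2 j (Or.inl hj)
  have hE := MW_ME h
  have hM := (MW_le h).1
  have hC := (CfW_le h).1
  have hM0 : 0 ≤ MW W := by linarith
  have hC0 : 0 ≤ CfW W := by linarith
  have hME0 : 0 ≤ ME W := by linarith [hE.1]
  have hX := (CX_pos h).1
  have hoT := (CT_spec h).2
  have hρ : 0 ≤ W.B'.d n ^ x := Real.rpow_nonneg (W.B'.pos n).le _
  have hjS : j ∉ W.S := by
    rw [mem_S_iff L]
    rintro (h' | h')
    · exact hj.1 h'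
    · exact hj.2.1 h'
  have hfin : CX W * (W.B'.d n ^ x + ME W * e2) + e2 ≤ CT W * (W.B'.d n ^ x + e2) := by
    have e : CT W * (W.B'.d n ^ x + e2) - (CX W * (W.B'.d n ^ x + ME W * e2) + e2) =
        (2 * (oT W * (CfW W * MW W)) + 1 + CX W * ME W + CfW W * (ME W * MW W) + ME W) *
        W.B'.d n ^ x + (2 * (oT W * (CfW W * MW W)) + CX W + CfW W * (ME W * MW W) + ME W) *
        e2 := by
      unfold CT; ring
    have : 0 ≤ (2 * (oT W * (CfW W * MW W)) + 1 + CX W * ME W + CfW W * (ME W * MW W) + ME W) *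
        W.B'.d n ^ x + (2 * (oT W * (CfW W * MW W)) + CX W + CfW W * (ME W * MW W) + ME W) *
        e2 := by positivity
    linarith
  induction j using Fin.addCases (m := 4) (n := 14) with
  | left i' =>
    have hi0 : i' ≠ 0 := fun h' => hj.1 (by rw [h']; rfl)
    have hev := h.evo_cfg F.good F.sub h1 h2 h3 h4 L.top (Fin.castAdd 14 i') hjS
    have hnear := evF_near h F.good (haM 0) hbM he1 i' hi0
    have eF : evF W κ lam n (ownC W n i k₀ k) ((W.cfg0 n (E n)).rel k₀ i l) (Fin.castAdd 14 i') =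
        evoC W κ lam n (ownC W n i k₀ k) ((W.cfg0 n (E n)).rel k₀ i l) (Fin.castAdd 14 i') := by
      unfold evF
      rw [if_neg hj.1]
    rw [eF] at hnear
    have c1 : CW W.K0 * W.B'.d n ^ x / W.kap (Fin.castAdd 14 i') ≤ CX W * W.B'.d n ^ x := by
      have := CX_row h (η := 0) (τ := W.B'.d n ^ x) le_rfl hρ (s := Fin.castAdd 14 i')
      simpa using this
    have c2 : CfW W * (MW W * (MW W * e2)) ≤ ME W * e2 := by
      have e : CfW W * (MW W * (MW W * e2)) = (CfW W * MW W ^ 2) * e2 := by ring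
      rw [e]
      refine mul_le_mul_of_nonneg_right ?_ he2
      unfold ME
      have p2 : MW W ^ 2 ≤ MW W ^ 3 := pow_le_pow_right₀ hM (by norm_num)
      have p3 : 0 ≤ MW W ^ 3 := by positivity
      nlinarith
    have hfin2 : CX W * W.B'.d n ^ x + ME W * e2 + e2 ≤ CT W * (W.B'.d n ^ x + e2) := by
      have e : CT W * (W.B'.d n ^ x + e2) - (CX W * W.B'.d n ^ x + ME W * e2 + e2) =
          (2 * (oT W * (CfW W * MW W)) + 1 + CX W * ME W + CfW W * (ME W * MW W) + ME W) *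
          W.B'.d n ^ x + (2 * (oT W * (CfW W * MW W)) + CX W + CX W * ME W +
            CfW W * (ME W * MW W)) * e2 := by
        unfold CT; ring
      have : 0 ≤ (2 * (oT W * (CfW W * MW W)) + 1 + CX W * ME W + CfW W * (ME W * MW W) + ME W) *
          W.B'.d n ^ x + (2 * (oT W * (CfW W * MW W)) + CX W + CX W * ME W +
            CfW W * (ME W * MW W)) * e2 := by positivity
      linarith
    refine le_trans ?_ hfin2
    rw [abs_le] at hev hnear hbj ⊢
    constructor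
    · linarith [hev.1, hev.2, hnear.1, hnear.2, hbj.1, hbj.2]
    · linarith [hev.1, hev.2, hnear.1, hnear.2, hbj.1, hbj.2]
  | right q' =>
    have hq' : q' ≠ q := fun h' => hj.2.1 (by rw [h'])
    have h13 : q' ≠ 13 := fun h' => hj.2.2.2.2 (by rw [h']; rfl)
    have hrow := row_fin h L F h1 h2 h3 h4 g2 hq'
    rw [live1 q' h13, live2 L.hqV q' h13] at hrow
    simp only [List.map_nil, List.sum_nil, add_zero, sub_zero] at hrow
    refine le_trans ?_ hfin
    rw [abs_le] at hrow hbj ⊢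
    constructor
    · linarith [hrow.1, hrow.2, hbj.1, hbj.2]
    · linarith [hrow.1, hrow.2, hbj.1, hbj.2]

/-- membership in the set of heights -/
theorem mem_Z {n k i : ℕ} (hi : (i, k) ∈ (W.cfg E n).I) : k ∈ (W.cfg E n).Z :=
  (mem_product.1 (Wnd.cfg_sub (W := W) E n hi)).2

/-- bound of the level coordinates -/
theorem fg_le (h : WWnd W κ lam f) {n : ℕ} (F : Fct W lam q V E x n) {k : ℕ}
    (hk : k ∈ (W.cfg E n).Z) (s : Fin 18) : |fg W n k s| ≤ MW W := by
  rw [F.cfg] at hk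
  obtain ⟨y, hy, rfl⟩ := mem_image.1 hk
  exact crd_MW h F.good F.good.s0 (W.zrep_spec (F.sub hy)).1 s

/-- bound of the relative coordinates -/
theorem rel_le' (h : WWnd W κ lam f) {n : ℕ} (F : Fct W lam q V E x n) {k i l : ℕ}
    (h1 : (i, k) ∈ (W.cfg E n).I) (h2 : (l, k) ∈ (W.cfg E n).I) (s : Fin 18) :
    |(W.cfg E n).rel k i l s| ≤ MW W := by
  rw [F.cfg] at h1 h2 ⊢
  exact rel_MW' h F.good F.sub h1 h2 s

end

end Crest.Agent.R136.Rt478
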