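import Crest.Agent.R136.Rt1_478

/-!
# R136: window instance of [RIG-0] in the W-chart, part 2 (helper478)

`rdata_thin` : the data `RDataL` of `rig0_RL` (helper501).
-/

set_option autoImplicit false
set_option linter.unusedVariables false
set_option linter.unusedSectionVars false

open Filter Topology

namespace Crest.Agent.R136.Rt478

open Finset Crest.Agent.R136.NetW191 Crest.Agent.R136.Net191 Crest.Agent.R136.Qg926
open Crest.Agent.R136.EvW938 Crest.Agent.R136.RowW619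
open Crest.Agent.R136.Gf356 Crest.Agent.R136.Rg6_501
open Crest.Agent.R136.Rgl501 (frost_unif pair_box)
open Crest.Agent.R138.Ex926 (Base U)

variable {ι : ℕ → Type*} [∀ n, DecidableEq (ι n)]

section

variable {W : Wnd 18 ι} {κ : ℕ → ℝ} {lam : ℕ → Fin 18 → ℝ} {f : ∀ n, ι n → FW} {q : Fin 14}
  {V : Fin 4} {x σ s a : ℝ} {E : ∀ n, Finset (ι n)}

/-- heights, scaled -/
noncomputable def zl (W : Wnd 18 ι) (n k : ℕ) : ℝ := fg W n k 0 / MW W

/-- flags of the heights, scaled -/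
noncomputable def fl (W : Wnd 18 ι) (q : Fin 14) (n k : ℕ) : ℝ := fg W n k (Fin.natAdd 4 q) / MW W

/-- one constant which is `ρ^(-o(1))` -/
noncomputable def KT (W : Wnd 18 ι) : ℝ := 4 * CT W + 4 * (CfW W + 1) * (MW W + 1) + 4

theorem KT_spec (h : WWnd W κ lam f) : 1 ≤ KT W ∧ MW W ≤ KT W ∧ 4 * CT W ≤ KT W ∧
    CfW W * MW W ≤ KT W := by
  have hM := (MW_le h).1
  have hC := (CfW_le h).1
  have hT := (CT_spec h).1
  unfold KT
  refine ⟨?_, ?_, ?_, ?_⟩ <;> nlinarith

set_option maxHeartbeats 1600000 in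
/-- **the data of [RIG-0] in the window** -/
theorem rdata_thin (h : WWnd W κ lam f) (L : ThinW W q V x σ s a)
    (hc : ∀ᶠ n in (U : Filter ℕ), W.Good n ∧ E n ⊆ W.Cl n ∧ W.cfg E n = W.cfg0 n (E n))
    (H : RModel W.B' (W.cfg E) σ x W.legW W.nu W.Dc) :
    RDataL W.B' (W.cfg E) W.legW W.nu (ln0 W E) (fun n => (W.cfg E n).Z)
      (fun n => (W.cfg E n).hts (ln0 W E n)) (zl W) (fl W q) (DPt W lam E) (DXt W lam q V E)
      (lt q V x x 0) (lt q V x 0 0) (lt q V x x 0) (fun t => lt q V x x t) σ x s a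
      (W.Dc ^ 2 + 8) (W.Dc ^ 2 + 8) := by
  have hx := L.x_pos
  have hM := (MW_le h).1
  have hM0 : 0 < MW W := by linarith
  have hD := H.D1
  have hD0 : 0 < W.Dc := by linarith
  have hD2 : 0 < W.Dc ^ 2 := by positivity
  have hU := H.toRUnif
  obtain ⟨kt1, kt2, kt3, kt4⟩ := KT_spec h
  have hd : ∀ n (u : ℝ), 0 < W.B'.d n ^ u := fun n u => rpos W.B' n u
  have hdn : ∀ n {u v : ℝ}, u ≤ v → W.B'.d n ^ v ≤ W.B'.d n ^ u := fun n {u v} h' =>
    rpow_anti W.B' n h'
  have hfct := ev_fct h L hc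
  have legS : lt q V x x 0 ∈ W.legW := L.leg 0 le_rfl hx.le
  have hbase : ∀ n, (W.cfg E n).ρ = W.B'.d n := H.base
  -- close pairs of a fibre
  have hpair2 : ∀ ε : ℝ, 0 < ε → ∀ᶠ n in (U : Filter ℕ),
      ∀ k₀ ∈ (W.cfg E n).hts (ln0 W E n), ∀ i ∈ (W.cfg E n).box (lt q V x x 0) ε (ln0 W E n) k₀,
      ∀ i' ∈ (W.cfg E n).box (lt q V x x 0) ε (ln0 W E n) k₀, ∀ j, Oth q V j ∨ j = 17 →
      |(W.cfg E n).rel k₀ i i' j| ≤ W.B'.d n ^ (x - W.Dc * (W.Dc * ε)) := by
    intro ε hε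
    filter_upwards [pair_box hU legS hε] with n gp k₀ hk₀ i hi i' hi' j hj
    have hpair := gp _ _ (RCfg.mem_hts.1 hk₀).2 i hi i' hi' j
    rw [hbase] at hpair
    have e : lt q V x x 0 j = x := by
      rcases hj with hj | rfl
      · exact lt_oth hj
      · exact lt_17 (V_ne L).2.2.2
    rwa [e] at hpair
  refine
    { x_pos := hx, C1_nonneg := by positivity, C4_pos := by positivity
      bd := ?_, frost := ?_, pins := ?_, pinI := ?_, legS := legS, legT := L.leg0, legr := legS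
      Tr := ?_, legQ := L.leg, one := ?_, alive := ?_, mv := ?_, inT := ?_, inQ := ?_
      lossQ := L.full, lossF := L.loss }
  · -- bd
    filter_upwards [hfct] with n F
    refine ⟨?_, fun k hk => ?_⟩
    · obtain ⟨k, hk⟩ := ln0_spec (W := W) (E := E) n
      exact ⟨k, mem_Z hk⟩
    · unfold zl fl
      rw [abs_div, abs_div, abs_of_pos hM0, div_le_one hM0, div_le_one hM0]
      exact ⟨fg_le h F hk 0, fg_le h F hk _⟩
  · -- frost
    intro y hy0 hyx ε hε
    filter_upwards [hfct, frost_unif H (ε := ε / 2) (by positivity),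
      Gf356.ev_const_le W.B' (t := ε / 2) (by positivity) (MW W)] with n F g1 g2 k hk T hT hTk
    have hσ0 := H.σ_nonneg
    have hσ1 := H.σ_le
    rcases le_or_gt (y - ε / 2) 0 with hy | hy
    · calc (T.card : ℝ) ≤ 1 * ((W.cfg E n).Z.card : ℝ) := by
            rw [one_mul]; exact_mod_cast card_le_card hT
        _ ≤ _ := by
            refine mul_le_mul_of_nonneg_right ?_ (Nat.cast_nonneg _)
            rw [← Real.rpow_zero (W.B'.d n)]
            exact hdn n (by nlinarith)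
    · have h1 := g1 (y - ε / 2) hy.le (by linarith) k hk
      have hsub : T ⊆ (W.cfg E n).hbox (y - ε / 2) k := by
        intro k' hk'
        unfold RCfg.hbox
        rw [mem_filter]
        refine ⟨hT hk', ?_⟩
        have h2 := hTk k' hk'
        unfold zl at h2
        rw [← sub_div, abs_div, abs_of_pos hM0, div_le_iff₀ hM0] at h2
        rw [F.cfg, z_fg h, z_fg h, ← F.cfg, hbase]
        calc |fg W n k' 0 - fg W n k 0| ≤ W.B'.d n ^ y * MW W := h2
          _ ≤ W.B'.d n ^ y * W.B'.d n ^ (-(ε / 2)) := mul_le_mul_of_nonneg_left g2 (hd n y).le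
          _ = _ := by rw [← rpow_add']; congr 1
      refine (Nat.cast_le.2 (card_le_card hsub)).trans (h1.trans ?_)
      refine mul_le_mul_of_nonneg_right (hdn n ?_) (Nat.cast_nonneg _)
      nlinarith
  · -- pins
    intro ε hε
    filter_upwards [H.line ε hε] with n g1
    refine ⟨fun k hk => (RCfg.mem_hts.1 hk).1, ?_⟩
    obtain ⟨k, hk⟩ := ln0_spec (W := W) (E := E) n
    refine le_trans ?_ (g1 _ (hU.memL hk))
    refine mul_le_mul_of_nonneg_right (hdn n ?_) (Nat.cast_nonneg _)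
    nlinarith
  · -- pinI
    filter_upwards with n k hk
    exact (RCfg.mem_hts.1 hk).2
  · -- Tr
    intro j
    refine lt_cases (q := q) (V := V) (x := x) (m := 0) (t := 0)
      (P := fun j v => v ≤ lt q V x x 0 j) ?_ ?_ ?_ ?_ j
    · intro j
      exact lt_cases (q := q) (V := V) (x := x) (m := x) (t := 0) (P := fun _ v => 0 ≤ v)
        (fun _ => le_rfl) (fun _ _ => hx.le) (fun _ _ => le_rfl) hx.le j
    · intro j hj
      rw [lt_oth hj]
    · intro j hj
      exact lt_cases (q := q) (V := V) (x := x) (m := x) (t := 0) (P := fun _ v => 0 ≤ v)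
        (fun _ => le_rfl) (fun _ _ => hx.le) (fun _ _ => le_rfl) hx.le j
    · exact lt_cases (q := q) (V := V) (x := x) (m := x) (t := 0) (P := fun _ v => 0 ≤ v)
        (fun _ => le_rfl) (fun _ _ => hx.le) (fun _ _ => le_rfl) hx.le 17
  · -- one
    intro ε hε
    filter_upwards [hfct, Gf356.ev_const_le W.B' hε (KT W)] with n F g k₀ hk₀ i hi i' hi'
    have hi1 := hU.memSlice.1 (RCfg.box_subset_slice hi)
    have hi1' := hU.memSlice.1 (RCfg.box_subset_slice hi')
    have hC := (CfW_le h).1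
    have cP1 : cfl W lam n [0, 16] 17 ≤ CfW W := cfl_CfW h F.good (q := 13)
      (t := ⟨1, 0, [0], 12⟩) (by decide)
    have cV1 : cfl W lam n [Fin.castAdd 14 V, Fin.natAdd 4 q] 17 ≤ CfW W := by
      have : (⟨1, 0, [V], q⟩ : Tm) ∈ tms 13 := by
        rcases L.hqV with ⟨rfl, rfl⟩ | ⟨rfl, rfl⟩ <;> decide
      exact cfl_CfW h F.good (q := 13) this
    have key : ∀ u v : ℝ, 0 < u → u ≤ CfW W → |v| ≤ MW W →
        |u * v| ≤ W.B'.d n ^ (-((W.Dc ^ 2 + 8) * ε)) := by
      intro u v hu0 hu hv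
      rw [abs_mul, abs_of_pos hu0]
      calc u * |v| ≤ CfW W * MW W := mul_le_mul hu hv (abs_nonneg _) (by linarith)
        _ ≤ KT W := kt4
        _ ≤ W.B'.d n ^ (-ε) := g
        _ ≤ _ := hdn n (by nlinarith)
    exact ⟨key _ _ (h.cfl_pos n _ _) cP1 (rel_le' h F hi1 hi1' 16),
      key _ _ (h.cfl_pos n _ _) cV1 (rel_le' h F hi1 hi1' _)⟩
  · -- alive
    intro ε hε
    filter_upwards [H.line ε hε] with n g1 k₀ hk₀ i hi T hT hTa
    have hi1 := hU.memSlice.1 (RCfg.box_subset_slice hi)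
    have h1 : (W.cfg E n).hts i ⊆ T := fun k hk => by
      obtain ⟨a1, a2⟩ := RCfg.mem_hts.1 hk
      exact hTa k a1 a2
    refine le_trans ?_ ((g1 i (hU.memL hi1)).trans (Nat.cast_le.2 (card_le_card h1)))
    refine mul_le_mul_of_nonneg_right (hdn n ?_) (Nat.cast_nonneg _)
    nlinarith
  · -- mv
    intro ε hε
    filter_upwards [hfct, Gf356.ev_const_le W.B' hε (KT W), hpair2 ε hε]
      with n F g gp k₀ hk₀ k hk i hi i' hi' hik hik' hl
    have hi1 := hU.memSlice.1 (RCfg.box_subset_slice hi)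
    have hi1' := hU.memSlice.1 (RCfg.box_subset_slice hi')
    have g2 := gp k₀ hk₀ i hi i' hi'
    have gk := hl 17
    rw [hbase] at gk
    have e17 : lt q V x x 0 17 = x := lt_17 (V_ne L).2.2.2
    rw [e17] at gk
    have hmv := mv_fin h L F hi1 hik hi1' hik' gk g2
    have e1 : (zl W n k - zl W n k₀) * DPt W lam E n k₀ i i' -
        (fl W q n k - fl W q n k₀) * DXt W lam q V E n k₀ i i' =
        ((fg W n k 0 - fg W n k₀ 0) * DPt W lam E n k₀ i i' -
        (fg W n k (Fin.natAdd 4 q) - fg W n k₀ (Fin.natAdd 4 q)) *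
          DXt W lam q V E n k₀ i i') / MW W := by
      unfold zl fl; ring
    rw [e1, abs_div, abs_of_pos hM0]
    refine (div_le_self (abs_nonneg _) hM).trans (hmv.trans ?_)
    set ρ := W.B'.d n with hρ
    set r : ℝ := ρ ^ (x - (W.Dc ^ 2 + 1) * ε) with hr
    have s1 : ρ ^ (x - ε) ≤ r := hdn n (by nlinarith)
    have s2 : ρ ^ x ≤ r := hdn n (by nlinarith)
    have s3 : ρ ^ (x - W.Dc * (W.Dc * ε)) ≤ r := hdn n (by nlinarith)
    have hr0 : 0 < r := hd n _
    have hT := (CT_spec h).1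
    calc ρ ^ (x - ε) + CT W * (ρ ^ x + ρ ^ (x - W.Dc * (W.Dc * ε))) ≤ r + CT W * (r + r) := by
          gcongr
      _ ≤ 4 * CT W * r := by nlinarith
      _ ≤ KT W * r := mul_le_mul_of_nonneg_right kt3 hr0.le
      _ ≤ ρ ^ (-ε) * r := mul_le_mul_of_nonneg_right g hr0.le
      _ = ρ ^ (-ε + (x - (W.Dc ^ 2 + 1) * ε)) := (rpow_add' _ _ _ _).symm
      _ ≤ _ := hdn n (by nlinarith)
  · -- inT
    intro ε hε
    filter_upwards [hfct, Gf356.ev_const_le W.B' hε (KT W), hpair2 ε hε]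
      with n F g gp k₀ hk₀ k hk i hi i' hi' hik hik'
    have hi1 := hU.memSlice.1 (RCfg.box_subset_slice hi)
    have hi1' := hU.memSlice.1 (RCfg.box_subset_slice hi')
    have g2 := gp k₀ hk₀ i hi i' hi'
    set ρ := W.B'.d n with hρ
    have hT := (CT_spec h).1
    have hfin : CT W * (ρ ^ x + ρ ^ (x - W.Dc * (W.Dc * ε))) ≤ ρ ^ (x - (W.Dc ^ 2 + 8) * ε) := by
      set r : ℝ := ρ ^ (x - (W.Dc ^ 2 + 1) * ε) with hr
      have s2 : ρ ^ x ≤ r := hdn n (by nlinarith)
      have s3 : ρ ^ (x - W.Dc * (W.Dc * ε)) ≤ r := hdn n (by nlinarith)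
      have hr0 : 0 < r := hd n _
      calc CT W * (ρ ^ x + ρ ^ (x - W.Dc * (W.Dc * ε))) ≤ CT W * (r + r) := by gcongr
        _ ≤ 4 * CT W * r := by nlinarith
        _ ≤ KT W * r := mul_le_mul_of_nonneg_right kt3 hr0.le
        _ ≤ ρ ^ (-ε) * r := mul_le_mul_of_nonneg_right g hr0.le
        _ = ρ ^ (-ε + (x - (W.Dc ^ 2 + 1) * ε)) := (rpow_add' _ _ _ _).symm
        _ ≤ _ := hdn n (by nlinarith)
    have h0 : ∀ j, |(W.cfg E n).rel k i i' j| ≤ ρ ^ (0 - (W.Dc ^ 2 + 8) * ε) := fun j =>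
      (rel_le' h F hik hik' j).trans (kt2.trans (g.trans (hdn n (by nlinarith))))
    intro j
    rw [hbase]
    exact lt_cases (q := q) (V := V) (x := x) (m := 0) (t := 0)
      (P := fun j v => |(W.cfg E n).rel k i i' j| ≤ ρ ^ (v - (W.Dc ^ 2 + 8) * ε))
      h0 (fun j hj => (inT_fin h L F hi1 hik hi1' hik' g2 hj).trans hfin) (fun j _ => h0 j)
      (h0 17) j
  · -- inQ
    intro t ht0 htx ε hε
    have hk0 := h.ok.kap 0
    have hkq := h.ok.kap (Fin.natAdd 4 q)
    have hk16 := h.ok.kap 16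
    have hkV := h.ok.kap (Fin.castAdd 14 V)
    have hk17 := h.ok.kap 17
    set c7 : ℝ := W.kap 0 * W.kap 16 / W.kap 17 with hc7
    set c9 : ℝ := W.kap (Fin.castAdd 14 V) * W.kap (Fin.natAdd 4 q) / W.kap 17 with hc9
    have hc70 : 0 < c7 := by positivity
    have hc90 : 0 < c9 := by positivity
    filter_upwards [hfct, hpair2 ε hε, Gf356.ev_const_le W.B' hε (1 / c7),
      Gf356.ev_const_le W.B' hε (1 / c9), Gf356.ev_const_le W.B' hε (KT W)]
      with n F gp g7 g9 g k₀ hk₀ i hi i' hi' hP hX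
    have hi1 := hU.memSlice.1 (RCfg.box_subset_slice hi)
    have hi1' := hU.memSlice.1 (RCfg.box_subset_slice hi')
    have g2 := gp k₀ hk₀ i hi i' hi'
    set ρ := W.B'.d n with hρ
    have small : ∀ (c v : ℝ), 0 < c → 1 / c ≤ ρ ^ (-ε) → |c * v| ≤ ρ ^ (t - ε) →
        |v| ≤ ρ ^ (t - (W.Dc ^ 2 + 8) * ε) := by
      intro c v hc0 hcε hcv
      rw [abs_mul, abs_of_pos hc0] at hcv
      calc |v| = 1 / c * (c * |v|) := by field_simp
        _ ≤ ρ ^ (-ε) * ρ ^ (t - ε) := mul_le_mul hcε hcv (by positivity) (hd n _).le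
        _ = ρ ^ (-ε + (t - ε)) := (rpow_add' _ _ _ _).symm
        _ ≤ _ := hdn n (by nlinarith)
    unfold DPt at hP
    unfold DXt at hX
    rw [F.cP] at hP
    rw [F.cV] at hX
    have r7 := small c7 _ hc70 g7 hP
    have r9 := small c9 _ hc90 g9 hX
    have h0 : ∀ j, |(W.cfg E n).rel k₀ i i' j| ≤ ρ ^ (0 - (W.Dc ^ 2 + 8) * ε) := fun j =>
      (rel_le' h F hi1 hi1' j).trans (kt2.trans (g.trans (hdn n (by nlinarith))))
    have hgx : ρ ^ (x - W.Dc * (W.Dc * ε)) ≤ ρ ^ (x - (W.Dc ^ 2 + 8) * ε) :=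
      hdn n (by nlinarith)
    intro j
    rw [hbase]
    refine lt_cases (q := q) (V := V) (x := x) (m := x) (t := t)
      (P := fun j v => |(W.cfg E n).rel k₀ i i' j| ≤ ρ ^ (v - (W.Dc ^ 2 + 8) * ε))
      h0 ?_ ?_ ?_ j
    · intro j hj
      exact (g2 j (Or.inl hj)).trans hgx
    · intro j hj
      rcases hj with rfl | rfl
      · exact r9
      · exact r7
    · exact (g2 17 (Or.inr rfl)).trans hgx

end

end Crest.Agent.R136.Rt478
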