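import Crest.Agent.R136.Sa5_705
import Crest.Agent.R136.Sa6_214

/-!
# R136 (one-level crude tilt, Step A), helper214: numbers
-/

set_option autoImplicit false

namespace Crest.Agent.R136.Sa705

open Finset Crest.Agent.R136.Sh605 Crest.Agent.R136.Tl102 Crest.Agent.R136.Crd705

/-- value of a sheet -/
noncomputable def vS (q0 q1 q2 ρ a w2 w1 : ℝ) : ℝ :=
  a * w2 * w1 * ((a / ρ) ^ q0 * (w1 / ρ) ^ q1 * (w2 / ρ) ^ q2)

theorem vS_nonneg {q0 q1 q2 ρ a w2 w1 : ℝ} (hρ : 0 ≤ ρ) (ha : 0 ≤ a) (h2 : 0 ≤ w2) (h1 : 0 ≤ w1) :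
    0 ≤ vS q0 q1 q2 ρ a w2 w1 := by
  unfold vS; positivity

theorem vS_scale {q0 q1 q2 ρ a w2 w1 G : ℝ} (hρ : 0 < ρ) (h2 : 0 ≤ w2) (h1 : 0 ≤ w1)
    (hG : 0 < G) :
    vS q0 q1 q2 ρ a (G * w2) (G * w1) = G ^ (2 + (q1 + q2)) * vS q0 q1 q2 ρ a w2 w1 := by
  unfold vS
  have e1 : G * w1 / ρ = G * (w1 / ρ) := by ring
  have e2 : G * w2 / ρ = G * (w2 / ρ) := by ring
  rw [e1, e2, Real.mul_rpow hG.le (by positivity), Real.mul_rpow hG.le (by positivity),
    Real.rpow_add hG, Real.rpow_add hG]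
  have e3 : G ^ (2 : ℝ) = G ^ 2 := Real.rpow_natCast G 2
  rw [e3]
  ring

open Classical in
/-- **Step A with numbers**: if all lines of a near-maximal sheet lie in `{|q₂| ≤ lam}` then
`|q₂| ≤ X ^ C lam` on the sheet near all but `#A / X` of its lines.  `X` = all deficits. -/
theorem stepA_num {q1 q2 : ℝ} (hq : 0 < q1 + q2) : ∃ C : ℝ, 1 ≤ C ∧
    ∀ {ι : Type} (A : Finset ι) (L : ι → Ln4) (e : Fin 3 → V3) (c : Ln4) (w : V3)
      (q : ℝ → V3 → ℝ) (a z0 ρ r0 q0 D X lam : ℝ) (q₂ : ℝ → V3 → ℝ),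
      ShN e c w q a z0 ρ r0 → 0 < a → 0 < ρ → (∀ u ∈ A, InSheet (L u) e c w q a z0 ρ) →
      IsQ q₂ → 0 < lam →
      (∀ u ∈ A, ∀ z, z0 ≤ z → z ≤ z0 + ρ → ∀ τ : ℝ, |τ| ≤ 8 * a →
        |q₂ z ((L u).pos z + τ • e 0)| ≤ lam) →
      2 ≤ X → X ^ C * a ≤ w 0 → 0 ≤ D →
      (∀ (e' : Fin 3 → V3) (c' : Ln4) (w' : V3) (q' : ℝ → V3 → ℝ) (a' : ℝ),
        ShN e' c' w' q' a' z0 ρ r0 → w 1 ≤ X ^ C * w' 1 → w 2 ≤ X ^ C * w' 2 → w' 1 ≤ w 1 →
        ((A.filter fun u => InSheet (L u) e' c' w' q' a' z0 ρ).card : ℝ) ≤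
          X * (D * vS q0 q1 q2 ρ a' (w' 2) (w' 1))) →
      D * vS q0 q1 q2 ρ a (w 2) (w 1) ≤ X * (A.card : ℝ) →
      ∃ Bad : Finset ι, Bad ⊆ A ∧ (Bad.card : ℝ) ≤ (A.card : ℝ) / X ∧ ∀ u ∈ A, u ∉ Bad →
        ∀ z, z0 ≤ z → z ≤ z0 + ρ → ∀ Y : V3, |q z Y| ≤ a → |pc e w (L u) z Y 0| ≤ 1 / 2 →
          |pc e w (L u) z Y 1| ≤ 1 / 32 → |pc e w (L u) z Y 2| ≤ 1 / 32 →
            |q₂ z Y| ≤ X ^ C * lam := by
  have hCG1 : (1 : ℝ) ≤ CG := by unfold CG; norm_num
  have hCG0 : (0 : ℝ) < CG := by linarith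
  set K0 : ℝ := 10000 * CL ^ 2 * CG ^ (2 + (q1 + q2)) * NT with hK0
  set K : ℝ := max K0 1 with hK
  obtain ⟨C0, hC01, hthr⟩ := thr_exists hq (le_max_right K0 1) hCG1
  obtain ⟨k, hk⟩ := pow_unbounded_of_one_lt CH (by norm_num : (1 : ℝ) < 2)
  refine ⟨C0 + k, by linarith [(Nat.cast_nonneg k : (0 : ℝ) ≤ k)], ?_⟩
  intro ι A L e c w q a z0 ρ r0 q0 D X lam q₂ S ha hρ hA hq₂ hlam hcap hX hXa hD0 hD hbig
  have hX0 : 0 < X := by linarith
  have hX1 : 1 ≤ X := by linarith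
  have hw0 : 0 < w 0 := ha.trans_le S.a_le0
  have SP := StP.of_shN S hw0
  have hw := SP.pos
  obtain ⟨δ, hδ, hδg, hδK, hδ0⟩ := hthr X hX
  have hXC : X ^ C0 ≤ X ^ (C0 + k) :=
    Real.rpow_le_rpow_of_exponent_le hX1 (by linarith [(Nat.cast_nonneg k : (0 : ℝ) ≤ k)])
  have hXp : 0 < X ^ C0 := Real.rpow_pos_of_pos hX0 _
  have hinv : 1 ≤ X ^ C0 * δ 0 := by
    rw [Real.rpow_neg hX0.le] at hδ0
    have := mul_le_mul_of_nonneg_left hδ0 hXp.le
    rwa [mul_inv_cancel₀ hXp.ne'] at this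
  have haδ : a ≤ δ 0 * w 0 := by
    have h1 : X ^ C0 * a ≤ w 0 := (mul_le_mul_of_nonneg_right hXC ha.le).trans hXa
    have h2 : X ^ C0 * a * δ 0 ≤ w 0 * δ 0 := mul_le_mul_of_nonneg_right h1 hδ.pos.le
    have h3 : 1 * a ≤ (X ^ C0 * δ 0) * a := mul_le_mul_of_nonneg_right hinv ha.le
    linarith
  have hmono : ∀ j ≤ 8, δ 0 ≤ δ j := by
    intro j hj
    induction j with
    | zero => exact le_rfl
    | succ j ih => exact (ih (by omega)).trans (hδ.mono j (by omega))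
  obtain ⟨Bad, hBadA, hBadc, htyp⟩ := typical A L hw hρ hA hX0
  refine ⟨Bad, hBadA, hBadc, fun u hu hub => ?_⟩
  obtain ⟨A', hA'A, huA', hcard, hnear⟩ := htyp u hu hub
  set V := vS q0 q1 q2 ρ a (w 2) (w 1) with hV
  have hV0 : 0 ≤ V := vS_nonneg hρ.le ha.le (hw 2).le (hw 1).le
  set M : ℕ → ℝ := fun j => X * (D * ((CG * δ j) ^ (2 + (q1 + q2)) * V)) with hM
  have hpos : 0 < (A'.card : ℝ) := by exact_mod_cast card_pos.2 ⟨u, huA'⟩
  have hNT : (0 : ℝ) < NT := by unfold NT; norm_num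
  intro z hz hz' Y h1 h2 h3 h4
  have key := stepA SP hρ (T := L u) (A := A') (L := L) (hA u hu) (fun v hv => hA v (hA'A hv))
    (fun v hv ζ hζ k hk => hnear v hv ζ hζ.1 hζ.2 k hk) hq₂ hlam
    (fun v hv => hcap v (hA'A hv)) hδ haδ (M := M) (fun j hj => by
      have := hδ.pos' j (by omega)
      simp only [hM]; positivity) (fun j hj v hv => by
      have hδj := hδ.pos' j (by omega)
      have hG : 0 < CG * δ j := by positivity
      have hle : δ j ≤ CG * δ j := le_mul_of_one_le_left hδj.le hCG1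
      have hXG : 1 ≤ X ^ (C0 + k) * (CG * δ j) := by
        refine hinv.trans ?_
        exact mul_le_mul hXC ((hmono j (by omega)).trans hle) hδ.pos.le (by positivity)
      have hT := test_ShN S ha.le (hA v (hA'A hv)) hG (by linarith [hδg j])
        (haδ.trans (mul_le_mul_of_nonneg_right ((hmono j (by omega)).trans hle) hw0.le))
        le_rfl le_rfl (G := CG * δ j) (z1 := z0) (ρ1 := ρ)
      have h5 := hD _ _ _ _ _ hT (by
          have := mul_le_mul_of_nonneg_right hXG (hw 1).le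
          linarith) (by
          have := mul_le_mul_of_nonneg_right hXG (hw 2).le
          linarith) (by
          have h6 : CG * δ j ≤ 1 := by linarith [hδg j]
          have := mul_le_mul_of_nonneg_right h6 (hw 1).le
          linarith)
      have h6 : ((A'.filter fun u => InSheet (L u) e (L v) (fun k => CG * δ j * w k) q a z0
          ρ).card : ℝ) ≤ ((A.filter fun u => InSheet (L u) e (L v) (fun k => CG * δ j * w k) q a z0
          ρ).card : ℝ) := by
        exact_mod_cast card_le_card (filter_subset_filter _ hA'A)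
      refine h6.trans (h5.trans (le_of_eq ?_))
      simp only [hM]
      rw [vS_scale hρ (hw 2).le (hw 1).le hG]) (by
      -- the numbers
      have hterm : ∀ j ∈ Finset.range 8, (CL / (δ j * δ (j + 1) ^ 2)) ^ 2 * M j ≤
          (A'.card : ℝ) / 10000 * (1 : ℝ) := by
        intro j hj
        have hj8 := Finset.mem_range.1 hj
        have hδj := hδ.pos' j (by omega)
        have hδj1 := hδ.pos' (j + 1) (by omega)
        have hK1 := hδK j hj8
        have hDV : D * V ≤ X * (NT * X * (A'.card : ℝ)) :=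
          hbig.trans (mul_le_mul_of_nonneg_left hcard hX0.le)
        have e1 : (CG * δ j) ^ (2 + (q1 + q2)) =
            CG ^ (2 + (q1 + q2)) * (δ j ^ 2 * δ j ^ (q1 + q2)) := by
          rw [Real.mul_rpow hCG0.le hδj.le, Real.rpow_add hδj]
          congr 2
          exact Real.rpow_natCast (δ j) 2
        set P := CG ^ (2 + (q1 + q2)) with hP
        have hP0 : 0 < P := Real.rpow_pos_of_pos hCG0 _
        set y := δ j ^ (q1 + q2) with hy
        have hy0 : 0 < y := Real.rpow_pos_of_pos hδj _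
        have e2 : (CL / (δ j * δ (j + 1) ^ 2)) ^ 2 * M j =
            CL ^ 2 * P * y * X / δ (j + 1) ^ 4 * (D * V) := by
          simp only [hM]
          rw [e1]
          field_simp
        rw [e2]
        have h5 : CL ^ 2 * P * y * X / δ (j + 1) ^ 4 * (D * V) ≤
            CL ^ 2 * P * y * X / δ (j + 1) ^ 4 * (X * (NT * X * (A'.card : ℝ))) :=
          mul_le_mul_of_nonneg_left hDV (by positivity)
        refine h5.trans ?_
        have e3 : CL ^ 2 * P * y * X / δ (j + 1) ^ 4 * (X * (NT * X * (A'.card : ℝ))) =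
            (K0 * X ^ 3 * y) / δ (j + 1) ^ 4 * ((A'.card : ℝ) / 10000) := by
          rw [hK0]
          field_simp
        rw [e3]
        have h6 : (K0 * X ^ 3 * y) / δ (j + 1) ^ 4 ≤ 1 := by
          rw [div_le_one (by positivity)]
          refine le_trans ?_ hK1.le
          have : K0 ≤ K := le_max_left _ _
          gcongr
        have h7 := mul_le_mul_of_nonneg_right h6 (by positivity : 0 ≤ (A'.card : ℝ) / 10000)
        linarith
      have hsum := Finset.sum_le_sum hterm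
      rw [Finset.sum_const, Finset.card_range, nsmul_eq_mul] at hsum
      push_cast at hsum
      linarith)
    z hz hz' Y h1 h2 h3 h4
  refine key.trans ?_
  have hδ00 := hδ.pos
  have h5 : CH * (lam / δ 0) ≤ CH * (lam * X ^ C0) := by
    have hCH : 0 ≤ CH := by unfold CH; positivity
    refine mul_le_mul_of_nonneg_left ?_ hCH
    rw [div_le_iff₀ hδ00]
    have := mul_le_mul_of_nonneg_left hinv hlam.le
    linarith
  refine h5.trans ?_
  have h6 : CH ≤ X ^ k := hk.le.trans (pow_le_pow_left₀ (by norm_num) hX k)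
  have h7 : X ^ (C0 + (k : ℝ)) = X ^ C0 * X ^ k := by
    rw [Real.rpow_add hX0, Real.rpow_natCast]
  rw [h7]
  have h8 : 0 ≤ lam * X ^ C0 := by positivity
  have := mul_le_mul_of_nonneg_right h6 h8
  linarith

end Crest.Agent.R136.Sa705
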