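import Crest.Agent.R136.TL4_196
import Crest.Agent.R136.End19_882

/-!
# R136, lightlike case of the thick table: **T.L is closed** (helper196)

`caseL : η < 1 → Dead η pL` (SeamWin: 66, 480, 560, 626; SeamExtZ: 779; SeamVis: 831; SeamEnd: 882,
829, 638, 196).
-/

set_option autoImplicit false
set_option linter.unusedVariables false

namespace Crest.Agent.R136.TL196

open Crest.Agent.R136.NatT550
open Crest.Agent.R136.TopB550

/-- **T.L** -/
theorem caseL {η : ℝ} (hη : η < 1) : Dead η pL :=
  dead_L_end hη End882.seamEnd

end Crest.Agent.R136.TL196
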