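import Crest.Agent.R136.HR12_829
import Crest.Agent.R136.C1e_865
import Crest.Agent.R136.C1sH_940
import Crest.Agent.R136.F2w_569
import Crest.Agent.R136.LadF_115
import Crest.Agent.R136.WinE9_344
import Crest.Agent.R136.Dl5_667
import Crest.Agent.R136.D2f_272
import Crest.Agent.R136.C2p_400
import Crest.Agent.R136.Z2k_57
import Crest.Agent.R136.TL4_196
import Crest.Agent.R136.End19_882
import Crest.Agent.R136.C3h_795
import Crest.Agent.R136.LdX5_403
import Crest.Agent.R136.Z2j_403
import Crest.Agent.R136.LabH_371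
import Crest.Agent.R136.LabW10_926
import Crest.Agent.R136.ReE8_436
import Crest.Agent.R138.KMs_630

/-!
# R136 (S0187): the thick table without hypotheses (helper1)

`caseZ2` (403's `z2_win` on 926's window and 371's `labH_of_thick`), `caseF2`, and
**`thickTable : 0 < η → η ≤ 1/8 → ThickTable η`**.
-/

set_option autoImplicit false
set_option linter.unusedVariables false

open Filter Topology

namespace Crest.Agent.R136.Thk1

open Crest.Agent.R136
open Crest.Agent.R136.TopB550
open Crest.Agent.R136.NatT550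
open Crest.Agent.R136.NetQ186
open Crest.Agent.R136.Top484

theorem km : ∀ V : ℝ, Crest.Agent.R138.Tub70.KM32 V := Crest.Agent.R138.KMs630.km32

theorem caseF2 {η : ℝ} (hη : η ≤ 1/8) : Dead η Re436.pF2 :=
  F2w569.caseF2_of_xbN hη fun p D I1 π eE fA fB V T w0 R T0 PD ν own c₀ h hp =>
    LdX403.xbN_of LadF115.kappaF h (LadF115.kap_pos h hp.1) hp.1 hp.2.1 hp.2.2.1 one_pos
      fun _ _ => rfl

theorem caseZ2 {η : ℝ} (hη : η ≤ 1/8) : Dead η pZ2 :=
  fun p D I1 π eE fA fB V T w0 R T0 PD ν own c₀ h hp =>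
    Z2e403.z2_win (v := 1/2) km h hp hη (by norm_num) (by norm_num)
      ((LabT371.labH_of_thick h).window km (by norm_num)
        (lt_min (mul_pos h.tp.ok.θ1 (by norm_num)) (by norm_num)))

/-- **the thick table** -/
theorem thickTable {η : ℝ} (hη0 : 0 < η) (hη : η ≤ 1/8) : ThickTable η := by
  have hA := HR829.caseA km η
  have hC1 := C1865.caseC1 (η := η) hη
  have hC1s := C1s940.caseC1s hη0 hη
  have hF2 := caseF2 hη
  exact
  { A := hA
    F := LadF115.caseF hη
    Z2 := caseZ2 hη
    E := Re436.caseE (WinC344.winE hη) hF2 hA hC1 hC1s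
    E3 := Re436.caseE3 hF2 hA hC1 hC1s
    D1 := Dl667.caseD1 hη
    D2 := Xd272.caseD2 hη
    C1 := hC1
    C1s := hC1s
    C2 := C2p400.caseC2 hη
    C2z := Z2H57.caseC2z' hη
    L := TL196.dead_L_end (by linarith) End882.seamEnd
    C3 := C3h795.caseC3 hη km }

end Crest.Agent.R136.Thk1
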