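import Crest.Agent.R136.Val7_879
import Crest.Agent.R136.KDef8_879

/-!
# R136: (UB) for the configurations `Cf8` (helper879)

Same as `Val7_879` for `Cf8` / `Ok8` / `InX x C`, `7 ≤ x`, and `Thk8`.
-/

set_option autoImplicit false
set_option linter.unusedVariables false

open Finset

namespace Crest.Agent.R136.Val8

open Sh605 K4 KS879 En879 UB289 Val289 Val7

noncomputable section

variable {Cl : Cls} {Leg : ℕ → ℝ → ℝ → Plk4 → Prop}

/-- the margins of a sheet of the top level -/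
structure Mrg8 (F : Cf8) (K : Plk4) : Prop where
  rng : ∀ k, F.wr k ≤ wd K k ∧ wd K k ≤ wd F.KC k
  low : ∀ k, k ≠ 0 → F.wr k * (2:ℝ) ^ (7 * (F.M : ℝ)) ≤ wd K k
  thk : K.a * (2:ℝ) ^ (7 * (F.M : ℝ)) ≤ wd F.KC 0 ∨ wd F.KC 2 ≤ wd F.KC 0

theorem mrg8_of {q : Fin 3 → ℝ} {F : Cf8} (h : Ok8 Leg q F) {x C : ℝ} (hI : InX x C F) (hT : Thk8 F)
    (hκC : 7 ≤ x) {y : Ln4 × ℝ} (hx : y ∈ F.I) : Mrg8 F (F.K (F.cl (ob4 F.top y))) := by
  refine ⟨(h.ok.legal y hx).2, fun k hk => ?_, hT y hx⟩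
  refine le_trans ?_ (hI.mar y hx k)
  have e1 : xk x k = x := by unfold xk; simp [hk]
  rw [e1]
  refine mul_le_mul_of_nonneg_left ?_ (h.wrp k).le
  refine Real.rpow_le_rpow_of_exponent_le (by norm_num) ?_
  exact mul_le_mul_of_nonneg_right hκC (Nat.cast_nonneg _)

variable {q : Fin 3 → ℝ} {A B k : ℕ}

open Classical in
/-- **(UB) with range** -/
theorem card8 (hL : LegOf Cl Leg) (hA2 : ∀ m r Λ K, Leg m r Λ K → K.a ≤ K.w 2)
    (hU : UBgG Cl A B k) (hk : k ≤ 20) (hB : B ≤ 4) {F : Cf8} (h : Ok8 Leg q F)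
    (hh : 2 * F.h ≤ F.M) {E : ℝ}
    (hE : ∀ a w2 w1 : ℝ, 0 < a → 0 < w2 → 0 < w1 → ∀ a' w2' w1' : ℝ,
      (a ≤ a' ∧ a' ≤ 2 ^ (B * (F.M + F.h + 10)) * a) →
      (w2' ≤ w2 ∧ w2 ≤ 2 ^ (B * (F.M + F.h + 10)) * w2') →
      (w1' ≤ w1 ∧ w1 ≤ 2 ^ (B * (F.M + F.h + 10)) * w1') →
      rew q (F.m + F.h) a' w2' w1' ≤ (2:ℝ) ^ E * rew q (F.m + F.M) a w2 w1)
    {K : Plk4} (hK : Leg F.top F.r F.Λm K) (hM : Mrg8 F K) {D : ℝ} (hD : 0 < D)
    (hDD : F.D0 ≤ D) :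
    ((objs4 F.top F.I K).card : ℝ) ≤
      2 ^ (A * (F.M + F.h + 10)) * (2:ℝ) ^ E * D * cap5 q F.top K := by
  have h20 := h.ok.h20
  obtain ⟨pa, p2, p1⟩ := leg_posG hL h.ok.r0 hK
  set N : ℝ := ((F.I.image (ob4 (F.m + F.h))).card : ℝ) with hN
  have hN0 : 0 ≤ N := Nat.cast_nonneg _
  -- the range
  let Rg : ℝ → ℝ → ℝ → Prop := fun a w2 w1 =>
    (F.wr 0 ≤ a ∧ a ≤ wd F.KC 0) ∧ (F.wr 1 ≤ w1 ∧ w1 ≤ wd F.KC 1) ∧
      (F.wr 2 ≤ w2 ∧ w2 ≤ wd F.KC 2)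
  let R' : ℝ → ℝ → ℝ → ℝ := fun a w2 w1 => if a ≤ w2 then
    (if Rg a w2 w1 then rew q (F.m + F.h) a w2 w1 else N / (D * (a * w2 * w1))) else 0
  -- constants
  have hY : (2:ℝ) ^ (B * (F.M + F.h + 10)) ≤ (2:ℝ) ^ (7 * (F.M : ℝ)) := by
    have e : (2:ℝ) ^ (7 * (F.M : ℝ)) = 2 ^ (7 * F.M) := by
      rw [← Real.rpow_natCast]; congr 1; push_cast; ring
    rw [e]
    refine pow_le_pow_right₀ (by norm_num) ?_
    calc B * (F.M + F.h + 10) ≤ 4 * (F.M + F.h + 10) := Nat.mul_le_mul_right _ hB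
      _ ≤ 7 * F.M := by omega
  have hY0 : (0:ℝ) < 2 ^ (B * (F.M + F.h + 10)) := by positivity
  have h1 := card_coreR hL hU (hk.trans h20) (le_trans (by norm_num) h20) h.ok.hM h.ok.r0
    hD.le (R' := R') (I := F.I) (m := F.m) (M := F.M) (h := F.h) (Λ := F.Λm)
    (by
      intro S hS
      obtain ⟨sa, s2, s1⟩ := leg_posG hL h.ok.r0 hS
      have hcap : 0 < S.a * S.w 2 * S.w 1 := by positivity
      have hR' : R' S.a (S.w 2) (S.w 1) = if Rg S.a (S.w 2) (S.w 1) then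
          rew q (F.m + F.h) S.a (S.w 2) (S.w 1) else N / (D * (S.a * S.w 2 * S.w 1)) :=
        if_pos (hA2 _ _ _ _ hS)
      rw [hR']
      by_cases hr : Rg S.a (S.w 2) (S.w 1)
      · rw [if_pos hr]
        have h2 := h.ok.ups (F.m + F.h) (Nat.le_add_right _ _) le_rfl S ⟨hS, fun k => by
          fin_cases k
          · exact hr.1
          · exact hr.2.1
          · exact hr.2.2⟩
        rw [cap5_eq] at h2
        refine h2.trans (mul_le_mul_of_nonneg_right hDD ?_)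
        have : 0 < rew q (F.m + F.h) S.a (S.w 2) (S.w 1) := by unfold rew; positivity
        positivity
      · rw [if_neg hr]
        have e : D * (S.a * S.w 2 * S.w 1 * (N / (D * (S.a * S.w 2 * S.w 1)))) = N := by
          field_simp
        rw [e, hN]
        refine Nat.cast_le.2 (card_le_card ?_)
        unfold objs4
        exact filter_subset _ _)
    (fun x hx => (pow_le_pow_right₀ (by norm_num) hk).trans (ok6_alvs h.ok hx))
    (K := K) hK (X := (2:ℝ) ^ E * rew q (F.m + F.M) K.a (K.w 2) (K.w 1))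
    (by unfold rew; positivity)
    (by
      intro a' w2' w1' ha h2 h1
      show R' a' w2' w1' ≤ _
      have hX : 0 ≤ (2:ℝ) ^ E * rew q (F.m + F.M) K.a (K.w 2) (K.w 1) := by
        unfold rew; positivity
      by_cases haw : a' ≤ w2'
      · have hr : Rg a' w2' w1' := by
          refine ⟨⟨(hM.rng 0).1.trans ha.1, ?_⟩, ⟨?_, h1.1.trans (hM.rng 1).2⟩,
            ⟨?_, h2.1.trans (hM.rng 2).2⟩⟩
          · rcases hM.thk with ht | ht
            · calc a' ≤ 2 ^ (B * (F.M + F.h + 10)) * K.a := ha.2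
                _ ≤ (2:ℝ) ^ (7 * (F.M : ℝ)) * K.a := mul_le_mul_of_nonneg_right hY pa.le
                _ = K.a * (2:ℝ) ^ (7 * (F.M : ℝ)) := mul_comm _ _
                _ ≤ _ := ht
            · exact haw.trans (h2.1.trans ((hM.rng 2).2.trans ht))
          · have h3 := (hM.low 1 (by decide)).trans h1.2
            have h4 : F.wr 1 * 2 ^ (B * (F.M + F.h + 10)) ≤
                F.wr 1 * (2:ℝ) ^ (7 * (F.M : ℝ)) := mul_le_mul_of_nonneg_left hY (h.wrp 1).le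
            have h5 := h4.trans h3
            rw [mul_comm] at h5
            exact le_of_mul_le_mul_left h5 hY0
          · have h3 := (hM.low 2 (by decide)).trans h2.2
            have h4 : F.wr 2 * 2 ^ (B * (F.M + F.h + 10)) ≤
                F.wr 2 * (2:ℝ) ^ (7 * (F.M : ℝ)) := mul_le_mul_of_nonneg_left hY (h.wrp 2).le
            have h5 := h4.trans h3
            rw [mul_comm] at h5
            exact le_of_mul_le_mul_left h5 hY0
        have e : R' a' w2' w1' = rew q (F.m + F.h) a' w2' w1' := by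
          show (if a' ≤ w2' then _ else _) = _
          rw [if_pos haw, if_pos hr]
        rw [e]
        exact hE _ _ _ pa p2 p1 a' w2' w1' ha h2 h1
      · have e : R' a' w2' w1' = 0 := if_neg haw
        rw [e]; exact hX)
  refine h1.trans (le_of_eq ?_)
  rw [cap5_eq]
  show _ = 2 ^ (A * (F.M + F.h + 10)) * (2:ℝ) ^ E * D *
    (K.a * K.w 2 * K.w 1 * rew q (F.m + F.M) K.a (K.w 2) (K.w 1))
  ring

/-- **value bound with range** -/
theorem val8 (hL : LegOf Cl Leg) (hA2 : ∀ m r Λ K, Leg m r Λ K → K.a ≤ K.w 2)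
    (hU : UBgG Cl A B k) (hk : k ≤ 20) (hB : B ≤ 4) {F : Cf8} (h : Ok8 Leg q F)
    {x C : ℝ} (hI : InX x C F) (hT : Thk8 F) (hκC : 7 ≤ x) (hh : 2 * F.h ≤ F.M) {E : ℝ}
    (hE : ∀ a w2 w1 : ℝ, 0 < a → 0 < w2 → 0 < w1 → ∀ a' w2' w1' : ℝ,
      (a ≤ a' ∧ a' ≤ 2 ^ (B * (F.M + F.h + 10)) * a) →
      (w2' ≤ w2 ∧ w2 ≤ 2 ^ (B * (F.M + F.h + 10)) * w2') →
      (w1' ≤ w1 ∧ w1 ≤ 2 ^ (B * (F.M + F.h + 10)) * w1') →
      rew q (F.m + F.h) a' w2' w1' ≤ (2:ℝ) ^ E * rew q (F.m + F.M) a w2 w1) :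
    0 < F.D0 ∧ F.toCf4.val * F.M ≤ A * (F.M + F.h + 10) + E := by
  obtain ⟨x, hx⟩ := h.ok.ne
  have hM : (0:ℝ) < F.M := by
    have := h.ok.M1
    exact_mod_cast this
  have hleg := h.ok.legal x hx
  have hcap : 0 < cap5 q F.top (F.K (F.cl (ob4 F.top x))) := by
    obtain ⟨a1, a2, a3⟩ := leg_posG hL h.ok.r0 hleg.1
    exact cap5_pos a1 a2 a3
  set X : ℝ := 2 ^ (A * (F.M + F.h + 10)) * (2:ℝ) ^ E with hX
  have hXp : 0 < X := by positivity
  have key : ∀ D : ℝ, 0 < D → F.D0 ≤ D → F.D1 ≤ X * D := by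
    intro D hD hDD
    have h1 := card8 hL hA2 hU hk hB h hh hE hleg.1 (mrg8_of h hI hT hκC hx) hD hDD
    have h2 := h.ok.low x hx
    have h3 := cls_leR h.ok.toOk5 hx
    exact le_of_mul_le_mul_right (h2.trans (h3.trans h1)) hcap
  have hD0 : 0 < F.D0 := by
    by_contra hn
    rw [not_lt] at hn
    have hD1 := h.ok.D1p
    have h4 := key (F.D1 / (2 * X)) (by positivity) (hn.trans (by positivity))
    have e : X * (F.D1 / (2 * X)) = F.D1 / 2 := by field_simp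
    rw [e] at h4
    linarith
  refine ⟨hD0, ?_⟩
  have h5 := key F.D0 hD0 le_rfl
  have h6 : F.D1 / F.D0 ≤ (2:ℝ) ^ ((A:ℝ) * (F.M + F.h + 10) + E) := by
    rw [div_le_iff₀ hD0]
    refine h5.trans (le_of_eq ?_)
    congr 1
    rw [hX, ← Real.rpow_natCast, ← Real.rpow_add (by norm_num)]
    congr 1
    push_cast
    ring
  have h7 : Real.logb 2 (F.D1 / F.D0) ≤ (A:ℝ) * (F.M + F.h + 10) + E := by
    have := Real.logb_le_logb_of_le one_lt_two (div_pos h.ok.D1p hD0) h6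
    rwa [Real.logb_rpow (by norm_num) (by norm_num)] at this
  unfold Cf4.val
  rw [div_mul_cancel₀ _ hM.ne']
  exact h7

/-- **the value is bounded**, rewards of any sign -/
theorem val_le8 (hL : LegOf Cl Leg) (hA2 : ∀ m r Λ K, Leg m r Λ K → K.a ≤ K.w 2)
    (hU : UBgG Cl A B k) (hk : k ≤ 20) (hB : B ≤ 4) {F : Cf8} (h : Ok8 Leg q F)
    {x C : ℝ} (hI : InX x C F) (hT : Thk8 F) (hκC : 7 ≤ x) (hh : 2 * F.h ≤ F.M) :
    0 < F.D0 ∧ F.toCf4.val ≤ 12 * (A + (B + 1) * qs q) := by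
  have hM1 : (1:ℝ) ≤ F.M := by
    have := h.ok.M1
    exact_mod_cast this
  have hhr : (F.h:ℝ) ≤ F.M := by exact_mod_cast h.ok.hM
  have hqs : 0 ≤ qs q := by unfold qs; positivity
  obtain ⟨h0, h3⟩ := val8 hL hA2 hU hk hB h hI hT hκC hh (E := qs q * ((B + 1) * (F.M + F.h + 10)))
    (fun a w2 w1 pa p2 p1 a' w2' w1' => rew_any h.ok.hM pa p2 p1 a' w2' w1')
  refine ⟨h0, ?_⟩
  have h4 : F.toCf4.val * F.M ≤ 12 * (A + (B + 1) * qs q) * F.M := by
    refine h3.trans ?_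
    have e : (A:ℝ) * (F.M + F.h + 10) + qs q * ((B + 1) * (F.M + F.h + 10)) =
        (A + (B + 1) * qs q) * (F.M + F.h + 10) := by ring
    rw [e]
    have h5 : (0:ℝ) ≤ A + (B + 1) * qs q := by positivity
    have h6 : (F.M:ℝ) + F.h + 10 ≤ 12 * F.M := by linarith
    calc (A + (B + 1) * qs q) * (F.M + F.h + 10) ≤ (A + (B + 1) * qs q) * (12 * F.M) :=
          mul_le_mul_of_nonneg_left h6 h5
      _ = _ := by ring
  exact le_of_mul_le_mul_right h4 (by linarith)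

/-- **the value for nonnegative rewards** -/
theorem val_end8 (hL : LegOf Cl Leg) (hA2 : ∀ m r Λ K, Leg m r Λ K → K.a ≤ K.w 2)
    (hU : UBgG Cl A B k) (hk : k ≤ 20) (hB : B ≤ 4) {F : Cf8} (h : Ok8 Leg q F)
    {x C : ℝ} (hI : InX x C F) (hT : Thk8 F) (hκC : 7 ≤ x) (hh : 2 * F.h ≤ F.M) (hq : ∀ i, 0 ≤ q i) :
    F.toCf4.val ≤ (A + B * q 0) * (1 + 3 / 2 * (F.h / F.M)) -
      (q 0 + q 1 + q 2) * (1 - F.h / F.M) := by
  have hM1 : (1:ℝ) ≤ F.M := by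
    have := h.ok.M1
    exact_mod_cast this
  have h20 : (20:ℝ) ≤ F.h := by exact_mod_cast h.ok.h20
  obtain ⟨_, h3⟩ := val8 hL hA2 hU hk hB h hI hT hκC hh
    (E := q 0 * (B * (F.M + F.h + 10)) - (q 0 + q 1 + q 2) * (F.M - F.h))
    (fun a w2 w1 pa p2 p1 a' w2' w1' => rew_pos hq h.ok.hM pa p2 p1 a' w2' w1')
  have h4 : F.toCf4.val * F.M ≤
      ((A + B * q 0) * (1 + 3 / 2 * (F.h / F.M)) - (q 0 + q 1 + q 2) * (1 - F.h / F.M)) *
        F.M := by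
    refine h3.trans ?_
    have e1 : (((A:ℝ) + B * q 0) * (1 + 3 / 2 * (F.h / F.M)) -
        (q 0 + q 1 + q 2) * (1 - F.h / F.M)) * F.M =
        (A + B * q 0) * (F.M + 3 / 2 * F.h) - (q 0 + q 1 + q 2) * (F.M - F.h) := by
      have : (F.M:ℝ) ≠ 0 := by linarith
      field_simp
    have e2 : (A:ℝ) * (F.M + F.h + 10) +
        (q 0 * (B * (F.M + F.h + 10)) - (q 0 + q 1 + q 2) * (F.M - F.h)) =
        (A + B * q 0) * (F.M + F.h + 10) - (q 0 + q 1 + q 2) * (F.M - F.h) := by ring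
    rw [e1, e2]
    have h5 : (0:ℝ) ≤ A + B * q 0 := by have := hq 0; positivity
    have h6 : (F.M:ℝ) + F.h + 10 ≤ F.M + 3 / 2 * F.h := by linarith
    have := mul_le_mul_of_nonneg_left h6 h5
    linarith
  exact le_of_mul_le_mul_right h4 (by linarith)

end

end Crest.Agent.R136.Val8
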