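import Crest.Agent.R136.WinE0_323

/-!
# R136 (S0187), row E, window half, piece (C) (helper344), part 1: finite glue, normalisation
-/

set_option autoImplicit false
set_option linter.unusedVariables false
set_option linter.unusedSectionVars false

open Finset Filter Topology

namespace Crest.Agent.R136.WinC344

open Crest.Agent.R138.Ex926 (Base U)

open Classical in
/-- **glue of the good classes** -/
theorem glue {ι κ : Type*} (J : Finset ι) (f : ι → κ) (Rel : κ → Finset ι → Prop) {δ : ℝ}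
    (hδ : 0 < δ)
    (hbad : 2 * ((J.filter fun y => ¬ ∃ G ⊆ J, (∀ z ∈ G, f z = f y) ∧
      2 * δ * ((J.filter fun z => f z = f y).card : ℝ) ≤ (G.card : ℝ) ∧ Rel (f y) G).card : ℝ) <
        (J.card : ℝ)) :
    ∃ S ⊆ J, δ * (J.card : ℝ) ≤ (S.card : ℝ) ∧ ∀ c, (∃ z ∈ S, f z = c) →
      Rel c (S.filter fun z => f z = c) := by
  set Good : κ → Prop := fun c => ∃ G ⊆ J, (∀ z ∈ G, f z = c) ∧
      2 * δ * ((J.filter fun z => f z = c).card : ℝ) ≤ (G.card : ℝ) ∧ Rel c G with hGood
  have hex : ∀ c, ∃ G : Finset ι, G ⊆ J ∧ (∀ z ∈ G, f z = c) ∧ (Good c →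
      2 * δ * ((J.filter fun z => f z = c).card : ℝ) ≤ (G.card : ℝ) ∧ Rel c G) := by
    intro c
    by_cases hc : Good c
    · obtain ⟨G, h1, h2, h3, h4⟩ := hc
      exact ⟨G, h1, h2, fun _ => ⟨h3, h4⟩⟩
    · exact ⟨∅, Finset.empty_subset _, by simp, fun h => absurd h hc⟩
  choose G hG1 hG2 hG3 using hex
  set S : Finset ι := J.filter fun z => Good (f z) ∧ z ∈ G (f z) with hS
  have hSc : ∀ c, Good c → (S.filter fun z => f z = c) = G c := by
    intro c hc
    ext z
    simp only [hS, Finset.mem_filter]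
    constructor
    · rintro ⟨⟨_, _, h3⟩, h4⟩
      rw [h4] at h3; exact h3
    · intro hz
      have h5 := hG2 c z hz
      refine ⟨⟨hG1 c hz, ?_, ?_⟩, h5⟩
      · rw [h5]; exact hc
      · rw [h5]; exact hz
  refine ⟨S, Finset.filter_subset _ _, ?_, ?_⟩
  · -- counting
    set Jg : Finset ι := J.filter fun z => Good (f z) with hJg
    have h1 : (J.card : ℝ) ≤ 2 * (Jg.card : ℝ) := by
      have e1 : Jg.card + (J.filter fun z => ¬ Good (f z)).card = J.card :=
        Finset.card_filter_add_card_filter_not _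
      have e2 : (Jg.card : ℝ) + ((J.filter fun z => ¬ Good (f z)).card : ℝ) = (J.card : ℝ) := by
        exact_mod_cast e1
      have e3 : 2 * ((J.filter fun z => ¬ Good (f z)).card : ℝ) < (J.card : ℝ) := by
        convert hbad
      linarith
    have h2 : (Jg.card : ℝ) = ∑ c ∈ Jg.image f, ((Jg.filter fun z => f z = c).card : ℝ) := by
      have : Jg.card = ∑ c ∈ Jg.image f, (Jg.filter fun z => f z = c).card :=
        Finset.card_eq_sum_card_fiberwise fun j hj => Finset.mem_image_of_mem _ hj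
      rw [this]; push_cast; rfl
    have h3 : (S.card : ℝ) = ∑ c ∈ Jg.image f, ((S.filter fun z => f z = c).card : ℝ) := by
      have : S.card = ∑ c ∈ Jg.image f, (S.filter fun z => f z = c).card := by
        refine Finset.card_eq_sum_card_fiberwise fun j hj => ?_
        have hj' := Finset.mem_filter.1 (Finset.mem_coe.1 hj)
        exact Finset.mem_coe.2 (Finset.mem_image_of_mem _ (Finset.mem_filter.2 ⟨hj'.1, hj'.2.1⟩))
      rw [this]; push_cast; rfl
    have h4 : 2 * δ * (Jg.card : ℝ) ≤ (S.card : ℝ) := by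
      rw [h2, h3, Finset.mul_sum]
      refine Finset.sum_le_sum fun c hc => ?_
      obtain ⟨z, hz, rfl⟩ := Finset.mem_image.1 hc
      have hgz : Good (f z) := (Finset.mem_filter.1 hz).2
      rw [hSc _ hgz]
      refine le_trans ?_ (hG3 _ hgz).1
      refine mul_le_mul_of_nonneg_left ?_ (by linarith)
      exact_mod_cast Finset.card_le_card fun y hy => Finset.mem_filter.2
        ⟨(Finset.mem_filter.1 (Finset.mem_filter.1 hy).1).1, (Finset.mem_filter.1 hy).2⟩
    nlinarith
  · rintro c ⟨z, hz, rfl⟩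
    have hgz : Good (f z) := (Finset.mem_filter.1 hz).2.1
    rw [hSc _ hgz]
    exact (hG3 _ hgz).2

/-- renormalised relation, with the constant -/
theorem norm_rel_e {a b e k2 k4 : ℝ} (hab : a ^ 2 + b ^ 2 = 1) (h1 : 1 ≤ k2) (h24 : k2 ≤ k4) :
    ∃ a' b' e' : ℝ, a' ^ 2 + b' ^ 2 = 1 ∧ ∀ Q2 Q4 E : ℝ,
      |a * (Q2 / k2) + b * (Q4 / k4) - e| ≤ E → |a' * Q2 + b' * Q4 - e'| ≤ E * (2 * k4) := by
  have hk2 : 0 < k2 := by linarith
  have hk4 : 0 < k4 := by linarith
  set P := a / k2 with hP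
  set Q := b / k4 with hQ
  have hs1 : 1 ≤ |a| + |b| := by
    have e1 : |a| ^ 2 = a ^ 2 := sq_abs a
    have e2 : |b| ^ 2 = b ^ 2 := sq_abs b
    nlinarith [abs_nonneg a, abs_nonneg b]
  have hPa : |a| ≤ k4 * |P| := by
    rw [hP, abs_div, abs_of_pos hk2, mul_div_assoc', le_div_iff₀ hk2, mul_comm]
    exact mul_le_mul_of_nonneg_right h24 (abs_nonneg _)
  have hQa : |b| ≤ k4 * |Q| := by
    rw [hQ, abs_div, abs_of_pos hk4, mul_div_assoc', le_div_iff₀ hk4, mul_comm]
  have hPQ : 1 ≤ k4 * (|P| + |Q|) := by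
    rw [mul_add]; linarith
  set N := Real.sqrt (P ^ 2 + Q ^ 2) with hN
  have hNN : N ^ 2 = P ^ 2 + Q ^ 2 := Real.sq_sqrt (by positivity)
  have hN0 : 0 ≤ N := Real.sqrt_nonneg _
  have hNge : |P| + |Q| ≤ 2 * N := by
    have e1 : |P| ≤ N := Real.abs_le_sqrt (by nlinarith [sq_nonneg Q])
    have e2 : |Q| ≤ N := Real.abs_le_sqrt (by nlinarith [sq_nonneg P])
    linarith
  have hN1 : 1 ≤ 2 * k4 * N := by
    have := mul_le_mul_of_nonneg_left hNge hk4.le
    linarith
  have hNpos : 0 < N := by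
    by_contra hc
    have : 2 * k4 * N ≤ 0 := mul_nonpos_of_nonneg_of_nonpos (by linarith) (not_lt.1 hc)
    linarith
  refine ⟨P / N, Q / N, e / N, ?_, fun Q2 Q4 E hE => ?_⟩
  · rw [div_pow P N, div_pow Q N, ← add_div, ← hNN, div_self (by positivity)]
  · have e1 : P / N * Q2 + Q / N * Q4 - e / N = (a * (Q2 / k2) + b * (Q4 / k4) - e) / N := by
      rw [hP, hQ]; field_simp
    rw [e1, abs_div, abs_of_pos hNpos]
    have hE0 : 0 ≤ E := (abs_nonneg _).trans hE
    rw [div_le_iff₀ hNpos]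
    calc |a * (Q2 / k2) + b * (Q4 / k4) - e| ≤ E * 1 := by rw [mul_one]; exact hE
      _ ≤ E * (2 * k4 * N) := mul_le_mul_of_nonneg_left hN1 hE0
      _ = E * (2 * k4) * N := by ring

end Crest.Agent.R136.WinC344
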