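import Crest.Agent.R136.WinC1_344

/-!
# R136 (S0187), row E, window half, piece (C) (helper344), part 2: good and bad classes, windows
-/

set_option autoImplicit false
set_option linter.unusedVariables false
set_option linter.unusedSectionVars false

open Finset Filter Topology

namespace Crest.Agent.R136.WinC344

open Crest.Agent.R138.Ex926 (Base U IsTan cls mem_cls exists_diag)
open Crest.Agent.R136.Net191
open Crest.Agent.R136.NetQ186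
open Crest.Agent.R136.Qg926
open Crest.Agent.R136.WinE323
open Crest.Agent.R136.Xb403 (stP POk stP_ok)
open Crest.Agent.R136.Aw413
open Crest.Agent.R136.Wk323 (TightX)
open Crest.Agent.R136.Wq400 (kapQ kapQ_pos)

/-- the relation on a part `G` of the class with label `c` -/
def RelL (B : Base) (I : ℕ → Finset (ℕ × ℝ)) (co : ∀ n : ℕ, ℕ × ℝ → ℕ × ℝ → Fin 11 → ℝ)
    (Y : Fin 11 → ℝ) (n : ℕ) (δ : ℝ) (c : ℕ × ℝ) (G : Finset (ℕ × ℝ)) : Prop :=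
  ∃ (i : ℕ × ℝ) (a b e : ℝ), a ^ 2 + b ^ 2 = 1 ∧ i ∈ I n ∧ nlab B I co monQ 2 n Y i = c ∧
    ∀ y ∈ G, |a * (co n i y 2 / B.d n ^ Y 2) +
      b * ((co n i y 4 + co n i y 3 * co n i y 2) / B.d n ^ Y 4) - e| ≤ δ

open Classical in
/-- bad incidences: no part of share `2 r` of the class has the relation -/
noncomputable def Bad (B : Base) (I J : ℕ → Finset (ℕ × ℝ))
    (co : ∀ n : ℕ, ℕ × ℝ → ℕ × ℝ → Fin 11 → ℝ) (Y : Fin 11 → ℝ) (n : ℕ) (r δ : ℝ) :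
    Finset (ℕ × ℝ) :=
  (J n).filter fun y => ¬ ∃ G ⊆ J n, (∀ z ∈ G, nlab B I co monQ 2 n Y z =
    nlab B I co monQ 2 n Y y) ∧ 2 * r * (((J n).filter fun z => nlab B I co monQ 2 n Y z =
      nlab B I co monQ 2 n Y y).card : ℝ) ≤ (G.card : ℝ) ∧
      RelL B I co Y n δ (nlab B I co monQ 2 n Y y) G

/-- the good set of one `n` -/
def GoodAt (B : Base) (I J : ℕ → Finset (ℕ × ℝ))
    (co : ∀ n : ℕ, ℕ × ℝ → ℕ × ℝ → Fin 11 → ℝ) (Y : Fin 11 → ℝ) (n : ℕ) (r δ : ℝ) : Prop :=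
  ∃ S ⊆ J n, r * ((J n).card : ℝ) ≤ (S.card : ℝ) ∧
    ∃ (i : ℕ × ℝ → ℕ × ℝ) (a b e : ℕ × ℝ → ℝ), ∀ y ∈ S, ∀ c,
      nlab B I co monQ 2 n Y y = c → a c ^ 2 + b c ^ 2 = 1 ∧ i c ∈ I n ∧
        nlab B I co monQ 2 n Y (i c) = c ∧
        |a c * (co n (i c) y 2 / B.d n ^ Y 2) +
          b c * ((co n (i c) y 4 + co n (i c) y 3 * co n (i c) y 2) / B.d n ^ Y 4) - e c| ≤ δ

theorem good_of_bad {B : Base} {I J : ℕ → Finset (ℕ × ℝ)}
    {co : ∀ n : ℕ, ℕ × ℝ → ℕ × ℝ → Fin 11 → ℝ} {Y : Fin 11 → ℝ} {n : ℕ} {r δ : ℝ} (hr : 0 < r)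
    (h : ¬ GoodAt B I J co Y n r δ) :
    ((J n).card : ℝ) ≤ 2 * ((Bad B I J co Y n r δ).card : ℝ) := by
  classical
  by_contra hc
  apply h
  have h0 : 2 * ((Bad B I J co Y n r δ).card : ℝ) < ((J n).card : ℝ) := not_le.1 hc
  obtain ⟨S, h1, h2, h3⟩ := glue (J n) (nlab B I co monQ 2 n Y) (RelL B I co Y n δ) hr (by
    refine lt_of_eq_of_lt ?_ h0
    unfold Bad
    congr!)
  have h4 : ∀ c, ∃ (i : ℕ × ℝ) (a b e : ℝ), (∃ z ∈ S, nlab B I co monQ 2 n Y z = c) →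
      a ^ 2 + b ^ 2 = 1 ∧ i ∈ I n ∧ nlab B I co monQ 2 n Y i = c ∧
      ∀ y ∈ S, nlab B I co monQ 2 n Y y = c → |a * (co n i y 2 / B.d n ^ Y 2) +
        b * ((co n i y 4 + co n i y 3 * co n i y 2) / B.d n ^ Y 4) - e| ≤ δ := by
    intro c
    by_cases hz : ∃ z ∈ S, nlab B I co monQ 2 n Y z = c
    · obtain ⟨i, a, b, e, g1, g2, g3, g4⟩ := h3 c hz
      exact ⟨i, a, b, e, fun _ => ⟨g1, g2, g3, fun y hy hyc =>
        g4 y (by simp only [Finset.mem_filter]; exact ⟨hy, hyc⟩)⟩⟩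
    · exact ⟨(0, 0), 0, 0, 0, fun h => absurd h hz⟩
  choose i a b e h5 using h4
  refine ⟨S, h1, h2, i, a, b, e, fun y hy c hyc => ?_⟩
  obtain ⟨g1, g2, g3, g4⟩ := h5 c ⟨y, hy, hyc⟩
  exact ⟨g1, g2, g3, g4 y hy hyc⟩

/-- the label of a point of a bad class -/
theorem bad_full {B : Base} {I J : ℕ → Finset (ℕ × ℝ)}
    {co : ∀ n : ℕ, ℕ × ℝ → ℕ × ℝ → Fin 11 → ℝ} {Y : Fin 11 → ℝ} {n : ℕ} {r δ : ℝ}
    {s z : ℕ × ℝ} (hs : s ∈ Bad B I J co Y n r δ) (hz : z ∈ J n)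
    (h : nlab B I co monQ 2 n Y z = nlab B I co monQ 2 n Y s) : z ∈ Bad B I J co Y n r δ := by
  classical
  unfold Bad at hs ⊢
  obtain ⟨h1, h2⟩ := Finset.mem_filter.1 hs
  refine Finset.mem_filter.2 ⟨hz, ?_⟩
  rw [h]
  exact h2

theorem zlab_zero (B : Base) (I : ℕ → Finset (ℕ × ℝ))
    (co : ∀ n : ℕ, ℕ × ℝ → ℕ × ℝ → Fin 11 → ℝ) (Y : Fin 11 → ℝ) (w : ℕ → ℝ) (n : ℕ) :
    zlab B I co monQ 2 (fun _ => Y) w n 0 = nlab B I co monQ 2 n Y := by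
  show nlab B I co monQ 2 n (Y + w n • (0 : Fin 11 → ℝ)) = _
  rw [smul_zero, add_zero]

theorem zero_mem_coneM (Ma : Mons 11) : (0 : Fin 11 → ℝ) ∈ coneM Ma := by
  intro k e _
  simp

theorem bad_subset {B : Base} {I J : ℕ → Finset (ℕ × ℝ)}
    {co : ∀ n : ℕ, ℕ × ℝ → ℕ × ℝ → Fin 11 → ℝ} {Y : Fin 11 → ℝ} {n : ℕ} {r δ : ℝ} :
    Bad B I J co Y n r δ ⊆ J n := by
  classical
  unfold Bad
  exact Finset.filter_subset _ _

set_option maxHeartbeats 1000000 in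
/-- **windows at a fixed base point with exact numbers: the classes have the relation** -/
theorem win_core (hInc : RigInc) {B : Base} {I J : ℕ → Finset (ℕ × ℝ)}
    {co : ∀ n : ℕ, ℕ × ℝ → ℕ × ℝ → Fin 11 → ℝ} {F : ℕ → ℕ × ℝ → Fq4} {R : ℝ}
    {ν : (Fin 11 → ℝ) → ℝ} (hN : NProf B I J co monQ 2 R ν) {Y : Fin 11 → ℝ} {Ma : Mons 11}
    {h : ℕ → ℝ} (hpos : ∀ l, 0 < h l) {lam : (Fin 11 → ℝ) → ℝ}
    (htan : IsTan (Leg monQ R) (coneM Ma) ν (fun _ => Y) h lam) {y m β θR θF : ℝ}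
    (hnum : NumE lam y m β) (hRig : RigAtE 1 y m β θR) (hθF : 0 < θF) (hθ2 : 2 * θF < θR)
    (hθ1 : 2 * θF < 1) (hco : ∀ n i j, co n i j = coQ (F n i) (F n j))
    (hy2 : ∀ n i, (F n i).y2 = 0) (hT : TightX Y) (hsub : ∀ k, Ma.mon k ⊆ monQ.mon k)
    {ε : ℝ} (hε : 0 < ε) {l0 : ℕ} (hbad : ∀ l, l0 ≤ l → ∀ᶠ n in (U : Filter ℕ),
      ¬ GoodAt B I J co Y n (B.d n ^ (h l * ε)) (B.d n ^ (h l * θF))) : False := by
  classical
  obtain ⟨k, hk, hk2⟩ := exists_zwin hN hpos (zero_mem_coneM Ma) htan (fun _ _ => (1 : ℝ))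
    (fun _ => Base.Sub.const one_pos)
  obtain ⟨k1, hk1, hk1'⟩ := exists_diag (fun l n => l0 ≤ l →
    ¬ GoodAt B I J co Y n (B.d n ^ (h l * ε)) (B.d n ^ (h l * θF))) (fun l => by
      by_cases hl : l0 ≤ l
      · filter_upwards [hbad l hl] with n hn _ using hn
      · exact Eventually.of_forall fun n h => absurd h hl)
  set k' : ℕ → ℕ := fun n => min (k n) (k1 n) with hk'
  have hk't : Tendsto k' U atTop := by
    refine tendsto_atTop.2 fun N => ?_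
    filter_upwards [hk.eventually_ge_atTop N, hk1.eventually_ge_atTop N] with n a b
    exact le_min a b
  obtain ⟨B', b1, b2, b3, b4⟩ := hk2 k' hk't (Eventually.of_forall fun n => min_le_left _ _)
  have hK0 : 1 ≤ cK0 monQ 2 := cK0_one zero_le_two
  set K : ℝ := 2 * cK0 monQ 2 with hK
  have hK1 : 1 ≤ K := by linarith
  have hst : (stE K 1 Ma).Ok monQ (coneM Ma) := stP_ok pok_E (by linarith) zero_le_one hsub
  set Gd : ℕ → Finset (ℕ × ℝ) := fun n =>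
    Bad B I J co Y n (B.d n ^ (h (k' n) * ε)) (B.d n ^ (h (k' n) * θF)) with hGd
  have hdens : ∀ᶠ n in (U : Filter ℕ), ((J n).card : ℝ) ≤ 2 * ((Gd n).card : ℝ) := by
    filter_upwards [hk1', hk't.eventually_ge_atTop l0] with n h1 h2
    exact good_of_bad (Real.rpow_pos_of_pos (B.pos n) _) (h1 (k' n) (min_le_right _ _) h2)
  obtain ⟨s₀, hs₀, hok⟩ := b4.exists_wnd hst (fun _ => ((0 : ℕ), (0 : ℝ))) (Gd := Gd) (E := Gd)
    (Eventually.of_forall fun n => bad_subset) (Eventually.of_forall fun n => Subset.refl _)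
    (Sd := fun _ => 2) (Base.Sub.const two_pos) hdens
  have hinc := hInc 1 y m β θR (2 * θF) K 2 Ma B B' I J co F (fun _ => Y) (fun n => h (k' n))
    (coneM Ma) (fun n => B.d n ^ (-(ν Y))) lam
    (fun n => cls (Gd n) (zlab B I co monQ 2 (fun _ => Y) (fun n => h (k' n)) n 0) (s₀ n)) s₀
    (by linarith) hθ2 hθ1 hRig hnum hco hy2 hK1 le_rfl hsub (Eventually.of_forall fun _ => hT)
    hok (ε / 2) (half_pos hε)
  have hc1 : ∀ {t : ℝ}, 0 < t → ∀ C : ℝ, ∀ᶠ n in (U : Filter ℕ), C ≤ B'.d n ^ (-t) := by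
    intro t ht C
    exact Gf356.ev_const_le B' ht C
  obtain ⟨n, ⟨G', hG1, hG2, hG3⟩, hs, hc2, hc3, hJI⟩ := (hinc.and (hs₀.and
    ((hc1 (half_pos hε) 2).and ((hc1 hθF (2 * K ^ 2)).and hN.sub)))).exists
  -- the class
  set cl := cls (Gd n) (zlab B I co monQ 2 (fun _ => Y) (fun n => h (k' n)) n 0) (s₀ n) with hcl
  have hclJ : cl = (J n).filter fun z => nlab B I co monQ 2 n Y z = nlab B I co monQ 2 n Y (s₀ n) := by
    ext z
    rw [hcl, mem_cls, zlab_zero, Finset.mem_filter]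
    exact ⟨fun ⟨g1, g2⟩ => ⟨bad_subset g1, g2⟩, fun ⟨g1, g2⟩ => ⟨bad_full hs g1 g2, g2⟩⟩
  have hsB : s₀ n ∈ Bad B I J co Y n (B.d n ^ (h (k' n) * ε)) (B.d n ^ (h (k' n) * θF)) := hs
  have hsJ : s₀ n ∈ J n := bad_subset hsB
  have hnot := (Finset.mem_filter.1 (show s₀ n ∈ (J n).filter _ from hsB)).2
  apply hnot
  have hd := B.pos n
  have hdp : ∀ t : ℝ, B'.d n ^ t = B.d n ^ (h (k' n) * t) := by
    intro t
    rw [b1 n, ← Real.rpow_mul hd.le]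
  refine ⟨G', ?_, ?_, ?_, ?_⟩
  · intro z hz
    have := hG1 hz
    rw [hclJ] at this
    exact (Finset.mem_filter.1 this).1
  · intro z hz
    have := hG1 hz
    rw [hclJ] at this
    exact (Finset.mem_filter.1 this).2
  · -- share
    have e1 : B'.d n ^ (ε / 2) * (cl.card : ℝ) ≤ (G'.card : ℝ) := hG2
    rw [hclJ] at e1
    refine le_trans ?_ e1
    rw [← hdp ε]
    refine mul_le_mul_of_nonneg_right ?_ (Nat.cast_nonneg _)
    have e2 : B'.d n ^ (ε / 2) = B'.d n ^ (-(ε / 2)) * B'.d n ^ ε := by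
      rw [← Real.rpow_add (B'.pos n)]; congr 1; ring
    rw [e2]
    exact mul_le_mul_of_nonneg_right hc2 (Real.rpow_pos_of_pos (B'.pos n) _).le
  · obtain ⟨a, b, e, g1, g2⟩ := hG3
    obtain ⟨a', b', e', g3, g4⟩ := norm_rel_e (e := e) g1 hK1 (show K ≤ K ^ 2 by nlinarith)
    refine ⟨s₀ n, a', b', e', g3, hJI hsJ, rfl, fun z hz => ?_⟩
    have g5 := g2 z hz
    have k2 : kapQ K 2 = K := by simp [kapQ, Wq400.wtQ]
    have k3 : kapQ K 3 = K := by simp [kapQ, Wq400.wtQ]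
    have k4 : kapQ K 4 = K ^ 2 := by simp [kapQ, Wq400.wtQ]
    have d2 := Real.rpow_pos_of_pos hd (Y 2)
    have d3 := Real.rpow_pos_of_pos hd (Y 3)
    have d4 : B.d n ^ Y 4 = B.d n ^ Y 2 * B.d n ^ Y 3 := by
      rw [hT.w4, Real.rpow_add hd]
    have hKp : 0 < K := by linarith
    have e1 : a * (co n (s₀ n) z 2 / (kapQ K 2 * B.d n ^ Y 2)) +
        b * (co n (s₀ n) z 4 / (kapQ K 4 * B.d n ^ Y 4) +
          co n (s₀ n) z 3 / (kapQ K 3 * B.d n ^ Y 3) *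
            (co n (s₀ n) z 2 / (kapQ K 2 * B.d n ^ Y 2))) - e =
        a * ((co n (s₀ n) z 2 / B.d n ^ Y 2) / K) +
        b * (((co n (s₀ n) z 4 + co n (s₀ n) z 3 * co n (s₀ n) z 2) / B.d n ^ Y 4) / K ^ 2) -
          e := by
      rw [k2, k3, k4, d4]
      field_simp
    have g6 : |a * ((co n (s₀ n) z 2 / B.d n ^ Y 2) / K) +
        b * (((co n (s₀ n) z 4 + co n (s₀ n) z 3 * co n (s₀ n) z 2) / B.d n ^ Y 4) / K ^ 2) -
          e| ≤ B'.d n ^ (2 * θF) := by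
      rw [← e1]
      exact g5
    refine (g4 _ _ _ g6).trans ?_
    rw [← hdp θF]
    have e3 : B'.d n ^ (2 * θF) = B'.d n ^ θF * B'.d n ^ θF := by
      rw [← Real.rpow_add (B'.pos n)]; congr 1; ring
    have e4 : B'.d n ^ (-θF) * B'.d n ^ θF = 1 := by
      rw [← Real.rpow_add (B'.pos n)]; simp
    have p1 := Real.rpow_pos_of_pos (B'.pos n) θF
    calc B'.d n ^ (2 * θF) * (2 * K ^ 2) ≤ B'.d n ^ (2 * θF) * B'.d n ^ (-θF) :=
          mul_le_mul_of_nonneg_left hc3 (Real.rpow_pos_of_pos (B'.pos n) _).le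
      _ = B'.d n ^ θF * (B'.d n ^ (-θF) * B'.d n ^ θF) := by rw [e3]; ring
      _ = B'.d n ^ θF := by rw [e4, mul_one]

end Crest.Agent.R136.WinC344
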