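import Crest.Agent.R136.WinC2_344
import Crest.Agent.R136.Tb6_628

/-!
# R136 (S0187), row E, window half, piece (C) (helper344), part 3: `RigE' → RigInc → NumsE η → WinE η`
-/

set_option autoImplicit false
set_option linter.unusedVariables false
set_option linter.unusedSectionVars false

open Finset Filter Topology

namespace Crest.Agent.R136.WinC344

open Crest.Agent.R138.Ex926 (Base U IsTan cls mem_cls exists_diag)
open Crest.Agent.R136.Net191
open Crest.Agent.R136.NetQ186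
open Crest.Agent.R136.GeoQ186
open Crest.Agent.R136.Sh605
open Crest.Agent.R136.Qg926
open Crest.Agent.R136.WinE323
open Crest.Agent.R136.RgE344
open Crest.Agent.R136.Wq638
open Crest.Agent.R136.NatT550
open Crest.Agent.R136.NatR550
open Crest.Agent.R136.Aw413
open Crest.Agent.R136.Dg262 (X)
open Crest.Agent.R136.Dg219 (mem_mwO)
open Crest.Agent.R136.Top484 (Par4 Dat4)
open Crest.Agent.R136.Tb628
open Crest.Agent.R136.Wk323 (TightX)

/-- the base point, coordinates -/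
theorem base_pt {θ : Fin 3 → ℝ} (h1 : θ 1 ≠ 0) (h02 : θ 0 = θ 2) (w0 R ξ x : ℝ) :
    let Y := X (s0 w0 (R - 1)) (sA (θ 1 - θ 2) (θ 1 - θ 2)) (sB θ (θ 1 - θ 2) (θ 1 - θ 2))
      (pt θ ξ x)
    Y 0 = w0 + (ξ - x) ∧ Y 2 = w0 + (θ 1 - θ 2) * (ξ - x) ∧ Y 3 = w0 ∧
      Y 4 = 2 * w0 + (θ 1 - θ 2) * (ξ - x) ∧ TightX Y := by
  intro Y
  have hY : Y = nat4 w0 (R - 1) (ξ - x) (-(θ 1 * ξ)) (-(θ 2 * ξ) - (θ 1 - θ 2) * x)
      (-(θ 0 * ξ) - (θ 1 - θ 2) * x) := by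
    show X (s0 w0 (R - 1)) (sA (θ 1 - θ 2) (θ 1 - θ 2)) (sB θ (θ 1 - θ 2) (θ 1 - θ 2))
      (pt θ ξ x) = _
    rw [← srf_eq, srf_pt h1]
  rw [hY]
  refine ⟨?_, ?_, ?_, ?_, ⟨?_, ?_, ?_, ?_, ?_, ?_⟩⟩ <;>
    simp only [nat4, Matrix.cons_val, Fin.isValue] <;> (try rw [h02]) <;> ring

/-- **(C)** -/
theorem winE_of {η : ℝ} (hη : η ≤ 1 / 8) (hR : RigE') (hInc : RigInc) (hNums : NumsE η) :
    Re436.WinE η := by
  intro p D I1 π eE fA fB V T w0 R T0 PD ν own c₀ h hE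
  obtain ⟨hV2, hV3, h02⟩ := hE
  have ok := h.tp.ok
  have hη0 : 0 < η := ok.η_pos
  have hk0 : 0 < p.θ 1 - p.θ 2 := by
    have := (h.tp.slots.vis 2 hV2).2
    simp [btQ] at this
    linarith
  have h12 : p.θ 1 ≠ p.θ 2 := by
    intro hc
    rw [hc, sub_self] at hk0
    exact lt_irrefl _ hk0
  by_contra hno
  refine row_nat0 h hη0 (κ := p.θ 1 - p.θ 2) (κ3 := p.θ 1 - p.θ 2) hk0.le le_rfl (Or.inr h12)
    (Or.inl rfl) (hsl_sub ok hη (i := 1) (j := 2) (k := 1) (l := 2) (le_abs_self _)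
      (le_abs_self _)) (fun _ => le_rfl) (fun h3 => absurd h3 hV3) (fun _ => by rw [h02])
    (fun g1 g2 hcone ξ x hh lam A φ r P Hm => ?_)
  rcases hNums p D I1 π eE fA fB V T w0 R T0 PD ν own c₀ h ⟨hV2, hV3, h02⟩ (g1 h12) hcone
    ξ x hh lam A φ r P Hm with hl | ⟨y, m, β, hnum⟩
  · exact hl
  exfalso
  obtain ⟨θR, hθR, hRig⟩ := hR 1 y m β one_pos hnum.y0 hnum.y2 hnum.m0 hnum.m1 hnum.β0
  have hRigAt : RigAtE 1 y m β θR := hRig
  set θF : ℝ := min θR 1 / 4 with hθF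
  have hmin : 0 < min θR 1 := lt_min hθR one_pos
  have hθF0 : 0 < θF := by positivity
  have hθ2 : 2 * θF < θR := by
    have := min_le_left θR 1
    rw [hθF]; linarith
  have hθ1 : 2 * θF < 1 := by
    have := min_le_right θR 1
    rw [hθF]; linarith
  have h1 : p.θ 1 ≠ 0 := by
    intro hc
    exact absurd (h.tp.ok.θ1) (by rw [hc]; exact lt_irrefl _)
  set Y := X (s0 w0 (R - 1)) (sA (p.θ 1 - p.θ 2) (p.θ 1 - p.θ 2))
    (sB p.θ (p.θ 1 - p.θ 2) (p.θ 1 - p.θ 2)) (pt p.θ ξ x) with hY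
  obtain ⟨hY0, hY2, hY3, hY4, hYT⟩ := base_pt h1 h02 w0 R ξ x
  -- the failing ε
  obtain ⟨ε, hε, hfail⟩ : ∃ ε : ℝ, 0 < ε ∧ ∀ w : ℝ, 0 < w → w ≤ ε → (ξ - x) + w < 1 →
      ¬ ∀ᶠ n in (U : Filter ℕ), GoodAt D.B D.I I1
        (couQ D.B D.lev D.w w0 (incQ π D.L eE fA fB)) Y n (D.B.d n ^ (w * ε))
        (D.B.d n ^ (w * θF)) := by
    by_contra hc
    apply hno
    refine ⟨θF, hθF0, fun ε hε => ?_⟩
    by_contra hc2
    apply hc
    refine ⟨ε, hε, fun w hw hwε hvw hev => hc2 ⟨ξ - x, w, Y, ?_, hw, hwε, hvw, ?_, hY0, hY2, hY3,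
      hY4, hev⟩⟩
    · have := P.ξ0; have := P.x1; linarith
    · have hO := P.O
      rw [mem_mwO] at hO
      refine ⟨⟨fun k => (hO.1 k).1.le, fun k e he => ?_⟩, fun k => (hO.1 k).2.le⟩
      rcases hO.2 k e he with ⟨e1, e2, e3⟩ | hlt
      · apply le_of_eq
        show X _ _ _ _ k = ∑ s, (e s : ℝ) * X _ _ _ _ s
        simp only [X]
        rw [e1, e2, e3]
        simp only [mul_add, Finset.sum_add_distrib, Finset.sum_mul]
        congr 1
        · congr 1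
          exact Finset.sum_congr rfl fun s _ => by ring
        · exact Finset.sum_congr rfl fun s _ => by ring
      · exact hlt.le
  -- small scales
  obtain ⟨l0, hl0⟩ : ∃ l0 : ℕ, ∀ l, l0 ≤ l → hh l < min ε (1 / 4) :=
    Filter.eventually_atTop.1 (P.h0.eventually (gt_mem_nhds (lt_min hε (by norm_num))))
  refine win_core hInc (nprof h) (Y := Y) P.hpos (lam := lam) P.tan hnum hRigAt hθF0 hθ2 hθ1
    (F := fun n x => scl (uH D.B D.lev w0 n) (uA D.B D.lev D.w w0 n) (uB D.B D.lev D.w w0 n)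
      (uY D.B D.lev D.w w0 n) (incQ π D.L eE fA fB n x)) (fun n i j => rfl) (fun n i => ?_) hYT
    (fun k e he => (mem_actM.1 he).1) hε (l0 := l0) (fun l hl => ?_)
  · show _ / _ = (0 : ℝ)
    have : (incQ π D.L eE fA fB n i).y2 = 0 := rfl
    rw [this, zero_div]
  · have h3 := hl0 l hl
    have h4 := hfail (hh l) (P.hpos l) (h3.le.trans (min_le_left _ _)) (by
      have := h3.le.trans (min_le_right _ _)
      have := P.ξ1; have := P.x0'
      linarith)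
    rwa [← Ultrafilter.eventually_not] at h4

end Crest.Agent.R136.WinC344
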