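import Crest.Agent.R136.WinE0_323

/-!
# R136 (S0187), row E, window half, piece (C1): bad sets (helper323)

* `glue_fin` : if the bad classes are less than half, good parts of classes glue.
* `bad_ev` : `U` is an ultrafilter.
* `exists_bad` : bad sets with a slow stage.
-/

set_option autoImplicit false
set_option linter.unusedSectionVars false
set_option linter.unusedVariables false

open Filter Topology

namespace Crest.Agent.R136.WinE323

open Finset
open Crest.Agent.R138.Ex926 (Base U cls mem_cls)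

section fin

variable {α β : Type*} [DecidableEq α] [DecidableEq β]

open Classical in
/-- points whose class (label `lab`) has no good part of share `2 t` -/
noncomputable def bad (I1 : Finset α) (lab : α → β) (t : ℝ) (G : β → Finset α → Prop) : Finset α :=
  I1.filter fun y => ∀ S ⊆ cls I1 lab y, 2 * t * ((cls I1 lab y).card : ℝ) ≤ (S.card : ℝ) →
    ¬ G (lab y) S

theorem bad_subset (I1 : Finset α) (lab : α → β) (t : ℝ) (G : β → Finset α → Prop) :
    bad I1 lab t G ⊆ I1 := by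
  classical
  unfold bad
  exact filter_subset _ _

theorem mem_bad {I1 : Finset α} {lab : α → β} {t : ℝ} {G : β → Finset α → Prop} {y : α} :
    y ∈ bad I1 lab t G ↔ y ∈ I1 ∧ ∀ S ⊆ cls I1 lab y,
      2 * t * ((cls I1 lab y).card : ℝ) ≤ (S.card : ℝ) → ¬ G (lab y) S := by
  classical
  unfold bad
  exact mem_filter

theorem cls_of_lab {I1 : Finset α} {lab : α → β} {y z : α} (h : lab z = lab y) :
    cls I1 lab z = cls I1 lab y := by
  ext w
  rw [mem_cls, mem_cls, h]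

/-- the bad set is a union of classes -/
theorem cls_bad {I1 : Finset α} {lab : α → β} {t : ℝ} {G : β → Finset α → Prop} {y : α}
    (hy : y ∈ bad I1 lab t G) : cls (bad I1 lab t G) lab y = cls I1 lab y := by
  ext z
  rw [mem_cls, mem_cls]
  constructor
  · rintro ⟨h1, h2⟩
    exact ⟨(mem_bad.1 h1).1, h2⟩
  · rintro ⟨h1, h2⟩
    refine ⟨mem_bad.2 ⟨h1, ?_⟩, h2⟩
    rw [cls_of_lab h2, h2]
    exact (mem_bad.1 hy).2

/-- **gluing**: if less than half is bad, the good parts of the classes glue -/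
theorem glue_fin {I1 : Finset α} {lab : α → β} {t : ℝ} (ht : 0 ≤ t) {G : β → Finset α → Prop}
    (h : 2 * ((bad I1 lab t G).card : ℝ) < (I1.card : ℝ)) :
    ∃ S ⊆ I1, t * (I1.card : ℝ) ≤ (S.card : ℝ) ∧ ∀ y ∈ S, G (lab y) (cls S lab y) := by
  classical
  set Gd := I1 \ bad I1 lab t G with hGd
  have h1 : ∀ y ∈ Gd, ∃ S ⊆ cls I1 lab y, 2 * t * ((cls I1 lab y).card : ℝ) ≤ (S.card : ℝ) ∧
      G (lab y) S := by
    intro y hy
    obtain ⟨h1, h2⟩ := mem_sdiff.1 hy
    by_contra hc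
    push Not at hc
    exact h2 (mem_bad.2 ⟨h1, fun S hS hS' hG => hc S hS hS' hG⟩)
  have h2 : ∀ c ∈ Gd.image lab, ∃ S ⊆ I1.filter (fun z => lab z = c),
      2 * t * ((I1.filter fun z => lab z = c).card : ℝ) ≤ (S.card : ℝ) ∧ G c S := by
    intro c hc
    obtain ⟨y, hy, rfl⟩ := mem_image.1 hc
    obtain ⟨S, a, b, d⟩ := h1 y hy
    have e : cls I1 lab y = I1.filter (fun z => lab z = lab y) := by
      ext z; rw [mem_cls, mem_filter]
    rw [e] at a b
    exact ⟨S, a, b, d⟩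
  choose! f hf1 hf2 hf3 using h2
  refine ⟨(Gd.image lab).biUnion f, ?_, ?_, ?_⟩
  · intro y hy
    obtain ⟨c, hc, hyc⟩ := mem_biUnion.1 hy
    exact (mem_filter.1 (hf1 c hc hyc)).1
  · have hdis : ∀ c ∈ Gd.image lab, ∀ c' ∈ Gd.image lab, c ≠ c' → Disjoint (f c) (f c') := by
      intro c hc c' hc' hne
      rw [Finset.disjoint_left]
      intro z hz hz'
      exact hne ((mem_filter.1 (hf1 c hc hz)).2.symm.trans (mem_filter.1 (hf1 c' hc' hz')).2)
    rw [card_biUnion hdis, Nat.cast_sum]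
    have h3 : ((Gd.card : ℕ) : ℝ) ≤ ∑ c ∈ Gd.image lab, ((I1.filter fun z => lab z = c).card : ℝ) := by
      rw [card_eq_sum_card_image lab Gd, Nat.cast_sum]
      refine sum_le_sum fun c _ => Nat.cast_le.2 (card_le_card ?_)
      exact filter_subset_filter _ sdiff_subset
    have h4 : (I1.card : ℝ) ≤ 2 * (Gd.card : ℝ) := by
      have e : (Gd.card : ℝ) = (I1.card : ℝ) - ((bad I1 lab t G).card : ℝ) := by
        rw [hGd, card_sdiff_of_subset (bad_subset _ _ _ _),
          Nat.cast_sub (card_le_card (bad_subset _ _ _ _))]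
      rw [e]; linarith
    calc t * (I1.card : ℝ) ≤ t * (2 * (Gd.card : ℝ)) := mul_le_mul_of_nonneg_left h4 ht
      _ = 2 * t * (Gd.card : ℝ) := by ring
      _ ≤ 2 * t * ∑ c ∈ Gd.image lab, ((I1.filter fun z => lab z = c).card : ℝ) :=
          mul_le_mul_of_nonneg_left h3 (by positivity)
      _ = ∑ c ∈ Gd.image lab, 2 * t * ((I1.filter fun z => lab z = c).card : ℝ) := mul_sum _ _ _
      _ ≤ _ := sum_le_sum fun c hc => hf2 c hc
  · intro y hy
    obtain ⟨c, hc, hyc⟩ := mem_biUnion.1 hy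
    have hl : lab y = c := (mem_filter.1 (hf1 c hc hyc)).2
    have e : cls ((Gd.image lab).biUnion f) lab y = f c := by
      ext z
      rw [mem_cls, mem_biUnion]
      constructor
      · rintro ⟨⟨c', hc', hz⟩, hz2⟩
        have := (mem_filter.1 (hf1 c' hc' hz)).2
        have e2 : c' = c := by rw [← this, hz2, hl]
        rwa [e2] at hz
      · intro hz
        exact ⟨⟨c, hc, hz⟩, by rw [hl]; exact (mem_filter.1 (hf1 c hc hz)).2⟩
    rw [e, hl]
    exact hf3 c hc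

end fin

section ev

variable {ι : ℕ → Type*} [∀ n, DecidableEq (ι n)] {β : ℕ → Type*} [∀ n, DecidableEq (β n)]
  {I1 : ∀ n, Finset (ι n)} {lab : ∀ n, ι n → β n}

/-- **bad sets are at least half**, one stage -/
theorem bad_ev {t : ℕ → ℝ} (ht : ∀ n, 0 ≤ t n) {G : ∀ n, β n → Finset (ι n) → Prop}
    (h : ¬ ∀ᶠ n in (U : Filter ℕ), ∃ S ⊆ I1 n, t n * ((I1 n).card : ℝ) ≤ (S.card : ℝ) ∧
      ∀ y ∈ S, G n (lab n y) (cls S (lab n) y)) :
    ∀ᶠ n in (U : Filter ℕ), ((I1 n).card : ℝ) ≤ 2 * ((bad (I1 n) (lab n) (t n) (G n)).card : ℝ) := by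
  have h1 : ∀ᶠ n in (U : Filter ℕ), ¬ ∃ S ⊆ I1 n, t n * ((I1 n).card : ℝ) ≤ (S.card : ℝ) ∧
      ∀ y ∈ S, G n (lab n y) (cls S (lab n) y) := Ultrafilter.eventually_not.2 h
  filter_upwards [h1] with n hn
  by_contra hc
  push Not at hc
  exact hn (glue_fin (ht n) hc)

/-- **bad sets with a slow stage** -/
theorem exists_bad {t : ℕ → ℕ → ℝ} (ht : ∀ l n, 0 ≤ t l n)
    {G : ℕ → ∀ n, β n → Finset (ι n) → Prop} {l₀ : ℕ}
    (h : ∀ l, l₀ ≤ l → ¬ ∀ᶠ n in (U : Filter ℕ), ∃ S ⊆ I1 n,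
      t l n * ((I1 n).card : ℝ) ≤ (S.card : ℝ) ∧ ∀ y ∈ S, G l n (lab n y) (cls S (lab n) y)) :
    ∃ k : ℕ → ℕ, Tendsto k U atTop ∧ ∀ k' : ℕ → ℕ, Tendsto k' U atTop →
      (∀ᶠ n in (U : Filter ℕ), k' n ≤ k n) → ∀ᶠ n in (U : Filter ℕ),
        ((I1 n).card : ℝ) ≤ 2 * ((bad (I1 n) (lab n) (t (k' n) n) (G (k' n) n)).card : ℝ) := by
  have h1 : ∀ l, ∀ᶠ n in (U : Filter ℕ), l₀ ≤ l →
      ((I1 n).card : ℝ) ≤ 2 * ((bad (I1 n) (lab n) (t l n) (G l n)).card : ℝ) := by
    intro l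
    by_cases hl : l₀ ≤ l
    · filter_upwards [bad_ev (ht l) (h l hl)] with n hn _ using hn
    · exact Eventually.of_forall fun n hl' => absurd hl' hl
  obtain ⟨k, hk, hk2⟩ := Crest.Agent.R138.Ex926.exists_diag _ h1
  refine ⟨k, hk, fun k' hk' hle => ?_⟩
  filter_upwards [hk2, hle, hk'.eventually_ge_atTop l₀] with n a b c
  exact a _ b c

end ev

end Crest.Agent.R136.WinE323
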