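import Crest.Agent.R136.Xb1_403

/-!
# R136: the base row for `21` tied, producers of `NE` (helper403)

* `stP S Rs K T Ma` : static data, level slots `S`, resolved slots `Rs` (`top = T` on `Rs`, `0`
  off `Rs`), 400's normalising constants; `stP_ok`.
* `ne_of_ev` : `NE` from a `QWnd` window and 356's evolution for the slots `5, 6, 8, 9`.
* `ne_of_qat` : all slots resolved (`Ev8_356.evoX`).
-/

set_option autoImplicit false
set_option linter.unusedVariables false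
set_option linter.unusedSectionVars false

open Filter Topology

namespace Crest.Agent.R136.Xb403

open Finset Crest.Agent.R136.NetQ186 Crest.Agent.R136.Net191 Crest.Agent.R136.Qg926
open Crest.Agent.R136.Gf356 Crest.Agent.R136.Ev356 Crest.Agent.R136.Aw413
open Crest.Agent.R136.Wq400 Crest.Agent.R136.Fe1355
open Crest.Agent.R138.Ex926 (Base U)

/-- **static data with partial resolution** -/
noncomputable def stP (S Rs : Finset (Fin 11)) (K T : ℝ) (Ma : Mons 11) : WSt 11 where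
  S := S
  kz := 0
  top := fun s => if s ∈ Rs then T else 0
  kap := kapQ K
  Mw := Ma
  R' := T

/-- admissible pairs (level slots, resolved slots) : the legality of the walls of `monQ` -/
structure POk (S Rs : Finset (Fin 11)) : Prop where
  h0 : (0 : Fin 11) ∈ S
  sub : ∀ s ∈ S, s = 0 ∨ s = 2 ∨ s = 3 ∨ s = 4
  SR : S ⊆ Rs
  /-- every wall with a resolved head has a resolved tail -/
  top : ∀ k, ∀ e ∈ monQ.mon k, k ∈ Rs → ∃ s ∈ Rs, e s ≠ 0
  lin : ∀ k, ∀ e ∈ monQ.mon k, k ∈ Rs → k ∉ S → ∃ s ∈ Rs, s ∉ S ∧ e s ≠ 0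
  lev : ∀ k, ∀ e ∈ monQ.mon k, k ∈ S → ∃ s ∈ S, e s ≠ 0

instance decPOk (S Rs : Finset (Fin 11)) : Decidable (POk S Rs) :=
  decidable_of_iff ((0 : Fin 11) ∈ S ∧ (∀ s ∈ S, s = 0 ∨ s = 2 ∨ s = 3 ∨ s = 4) ∧ S ⊆ Rs ∧
    (∀ k, ∀ e ∈ monQ.mon k, k ∈ Rs → ∃ s ∈ Rs, e s ≠ 0) ∧
    (∀ k, ∀ e ∈ monQ.mon k, k ∈ Rs → k ∉ S → ∃ s ∈ Rs, s ∉ S ∧ e s ≠ 0) ∧
    (∀ k, ∀ e ∈ monQ.mon k, k ∈ S → ∃ s ∈ S, e s ≠ 0))
    ⟨fun ⟨a, b, c, d, e, f⟩ => ⟨a, b, c, d, e, f⟩, fun ⟨a, b, c, d, e, f⟩ => ⟨a, b, c, d, e, f⟩⟩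

/-- a wall with value `≤ T` at the head and a tail at `T` -/
theorem wall_of {e : Fin 11 → ℕ} {c : Fin 11 → ℝ} {T : ℝ} (hc : ∀ s, 0 ≤ c s) {s : Fin 11}
    (hs : e s ≠ 0) (hT : T ≤ c s) : T ≤ ∑ s, (e s : ℝ) * c s := by
  have h1 : (1 : ℝ) ≤ e s := by exact_mod_cast Nat.one_le_iff_ne_zero.2 hs
  have h2 : (e s : ℝ) * c s ≤ ∑ s, (e s : ℝ) * c s :=
    single_le_sum (f := fun s => (e s : ℝ) * c s)
      (fun i _ => mul_nonneg (Nat.cast_nonneg _) (hc i)) (mem_univ s)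
  have h3 : c s ≤ (e s : ℝ) * c s := by nlinarith [hc s]
  linarith

theorem wall_zero {e : Fin 11 → ℕ} {c : Fin 11 → ℝ} (hc : ∀ s, 0 ≤ c s) :
    0 ≤ ∑ s, (e s : ℝ) * c s :=
  sum_nonneg fun i _ => mul_nonneg (Nat.cast_nonneg _) (hc i)

/-- **the static data are admissible** -/
theorem stP_ok {S Rs : Finset (Fin 11)} (h : POk S Rs) {K T : ℝ} (hK : 0 < K) (hT : 0 ≤ T)
    {Ma : Mons 11} (hsub : ∀ k, Ma.mon k ⊆ monQ.mon k) :
    (stP S Rs K T Ma).Ok monQ (coneM Ma) where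
  R0 := hT
  leg := leg_cone fun k => Finset.Subset.refl _
  top_leg := by
    have hv : ∀ s, 0 ≤ (stP S Rs K T Ma).top s ∧ (stP S Rs K T Ma).top s ≤ T := fun s => by
      show 0 ≤ (if s ∈ Rs then T else 0) ∧ (if s ∈ Rs then T else 0) ≤ T
      split_ifs <;> constructor <;> linarith
    refine ⟨⟨fun s => (hv s).1, fun k e he => ?_⟩, fun s => (hv s).2⟩
    by_cases hk : k ∈ Rs
    · obtain ⟨s, hs, hs'⟩ := h.top k e (hsub k he) hk
      refine (hv k).2.trans (wall_of (fun s => (hv s).1) hs' ?_)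
      show T ≤ if s ∈ Rs then T else 0
      rw [if_pos hs]
    · have : (stP S Rs K T Ma).top k = 0 := if_neg hk
      rw [this]
      exact wall_zero fun s => (hv s).1
  lin_leg := by
    have hv : ∀ s, 0 ≤ cut S (stP S Rs K T Ma).top 0 s ∧ cut S (stP S Rs K T Ma).top 0 s ≤ T :=
      fun s => by
        unfold cut
        show 0 ≤ (if s ∈ S then (0 : ℝ) else (if s ∈ Rs then T else 0)) ∧
          (if s ∈ S then (0 : ℝ) else (if s ∈ Rs then T else 0)) ≤ T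
        split_ifs <;> constructor <;> linarith
    refine ⟨⟨fun s => (hv s).1, fun k e he => ?_⟩, fun s => (hv s).2⟩
    by_cases hk : k ∈ Rs ∧ k ∉ S
    · obtain ⟨s, hs, hsS, hs'⟩ := h.lin k e (hsub k he) hk.1 hk.2
      refine (hv k).2.trans (wall_of (fun s => (hv s).1) hs' ?_)
      show T ≤ cut S (stP S Rs K T Ma).top 0 s
      rw [cut_of_notMem hsS]
      show T ≤ if s ∈ Rs then T else 0
      rw [if_pos hs]
    · have : cut S (stP S Rs K T Ma).top 0 k = 0 := by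
        by_cases hkS : k ∈ S
        · rw [cut_of_mem hkS]; rfl
        · rw [cut_of_notMem hkS]
          exact if_neg fun hk' => hk ⟨hk', hkS⟩
      show cut S (stP S Rs K T Ma).top 0 k ≤ _
      rw [this]
      exact wall_zero fun s => (hv s).1
  lev_leg := by
    have hv : ∀ s, 0 ≤ cut S 0 (stP S Rs K T Ma).top s ∧ cut S 0 (stP S Rs K T Ma).top s ≤ T :=
      fun s => by
        unfold cut
        show 0 ≤ (if s ∈ S then (if s ∈ Rs then T else 0) else (0 : ℝ)) ∧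
          (if s ∈ S then (if s ∈ Rs then T else 0) else (0 : ℝ)) ≤ T
        split_ifs <;> constructor <;> linarith
    refine ⟨⟨fun s => (hv s).1, fun k e he => ?_⟩, fun s => (hv s).2⟩
    by_cases hk : k ∈ S
    · obtain ⟨s, hs, hs'⟩ := h.lev k e (hsub k he) hk
      refine (hv k).2.trans (wall_of (fun s => (hv s).1) hs' ?_)
      show T ≤ cut S 0 (stP S Rs K T Ma).top s
      rw [cut_of_mem hs]
      show T ≤ if s ∈ Rs then T else 0
      rw [if_pos (h.SR hs)]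
    · have : cut S 0 (stP S Rs K T Ma).top k = 0 := by rw [cut_of_notMem hk]; rfl
      show cut S 0 (stP S Rs K T Ma).top k ≤ _
      rw [this]
      exact wall_zero fun s => (hv s).1
  kzS := h.h0
  kz0 := rfl
  kzw := by
    have := hsub 0
    exact Finset.subset_empty.1 this
  kap := kapQ_pos hK

/-- the base row: level slots `z`, `E`, resolved `C_a, C_b, X_a, X_b` -/
theorem pok_base : POk {0, 2} {0, 2, 5, 6, 8, 9} := by decide +revert

/-- the base row: all flags level -/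
theorem pok_base4 : POk {0, 2, 3, 4} {0, 2, 3, 4, 5, 6, 8, 9} := by decide +revert

variable {ι : ℕ → Type*} [∀ n, DecidableEq (ι n)]

/-! ### the box vectors -/

/-- `bw` with the level slots at the resolution -/
def bwT (S : Finset (Fin 11)) (top : Fin 11 → ℝ) (ca cb xa xb : ℝ) : Fin 11 → ℝ :=
  cut S (bw ca cb xa xb) top

theorem nu_bw (W : Wnd 11 ι) (ca cb xa xb : ℝ) :
    W.nu (bw ca cb xa xb) = W.lam (bwT W.S W.top ca cb xa xb) - W.lam W.top := rfl

/-- legality of the boxes `bw` -/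
theorem legW_bw {W : Wnd 11 ι} {T : ℝ} (h0 : (0 : Fin 11) ∈ W.S) (h2 : (2 : Fin 11) ∈ W.S)
    (hS : ∀ s ∈ W.S, s = 0 ∨ s = 2 ∨ s = 3 ∨ s = 4) (t0 : W.top 0 = T) (t2 : W.top 2 = T)
    (hlev : cut W.S 0 W.top ∈ Leg W.Mw W.R')
    (t5 : T ≤ W.top 5) (t6 : T ≤ W.top 6) (t8 : T ≤ W.top 8) (t9 : T ≤ W.top 9)
    (htop : ∀ s, 0 ≤ W.top s) (hR : T ≤ W.R') (hsub : ∀ k, W.Mw.mon k ⊆ monQ.mon k)
    {ca cb xa xb : ℝ} (ca0 : 0 ≤ ca) (ca1 : ca ≤ T) (cb0 : 0 ≤ cb) (cb1 : cb ≤ T) (xa0 : 0 ≤ xa)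
    (xa1 : xa ≤ T) (xb0 : 0 ≤ xb) (xb1 : xb ≤ T) : bw ca cb xa xb ∈ W.legW := by
  have hn : ∀ s : Fin 11, s = 1 ∨ s = 5 ∨ s = 6 ∨ s = 7 ∨ s = 8 ∨ s = 9 ∨ s = 10 → s ∉ W.S := by
    intro s hs hm
    have := hS s hm
    rcases hs with rfl | rfl | rfl | rfl | rfl | rfl | rfl <;> simp at this
  set c := cut W.S (bw ca cb xa xb) W.top with hc
  have c0 : c 0 = T := by rw [hc, cut_of_mem h0, t0]
  have c2 : c 2 = T := by rw [hc, cut_of_mem h2, t2]
  have c1 : c 1 = 0 := by rw [hc, cut_of_notMem (hn 1 (by simp))]; simp [bw]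
  have c5 : c 5 = ca := by rw [hc, cut_of_notMem (hn 5 (by simp))]; simp [bw]
  have c6 : c 6 = cb := by rw [hc, cut_of_notMem (hn 6 (by simp))]; simp [bw]
  have c7 : c 7 = 0 := by rw [hc, cut_of_notMem (hn 7 (by simp))]; simp [bw]
  have c8 : c 8 = xa := by rw [hc, cut_of_notMem (hn 8 (by simp))]; simp [bw]
  have c9 : c 9 = xb := by rw [hc, cut_of_notMem (hn 9 (by simp))]; simp [bw]
  have c10 : c 10 = 0 := by rw [hc, cut_of_notMem (hn 10 (by simp))]; simp [bw]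
  have c3 : 0 ≤ c 3 := by
    rw [hc]; unfold cut; split_ifs
    · exact htop 3
    · simp [bw]
  have c4 : 0 ≤ c 4 := by
    rw [hc]; unfold cut; split_ifs
    · exact htop 4
    · simp [bw]
  have hT : 0 ≤ T := ca0.trans ca1
  have cge : ∀ s, 0 ≤ c s := by
    intro s
    fin_cases s <;> first
      | exact c3
      | exact c4
      | (simp only [Fin.zero_eta, Fin.mk_one, Fin.reduceFinMk, c0, c1, c2, c5, c6, c7, c8, c9,
          c10] <;> linarith)
      | (simp only [Fin.zero_eta, Fin.mk_one, Fin.reduceFinMk, c0, c1, c2, c5, c6, c7, c8, c9,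
          c10]; exact le_rfl)
  refine ⟨⟨⟨cge, fun k e he => ?_⟩, fun s => ?_⟩, fun s hs => ?_⟩
  · -- walls
    show c k ≤ ∑ s, (e s : ℝ) * c s
    by_cases hk : k ∈ W.S
    · have h1 := hlev.1.wall k e he
      have e1 : cut W.S 0 W.top k = c k := by rw [hc, cut_of_mem hk, cut_of_mem hk]
      rw [e1] at h1
      refine h1.trans (sum_le_sum fun s _ => mul_le_mul_of_nonneg_left ?_ (Nat.cast_nonneg _))
      by_cases hs : s ∈ W.S
      · rw [hc, cut_of_mem hs, cut_of_mem hs]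
      · rw [cut_of_notMem hs]; exact cge s
    · have hQ := hsub k he
      have hcT : c k ≤ T := by
        have hk' : c k = bw ca cb xa xb k := by rw [hc, cut_of_notMem hk]
        rw [hk']
        fin_cases k <;> simp [bw] <;> assumption
      -- all walls of the chart: the head is `≤ T`, either it vanishes or a tail is a level slot
      by_cases hkz : c k = 0
      · rw [hkz]; exact wall_zero cge
      · have : ∀ k, ∀ e ∈ monQ.mon k, (k = 6 ∨ k = 8 ∨ k = 9) → e 0 ≠ 0 ∨ e 2 ≠ 0 := by decide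
        have hk3 : k = 6 ∨ k = 8 ∨ k = 9 := by
          have hk' : c k = bw ca cb xa xb k := by rw [hc, cut_of_notMem hk]
          rw [hk'] at hkz
          have hne5 : k ≠ 5 := by
            rintro rfl
            have h5 : monQ.mon 5 = ∅ := rfl
            rw [h5] at hQ
            exact absurd hQ (Finset.notMem_empty e)
          fin_cases k <;> simp [bw] at hkz hne5 ⊢
        rcases this k e hQ hk3 with h1 | h1
        · exact hcT.trans (wall_of cge h1 c0.ge)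
        · exact hcT.trans (wall_of cge h1 c2.ge)
  · -- `≤ R'`
    show c s ≤ W.R'
    by_cases hs : s ∈ W.S
    · have := hlev.2 s
      rw [cut_of_mem hs] at this
      rw [hc, cut_of_mem hs]; exact this
    · refine le_trans ?_ hR
      rw [hc, cut_of_notMem hs]
      fin_cases s <;> simp [bw] <;> assumption
  · fin_cases s <;> simp only [bw, Matrix.cons_val, Fin.zero_eta, Fin.mk_one, Fin.reduceFinMk] <;>
      first
      | exact htop _
      | exact ca1.trans t5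
      | exact cb1.trans t6
      | exact xa1.trans t8
      | exact xb1.trans t9

/-! ### from 356's evolution to `NE` -/

section prod

variable {W : Wnd 11 ι} {f : ∀ n, ι n → Fq4} {E : ∀ n, Finset (ι n)} {T : ℝ}

/-- bounds of the coordinates and of the flags -/
theorem bd_of (q : QWnd W f) (hkap : ∀ s, W.K0 ≤ W.kap s)
    (hc : ∀ᶠ n in (U : Filter ℕ), W.Good n ∧ E n ⊆ W.Cl n ∧ W.cfg E n = W.cfg0 n (E n)) :
    ∀ᶠ n in (U : Filter ℕ), (∀ k i l, (i, k) ∈ (W.cfg E n).I → (l, k) ∈ (W.cfg E n).I → ∀ s,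
      |(W.cfg E n).rel k i l s| ≤ 1) ∧ ∀ k ∈ (W.cfg E n).Z, ∀ s, |flg W n k s| ≤ 1 := by
  filter_upwards [hc] with n hn
  obtain ⟨g, hE, hcfg⟩ := hn
  have hk1 : ∀ s, W.K0 / W.kap s ≤ 1 := fun s => (div_le_one (q.ok.kap s)).2 (hkap s)
  rw [hcfg]
  refine ⟨fun k i l h1 h2 s => ?_, fun k hk s => ?_⟩
  · rw [rel_cfg0]
    split_ifs
    · rw [abs_zero]; exact zero_le_one
    · exact (q.crd_le g (rep_of_mem hE h1).1 (rep_of_mem hE h2).1 s).trans (hk1 s)
  · exact (q.crd_le g g.s0 (zrep_of_mem hE hk).1 s).trans (hk1 s)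

/-- **`NE` from 356's evolution** -/
theorem ne_of_ev (q : QWnd W f) (hkz : W.kz = 0) (h0S : (0 : Fin 11) ∈ W.S)
    (h2S : (2 : Fin 11) ∈ W.S) (hkap : ∀ s, W.K0 ≤ W.kap s)
    (hc : ∀ᶠ n in (U : Filter ℕ), W.Good n ∧ E n ⊆ W.Cl n ∧ W.cfg E n = W.cfg0 n (E n))
    (T0 : 0 < T)
    (leg : ∀ ca cb xa xb : ℝ, 0 ≤ ca → ca ≤ T → 0 ≤ cb → cb ≤ T → 0 ≤ xa → xa ≤ T → 0 ≤ xb →
      xb ≤ T → bw ca cb xa xb ∈ W.legW)
    (H : RModel W.B' (W.cfg E) 1 T W.legW W.nu W.Dc) {χ : Fin 11 → Fin 11 → Fin 11 → ℝ}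
    (c256 : χ 2 5 6 = 1) (c058 : χ 0 5 8 = 1) (c069 : χ 0 6 9 = 1) (c289 : χ 2 8 9 = 1)
    (hev : ∀ ε : ℝ, 0 < ε → ∀ᶠ n in (U : Filter ℕ), ∀ k₀ k i l, (i, k₀) ∈ (W.cfg E n).I →
      (i, k) ∈ (W.cfg E n).I → (l, k₀) ∈ (W.cfg E n).I → (l, k) ∈ (W.cfg E n).I →
      ∀ s : Fin 11, s = 5 ∨ s = 6 ∨ s = 8 ∨ s = 9 → |(W.cfg E n).rel k i l s -
        evoC χ (ownC χ W n k₀ k (fsl W n i k₀ 2) (fsl W n i k₀ 3))
          ((W.cfg E n).rel k₀ i l) s| ≤ W.B'.d n ^ (T - ε)) :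
    NE W.B' (W.cfg E) W.legW W.nu T W.Dc (fun n k => flg W n k 2) where
  H := H
  T0 := T0
  leg := leg
  zb := by
    filter_upwards [bd_of q hkap hc, q.z_eq hkz hc] with n hn hz k hk
    rw [hz k]
    exact ⟨hn.2 k hk 0, hn.2 k hk 2⟩
  rb := (bd_of q hkap hc).mono fun n hn => hn.1
  ev := fun ε hε => by
    filter_upwards [hev ε hε, q.z_eq hkz hc, q.mot_eq hc] with n hev hz hmot k k' i l h1 h2 h3 h4
    have hkZ : k ∈ (W.cfg E n).Z := H.memZ h1
    have hkZ' : k' ∈ (W.cfg E n).Z := H.memZ h3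
    have key := hev k k' i l h1 h3 h2 h4
    set a := ownC χ W n k k' (fsl W n i k 2) (fsl W n i k 3) with ha
    have m0 : a 0 = (W.cfg E n).z k' - (W.cfg E n).z k := by
      rw [ha, hz k, hz k']
      unfold ownC mot
      rw [if_neg (by decide), if_pos h0S]
      exact (hmot k hkZ k' hkZ').1 0 (by simp)
    have m2 : a 2 = flg W n k' 2 - flg W n k 2 := by
      rw [ha]
      unfold ownC mot
      rw [if_neg (by decide), if_pos h2S]
      exact (hmot k hkZ k' hkZ').1 2 (by simp)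
    rw [← m0, ← m2]
    refine ⟨?_, ?_, ?_, ?_⟩
    · have := key 5 (by simp)
      simpa only [evoC, Matrix.cons_val] using this
    · have := key 6 (by simp)
      simpa only [evoC, Matrix.cons_val, c256, one_mul] using this
    · have := key 8 (by simp)
      simpa only [evoC, Matrix.cons_val, c058, one_mul] using this
    · have := key 9 (by simp)
      simpa only [evoC, Matrix.cons_val, c058, c069, c289, one_mul] using this

/-- the four walls of the base row -/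
structure MaE (Ma : Mons 11) : Prop where
  m256 : mv 2 5 ∈ Ma.mon 6
  m058 : mv 0 5 ∈ Ma.mon 8
  m069 : mv 0 6 ∈ Ma.mon 9
  m289 : mv 2 8 ∈ Ma.mon 9
  r : mv 0 1 ∉ Ma.mon 7

/-- **`NE` in a window of 356's class `QAt`**, all slots resolved -/
theorem ne_of_qat {Ma : Mons 11} (h : QAt W f Ma) (hM : MaE Ma) (hkz : W.kz = 0)
    (h2S : (2 : Fin 11) ∈ W.S)
    (hc : ∀ᶠ n in (U : Filter ℕ), W.Good n ∧ E n ⊆ W.Cl n ∧ W.cfg E n = W.cfg0 n (E n))
    (T0 : 0 < T) (ht : ∀ s, T ≤ W.top s)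
    (leg : ∀ ca cb xa xb : ℝ, 0 ≤ ca → ca ≤ T → 0 ≤ cb → cb ≤ T → 0 ≤ xa → xa ≤ T → 0 ≤ xb →
      xb ≤ T → bw ca cb xa xb ∈ W.legW)
    (H : RModel W.B' (W.cfg E) 1 T W.legW W.nu W.Dc) :
    NE W.B' (W.cfg E) W.legW W.nu T W.Dc (fun n k => flg W n k 2) := by
  have hK0 := h.q.ok.K0_one
  refine ne_of_ev h.q hkz h.S0 h2S (fun s => by have := h.kap4 s; linarith) hc T0 leg H
    (χ := chi Ma) (if_pos hM.m256) (if_pos hM.m058) (if_pos hM.m069) (if_pos hM.m289) ?_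
  intro ε hε
  filter_upwards [h.evoX hc T0.le ht hε] with n hn k₀ k i l h1 h2 h3 h4 s hs
  refine hn k₀ k i l h1 h2 h3 h4 s (h.q.notMem ?_)
  rcases hs with rfl | rfl | rfl | rfl <;> simp

end prod

end Crest.Agent.R136.Xb403
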