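import Crest.Agent.R136.ReE0_436
import Crest.Agent.R136.Tb5_628
import Crest.Agent.R136.Xb2_403
import Crest.Agent.R136.WkE2_344
import Crest.Agent.R136.WkH4_626

/-!
# R136 (S0187), row E, window half: literals (helper323)

`F_b` is NOT resolved (it may have positive rate in case E), the level slots are `z, E, F_a`:
the direction vector `(E, F_a + F_b E)` is a function of the level cell, the block coordinates
`(C_b, P + F_b C_b)`, `(X_b, N + F_b X_b)` do not see the flag `F_b`, isotropic boxes are the same.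

* `rsE`, `stE`, `bE` : static data and boxes.
* `NumE` : the numbers of a tangent of case E.
* `RelE`, `RigAt`.
* `RigInc` : piece (A);  `NumsE` : piece (B);  `RigE' → RigInc → NumsE η → WinE η` : piece (C).
-/

set_option autoImplicit false
set_option linter.unusedSectionVars false
set_option linter.unusedVariables false

open Filter Topology

namespace Crest.Agent.R136.WinE323

open Finset
open Crest.Agent.R136.Sh605
open Crest.Agent.R136.Net186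
open Crest.Agent.R136.NetQ186
open Crest.Agent.R136.Qg926
open Crest.Agent.R136.Net191
open Crest.Agent.R138.Ex926 (Base U)
open Crest.Agent.R136.Gf356
open Crest.Agent.R136.RgE344
open Crest.Agent.R136.Xb403 (stP POk)
open Crest.Agent.R136.Aw413
open Crest.Agent.R136.Wk323 (TightX)
open Crest.Agent.R136.Lq196 Crest.Agent.R136.Wq638
open Crest.Agent.R136.NatT550 Crest.Agent.R136.NatR550
open Crest.Agent.R136.Dg219
open Crest.Agent.R136.Dg262 (X)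
open Crest.Agent.R136.Top484 (Par4 Dat4)
open Crest.Agent.R136.Tb628 (eCa RowPt Hom RecS sA sB s0)

/-- resolved slots of the windows of case E: all but `F_b` -/
def rsE : Finset (Fin 11) := {0, 1, 2, 4, 5, 6, 7, 8, 9, 10}

theorem pok_E : POk {0, 2, 4} rsE := by
  unfold rsE
  decide +revert

/-- static data of the windows of case E -/
noncomputable abbrev stE (K x : ℝ) (Ma : Mons 11) : WSt 11 := stP {0, 2, 4} rsE K x Ma

/-- boxes: `z, E, F_a : x`, `F_b, curvature : 0`, `C_a : c`, `C_b, P : d`, `X_a : a`, `X_b, N : b` -/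
def bE (x a b c d : ℝ) : Fin 11 → ℝ := ![x, 0, x, 0, x, c, d, d, a, b, b]

/-- **the numbers of a tangent of case E** -/
structure NumE (lam : (Fin 11 → ℝ) → ℝ) (y m β : ℝ) : Prop where
  y0 : 0 ≤ y
  y2 : y < 2
  m0 : 0 < m
  m1 : m ≤ 1
  β0 : 0 ≤ β
  form : ∀ x a b c d : ℝ, 0 ≤ d → d ≤ a → a ≤ x → 0 ≤ b → b ≤ x → 0 ≤ c → c ≤ x →
    lam (bE x a b c d) = lam (bE x 0 0 0 0) - (a + y * b + m * c + β * d)
  dens : ∀ x : ℝ, 0 ≤ x → lam ![x, x, x, 0, x, x, x, x, x, x, x] ≤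
    lam ![0, x, 0, 0, 0, x, x, x, x, x, x] + lam ![x, 0, x, 0, x, 0, 0, 0, 0, 0, 0]
  frost : ∀ y : ℝ, 0 ≤ y → lam (Pi.single 0 y) ≤ -y

section

variable {ι : ℕ → Type*} [∀ n, DecidableEq (ι n)]

/-- **the relation** in the coordinates of the base incidence, up to `δ` -/
def RelF (W : Wnd 11 ι) (n : ℕ) (δ : ℝ) (G' : Finset (ι n)) : Prop :=
  ∃ a b e : ℝ, a ^ 2 + b ^ 2 = 1 ∧ ∀ y ∈ G',
    |a * W.crd n (W.s₀ n) y 2 + b * (W.crd n (W.s₀ n) y 4 +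
      W.crd n (W.s₀ n) y 3 * W.crd n (W.s₀ n) y 2) - e| ≤ δ

end

/-- `RigE'` at fixed numbers -/
def RigAtE (x y m β θ : ℝ) : Prop :=
  ∀ (B : Base) (G : ℕ → RCfg (Fin 11)) (Leg : Set (Fin 11 → ℝ)) (ν : (Fin 11 → ℝ) → ℝ)
    (D R : ℝ) (T : ℕ → ℕ → Ln4) (E fa fb : ℕ → ℕ → ℝ),
    RModel B G 1 R Leg ν D → x ≤ R → AbsE B G x T E fa fb → ProfE Leg ν x y m β →
    ∀ ε : ℝ, 0 < ε → ∀ᶠ n in (U : Filter ℕ), ∃ (u : Fin 2 → ℝ) (e0 c0 : ℝ),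
      u 0 ^ 2 + u 1 ^ 2 = 1 ∧ ∃ I' ⊆ (G n).I, B.d n ^ ε * ((G n).I.card : ℝ) ≤ (I'.card : ℝ) ∧
        ∀ l k, (l, k) ∈ I' →
          |u 0 * eE E fa fb n k 0 + u 1 * eE E fa fb n k 1 - e0| ≤ B.d n ^ θ ∧
          |u 0 * wE T n l 0 + u 1 * wE T n l 1 - e0 * (T n l).v 1 - c0| ≤ B.d n ^ θ

/-- **piece (A)**: `RigE'` on the incidences of one window -/
def RigInc : Prop :=
  ∀ (x y m β θ θ' K C : ℝ) (Ma : Mons 11) (B B' : Base) (I J : ℕ → Finset (ℕ × ℝ))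
    (co : ∀ n : ℕ, ℕ × ℝ → ℕ × ℝ → Fin 11 → ℝ) (F : ℕ → ℕ × ℝ → Fq4) (Y : ℕ → Fin 11 → ℝ)
    (w : ℕ → ℝ) (D : Set (Fin 11 → ℝ)) (T : ℕ → ℝ) (lam : (Fin 11 → ℝ) → ℝ)
    (Cl : ℕ → Finset (ℕ × ℝ)) (s₀ : ℕ → ℕ × ℝ),
    0 < θ' → θ' < θ → θ' < x → RigAtE x y m β θ → NumE lam y m β →
    (∀ n i j, co n i j = coQ (F n i) (F n j)) → (∀ n i, (F n i).y2 = 0) →
    1 ≤ K → 2 * cK0 monQ C ≤ K → (∀ k, Ma.mon k ⊆ monQ.mon k) →
    (∀ᶠ n in (U : Filter ℕ), TightX (Y n)) →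
    ((stE K x Ma).wnd B B' I J co monQ C Y w D T lam Cl s₀).Ok →
    ∀ ε : ℝ, 0 < ε → ∀ᶠ n in (U : Filter ℕ), ∃ G' ⊆ Cl n,
      B'.d n ^ ε * ((Cl n).card : ℝ) ≤ (G'.card : ℝ) ∧
      RelF ((stE K x Ma).wnd B B' I J co monQ C Y w D T lam Cl s₀) n (B'.d n ^ θ') G'

/-- **piece (B)**: the numbers at a point of the natural plane `κ = κ3 = θ 1 - θ 2` -/
def NumsE (η : ℝ) : Prop :=
  ∀ (p : Par4) (D : Dat4) (I1 : ℕ → Finset (ℕ × ℝ)) (π : Equiv.Perm (Fin 3))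
    (eE fA fB : ℕ → ℕ × ℝ → ℝ) (V T : Fin 11 → Prop) (w0 R T0 : ℝ) (PD : Set (Fin 11 → ℝ))
    (ν own : (Fin 11 → ℝ) → ℝ) (c₀ : ℝ),
    Thick η p D I1 π eE fA fB V T w0 R T0 PD ν own c₀ → TopB550.pE p V →
    RecS p.θ w0 R ν (eCa 1) (p.q 1) →
    coneM (actM monQ (s0 w0 (R - 1)) (sA (p.θ 1 - p.θ 2) (p.θ 1 - p.θ 2))
      (sB p.θ (p.θ 1 - p.θ 2) (p.θ 1 - p.θ 2))) = coneN →
    ∀ (ξ x : ℝ) (h : ℕ → ℝ) (lam : (Fin 11 → ℝ) → ℝ) (A : ℝ × ℝ)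
      (φ : ℕ → (Fin 11 → ℝ) → ℝ) (r : ℕ → ℝ),
      RowPt D.B D.I I1 (couQ D.B D.lev D.w w0 (incQ π D.L eE fA fB)) p.θ w0 R ν V T
        (s0 w0 (R - 1)) (sA (p.θ 1 - p.θ 2) (p.θ 1 - p.θ 2))
        (sB p.θ (p.θ 1 - p.θ 2) (p.θ 1 - p.θ 2)) ξ x h lam A φ r →
      Hom (s0 w0 (R - 1)) (sA (p.θ 1 - p.θ 2) (p.θ 1 - p.θ 2))
        (sB p.θ (p.θ 1 - p.θ 2) (p.θ 1 - p.θ 2)) φ →
      A.1 ≤ -(4 + (p.θ 1 - p.θ 2) + (p.θ 1 - p.θ 2)) ∨ ∃ y m β : ℝ, NumE lam y m β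

end Crest.Agent.R136.WinE323
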