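import Crest.Agent.R136.WinE2_323
import Crest.Agent.R136.WinE0_323

/-!
# R136 (S0187), row E, window half, piece (A) (helper323)

* `RCfg.wr`, `RModel.wr` : another relative coordinate with the same boxes (for a part of the legal
  exponents).
* `FWin` : windows with level slots `z, E, F_a`, `F_b` not resolved; `FWin.absE`.
* `rigInc : RigInc`.
-/

set_option autoImplicit false
set_option linter.unusedSectionVars false
set_option linter.unusedVariables false

open Filter Topology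

namespace Crest.Agent.R136.WinE323

open Finset
open Crest.Agent.R136.Sh605
open Crest.Agent.R136.Net186
open Crest.Agent.R136.NetQ186
open Crest.Agent.R136.Qg926
open Crest.Agent.R136.Net191
open Crest.Agent.R138.Ex926 (Base U cls mem_cls le_count_mul)
open Crest.Agent.R136.Gf356
open Crest.Agent.R136.RgE344
open Crest.Agent.R136.Wk323 (tq s4 s4_tq tq_ne tq_s4 uu nI st coQ_st co4_nrm lrep lrep_spec Tight nrm
  Unit4 Near4 co4_lip coA coA_eq abs_mul_le fAll TightX tight_units wtR)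
open Crest.Agent.R136.Wk323.LWin (lT lfb mem_rep mem_lrep mem_zrep)

/-! ### changing the relative coordinates -/

section wr

variable {κ : Type} {B : Base} {G : ℕ → RCfg κ} {Leg Leg' : Set (κ → ℝ)} {ν : (κ → ℝ) → ℝ}
  {D σ R : ℝ}

/-- the same configuration with other relative coordinates -/
def wr (G : RCfg κ) (rel : ℕ → ℕ → ℕ → κ → ℝ) : RCfg κ :=
  { ρ := G.ρ, L := G.L, Z := G.Z, I := G.I, z := G.z, rel := rel }

theorem runif_wr (H : RUnif B G Leg ν D) (rel : ℕ → ℕ → ℕ → ℕ → κ → ℝ) (hL : Leg' ⊆ Leg)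
    (hr : ∀ n k i, (i, k) ∈ (G n).I → ∀ j, rel n k i i j = 0)
    (h1 : ∀ p ∈ Leg', ∀ ε : ℝ, 0 < ε → ∀ᶠ n in (U : Filter ℕ), ∀ k i l, (i, k) ∈ (G n).I →
      (l, k) ∈ (G n).I → (G n).loose p ε k i l → (wr (G n) (rel n)).loose p (2 * ε) k i l)
    (h2 : ∀ p ∈ Leg', ∀ ε : ℝ, 0 < ε → ∀ᶠ n in (U : Filter ℕ), ∀ k i l, (i, k) ∈ (G n).I →
      (l, k) ∈ (G n).I → (wr (G n) (rel n)).loose p ε k i l → (G n).loose p (2 * ε) k i l) :
    RUnif B (fun n => wr (G n) (rel n)) Leg' ν (4 * D) where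
  D1 := by have := H.D1; linarith
  base := H.base
  sub := H.sub
  nonempty := H.nonempty
  refl := hr
  symm := by
    intro p hp ε hε
    have hD := H.D1
    filter_upwards [h2 p hp ε hε, H.symm p (hL hp) (2 * ε) (by positivity),
      h1 p hp (D * (2 * ε)) (by positivity)] with n a b c k i l hi hl h
    have := c k l i hl hi (b k i l hi hl (a k i l hi hl h))
    rwa [show 2 * (D * (2 * ε)) = 4 * D * ε by ring] at this
  tri := by
    intro p hp ε hε
    have hD := H.D1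
    filter_upwards [h2 p hp ε hε, H.tri p (hL hp) (2 * ε) (by positivity),
      h1 p hp (D * (2 * ε)) (by positivity)] with n a b c k i l m hi hl hm h h'
    have := c k i m hi hm (b k i l m hi hl hm (a k i l hi hl h) (a k l m hl hm h'))
    rwa [show 2 * (D * (2 * ε)) = 4 * D * ε by ring] at this
  low := by
    intro p hp ε hε
    filter_upwards [h1 p hp (ε / 2) (by positivity), H.low p (hL hp) (ε / 2) (by positivity)]
      with n a b i k hi
    refine le_trans ?_ ((b i k hi).trans (Nat.cast_le.2 (card_le_card fun l hl => ?_)))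
    · refine Real.rpow_le_rpow_of_exponent_ge (B.pos n) (B.lt n).le (by linarith)
    · rw [RCfg.mem_box] at hl ⊢
      have hm := (RCfg.mem_slice.1 hl.1).2
      have := a k i l hi hm hl.2
      rw [show 2 * (ε / 2) = ε by ring] at this
      exact ⟨hl.1, this⟩
  up := by
    intro p hp ε hε
    have hD := H.D1
    filter_upwards [h2 p hp ε hε, H.up p (hL hp) (2 * ε) (by positivity)] with n a b i k hi
    refine le_trans (Nat.cast_le.2 (card_le_card fun l hl => ?_)) ((b i k hi).trans ?_)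
    · rw [RCfg.mem_box] at hl ⊢
      have hm := (RCfg.mem_slice.1 hl.1).2
      exact ⟨hl.1, a k i l hi hm hl.2⟩
    · refine Real.rpow_le_rpow_of_exponent_ge (B.pos n) (B.lt n).le ?_
      nlinarith

/-- **the same model in other relative coordinates** -/
theorem rmodel_wr (H : RModel B G σ R Leg ν D) (rel : ℕ → ℕ → ℕ → ℕ → κ → ℝ) (hL : Leg' ⊆ Leg)
    (hr : ∀ n k i, (i, k) ∈ (G n).I → ∀ j, rel n k i i j = 0)
    (h1 : ∀ p ∈ Leg', ∀ ε : ℝ, 0 < ε → ∀ᶠ n in (U : Filter ℕ), ∀ k i l, (i, k) ∈ (G n).I →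
      (l, k) ∈ (G n).I → (G n).loose p ε k i l → (wr (G n) (rel n)).loose p (2 * ε) k i l)
    (h2 : ∀ p ∈ Leg', ∀ ε : ℝ, 0 < ε → ∀ᶠ n in (U : Filter ℕ), ∀ k i l, (i, k) ∈ (G n).I →
      (l, k) ∈ (G n).I → (wr (G n) (rel n)).loose p ε k i l → (G n).loose p (2 * ε) k i l) :
    RModel B (fun n => wr (G n) (rel n)) σ R Leg' ν (4 * D) :=
  { runif_wr H.toRUnif rel hL hr h1 h2 with
    σ_nonneg := H.σ_nonneg
    σ_le := H.σ_le
    line := H.line
    slice := H.slice
    frost := H.frost }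

end wr

/-! ### incidences without `F_b` -/

/-- the incidence with the intrinsic slope `(E, F_a + F_b E)`, `F_b := 0` -/
noncomputable def mI (i : Fl4) : Fl4 := ⟨i.t, i.z, i.e, i.fa + i.fb * i.e, 0⟩

theorem co4_mI4 (i j : Fl4) : co4 (mI i) (mI j) 4 = co4 i j 4 := by simp [co4, mI]
theorem co4_mI5 (i j : Fl4) : co4 (mI i) (mI j) 5 = co4 i j 5 := by simp [co4, mI]
theorem co4_mI6 (i j : Fl4) : co4 (mI i) (mI j) 6 = co4 i j 6 + i.fb * co4 i j 5 := by
  simp [co4, mI]; ring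
theorem co4_mI7 (i j : Fl4) : co4 (mI i) (mI j) 7 = co4 i j 7 := by simp [co4, mI]
theorem co4_mI8 (i j : Fl4) : co4 (mI i) (mI j) 8 = co4 i j 8 := by simp [co4, mI]
theorem co4_mI9 (i j : Fl4) : co4 (mI i) (mI j) 9 = co4 i j 9 + i.fb * co4 i j 8 := by
  simp [co4, mI]; ring

theorem co4_self (i : Fl4) (s : Fin 10) : co4 i i s = 0 := by
  fin_cases s <;> simp [co4]

/-! ### the window -/

section fwin

variable {ι : ℕ → Type*} [∀ n, DecidableEq (ι n)]

/-- hypotheses on the window, `F_b` is not resolved -/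
structure FWin (W : Wnd 11 ι) (F : ∀ n, ι n → Fq4) (x : ℝ) : Prop where
  ok : W.Ok
  co : ∀ n i j, W.co n i j = coQ (F n i) (F n j)
  str : ∀ n i, (F n i).y2 = 0
  S : W.S = {0, 2, 4}
  kz : W.kz = 0
  tight : ∀ᶠ n in (U : Filter ℕ), Tight (uu W n)
  kap : ∀ s, 2 * W.K0 ≤ W.kap s
  x0 : 0 ≤ x
  top3 : W.top 3 = 0
  top : ∀ s, s ≠ 3 → W.top s = x

/-- the line slots -/
def ls6 : Finset (Fin 11) := {5, 6, 7, 8, 9, 10}

/-- relative coordinates without `F_b` -/
noncomputable def relF (W : Wnd 11 ι) (F : ∀ n, ι n → Fq4) (n k i l : ℕ) (s : Fin 11) : ℝ :=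
  if s ∈ ls6 then co4 (mI (nI W F n (W.rep n i k))) (mI (nI W F n (W.rep n l k))) (s4 s) else 0

/-- `E` at the level cell `k` -/
noncomputable def eF (W : Wnd 11 ι) (F : ∀ n, ι n → Fq4) (n k : ℕ) : ℝ := (nI W F n (W.zrep n k)).e

/-- `F_a + F_b E` at the level cell `k` -/
noncomputable def gF (W : Wnd 11 ι) (F : ∀ n, ι n → Fq4) (n k : ℕ) : ℝ :=
  (mI (nI W F n (W.zrep n k))).fa

namespace FWin

variable {W : Wnd 11 ι} {F : ∀ n, ι n → Fq4} {x : ℝ} (H : FWin W F x)

include H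

/-- coordinates of normalised incidences = normalised coordinates -/
theorem co4_nI {n : ℕ} (hu : Tight (uu W n)) (i j : ι n) (s : Fin 10) :
    co4 (nI W F n i) (nI W F n j) s = W.crd n i j (tq s) := by
  unfold nI
  rw [co4_nrm hu]
  unfold Wnd.crd
  rw [H.co, coQ_st (H.str n i) (H.str n j) (tq_ne s), s4_tq]
  rfl

/-- a box in normalised coordinates -/
theorem crd_le {n : ℕ} {c : Fin 11 → ℝ} {i j : ι n} (h : W.bx n c W.K0 i j) (s : Fin 11) :
    |W.crd n i j s| ≤ W.B'.d n ^ c s / 2 := by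
  have hX : 0 < W.B.d n ^ W.X n s := Real.rpow_pos_of_pos (W.B.pos n) _
  have hc : 0 < W.B'.d n ^ c s := Real.rpow_pos_of_pos (W.B'.pos n) _
  have hk := H.ok.kap s
  have hpos : 0 < W.kap s * W.B.d n ^ W.X n s := mul_pos hk hX
  unfold Wnd.crd
  rw [abs_div, abs_of_pos hpos, div_le_iff₀ hpos]
  refine (h s).trans ?_
  have h1 := H.kap s
  have h2 : 0 ≤ W.B.d n ^ W.X n s * W.B'.d n ^ c s := (mul_pos hX hc).le
  have h3 := mul_le_mul_of_nonneg_right h1 h2
  linarith

/-- two incidences of the class -/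
theorem crd0 {n : ℕ} (g : W.Good n) {i j : ι n} (hi : i ∈ W.Cl n) (hj : j ∈ W.Cl n)
    (s : Fin 11) : |W.crd n i j s| ≤ 1 / 2 := by
  have := H.crd_le (H.ok.near0 g hi hj) s
  rwa [Pi.zero_apply, Real.rpow_zero] at this

/-- all incidences of the class are in half of the unit box -/
theorem half {n : ℕ} (g : W.Good n) (hu : Tight (uu W n)) {i : ι n} (hi : i ∈ W.Cl n) :
    (∀ m, |(nI W F n i).t.v m| ≤ 1 / 2) ∧ (∀ m, |(nI W F n i).t.p m| ≤ 1 / 2) ∧
      |(nI W F n i).z| ≤ 1 / 2 ∧ |(nI W F n i).e| ≤ 1 / 2 ∧ |(nI W F n i).fa| ≤ 1 / 2 ∧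
      |(nI W F n i).fb| ≤ 1 / 2 := by
  have h0 : ∀ s : Fin 10, |co4 (st (F n (W.s₀ n))) (st (F n i)) s / uu W n s| ≤ 1 / 2 := by
    intro s
    have h1 := H.crd0 g g.s0 hi (tq s)
    have e : co4 (st (F n (W.s₀ n))) (st (F n i)) s / uu W n s = W.crd n (W.s₀ n) i (tq s) := by
      unfold Wnd.crd
      rw [H.co, coQ_st (H.str n _) (H.str n i) (tq_ne s), s4_tq]
      rfl
    rw [e]
    exact h1
  refine ⟨?_, ?_, h0 0, h0 1, h0 3, h0 2⟩
  · intro m
    fin_cases m
    · exact h0 6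
    · exact h0 4
    · exact h0 5
  · intro m
    fin_cases m
    · exact h0 9
    · exact h0 7
    · exact h0 8

theorem unit {n : ℕ} (g : W.Good n) (hu : Tight (uu W n)) {i : ι n} (hi : i ∈ W.Cl n) :
    Unit4 (nI W F n i) := by
  obtain ⟨h1, h2, h3, h4, h5, h6⟩ := H.half g hu hi
  exact ⟨fun m => (h1 m).trans (by norm_num), fun m => (h2 m).trans (by norm_num),
    h3.trans (by norm_num), h4.trans (by norm_num), h5.trans (by norm_num),
    h6.trans (by norm_num)⟩

/-- the intrinsic slope is bounded -/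
theorem unitM {n : ℕ} (g : W.Good n) (hu : Tight (uu W n)) {i : ι n} (hi : i ∈ W.Cl n) :
    Unit4 (mI (nI W F n i)) := by
  obtain ⟨h1, h2, h3, h4, h5, h6⟩ := H.half g hu hi
  refine ⟨fun m => (h1 m).trans (by norm_num), fun m => (h2 m).trans (by norm_num),
    h3.trans (by norm_num), h4.trans (by norm_num), ?_, ?_⟩
  · show |(nI W F n i).fa + (nI W F n i).fb * (nI W F n i).e| ≤ 1
    have := abs_mul_le h6 h4
    exact (abs_add_le _ _).trans (by linarith)
  · show |(0 : ℝ)| ≤ 1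
    rw [abs_zero]; exact zero_le_one

/-- same fat line -/
theorem lineC {n : ℕ} (g : W.Good n) (hu : Tight (uu W n)) {i j : ι n} (hi : i ∈ W.Cl n)
    (hj : j ∈ W.Cl n) (hl : W.lc n i = W.lc n j) (s : Fin 10) (h0 : 4 ≤ s) :
    |co4 (nI W F n i) (nI W F n j) s| ≤ W.B'.d n ^ x := by
  rw [H.co4_nI hu]
  refine (H.crd_le (H.ok.near_lc g hi hj hl) (tq s)).trans ?_
  have hS : tq s ∉ W.S := by
    rw [H.S]
    revert h0
    fin_cases s <;> decide
  have h3 : tq s ≠ 3 := by
    revert h0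
    fin_cases s <;> decide
  rw [cut_of_notMem hS, H.top _ h3]
  have h4 : 0 < W.B'.d n ^ x := Real.rpow_pos_of_pos (W.B'.pos n) _
  linarith

/-- same level cell: `z`, `E` and the intrinsic `F_a + F_b E` -/
theorem levC {n : ℕ} (g : W.Good n) (hu : Tight (uu W n)) {i j : ι n} (hi : i ∈ W.Cl n)
    (hj : j ∈ W.Cl n) (hl : W.zc n i = W.zc n j) :
    |(nI W F n j).z - (nI W F n i).z| ≤ W.B'.d n ^ x ∧
      |(nI W F n j).e - (nI W F n i).e| ≤ W.B'.d n ^ x ∧
      |(mI (nI W F n j)).fa - (mI (nI W F n i)).fa| ≤ 2 * W.B'.d n ^ x := by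
  have key : ∀ s : Fin 10, tq s ∈ W.S → tq s ≠ 3 →
      |co4 (nI W F n i) (nI W F n j) s| ≤ W.B'.d n ^ x := by
    intro s hS h3
    rw [H.co4_nI hu]
    refine (H.crd_le (H.ok.near_zc g hi hj hl) (tq s)).trans ?_
    rw [cut_of_mem hS, H.top _ h3]
    have h4 : 0 < W.B'.d n ^ x := Real.rpow_pos_of_pos (W.B'.pos n) _
    linarith
  have k0 := key 0 (by rw [H.S]; decide) (by decide)
  have k1 := key 1 (by rw [H.S]; decide) (by decide)
  have k3 := key 3 (by rw [H.S]; decide) (by decide)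
  refine ⟨k0, k1, ?_⟩
  change |((nI W F n j).fa - (nI W F n i).fa) + (nI W F n i).e *
    ((nI W F n j).fb - (nI W F n i).fb)| ≤ _ at k3
  change |(nI W F n j).e - (nI W F n i).e| ≤ _ at k1
  have c := abs_mul_le (H.unit g hu hj).fb k1
  have e : (mI (nI W F n j)).fa - (mI (nI W F n i)).fa = (((nI W F n j).fa - (nI W F n i).fa) +
      (nI W F n i).e * ((nI W F n j).fb - (nI W F n i).fb)) + (nI W F n j).fb *
      ((nI W F n j).e - (nI W F n i).e) := by
    show ((nI W F n j).fa + (nI W F n j).fb * (nI W F n j).e) -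
      ((nI W F n i).fa + (nI W F n i).fb * (nI W F n i).e) = _
    ring
  rw [e]
  refine (abs_add_le _ _).trans ?_
  linarith

/-- the heights of the configuration are the normalised heights of `zrep` -/
theorem z_eq {n : ℕ} (k : ℕ) : W.crd n (W.s₀ n) (W.zrep n k) W.kz = (nI W F n (W.zrep n k)).z := by
  rw [H.kz]
  unfold Wnd.crd
  rw [H.co, coQ_st (H.str n _) (H.str n _) (by decide)]
  rfl

/-- the absolute incidence of `(l, k)` is in the unit box and close to the representative -/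
theorem abs_near {n : ℕ} (g : W.Good n) (hu : Tight (uu W n)) {l k : ℕ}
    (h : W.rep n l k ∈ W.Cl n ∧ W.lc n (W.rep n l k) = l ∧ W.zc n (W.rep n l k) = k) :
    Unit4 ⟨lT W F n l, W.crd n (W.s₀ n) (W.zrep n k) W.kz, eF W F n k, gF W F n k, 0⟩ ∧
      Near4 (mI (nI W F n (W.rep n l k))) ⟨lT W F n l, W.crd n (W.s₀ n) (W.zrep n k) W.kz,
        eF W F n k, gF W F n k, 0⟩ (8 * W.B'.d n ^ x) := by
  obtain ⟨h1, h2, h3⟩ := h
  obtain ⟨a1, a2⟩ := mem_lrep h1 h2
  obtain ⟨b1, b2⟩ := mem_zrep h1 h3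
  have hη : 0 < W.B'.d n ^ x := Real.rpow_pos_of_pos (W.B'.pos n) _
  have ul := H.unit g hu a1
  have uz := H.unitM g hu b1
  have ur := H.unit g hu h1
  rw [H.z_eq]
  obtain ⟨c2, c3⟩ := line_closeE ur (fun s hs => H.lineC g hu h1 a1 (h2.trans a2.symm) s hs)
  obtain ⟨d1, d2, d4⟩ := H.levC g hu h1 b1 (h3.trans b2.symm)
  refine ⟨⟨ul.v, ul.p, uz.z, uz.e, uz.fa, uz.fb⟩, ⟨fun m => (c2 m).trans (by linarith), c3,
    d1.trans (by linarith), d2.trans (by linarith), d4.trans (by linarith), ?_⟩⟩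
  show |(0 : ℝ) - 0| ≤ _
  rw [sub_zero, abs_zero]
  positivity

omit H in
theorem ls6_fAll {s : Fin 11} (hs : s ∈ ls6) : s ∈ fAll := by
  revert hs
  unfold ls6
  fin_cases s <;> decide

/-- **a window of case E in absolute coordinates**, `F_b := 0` -/
theorem absE {E : ∀ n, Finset (ι n)}
    (hE : ∀ᶠ n in (U : Filter ℕ), E n ⊆ W.Cl n ∧ W.cfg E n = W.cfg0 n (E n)) :
    AbsE W.B' (fun n => wr (W.cfg E n) (relF W F n)) x (lT W F) (eF W F) (gF W F)
      (fun _ _ => 0) where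
  bd := by
    filter_upwards [hE, H.ok.ev_good, H.tight] with n ⟨h1, h2⟩ g hu l k hI
    change (l, k) ∈ (W.cfg E n).I at hI
    have hz : (wr (W.cfg E n) (relF W F n)).z k = (nI W F n (W.zrep n k)).z := by
      show (W.cfg E n).z k = _
      rw [h2]
      exact H.z_eq k
    rw [h2] at hI
    have hr := mem_rep h1 hI
    obtain ⟨a1, a2⟩ := mem_lrep hr.1 hr.2.1
    obtain ⟨b1, b2⟩ := mem_zrep hr.1 hr.2.2
    obtain ⟨v, p, -, -, -, -⟩ := H.half g hu a1
    obtain ⟨-, -, z, e, -, -⟩ := H.half g hu b1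
    rw [hz]
    refine ⟨z.trans (by norm_num), fun j => ?_, fun j => (v j).trans (by norm_num),
      e.trans (by norm_num), (H.unitM g hu b1).fa, by rw [abs_zero]; exact zero_le_one⟩
    show |(nI W F n (lrep W n l)).t.p j +
      (nI W F n (W.zrep n k)).z * (nI W F n (lrep W n l)).t.v j| ≤ 1
    refine (abs_add_le _ _).trans ?_
    have := abs_mul_le z (v j)
    have := p j
    linarith
  bdr := by
    filter_upwards [hE, H.ok.ev_good, H.tight] with n ⟨h1, h2⟩ g hu k i l hi hl s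
    change (i, k) ∈ (W.cfg E n).I at hi
    change (l, k) ∈ (W.cfg E n).I at hl
    rw [h2] at hi hl
    have ri := mem_rep h1 hi
    have rl := mem_rep h1 hl
    show |relF W F n k i l s| ≤ 1
    unfold relF
    split_ifs with hs
    · have c : ∀ t : Fin 10, |co4 (nI W F n (W.rep n i k)) (nI W F n (W.rep n l k)) t| ≤ 1 / 2 :=
        fun t => by rw [H.co4_nI hu]; exact H.crd0 g ri.1 rl.1 _
      obtain ⟨-, -, -, -, -, fb⟩ := H.half g hu ri.1
      have m5 := abs_mul_le fb (c 5)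
      have m8 := abs_mul_le fb (c 8)
      have hs' : s = 5 ∨ s = 6 ∨ s = 7 ∨ s = 8 ∨ s = 9 ∨ s = 10 := by simpa [ls6] using hs
      rcases hs' with rfl | rfl | rfl | rfl | rfl | rfl
      · show |co4 _ _ 4| ≤ 1
        rw [co4_mI4]; exact (c 4).trans (by norm_num)
      · show |co4 _ _ 5| ≤ 1
        rw [co4_mI5]; exact (c 5).trans (by norm_num)
      · show |co4 _ _ 6| ≤ 1
        rw [co4_mI6]; exact (abs_add_le _ _).trans (by linarith [c 6])
      · show |co4 _ _ 7| ≤ 1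
        rw [co4_mI7]; exact (c 7).trans (by norm_num)
      · show |co4 _ _ 8| ≤ 1
        rw [co4_mI8]; exact (c 8).trans (by norm_num)
      · show |co4 _ _ 9| ≤ 1
        rw [co4_mI9]; exact (abs_add_le _ _).trans (by linarith [c 9])
    · rw [abs_zero]; exact zero_le_one
  rel := by
    intro ε hε
    filter_upwards [hE, H.ok.ev_good, H.tight, ev_const_le W.B' hε 240] with n ⟨h1, h2⟩ g hu hc
      k i l hi hl s hs
    change (i, k) ∈ (W.cfg E n).I at hi
    change (l, k) ∈ (W.cfg E n).I at hl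
    have hz : (wr (W.cfg E n) (relF W F n)).z k = W.crd n (W.s₀ n) (W.zrep n k) W.kz := by
      show (W.cfg E n).z k = _
      rw [h2]
      rfl
    rw [h2] at hi hl
    have ri := mem_rep h1 hi
    have rl := mem_rep h1 hl
    obtain ⟨ui, ni⟩ := H.abs_near g hu ri
    obtain ⟨ul, nl⟩ := H.abs_near g hu rl
    have hs6 : s ∈ ls6 := hs
    have e1 : (wr (W.cfg E n) (relF W F n)).rel k i l s =
        co4 (mI (nI W F n (W.rep n i k))) (mI (nI W F n (W.rep n l k))) (s4 s) := by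
      show relF W F n k i l s = _
      unfold relF
      rw [if_pos hs6]
    rw [e1, hz, coA_eq _ _ _ _ _ _ _ _ (ls6_fAll hs6), abs_sub_comm]
    refine (co4_lip (H.unitM g hu ri.1) ui (H.unitM g hu rl.1) ul ni nl (s4 s)).trans ?_
    have e2 : W.B'.d n ^ (x - ε) = W.B'.d n ^ x * W.B'.d n ^ (-ε) := by
      rw [← Real.rpow_add (W.B'.pos n)]
      rfl
    rw [e2]
    have hη : 0 < W.B'.d n ^ x := Real.rpow_pos_of_pos (W.B'.pos n) _
    have := mul_le_mul_of_nonneg_left hc hη.le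
    linarith

end FWin

end fwin

end Crest.Agent.R136.WinE323
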