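import Crest.Agent.R136.WinE3_323

/-!
# R136 (S0187), row E, window half, piece (A), end (helper323)

* `FWin.rmodel` : the model in the coordinates without `F_b`, isotropic boxes.
* `profE_of` : the profile.
* `FWin.rig_inc`, **`rigInc : RigInc`**.
-/

set_option autoImplicit false
set_option linter.unusedSectionVars false
set_option linter.unusedVariables false

open Filter Topology

namespace Crest.Agent.R136.WinE323

open Finset
open Crest.Agent.R136.Sh605
open Crest.Agent.R136.Net186
open Crest.Agent.R136.NetQ186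
open Crest.Agent.R136.Qg926
open Crest.Agent.R136.Net191
open Crest.Agent.R138.Ex926 (Base U cls mem_cls le_count_mul)
open Crest.Agent.R136.Gf356
open Crest.Agent.R136.RgE344
open Crest.Agent.R136.Xb403 (stP POk)
open Crest.Agent.R136.Wk323 (tq s4 s4_tq tq_ne tq_s4 uu nI st coQ_st co4_nrm lrep lrep_spec Tight nrm
  Unit4 Near4 co4_lip coA coA_eq abs_mul_le fAll TightX tight_units wtR sub_lip)
open Crest.Agent.R136.Wk323.LWin (lT lfb mem_rep mem_lrep mem_zrep)

variable {ι : ℕ → Type*} [∀ n, DecidableEq (ι n)]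

/-- isotropic legal boxes -/
def isoL (W : Wnd 11 ι) : Set (Fin 11 → ℝ) :=
  {p | p ∈ W.legW ∧ p 1 = 0 ∧ p 3 = 0 ∧ (∀ s ∈ W.S, p s = 0) ∧ p 6 = p 7 ∧ p 9 = p 10}

namespace FWin

variable {W : Wnd 11 ι} {F : ∀ n, ι n → Fq4} {x : ℝ} (H : FWin W F x)

include H

theorem rel_eq {n : ℕ} (hu : Tight (uu W n)) {k i l : ℕ} {s : Fin 11} (hs : s ∈ ls6)
    {E : Finset (ι n)} :
    (W.cfg0 n E).rel k i l s = co4 (nI W F n (W.rep n i k)) (nI W F n (W.rep n l k)) (s4 s) := by
  rw [H.co4_nI hu, tq_s4 (ls6_fAll hs)]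
  show (if s ∈ W.S then (0 : ℝ) else W.crd n (W.rep n i k) (W.rep n l k) s) = _
  rw [if_neg]
  rw [H.S]
  revert hs
  unfold ls6
  fin_cases s <;> decide

/-- **the model in the coordinates without `F_b`** -/
theorem rmodel {E : ∀ n, Finset (ι n)} {D : ℝ}
    (hE : ∀ᶠ n in (U : Filter ℕ), E n ⊆ W.Cl n ∧ W.cfg E n = W.cfg0 n (E n))
    (hM : RModel W.B' (W.cfg E) 1 x W.legW W.nu D) :
    RModel W.B' (fun n => wr (W.cfg E n) (relF W F n)) 1 x (isoL W) W.nu (4 * D) := by
  refine rmodel_wr hM (relF W F) (fun p hp => hp.1) ?_ ?_ ?_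
  · intro n k i _ j
    unfold relF
    split_ifs
    · exact co4_self _ _
    · rfl
  · intro p hp ε hε
    obtain ⟨-, p1, p3, pS, p67, p910⟩ := hp
    filter_upwards [hE, H.ok.ev_good, H.tight, ev_const_le W.B' hε 2] with n ⟨h1, h2⟩ g hu hc
      k i l hi hl hlo
    rw [h2] at hi hl hlo
    have ri := mem_rep h1 hi
    have rl := mem_rep h1 hl
    have hρ : (wr (W.cfg E n) (relF W F n)).ρ = W.B'.d n := by
      show (W.cfg E n).ρ = _
      rw [h2]
      rfl
    have hpos : ∀ t : ℝ, 0 < W.B'.d n ^ t := fun t => Real.rpow_pos_of_pos (W.B'.pos n) t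
    have hl2 : ∀ s, 2 * W.B'.d n ^ (p s - ε) ≤ W.B'.d n ^ (p s - 2 * ε) := by
      intro s
      have := mul_le_mul_of_nonneg_right hc (hpos (p s - ε)).le
      rw [← Real.rpow_add (W.B'.pos n)] at this
      refine this.trans (le_of_eq ?_)
      congr 1; ring
    have c : ∀ s ∈ ls6, |co4 (nI W F n (W.rep n i k)) (nI W F n (W.rep n l k)) (s4 s)| ≤
        W.B'.d n ^ (p s - ε) := fun s hs => by
      rw [← H.rel_eq hu hs (E := E n)]
      exact hlo s
    obtain ⟨-, -, -, -, -, fb⟩ := H.half g hu ri.1
    intro s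
    rw [hρ]
    show |relF W F n k i l s| ≤ _
    unfold relF
    split_ifs with hs
    · have hs' : s = 5 ∨ s = 6 ∨ s = 7 ∨ s = 8 ∨ s = 9 ∨ s = 10 := by simpa [ls6] using hs
      have q5 := c 5 (by decide)
      have q6 := c 6 (by decide)
      have q7 := c 7 (by decide)
      have q8 := c 8 (by decide)
      have q9 := c 9 (by decide)
      have q10 := c 10 (by decide)
      have r7 := hl2 7
      have r10 := hl2 10
      have m6 := abs_mul_le fb q6
      have m9 := abs_mul_le fb q9
      have o : ∀ s, W.B'.d n ^ (p s - ε) ≤ W.B'.d n ^ (p s - 2 * ε) := fun s => by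
        have := hl2 s
        have := hpos (p s - ε)
        linarith
      rw [p67] at m6
      rw [p910] at m9
      rcases hs' with rfl | rfl | rfl | rfl | rfl | rfl
      · show |co4 _ _ 4| ≤ _
        rw [co4_mI4]; exact le_trans q5 (o _)
      · show |co4 _ _ 5| ≤ _
        rw [co4_mI5]; exact le_trans q6 (o _)
      · show |co4 _ _ 6| ≤ _
        rw [co4_mI6]
        refine le_trans (abs_add_le _ _) (le_trans (add_le_add q7 m6) ?_)
        have := hpos (p 7 - ε)
        linarith
      · show |co4 _ _ 7| ≤ _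
        rw [co4_mI7]; exact le_trans q8 (o _)
      · show |co4 _ _ 8| ≤ _
        rw [co4_mI8]; exact le_trans q9 (o _)
      · show |co4 _ _ 9| ≤ _
        rw [co4_mI9]
        refine le_trans (abs_add_le _ _) (le_trans (add_le_add q10 m9) ?_)
        have := hpos (p 10 - ε)
        linarith
    · rw [abs_zero]; exact (hpos _).le
  · intro p hp ε hε
    obtain ⟨-, p1, p3, pS, p67, p910⟩ := hp
    filter_upwards [hE, H.ok.ev_good, H.tight, ev_const_le W.B' hε 2] with n ⟨h1, h2⟩ g hu hc
      k i l hi hl hlo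
    rw [h2] at hi hl ⊢
    have ri := mem_rep h1 hi
    have rl := mem_rep h1 hl
    have hρ : (wr (W.cfg E n) (relF W F n)).ρ = W.B'.d n := by
      show (W.cfg E n).ρ = _
      rw [h2]
      rfl
    have hρ0 : (W.cfg0 n (E n)).ρ = W.B'.d n := rfl
    have hpos : ∀ t : ℝ, 0 < W.B'.d n ^ t := fun t => Real.rpow_pos_of_pos (W.B'.pos n) t
    have hl2 : ∀ s, 2 * W.B'.d n ^ (p s - ε) ≤ W.B'.d n ^ (p s - 2 * ε) := by
      intro s
      have := mul_le_mul_of_nonneg_right hc (hpos (p s - ε)).le
      rw [← Real.rpow_add (W.B'.pos n)] at this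
      refine this.trans (le_of_eq ?_)
      congr 1; ring
    have c : ∀ s ∈ ls6, |co4 (mI (nI W F n (W.rep n i k))) (mI (nI W F n (W.rep n l k))) (s4 s)| ≤
        W.B'.d n ^ (p s - ε) := fun s hs => by
      have := hlo s
      rw [hρ] at this
      change |relF W F n k i l s| ≤ _ at this
      unfold relF at this
      rwa [if_pos hs] at this
    obtain ⟨-, -, -, -, -, fb⟩ := H.half g hu ri.1
    intro s
    rw [hρ0]
    by_cases hs : s ∈ ls6
    · rw [H.rel_eq hu hs]
      have hs' : s = 5 ∨ s = 6 ∨ s = 7 ∨ s = 8 ∨ s = 9 ∨ s = 10 := by simpa [ls6] using hs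
      have q5 := c 5 (by decide)
      have q6 := c 6 (by decide)
      have q7 := c 7 (by decide)
      have q8 := c 8 (by decide)
      have q9 := c 9 (by decide)
      have q10 := c 10 (by decide)
      change |co4 _ _ 4| ≤ _ at q5
      change |co4 _ _ 5| ≤ _ at q6
      change |co4 _ _ 6| ≤ _ at q7
      change |co4 _ _ 7| ≤ _ at q8
      change |co4 _ _ 8| ≤ _ at q9
      change |co4 _ _ 9| ≤ _ at q10
      rw [co4_mI4] at q5
      rw [co4_mI5] at q6
      rw [co4_mI6] at q7
      rw [co4_mI7] at q8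
      rw [co4_mI8] at q9
      rw [co4_mI9] at q10
      have r7 := hl2 7
      have r10 := hl2 10
      have m6 := abs_mul_le fb q6
      have m9 := abs_mul_le fb q9
      have o : ∀ s, W.B'.d n ^ (p s - ε) ≤ W.B'.d n ^ (p s - 2 * ε) := fun s => by
        have := hl2 s
        have := hpos (p s - ε)
        linarith
      rw [p67] at m6
      rw [p910] at m9
      rcases hs' with rfl | rfl | rfl | rfl | rfl | rfl
      · exact le_trans q5 (o _)
      · exact le_trans q6 (o _)
      · show |co4 _ _ 6| ≤ _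
        have e : co4 (nI W F n (W.rep n i k)) (nI W F n (W.rep n l k)) 6 =
            (co4 (nI W F n (W.rep n i k)) (nI W F n (W.rep n l k)) 6 +
              (nI W F n (W.rep n i k)).fb * co4 (nI W F n (W.rep n i k)) (nI W F n (W.rep n l k)) 5) -
              (nI W F n (W.rep n i k)).fb *
                co4 (nI W F n (W.rep n i k)) (nI W F n (W.rep n l k)) 5 := by ring
        rw [e]
        refine le_trans (abs_sub _ _) (le_trans (add_le_add q7 m6) ?_)
        have := hpos (p 7 - ε)
        linarith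
      · exact le_trans q8 (o _)
      · exact le_trans q9 (o _)
      · show |co4 _ _ 9| ≤ _
        have e : co4 (nI W F n (W.rep n i k)) (nI W F n (W.rep n l k)) 9 =
            (co4 (nI W F n (W.rep n i k)) (nI W F n (W.rep n l k)) 9 +
              (nI W F n (W.rep n i k)).fb * co4 (nI W F n (W.rep n i k)) (nI W F n (W.rep n l k)) 8) -
              (nI W F n (W.rep n i k)).fb *
                co4 (nI W F n (W.rep n i k)) (nI W F n (W.rep n l k)) 8 := by ring
        rw [e]
        refine le_trans (abs_sub _ _) (le_trans (add_le_add q10 m9) ?_)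
        have := hpos (p 10 - ε)
        linarith
    · show |(if s ∈ W.S then (0 : ℝ) else W.crd n (W.rep n i k) (W.rep n l k) s)| ≤ _
      split_ifs with hS
      · rw [abs_zero]; exact (hpos _).le
      · have hs13 : s = 1 ∨ s = 3 := by
          rw [H.S] at hS
          revert hS hs
          unfold ls6
          fin_cases s <;> decide
        have ps : p s = 0 := by rcases hs13 with rfl | rfl <;> assumption
        have q := H.crd0 g ri.1 rl.1 s
        rw [ps]
        refine q.trans (le_trans (by norm_num : (1 / 2 : ℝ) ≤ 1) ?_)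
        exact Real.one_le_rpow_of_pos_of_le_one_of_nonpos (W.B'.pos n) (W.B'.lt n).le (by linarith)

end FWin

end Crest.Agent.R136.WinE323
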