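import Crest.Agent.R136.WkES4_501
import Crest.Agent.R136.RgE9_344
import Crest.Agent.R138.KMs_630

/-!
# R136 (S0187), RIG_E: heavy strips, unconditional (helper501)

`strips_all : StripsAll`.
-/

set_option autoImplicit false

namespace Crest.Agent.R136.StripE501

open Crest.Agent.R136.RgE344

theorem strips_all : StripsAll := by
  intro B G Leg ν D R x y m β T E fa fb H hxR A P hβ s hs hsx
  exact stripsE Crest.Agent.R138.KMs630.km32 H hxR A P hβ hs hsx

end Crest.Agent.R136.StripE501
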