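import Crest.Agent.R136.WkL_626
import Crest.Agent.R136.Rc8_146
import Crest.Agent.R136.Rgl1_501

/-!
# R136 (S0187): numbers of an interior window of the lightlike surface (helper626)

Input: 146's `OutA` (additive group functions) which are positively homogeneous, groups
`{0,3} {2,5,6} {7,9} {4,8,10}`.  Output: the inequalities `dec, fib, conc, dens, loss, add` at the
base `0`, for every reach `x`.
-/

set_option autoImplicit false
set_option linter.unusedSectionVars false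
set_option linter.unusedVariables false

open Filter Topology Set

namespace Crest.Agent.R136.WkL626

open Crest.Agent.R136.Rc146
open Crest.Agent.R136.Dg219

/-- a group function of `{X_a, F_a, N}` -/
structure GF8 (L : Set (Fin 11 → ℝ)) (a b : Fin 11 → ℝ) (f : (Fin 11 → ℝ) → ℝ) : Prop where
  leg : ∀ c, WqL c → c ∈ L
  loc : ∀ c c', c 4 = c' 4 → c 8 = c' 8 → c 10 = c' 10 → f c = f c'
  mono : ∀ c ∈ L, ∀ c' ∈ L, c 4 ≤ c' 4 → c 8 ≤ c' 8 → c 10 ≤ c' 10 → 0 ≤ f c - f c' ∧
    f c - f c' ≤ (c' 4 - c 4) + (c' 8 - c 8) + (c' 10 - c 10)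
  smod : ∀ p ∈ L, ∀ q ∈ L, ∀ s ∈ L, ∀ t ∈ L,
    (s 4 = min (p 4) (q 4) ∧ s 8 = min (p 8) (q 8) ∧ s 10 = min (p 10) (q 10)) →
    (t 4 = max (p 4) (q 4) ∧ t 8 = max (p 8) (q 8) ∧ t 10 = max (p 10) (q 10)) →
    f p + f q ≤ f t + f s
  add : ∀ z, ∀ c ∈ L, f (Tn a b z + c) = f (Tn a b z) + f c
  hom : ∀ c ∈ L, ∀ t : ℝ, 0 ≤ t → f (t • c) = t * f c
  a4 : a 4 = 1
  a8 : a 8 = 1
  a10 : a 10 = 2

namespace GF8

variable {L : Set (Fin 11 → ℝ)} {a b : Fin 11 → ℝ} {f : (Fin 11 → ℝ) → ℝ}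

/-- losses -/
noncomputable def ps (f : (Fin 11 → ℝ) → ℝ) (s : ℝ) : ℝ := f (vN 4 1 0 s)

/-- rate of `N` given `X_a` -/
noncomputable def aN (f : (Fin 11 → ℝ) → ℝ) : ℝ := ps f 0 - ps f 1

theorem eq_vN (H : GF8 L a b f) {K x y m : ℝ} {c : Fin 11 → ℝ} (h8 : c 8 = x) (h4 : c 4 = y)
    (h10 : c 10 = m) : f c = f (vN K x y m) :=
  H.loc _ _ (by simp [vN, h4]) (by simp [vN, h8]) (by simp [vN, h10])

theorem tr (H : GF8 L a b f) {K K' x y m : ℝ} (u : ℝ) (hc : WqL (vN K x y m)) :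
    f (vN K' (x + u) (y + u) (m + 2 * u)) = f (Tn a b (u, 0)) + f (vN K x y m) := by
  rw [← H.add (u, 0) _ (H.leg _ hc)]
  symm
  refine H.eq_vN ?_ ?_ ?_
  · simp only [Pi.add_apply, Tn, vN, Matrix.cons_val, H.a8]; ring
  · simp only [Pi.add_apply, Tn, vN, Matrix.cons_val, H.a4]; ring
  · simp only [Pi.add_apply, Tn, vN, Matrix.cons_val, H.a10]; ring

theorem hm (H : GF8 L a b f) {K K' x y m : ℝ} {t : ℝ} (ht : 0 ≤ t) (hc : WqL (vN K x y m)) :
    f (vN K' (t * x) (t * y) (t * m)) = t * f (vN K x y m) := by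
  rw [← H.hom _ (H.leg _ hc) t ht]
  symm
  refine H.eq_vN ?_ ?_ ?_ <;> simp [vN]

theorem sm (H : GF8 L a b f) {K x y m x' y' m' : ℝ} (h1 : WqL (vN K x y m))
    (h2 : WqL (vN K x' y' m')) (h3 : WqL (vN K (min x x') (min y y') (min m m')))
    (h4 : WqL (vN K (max x x') (max y y') (max m m'))) :
    f (vN K x y m) + f (vN K x' y' m') ≤ f (vN K (max x x') (max y y') (max m m')) +
      f (vN K (min x x') (min y y') (min m m')) :=
  H.smod _ (H.leg _ h1) _ (H.leg _ h2) _ (H.leg _ h3) _ (H.leg _ h4)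
    ⟨by simp [vN], by simp [vN], by simp [vN]⟩ ⟨by simp [vN], by simp [vN], by simp [vN]⟩

theorem wq1 {y : ℝ} (hy : y ∈ Icc (0 : ℝ) 1) : WqL (vN 4 1 0 y) :=
  vN_wq (by norm_num) (by norm_num) (by norm_num)
    (by rw [abs_le]; constructor <;> linarith [hy.1, hy.2]) (by linarith [hy.2]) le_rfl
    zero_le_one

theorem cont (H : GF8 L a b f) : ContinuousOn (ps f) (Icc 0 1) := by
  have key : ∀ s ∈ Icc (0 : ℝ) 1, ∀ t ∈ Icc (0 : ℝ) 1, s ≤ t → |ps f s - ps f t| ≤ t - s := by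
    intro s hs t ht hst
    have h := H.mono _ (H.leg _ (wq1 hs)) _ (H.leg _ (wq1 ht)) (by simp [vN]) (by simp [vN])
      (by simp [vN, hst])
    have h2 := h.2.trans (le_of_eq (show (vN 4 1 0 t 4 - vN 4 1 0 s 4) +
      (vN 4 1 0 t 8 - vN 4 1 0 s 8) + (vN 4 1 0 t 10 - vN 4 1 0 s 10) = t - s by simp [vN]))
    unfold ps
    rw [abs_of_nonneg h.1]
    exact h2
  have : LipschitzOnWith 1 (ps f) (Icc 0 1) := by
    apply LipschitzOnWith.of_dist_le_mul
    intro s hs t ht
    rw [Real.dist_eq, Real.dist_eq, NNReal.coe_one, one_mul]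
    rcases le_total s t with h | h
    · rw [abs_sub_comm s t, abs_of_nonneg (sub_nonneg.2 h)]
      exact key s hs t ht h
    · rw [abs_sub_comm (ps f s), abs_of_nonneg (sub_nonneg.2 h)]
      exact key t ht s hs h
  exact this.continuousOn

/-- **the loss of `N` given `X_a` is linear** -/
theorem affine (H : GF8 L a b f) :
    ∀ s ∈ Icc (0 : ℝ) 1, ps f s = (1 - s) * ps f 0 + s * ps f 1 := by
  have w : ∀ {x y m : ℝ}, 0 ≤ x → x ≤ 4 → 0 ≤ y → y ≤ 4 → 0 ≤ m → m ≤ 4 → m ≤ x + y →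
      WqL (vN 4 x y m) := fun a1 a2 a3 a4 a5 a6 a7 =>
    vN_wq (by norm_num) (by rw [abs_le]; constructor <;> linarith)
      (by rw [abs_le]; constructor <;> linarith) (by rw [abs_le]; constructor <;> linarith) a7
      a3 a1
  refine affine_of_mid H.cont ?_ ?_
  · intro s k hk h1 h2
    have e1 : max (1 : ℝ) (1 + k / 2) = 1 + k / 2 := max_eq_right (by linarith)
    have e2 : min (1 : ℝ) (1 + k / 2) = 1 := min_eq_left (by linarith)
    have e3 : max (0 : ℝ) (0 + k / 2) = 0 + k / 2 := max_eq_right (by linarith)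
    have e4 : min (0 : ℝ) (0 + k / 2) = 0 := min_eq_left (by linarith)
    have e5 : max (s + k) s = s + k := max_eq_left (by linarith)
    have e6 : min (s + k) s = s := min_eq_right (by linarith)
    have h := H.sm (K := 4) (x := 1) (y := 0) (m := s + k) (x' := 1 + k / 2)
      (y' := 0 + k / 2) (m' := s) (w (by linarith) (by linarith) le_rfl (by linarith)
        (by linarith) (by linarith) (by linarith))
      (w (by linarith) (by linarith) (by linarith) (by linarith) (by linarith) (by linarith)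
        (by linarith))
      (by rw [e2, e4, e6]; exact w (by linarith) (by linarith) (by linarith) (by linarith)
            (by linarith) (by linarith) (by linarith))
      (by rw [e1, e3, e5]; exact w (by linarith) (by linarith) (by linarith) (by linarith)
            (by linarith) (by linarith) (by linarith))
    rw [e1, e2, e3, e4, e5, e6] at h
    have t1 := H.tr (K := 4) (K' := 4) (x := 1) (y := 0) (m := s - k) (k / 2)
      (w (by linarith) (by linarith) le_rfl (by linarith) (by linarith) (by linarith)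
        (by linarith))
    have t2 := H.tr (K := 4) (K' := 4) (x := 1) (y := 0) (m := s) (k / 2)
      (w (by linarith) (by linarith) le_rfl (by linarith) (by linarith) (by linarith)
        (by linarith))
    rw [show s - k + 2 * (k / 2) = s by ring] at t1
    rw [show s + 2 * (k / 2) = s + k by ring] at t2
    unfold ps
    linarith
  · have e1 : max (3 / 2 : ℝ) 1 = 3 / 2 := max_eq_left (by norm_num)
    have e2 : min (3 / 2 : ℝ) 1 = 1 := min_eq_right (by norm_num)
    have e3 : max (0 : ℝ) (1 / 2) = 1 / 2 := max_eq_right (by norm_num)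
    have e4 : min (0 : ℝ) (1 / 2) = 0 := min_eq_left (by norm_num)
    have h := H.sm (K := 4) (x := 3 / 2) (y := 0) (m := 1) (x' := 1) (y' := 1 / 2)
      (m' := 1) (w (by norm_num) (by norm_num) le_rfl (by norm_num) (by norm_num) (by norm_num)
        (by norm_num))
      (w (by norm_num) (by norm_num) (by norm_num) (by norm_num) (by norm_num) (by norm_num)
        (by norm_num))
      (by rw [e2, e4, min_self]; exact w (by norm_num) (by norm_num) le_rfl (by norm_num)
            (by norm_num) (by norm_num) (by norm_num))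
      (by rw [e1, e3, max_self]; exact w (by norm_num) (by norm_num) (by norm_num)
            (by norm_num) (by norm_num) (by norm_num) (by norm_num))
    rw [e1, e2, e3, e4, min_self, max_self] at h
    have t1 := H.hm (K := 4) (K' := 4) (x := 1) (y := 0) (m := 2 / 3) (t := 3 / 2)
      (by norm_num) (w (by norm_num) (by norm_num) le_rfl (by norm_num) (by norm_num)
        (by norm_num) (by norm_num))
    have t2 := H.tr (K := 4) (K' := 4) (x := 1 / 2) (y := 0) (m := 0) (1 / 2)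
      (w (by norm_num) (by norm_num) le_rfl (by norm_num) le_rfl (by norm_num) (by norm_num))
    have t3 := H.hm (K := 4) (K' := 4) (x := 1) (y := 0) (m := 0) (t := 1 / 2)
      (by norm_num) (w (by norm_num) (by norm_num) le_rfl (by norm_num) le_rfl
        (by norm_num) (by norm_num))
    have t4 := H.tr (K := 4) (K' := 4) (x := 1) (y := 0) (m := 0) (1 / 2)
      (w (by norm_num) (by norm_num) le_rfl (by norm_num) le_rfl (by norm_num) (by norm_num))
    norm_num at t1 t2 t3 t4 h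
    unfold ps
    linarith

theorem lin (H : GF8 L a b f) {x y : ℝ} (hy : 0 ≤ y) (hyx : y ≤ x) {c c' : Fin 11 → ℝ}
    (h8 : c 8 = x) (h4 : c 4 = 0) (h10 : c 10 = y)
    (h8' : c' 8 = x) (h4' : c' 4 = 0) (h10' : c' 10 = x) : f c - f c' = aN f * (x - y) := by
  rw [H.eq_vN (K := 4) h8 h4 h10, H.eq_vN (K := 4) h8' h4' h10']
  rcases hyx.eq_or_lt with rfl | hlt
  · simp
  have hx : 0 < x := lt_of_le_of_lt hy hlt
  have hs : y / x ∈ Icc (0 : ℝ) 1 := ⟨by positivity, by rw [div_le_one hx]; exact hyx⟩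
  have t1 := H.hm (K := 4) (K' := 4) (x := 1) (y := 0) (m := y / x) hx.le (wq1 hs)
  have t2 := H.hm (K := 4) (K' := 4) (x := 1) (y := 0) (m := 1) hx.le
    (wq1 ⟨zero_le_one, le_rfl⟩)
  have t3 := H.affine _ hs
  rw [mul_one, mul_zero, mul_div_cancel₀ _ hx.ne'] at t1
  rw [mul_one, mul_zero] at t2
  rw [t1, t2]
  have e1 : f (vN 4 1 0 (y / x)) = (1 - y / x) * ps f 0 + y / x * ps f 1 := t3
  have e2 : f (vN 4 1 0 1) = ps f 1 := rfl
  rw [e1, e2, aN]
  field_simp
  ring

/-- the same with the flag frozen as well -/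
theorem lin_F (H : GF8 L a b f) {x : ℝ} (hx : 0 ≤ x) {c c' : Fin 11 → ℝ} (h8 : c 8 = x)
    (h4 : c 4 = x) (h10 : c 10 = 0) (h8' : c' 8 = x) (h4' : c' 4 = x) (h10' : c' 10 = x) :
    f c - f c' ≤ aN f * x := by
  have w : ∀ {x y m K : ℝ}, 0 ≤ K → 0 ≤ x → x ≤ K → 0 ≤ y → y ≤ K → 0 ≤ m → m ≤ K → m ≤ x + y →
      WqL (vN K x y m) := fun a0 a1 a2 a3 a4 a5 a6 a7 =>
    vN_wq a0 (by rw [abs_le]; constructor <;> linarith)
      (by rw [abs_le]; constructor <;> linarith) (by rw [abs_le]; constructor <;> linarith) a7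
      a3 a1
  rw [H.eq_vN (K := x) h8 h4 h10, H.eq_vN (K := x) h8' h4' h10']
  have h := H.sm (K := x) (x := x) (y := 0) (m := x) (x' := x) (y' := x) (m' := 0)
    (w hx hx le_rfl le_rfl hx hx le_rfl (by linarith))
    (w hx hx le_rfl hx le_rfl le_rfl hx (by linarith))
    (by rw [min_self, min_eq_left hx, min_eq_right hx]
        exact w hx hx le_rfl le_rfl hx le_rfl hx (by linarith))
    (by rw [max_self, max_eq_right hx, max_eq_left hx]
        exact w hx hx le_rfl hx le_rfl hx le_rfl (by linarith))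
  rw [min_self, min_eq_left hx, min_eq_right hx, max_self, max_eq_right hx, max_eq_left hx] at h
  have h2 := H.lin le_rfl hx (c := vN x x 0 0) (c' := vN x x 0 x) rfl rfl rfl rfl rfl rfl
  linarith

end GF8

/-! ### the numbers of an interior window -/

section Nums

open Crest.Agent.R136.Qg926 (cut)
open Crest.Agent.R136.Wk323 (vec fAll fPos fDir qv)

variable {κ : Type*} [DecidableEq κ] {g : Fin 11 → κ} {L : Set (Fin 11 → ℝ)} {a b dh : Fin 11 → ℝ}
  {n : κ → ℝ × ℝ} {lam : (Fin 11 → ℝ) → ℝ} {A : ℝ × ℝ} {φ : κ → (Fin 11 → ℝ) → ℝ} {r : κ → ℝ}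

/-- groups of the lightlike surface; the slot `R` is anywhere outside the three groups -/
structure LGrpA (g : Fin 11 → κ) (L : Set (Fin 11 → ℝ)) (a b dh : Fin 11 → ℝ) : Prop where
  leg : ∀ c, WqL c → c ∈ L
  g8 : ∀ i, g i = g 8 ↔ i = 4 ∨ i = 8 ∨ i = 10
  g5 : ∀ i, g i = g 5 ↔ i = 2 ∨ i = 5 ∨ i = 6
  g7 : ∀ i, g i = g 7 ↔ i = 7 ∨ i = 9
  g3 : g 3 = g 0
  dh8 : ∀ i, g i = g 8 → 0 < dh i
  dh5 : ∀ i, g i = g 5 → 0 < dh i
  dh7 : ∀ i, g i = g 7 → 0 < dh i
  a4 : a 4 = 1
  a8 : a 8 = 1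
  a10 : a 10 = 2
  b0 : b 0 = 0
  b1 : b 1 = 0
  b3 : b 3 = 0

/-- homogeneity -/
def Hom (g : Fin 11 → κ) (L : Set (Fin 11 → ℝ)) (dh : Fin 11 → ℝ) (φ : κ → (Fin 11 → ℝ) → ℝ) :
    Prop :=
  ∀ k, (∀ i, g i = k → 0 < dh i) → ∀ c ∈ L, ∀ t : ℝ, 0 ≤ t → φ k (t • c) = t * φ k c

theorem sum_f8 (G : LGrpA g L a b dh) (f : Fin 11 → ℝ) :
    ∑ i ∈ Finset.univ.filter (fun i => g i = g 8), f i = f 4 + f 8 + f 10 := by
  have e : Finset.univ.filter (fun i => g i = g 8) = ({4, 8, 10} : Finset (Fin 11)) := by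
    ext i
    simp only [Finset.mem_filter, Finset.mem_univ, true_and, Finset.mem_insert,
      Finset.mem_singleton]
    exact G.g8 i
  rw [e]
  rw [Finset.sum_insert (by decide), Finset.sum_insert (by decide), Finset.sum_singleton]
  ring

theorem gf8_of (H : OutA g L a b dh n lam A φ r) (hh : Hom g L dh φ) (G : LGrpA g L a b dh) :
    GF8 L a b (φ (g 8)) where
  leg := G.leg
  loc := fun c c' h4 h8 h10 => H.loc _ _ _ fun i hi => by
    rcases (G.g8 i).1 hi with rfl | rfl | rfl <;> assumption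
  mono := fun c hc c' hc' h4 h8 h10 => by
    have h := H.mono (g 8) c hc c' hc' fun i hi => by
      rcases (G.g8 i).1 hi with rfl | rfl | rfl <;> assumption
    rw [sum_f8 G] at h
    exact h
  smod := fun p hp q hq s hs t ht h1 h2 => H.smods (g 8) p hp q hq s hs t ht
    (fun i hi => by
      rcases (G.g8 i).1 hi with rfl | rfl | rfl
      exacts [h1.1, h1.2.1, h1.2.2])
    (fun i hi => by
      rcases (G.g8 i).1 hi with rfl | rfl | rfl
      exacts [h2.1, h2.2.1, h2.2.2])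
  add := H.add _ G.dh8
  hom := hh _ G.dh8
  a4 := G.a4
  a8 := G.a8
  a10 := G.a10

/-- one group changes -/
theorem dif_A (H : OutA g L a b dh n lam A φ r) {k : κ} (hk : k ∈ gset g) {c c' : Fin 11 → ℝ}
    (hc : c ∈ L) (hc' : c' ∈ L) (h : ∀ i, g i ≠ k → c' i = c i) :
    lam c' - lam c = φ k c' - φ k c := by
  rw [H.sum c hc, H.sum c' hc', ← Finset.sum_sub_distrib, Finset.sum_eq_single k]
  · intro j _ hj
    rw [sub_eq_zero]
    exact H.loc _ _ _ fun i hi => h i fun he => hj (by rw [← hi, he])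
  · intro h'; exact absurd hk h'

variable {x : ℝ} {T : Fin 11 → ℝ}

theorem cutT (hT : ∀ s, s ≠ 1 → T s = x) (p : Fin 11 → ℝ) :
    cut ({0, 3} : Finset (Fin 11)) p T = cut {0, 3} p (topL x) := by
  funext s
  unfold cut
  split_ifs with h
  · have hs : s ≠ 1 := by rintro rfl; revert h; decide
    rw [hT s hs]; simp [topL, hs]
  · rfl

section

variable (H : OutA g L a b dh n lam A φ r) (hh : Hom g L dh φ) (G : LGrpA g L a b dh)
  (hx : 0 ≤ x) (hT : ∀ s, s ≠ 1 → T s = x)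

include H G hx hT

theorem num_dec : (lam (cut {0, 3} 0 T) - lam T) + (lam (cut {0, 3} (vec fAll x) T) - lam T) ≤
    (lam (cut {0, 3} (vec fPos x) T) - lam T) + (lam (cut {0, 3} (vec fDir x) T) - lam T) := by
  rw [cutT hT, cutT hT, cutT hT, cutT hT, cut_zero, cut_all, cut_pos, cut_dir]
  have l0 : vL x 0 0 0 0 0 ∈ L := G.leg _ (vL_wq le_rfl le_rfl (by linarith) (by linarith)
    (by linarith) (by linarith) (by linarith) (by linarith))
  have lall : vL x x x x x x ∈ L := G.leg _ (vL_wq hx hx (by linarith) (by linarith)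
    (by linarith) (by linarith) (by linarith) (by linarith))
  have lpos : vL x 0 0 x x x ∈ L := G.leg _ (vL_wq le_rfl le_rfl (by linarith) (by linarith)
    (by linarith) (by linarith) (by linarith) (by linarith))
  have ldir : vL x x x 0 0 0 ∈ L := G.leg _ (vL_wq hx hx (by linarith) (by linarith)
    (by linarith) (by linarith) (by linarith) (by linarith))
  have d1 := dif_A H (mem_gset 5) l0 ldir (fun i hi => by
    have hi' : ¬ (i = 2 ∨ i = 5 ∨ i = 6) := fun h => hi ((G.g5 i).2 h)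
    revert hi'
    fin_cases i <;> simp [vL])
  have d2 := dif_A H (mem_gset 5) lpos lall (fun i hi => by
    have hi' : ¬ (i = 2 ∨ i = 5 ∨ i = 6) := fun h => hi ((G.g5 i).2 h)
    revert hi'
    fin_cases i <;> simp [vL])
  have e1 : φ (g 5) (vL x x x 0 0 0) = φ (g 5) (vL x x x x x x) :=
    H.loc _ _ _ fun i hi => by
      rcases (G.g5 i).1 hi with rfl | rfl | rfl <;> simp [vL]
  have e2 : φ (g 5) (vL x 0 0 0 0 0) = φ (g 5) (vL x 0 0 x x x) :=
    H.loc _ _ _ fun i hi => by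
      rcases (G.g5 i).1 hi with rfl | rfl | rfl <;> simp [vL]
  rw [e1, e2] at d1
  linarith

include hh in
theorem num_fib {y : ℝ} (hy : 0 ≤ y) (hyx : y ≤ x) :
    (lam (cut {0, 3} (qv x y) T) - lam T) - (lam (cut {0, 3} (qv x x) T) - lam T) =
      GF8.aN (φ (g 8)) * (x - y) := by
  rw [cutT hT, cutT hT, cut_qv, cut_qv]
  have lq : ∀ y, 0 ≤ y → y ≤ x → vL x 0 0 0 x y ∈ L := fun y h1 h2 =>
    G.leg _ (vL_wq le_rfl le_rfl (by linarith) (by linarith) (by linarith) (by linarith)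
      (by linarith) (by linarith))
  have d1 := dif_A H (mem_gset 8) (lq x hx le_rfl) (lq y hy hyx) (fun i hi => by
    have hi' : ¬ (i = 4 ∨ i = 8 ∨ i = 10) := fun h => hi ((G.g8 i).2 h)
    revert hi'
    fin_cases i <;> simp [vL])
  have d2 := (gf8_of H hh G).lin hy hyx (c := vL x 0 0 0 x y) (c' := vL x 0 0 0 x x) rfl rfl rfl
    rfl rfl rfl
  linarith

include hh in
theorem num_conc {y : ℝ} (hy : 0 ≤ y) (hyx : y ≤ x) :
    (lam (cut {0, 3} 0 T) - lam T) - (lam (cut {0, 3} (vec {5} y) T) - lam T) =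
      -φ (g 5) (Pi.single 5 1) * y := by
  rw [cutT hT, cutT hT, cut_zero, cut_c]
  have l0 : vL x 0 0 0 0 0 ∈ L := G.leg _ (vL_wq le_rfl le_rfl (by linarith) (by linarith)
    (by linarith) (by linarith) (by linarith) (by linarith))
  have lc : vL x 0 y 0 0 0 ∈ L :=
    G.leg _ (vL_wq hy le_rfl (by linarith) (by linarith) (by linarith) (by linarith)
      (by linarith) (by linarith))
  have d1 := dif_A H (mem_gset 5) lc l0 (fun i hi => by
    have hi' : ¬ (i = 2 ∨ i = 5 ∨ i = 6) := fun h => hi ((G.g5 i).2 h)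
    revert hi'
    fin_cases i <;> simp [vL])
  have e0 : φ (g 5) (vL x 0 0 0 0 0) = 0 := H.zero _ _ fun i hi => by
    rcases (G.g5 i).1 hi with rfl | rfl | rfl <;> simp [vL]
  have l5 : (Pi.single 5 1 : Fin 11 → ℝ) ∈ L := G.leg _ (by constructor <;> simp)
  have e1 : φ (g 5) (vL x 0 y 0 0 0) = y * φ (g 5) (Pi.single 5 1) := by
    rw [← hh _ G.dh5 _ l5 y hy]
    refine H.loc _ _ _ fun i hi => ?_
    rcases (G.g5 i).1 hi with rfl | rfl | rfl <;> simp [vL]
  linarith

theorem num_dens (hR : ∀ c c' : Fin 11 → ℝ, (∀ i, i ≠ 1 → c i = c' i) → lam c = lam c') :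
    lam T ≤ lam (cut {0, 3} T 0) + lam (cut {0, 3} 0 T) := by
  have e0 : lam T = lam (vL x x x x x x) := hR _ _ fun i hi => by
    rw [hT i hi, ← top_vL]; simp [topL, hi]
  have e1 : lam (cut {0, 3} T 0) = lam (vL 0 x x x x x) := hR _ _ fun i hi => by
    rw [← cut_lin]
    unfold cut
    split_ifs
    · rfl
    · rw [hT i hi]; simp [topL, hi]
  rw [e0, e1, cutT hT, cut_zero]
  have l0 : vL x 0 0 0 0 0 ∈ L := G.leg _ (vL_wq le_rfl le_rfl (by linarith) (by linarith)
    (by linarith) (by linarith) (by linarith) (by linarith))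
  have lall : vL x x x x x x ∈ L := G.leg _ (vL_wq hx hx (by linarith) (by linarith)
    (by linarith) (by linarith) (by linarith) (by linarith))
  have llin : vL 0 x x x x x ∈ L := G.leg _ (vL_wq hx hx (by linarith) (by linarith)
    (by linarith) (by linarith) (by linarith) (by linarith))
  have lz : (0 : Fin 11 → ℝ) ∈ L := G.leg _ (by constructor <;> simp)
  have hlz : lam 0 = 0 := by
    rw [H.sum 0 lz]
    exact Finset.sum_eq_zero fun k _ => H.zero k 0 fun i _ => rfl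
  have hne : ∀ {i : Fin 11}, g i ≠ g 0 → i ≠ 0 ∧ i ≠ 3 := fun {i} hi =>
    ⟨fun h => hi (by rw [h]), fun h => hi (by rw [h, G.g3])⟩
  have d1 := dif_A H (mem_gset 0) llin lall (fun i hi => by
    have hi' := hne hi
    revert hi'
    fin_cases i <;> simp [vL])
  have d2 := dif_A H (mem_gset 0) lz l0 (fun i hi => by
    have hi' := hne hi
    revert hi'
    fin_cases i <;> simp [vL])
  have hn8 : ∀ i, g i = g 0 → i = 0 ∨ i = 1 ∨ i = 3 := by
    intro i hi
    by_contra hcon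
    push Not at hcon
    have h8 : ¬ (g 0 = g 8) := fun h => by
      have := (G.g8 0).1 h
      revert this; decide
    have h5 : ¬ (g 0 = g 5) := fun h => by
      have := (G.g5 0).1 h
      revert this; decide
    have h7 : ¬ (g 0 = g 7) := fun h => by
      have := (G.g7 0).1 h
      revert this; decide
    have k8 : ¬ (i = 4 ∨ i = 8 ∨ i = 10) := fun h => h8 (hi.symm.trans ((G.g8 i).2 h))
    have k5 : ¬ (i = 2 ∨ i = 5 ∨ i = 6) := fun h => h5 (hi.symm.trans ((G.g5 i).2 h))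
    have k7 : ¬ (i = 7 ∨ i = 9) := fun h => h7 (hi.symm.trans ((G.g7 i).2 h))
    revert hcon k8 k5 k7
    clear hi
    revert i
    decide
  have f1 : φ (g 0) (vL x x x x x x) = φ (g 0) (vL x 0 0 0 0 0) :=
    H.loc _ _ _ fun i hi => by
      rcases hn8 i hi with rfl | rfl | rfl <;> simp [vL]
  have f2 : φ (g 0) (vL 0 x x x x x) = φ (g 0) 0 :=
    H.loc _ _ _ fun i hi => by
      rcases hn8 i hi with rfl | rfl | rfl <;> simp [vL]
  rw [f1, f2] at d1
  rw [hlz] at d2
  linarith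

end

/-- additivity along the natural direction `(0, τ)` -/
theorem num_add (H : OutA g L a b dh n lam A φ r) (G : LGrpA g L a b dh) (τ : ℝ)
    (hL : Tn a b (0, τ) ∈ L) (hadd : ∀ c ∈ L, Tn a b (0, τ) + c ∈ L) {c : Fin 11 → ℝ}
    (hc : c ∈ L) : lam (Tn a b (0, τ) + c) = lam (Tn a b (0, τ)) + lam c := by
  rw [H.sum _ (hadd c hc), H.sum _ hL, H.sum _ hc, ← Finset.sum_add_distrib]
  refine Finset.sum_congr rfl fun k _ => ?_
  by_cases h5 : k = g 5
  · subst h5; exact H.add _ G.dh5 _ c hc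
  by_cases h8 : k = g 8
  · subst h8; exact H.add _ G.dh8 _ c hc
  by_cases h7 : k = g 7
  · subst h7; exact H.add _ G.dh7 _ c hc
  have hz : ∀ i, g i = k → Tn a b (0, τ) i = 0 := by
    intro i hi
    have k8 : ¬ (i = 4 ∨ i = 8 ∨ i = 10) := fun h => h8 (hi.symm.trans ((G.g8 i).2 h))
    have k5 : ¬ (i = 2 ∨ i = 5 ∨ i = 6) := fun h => h5 (hi.symm.trans ((G.g5 i).2 h))
    have k7 : ¬ (i = 7 ∨ i = 9) := fun h => h7 (hi.symm.trans ((G.g7 i).2 h))
    have hi' : i = 0 ∨ i = 1 ∨ i = 3 := by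
      revert k8 k5 k7
      clear hi
      revert i
      decide
    simp only [Tn]
    rcases hi' with rfl | rfl | rfl
    · rw [G.b0]; ring
    · rw [G.b1]; ring
    · rw [G.b3]; ring
  rw [H.zero k _ hz, zero_add]
  exact H.loc _ _ _ fun i hi => by rw [Pi.add_apply, hz i hi, zero_add]

end Nums

/-! ### total losses -/

section Loss

open Crest.Agent.R136.Qg926 (cut)
open Crest.Agent.R136.Rgl501 (lv)

variable {κ : Type*} [DecidableEq κ] {g : Fin 11 → κ} {L : Set (Fin 11 → ℝ)} {a b dh : Fin 11 → ℝ}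
  {n : κ → ℝ × ℝ} {lam : (Fin 11 → ℝ) → ℝ} {A : ℝ × ℝ} {φ : κ → (Fin 11 → ℝ) → ℝ} {r : κ → ℝ}
  {x : ℝ} {T : Fin 11 → ℝ}

theorem cut_lv (x m t : ℝ) : cut ({0, 3} : Finset (Fin 11)) (lv x m t) (topL x) =
    ![x, 0, x, x, x, x, x, t, x, t, m] := by
  rw [cut_vL]; funext s; fin_cases s <;> simp [lv]

theorem lvv_wq {x m t : ℝ} (hx : 0 ≤ x) (ht : 0 ≤ t) (htx : t ≤ x) (hm : m ≤ x) :
    WqL (![x, 0, x, x, x, x, x, t, x, t, m] : Fin 11 → ℝ) := by
  constructor <;> simp only [Matrix.cons_val] <;> linarith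

/-- total loss of `N`, everything else frozen -/
theorem num_loss (H : OutA g L a b dh n lam A φ r) (hh : Hom g L dh φ) (G : LGrpA g L a b dh)
    (hx : 0 ≤ x) (hT : ∀ s, s ≠ 1 → T s = x) :
    lam (cut {0, 3} (lv x 0 0) T) - lam (cut {0, 3} (lv x x 0) T) ≤ GF8.aN (φ (g 8)) * x := by
  rw [cutT hT, cutT hT, cut_lv, cut_lv]
  have d1 := dif_A H (mem_gset 8) (G.leg _ (lvv_wq (x := x) (m := x) (t := 0) hx le_rfl hx le_rfl))
    (G.leg _ (lvv_wq (x := x) (m := 0) (t := 0) hx le_rfl hx hx)) (fun i hi => by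
    have hi' : ¬ (i = 4 ∨ i = 8 ∨ i = 10) := fun h => hi ((G.g8 i).2 h)
    revert hi'
    fin_cases i <;> simp)
  have d2 := (gf8_of H hh G).lin_F hx (c := ![x, 0, x, x, x, x, x, 0, x, 0, 0])
    (c' := ![x, 0, x, x, x, x, x, 0, x, 0, x]) rfl rfl rfl rfl rfl rfl
  linarith

/-- loss of `X_b` (with `P`), everything else frozen -/
theorem num_full (H : OutA g L a b dh n lam A φ r) (hh : Hom g L dh φ) (G : LGrpA g L a b dh)
    (hx : 0 ≤ x) (hT : ∀ s, s ≠ 1 → T s = x) {t : ℝ} (ht : 0 ≤ t) (htx : t ≤ x) :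
    lam (cut {0, 3} (lv x x 0) T) - lam (cut {0, 3} (lv x x t) T) =
      -φ (g 7) (topL 1) * t := by
  rw [cutT hT, cutT hT, cut_lv, cut_lv]
  have d1 := dif_A H (mem_gset 7) (G.leg _ (lvv_wq (x := x) (m := x) (t := t) hx ht htx le_rfl))
    (G.leg _ (lvv_wq (x := x) (m := x) (t := 0) hx le_rfl hx le_rfl)) (fun i hi => by
    have hi' : ¬ (i = 7 ∨ i = 9) := fun h => hi ((G.g7 i).2 h)
    revert hi'
    fin_cases i <;> simp)
  have e0 : φ (g 7) ![x, 0, x, x, x, x, x, 0, x, 0, x] = 0 := H.zero _ _ fun i hi => by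
    rcases (G.g7 i).1 hi with rfl | rfl <;> simp
  have l1 : topL 1 ∈ L := by
    rw [top_vL]
    exact G.leg _ (vL_wq (by norm_num) (by norm_num) (by norm_num) (by norm_num)
      (by norm_num) (by norm_num) (by norm_num) (by norm_num))
  have e1 : φ (g 7) ![x, 0, x, x, x, x, x, t, x, t, x] = t * φ (g 7) (topL 1) := by
    rw [← hh _ G.dh7 _ l1 t ht]
    refine H.loc _ _ _ fun i hi => ?_
    rcases (G.g7 i).1 hi with rfl | rfl <;> simp [topL]
  linarith

end Loss

end Crest.Agent.R136.WkL626
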