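import Crest.Agent.R136.WkL2_626

/-!
# R136 (S0187): `C_a` is spread at interior points (helper626)

`conc_at` : supermodularity against the record point with the same angular exponents.
`conc_tan` : the same for a tangent at the interior point.
-/

set_option autoImplicit false
set_option linter.unusedSectionVars false
set_option linter.unusedVariables false

open Filter Topology Set

namespace Crest.Agent.R136.WkL626

open Crest.Agent.R136.Dg219 (mem_gset)

/-- `C_a` -/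
def e5 : Fin 11 → ℝ := Pi.single 5 1

/-- `C_a, X_a` -/
def e58 : Fin 11 → ℝ := ![0, 0, 0, 0, 0, 1, 0, 0, 1, 0, 0]

/-- the sheet direction `t1` -/
def d58 : Fin 11 → ℝ := ![0, 0, -1, 0, -1, 1, 0, 0, 1, 0, 0]

theorem e5_le : ∀ i, e5 i ≤ e58 i := by intro i; fin_cases i <;> simp [e5, e58]

theorem d58_le : ∀ i, d58 i ≤ e58 i := by intro i; fin_cases i <;> simp [d58, e58]

theorem sum58 : ∑ i, (e58 i - e5 i) = 1 := by
  simp [e58, e5, Fin.sum_univ_succ, Pi.single_apply]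

/-- **loss of `C_a` at a point left of the record** -/
theorem conc_at {Lc : Set (Fin 11 → ℝ)} {lam : (Fin 11 → ℝ) → ℝ}
    (hsm : ∀ p ∈ Lc, ∀ q ∈ Lc, p ⊓ q ∈ Lc → p ⊔ q ∈ Lc → lam p + lam q ≤ lam (p ⊔ q) + lam (p ⊓ q))
    (hsharp : ∀ c ∈ Lc, ∀ c' ∈ Lc, c ≤ c' → lam c - lam c' ≤ ∑ i, (c' i - c i))
    {r y : Fin 11 → ℝ} (hyr : y ≤ r) (h5 : y 5 = r 5) {s : ℝ} (hs : 0 ≤ s)
    (hr : r ∈ Lc) (hy : y ∈ Lc) (hre : r + s • e5 ∈ Lc) (hye : y + s • e5 ∈ Lc)
    (hr58 : r + s • e58 ∈ Lc) {q1 : ℝ} (hD : lam (r + s • e58) ≤ lam r - (1 + q1) * s) :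
    lam (y + s • e5) ≤ lam y - q1 * s := by
  have e1 : (y + s • e5) ⊔ r = r + s • e5 := by
    funext i
    simp only [Pi.sup_apply, Pi.add_apply, Pi.smul_apply, smul_eq_mul, e5]
    by_cases hi : i = 5
    · subst hi; rw [h5]; simp [hs]
    · simp [hi, hyr i]
  have e2 : (y + s • e5) ⊓ r = y := by
    funext i
    simp only [Pi.inf_apply, Pi.add_apply, Pi.smul_apply, smul_eq_mul, e5]
    by_cases hi : i = 5
    · subst hi; rw [h5]; simp [hs]
    · simp [hi, hyr i]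
  have s1 := hsm _ hye _ hr (by rw [e2]; exact hy) (by rw [e1]; exact hre)
  rw [e1, e2] at s1
  have s2 := hsharp _ hre _ hr58 (by
    intro i
    have := mul_le_mul_of_nonneg_left (e5_le i) hs
    simp only [Pi.add_apply, Pi.smul_apply, smul_eq_mul]
    linarith)
  have s3 : ∑ i, ((r + s • e58) i - (r + s • e5) i) = s := by
    have : ∀ i, (r + s • e58) i - (r + s • e5) i = s * (e58 i - e5 i) := by
      intro i
      simp only [Pi.add_apply, Pi.smul_apply, smul_eq_mul]; ring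
    simp only [this]
    rw [← Finset.mul_sum, sum58, mul_one]
  rw [s3] at s2
  linarith

/-- the same for tangents -/
theorem conc_tan {P D : Set (Fin 11 → ℝ)} {lam lamI : (Fin 11 → ℝ) → ℝ} {y : Fin 11 → ℝ}
    {k : ℕ → ℝ} (hk : ∀ l, 0 < k l) (ht : Crest.Agent.R138.Ex926.IsTan P D lam (fun _ => y) k lamI)
    (h5 : e5 ∈ D) {q1 : ℝ} (h : ∀ s : ℝ, 0 < s → lam (y + s • e5) ≤ lam y - q1 * s) :
    lamI e5 ≤ -q1 := by
  refine le_of_forall_pos_le_add fun ε hε => ?_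
  obtain ⟨l, h1, h2⟩ := (ht.ev h5 hε).exists
  have h3 := h (k l) (hk l)
  have h4 := (abs_le.1 h2).1
  have hkl := hk l
  have h5' : k l * lamI e5 ≤ k l * (-q1 + ε) := by linarith
  exact le_of_mul_le_mul_left h5' hkl

/-- the rate of `C_a` in the group function -/
theorem num_m {κ : Type*} [DecidableEq κ] {g : Fin 11 → κ} {L : Set (Fin 11 → ℝ)}
    {a b dh : Fin 11 → ℝ} {n : κ → ℝ × ℝ} {lam : (Fin 11 → ℝ) → ℝ} {A : ℝ × ℝ}
    {φ : κ → (Fin 11 → ℝ) → ℝ} {r : κ → ℝ} (H : Rc146.OutA g L a b dh n lam A φ r)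
    (hleg : ∀ c, WqL c → c ∈ L) {q1 : ℝ} (h : lam e5 ≤ -q1) :
    q1 ≤ -φ (g 5) (Pi.single 5 1) := by
  have lz : (0 : Fin 11 → ℝ) ∈ L := hleg _ (by constructor <;> simp)
  have l5 : e5 ∈ L := hleg _ (by constructor <;> simp [e5])
  have d1 := dif_A H (mem_gset 5) lz l5 (fun i hi => by
    have hi' : i ≠ 5 := fun h => hi (by rw [h])
    simp [e5, hi'])
  have h0 : lam 0 = 0 := by
    rw [H.sum 0 lz]
    exact Finset.sum_eq_zero fun k _ => H.zero k 0 fun i _ => rfl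
  rw [h0, H.zero (g 5) 0 (fun i _ => rfl)] at d1
  have e : φ (g 5) e5 = φ (g 5) (Pi.single 5 1) := rfl
  rw [← e]
  linarith

end Crest.Agent.R136.WkL626
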