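import Crest.Agent.R136.WkM2_626
import Crest.Agent.R136.GauB2_66

/-!
# R136 (helper626): T.L, part (C), large branch

`gwin_large_core` : twin windows (interior `LightF`, record `RecW`), `F_b` affine with slope of
natural size; conclusion 196's `GWin`.
-/

set_option autoImplicit false
set_option linter.unusedSectionVars false
set_option linter.unusedVariables false

open Filter Topology

namespace Crest.Agent.R136.WkM626

open Finset
open Crest.Agent.R136.NetQ186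
open Crest.Agent.R136.GeoQ186
open Crest.Agent.R136.Qg926
open Crest.Agent.R136.Net191
open Crest.Agent.R136.Gau66
open Crest.Agent.R136.Gz779
open Crest.Agent.R136.Zpr779
open Crest.Agent.R136.NatT550
open Crest.Agent.R136.NatR550
open Crest.Agent.R136.TL196
open Crest.Agent.R136.Wk323 (TightX)
open Crest.Agent.R138.Ex926
open Crest.Agent.R138.Dp76 (Dense)

/-! ### the walls of the window -/

/-- the walls of the chart which do not see the slot `R` -/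
def monL : Mons 11 where
  mon k := (mfQ k).filter fun e => e 1 = 0
  low := fun k e he => monQ.low k e (mem_filter.1 he).1
  ne := fun k e he => monQ.ne k e (mem_filter.1 he).1

theorem monL_sub (k : Fin 11) : monL.mon k ⊆ mfQ k := filter_subset _ _

theorem monL_one (k : Fin 11) : ∀ e ∈ monL.mon k, e 1 = 0 := fun e he => (mem_filter.1 he).2

theorem leg_monL (R' : ℝ) : Leg monL R' ⊆ coneN := by
  intro c hc
  have h := hc.1.wall
  have w4 := h 4 ![0, 0, 1, 1, 0, 0, 0, 0, 0, 0, 0] (mem_filter.2 ⟨by simp [mfQ], rfl⟩)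
  have w6 := h 6 ![0, 0, 1, 0, 0, 1, 0, 0, 0, 0, 0] (mem_filter.2 ⟨by simp [mfQ], rfl⟩)
  have w7 := h 7 ![0, 0, 0, 0, 1, 1, 0, 0, 0, 0, 0] (mem_filter.2 ⟨by simp [mfQ], rfl⟩)
  have w7' := h 7 ![0, 0, 0, 1, 0, 0, 1, 0, 0, 0, 0] (mem_filter.2 ⟨by simp [mfQ], rfl⟩)
  have w8 := h 8 ![1, 0, 0, 0, 0, 1, 0, 0, 0, 0, 0] (mem_filter.2 ⟨by simp [mfQ], rfl⟩)
  have w9 := h 9 ![1, 0, 0, 0, 0, 0, 1, 0, 0, 0, 0] (mem_filter.2 ⟨by simp [mfQ], rfl⟩)
  have w9' := h 9 ![0, 0, 1, 0, 0, 0, 0, 0, 1, 0, 0] (mem_filter.2 ⟨by simp [mfQ], rfl⟩)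
  have w10 := h 10 ![1, 0, 0, 0, 0, 0, 0, 1, 0, 0, 0] (mem_filter.2 ⟨by simp [mfQ], rfl⟩)
  have w10' := h 10 ![0, 0, 0, 0, 1, 0, 0, 0, 1, 0, 0] (mem_filter.2 ⟨by simp [mfQ], rfl⟩)
  have w10'' := h 10 ![0, 0, 0, 1, 0, 0, 0, 0, 0, 1, 0] (mem_filter.2 ⟨by simp [mfQ], rfl⟩)
  simp only [Fin.sum_univ_succ, Fin.sum_univ_zero, Matrix.cons_val_zero, Matrix.cons_val_succ,
    Nat.cast_zero, Nat.cast_one, zero_mul, one_mul, add_zero, zero_add,
    Fin.succ_zero_eq_one, Fin.succ_one_eq_two, Fin.reduceSucc] at w4 w6 w7 w7' w8 w9 w9' w10 w10' w10''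
  exact ⟨w4, w6, w7, w7', w8, w9, w9', w10, w10', w10''⟩

/-! ### density with one loss function -/

theorem dense_sub {B : Base} {ι : ℕ → Type*} {J I : ∀ n, Finset (ι n)} (h : Dense B J I) :
    ∃ S : ℕ → ℝ, B.Sub S ∧ ∀ᶠ n in (U : Filter ℕ), ((I n).card : ℝ) ≤ S n * ((J n).card : ℝ) := by
  obtain ⟨k, hk, hk2⟩ := exists_diag (fun j n =>
    B.d n ^ (1 / ((j : ℝ) + 1)) * ((I n).card : ℝ) ≤ ((J n).card : ℝ))
    (fun j => h.2 (1 / ((j : ℝ) + 1)) (by positivity))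
  refine ⟨fun n => B.d n ^ (-(1 / ((k n : ℝ) + 1))), sub_rpow
    (tendsto_one_div_add_atTop_nhds_zero_nat.comp hk), ?_⟩
  filter_upwards [hk2] with n hn
  have h1 := hn (k n) le_rfl
  have hp : 0 < B.d n ^ (-(1 / ((k n : ℝ) + 1))) := Real.rpow_pos_of_pos (B.pos n) _
  calc ((I n).card : ℝ) = B.d n ^ (-(1 / ((k n : ℝ) + 1))) *
        (B.d n ^ (1 / ((k n : ℝ) + 1)) * ((I n).card : ℝ)) := by
        rw [← mul_assoc, ← Real.rpow_add (B.pos n)]; simp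
    _ ≤ _ := mul_le_mul_of_nonneg_left h1 hp.le

theorem sub_dense {B : Base} {ι : ℕ → Type*} {J I : ∀ n, Finset (ι n)}
    (hJ : ∀ n, J n ⊆ I n) {S : ℕ → ℝ} (hS : B.Sub S)
    (h : ∀ᶠ n in (U : Filter ℕ), ((I n).card : ℝ) ≤ S n * ((J n).card : ℝ)) : Dense B J I :=
  Crest.Agent.R138.Dp76.dense_of_sub hS (h.mono fun n hn => ⟨hJ n, hn⟩)

open Classical in
/-- **popular coarse labels**, sequence form -/
theorem popular_seq {ι α β : ℕ → Type*} [∀ n, DecidableEq (ι n)] [∀ n, DecidableEq (α n)]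
    [∀ n, DecidableEq (β n)] (J : ∀ n, Finset (ι n)) (f : ∀ n, ι n → α n) (g : ∀ n, ι n → β n)
    {N : ℝ} (hN : ∀ᶠ n in (U : Filter ℕ), ∀ s ∈ J n,
      (((cls (J n) (f n) s).image (g n)).card : ℝ) ≤ N) :
    ∃ J' : ∀ n, Finset (ι n), (∀ n, J' n ⊆ J n) ∧
      (∀ᶠ n in (U : Filter ℕ), ((J n).card : ℝ) ≤ N * ((J' n).card : ℝ)) ∧
      ∀ᶠ n in (U : Filter ℕ), ∀ x ∈ J' n, ∀ y ∈ J' n, f n x = f n y → g n x = g n y := by
  set P : ∀ n, Finset (ι n) → Prop := fun n J' => J' ⊆ J n ∧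
    ((J n).card : ℝ) ≤ N * (J'.card : ℝ) ∧ ∀ x ∈ J', ∀ y ∈ J', f n x = f n y → g n x = g n y
    with hP
  set J' : ∀ n, Finset (ι n) := fun n => if h : ∃ J', P n J' then h.choose else ∅ with hJ'
  have hspec : ∀ᶠ n in (U : Filter ℕ), P n (J' n) := by
    filter_upwards [hN] with n hn
    have h : ∃ J', P n J' := by
      obtain ⟨J', h1, h2, h3⟩ := popular_fs (J n) (f n) (g n) hn
      exact ⟨J', h1, h2, h3⟩
    have e : J' n = h.choose := dif_pos h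
    rw [e]; exact h.choose_spec
  refine ⟨J', fun n => ?_, hspec.mono fun n h => h.2.1, hspec.mono fun n h => h.2.2⟩
  by_cases h : ∃ J', P n J'
  · have e : J' n = h.choose := dif_pos h
    rw [e]; exact h.choose_spec.1
  · have e : J' n = ∅ := dif_neg h
    rw [e]; exact empty_subset _

/-! ### exponents -/

theorem eN_bT (T1 : ℝ) : (-T1) • eN = bT T1 := by
  funext k
  unfold bT
  fin_cases k <;> simp [eN, nL] <;> ring

theorem eN_mem (s : ℝ) : s • eN ∈ coneN := by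
  have := nL_mem 0 s (2 * s) (2 * s)
  have e : s • eN = nL 0 s (2 * s) (2 * s) := by
    funext k
    fin_cases k <;> simp [eN, nL] <;> ring
  rw [e]; exact this

/-- class base of the interior window -/
noncomputable def Yb (c : LCtx) (z : ℝ × ℝ) (T1 : ℝ) (ξ w h : ℕ → ℝ) (n : ℕ) : Fin 11 → ℝ :=
  c.X (ξ n) + w n • yI c z + (w n * h n) • ((-T1) • eN)

/-- class base of the record window -/
noncomputable def Xb (c : LCtx) (z : ℝ × ℝ) (T1 : ℝ) (ξ w h : ℕ → ℝ) : ℕ → Fin 11 → ℝ :=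
  c.XB T1 (fun n => ξ n + w n * z.2) (fun n => w n * h n)

theorem Yb_eq (c : LCtx) (z : ℝ × ℝ) (T1 : ℝ) (ξ w h : ℕ → ℝ) (n : ℕ) :
    Yb c z T1 ξ w h n = Xb c z T1 ξ w h n + (w n * z.1) • tN := by
  unfold Yb Xb LCtx.XB yI
  rw [← X_add, ← eN_bT]
  funext k
  simp only [Pi.add_apply, Pi.smul_apply, smul_eq_mul]
  ring

theorem Xb_zero (c : LCtx) (z : ℝ × ℝ) (T1 : ℝ) (ξ w h : ℕ → ℝ) (n : ℕ) :
    Xb c z T1 ξ w h n 0 = c.w0 + (ξ n + w n * z.2) := by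
  simp only [Xb, LCtx.XB, LCtx.X, nat4, bT, nL, Pi.add_apply, Pi.smul_apply, smul_eq_mul,
    Matrix.cons_val]
  ring

theorem Xb_three {c : LCtx} {η : ℝ} (ok : c.Ok η) (z : ℝ × ℝ) (T1 : ℝ) (ξ w h : ℕ → ℝ) (n : ℕ) :
    Xb c z T1 ξ w h n 3 = c.w0 + (ξ n + w n * z.2) := by
  have hL : c.p.θ 2 - c.p.θ 0 = 1 := ok.pat.2.2.1
  simp only [Xb, LCtx.XB, LCtx.X, nat4, bT, nL, Pi.add_apply, Pi.smul_apply, smul_eq_mul,
    Matrix.cons_val]
  linear_combination (ξ n + w n * z.2) * hL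

theorem Yb_tight (c : LCtx) (z : ℝ × ℝ) (T1 : ℝ) (ξ w h : ℕ → ℝ) (n : ℕ) :
    TightX (Yb c z T1 ξ w h n) := by
  constructor <;>
    simp only [Yb, yI, LCtx.X, LCtx.ρ, nat4, eN, tN, nL, Pi.add_apply, Pi.smul_apply,
      smul_eq_mul, Matrix.cons_val] <;> ring

theorem Yb_le (c : LCtx) {z : ℝ × ℝ} (hz : z.1 < 0) (T1 : ℝ) {ξ w h : ℕ → ℝ} {n : ℕ}
    (hw : 0 ≤ w n) : Yb c z T1 ξ w h n ≤ Xb c z T1 ξ w h n := by
  rw [Yb_eq]
  intro k
  have h1 : w n * z.1 ≤ 0 := mul_nonpos_of_nonneg_of_nonpos hw hz.le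
  have h2 : 0 ≤ tN k := by fin_cases k <;> simp [tN]
  have := mul_nonpos_of_nonpos_of_nonneg h1 h2
  simp only [Pi.add_apply, Pi.smul_apply, smul_eq_mul]
  linarith

/-- small powers -/
theorem pow_le_of {b h K x s : ℝ} (hb : 0 < b) (hb1 : b < 1) (hh0 : 0 ≤ h) (hh1 : h ≤ 1)
    (hx : 0 ≤ x) (hK : x + |s| ≤ K) {ε : ℝ} (hε : 0 ≤ ε) :
    b ^ K ≤ (b ^ h) ^ (x - ε) * b ^ s := by
  rw [← Real.rpow_mul hb.le, ← Real.rpow_add hb]
  refine Real.rpow_le_rpow_of_exponent_ge hb hb1.le ?_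
  have h1 : h * (x - ε) ≤ x := by nlinarith
  have h2 := le_abs_self s
  linarith

theorem monQ_zero : monQ.mon 0 = ∅ := rfl

/-- **large branch**, from the twin windows -/
theorem gwin_large_core {c : LCtx} {η : ℝ} (ok : c.Ok η) {B1 B2 : Base}
    {J : ℕ → Finset (ℕ × ℝ)} {ξ w h : ℕ → ℝ} {z : ℝ × ℝ} (hz : z.1 < 0) (hpos : ∀ n, 0 < h n)
    (h0 : Tendsto h U (𝓝 0)) (hd1 : ∀ n, B1.d n = c.D.B.d n ^ w n)
    (hd2 : ∀ n, B2.d n = B1.d n ^ h n) {lamI : (Fin 11 → ℝ) → ℝ} {a m : ℝ}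
    (LF : LightF coneN lamI a m) {TI : ℕ → ℝ}
    (ZI : ZWin c.D.B B2 c.D.I J (coF c.F) monQ 2 (fun n => c.X (ξ n) + w n • yI c z)
      (fun n => w n * h n) coneN TI lamI)
    {lamR loR : (Fin 11 → ℝ) → ℝ}
    (W2 : RecW c B2 J (fun n => ξ n + w n * z.2) (fun n => w n * h n) lamR loR)
    {g : ℕ → ℕ × ℝ → ℕ × ℝ} {mu be : ℕ → ℕ × ℝ → ℝ}
    (few : ∃ N : ℝ, 1 ≤ N ∧ ∀ K : ℝ, ∀ᶠ n in (U : Filter ℕ), ∀ a ∈ coneN, 0 ≤ a 1 → ‖a‖ ≤ K →
      ∀ s ∈ J n,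
      (((cls (J n) (zlab c.D.B c.D.I (coF c.F) monQ 2 (fun n => c.X (ξ n)) w n a) s).image
        (g n)).card : ℝ) ≤ N)
    (hmu : ∀ ε : ℝ, 0 < ε → ∀ᶠ n in (U : Filter ℕ), ∀ i ∈ J n,
      B2.d n ^ ε * c.D.B.d n ^ (c.X (ξ n) 3) ≤ |mu n (g n i)| * c.D.B.d n ^ (c.X (ξ n) 0) ∧
      |mu n (g n i)| * c.D.B.d n ^ (c.X (ξ n) 0) ≤ B2.d n ^ (-ε) * c.D.B.d n ^ (c.X (ξ n) 3))
    (aff : ∀ K : ℝ, ∀ᶠ n in (U : Filter ℕ), ∀ i ∈ J n,
      |(c.F n i).fb - be n (g n i) - mu n (g n i) * (c.F n i).z| ≤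
        B1.d n ^ K * c.D.B.d n ^ (c.X (ξ n) 3))
    {T1 x : ℝ} (hx : 0 < x) :
    ∃ (J' Cl : ℕ → Finset (ℕ × ℝ)) (s₀ : ℕ → ℕ × ℝ) (hg : ℕ → Fin 6 → ℝ) (ηg : ℕ → ℝ),
      (∀ n, J' n ⊆ J n) ∧
      GWin c T1 x B2 J' (fun n => ξ n + w n * z.2) (fun n => w n * h n) lamR loR Cl Cl s₀ hg
        ηg := by
  classical
  set v : ℕ → ℝ := fun n => w n * h n with hv
  set Y : ℕ → Fin 11 → ℝ := Yb c z T1 ξ w h with hY
  set XB : ℕ → Fin 11 → ℝ := Xb c z T1 ξ w h with hXB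
  have hv0 : ∀ n, 0 < w n * h n := ZI.w0
  have hw0 : ∀ n, 0 < w n := fun n => by
    have h1 := hv0 n
    have h2 := hpos n
    by_contra hcon
    push Not at hcon
    have := mul_nonpos_of_nonpos_of_nonneg hcon h2.le
    linarith
  have hh1 : ∀ᶠ n in (U : Filter ℕ), h n ≤ 1 := h0.eventually (ge_mem_nhds one_pos)
  have hdd : ∀ n, ∀ t : ℝ, 0 < c.D.B.d n ^ t := fun n t =>
    Real.rpow_pos_of_pos (c.D.B.pos n) t
  -- the two labels
  set fI : ℕ → ℕ × ℝ → ℕ × ℝ := fun n => zlab c.D.B c.D.I (coF c.F) monQ 2 Y v n 0 with hfI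
  set fR : ℕ → ℕ × ℝ → ℕ × ℝ := fun n => zlab c.D.B c.D.I (coF c.F) monQ 2 XB v n 0 with hfR
  -- step 1 : one coarse label on every interior class
  obtain ⟨N, hN, hfew⟩ := few
  have hN1 : ∀ᶠ n in (U : Filter ℕ), ∀ s ∈ J n,
      (((cls (J n) (fI n) s).image (g n)).card : ℝ) ≤ N := by
    filter_upwards [hfew (‖yI c z‖ + ‖(-T1) • eN‖), hh1] with n hn h1 s hs
    have e : fI n = zlab c.D.B c.D.I (coF c.F) monQ 2 (fun n => c.X (ξ n)) w n
        (yI c z + h n • ((-T1) • eN)) := by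
      show nlab c.D.B c.D.I (coF c.F) monQ 2 n (Y n + v n • 0) =
        nlab c.D.B c.D.I (coF c.F) monQ 2 n (c.X (ξ n) + w n • (yI c z + h n • ((-T1) • eN)))
      congr 1
      rw [hY, hv]
      funext k
      simp only [Yb, Pi.add_apply, Pi.smul_apply, smul_eq_mul, Pi.zero_apply]
      ring
    rw [e]
    refine hn _ (coneN_add (yI_mem c z) ?_) ?_ ?_ s hs
    · rw [smul_smul]; exact eN_mem _
    · have : (yI c z + h n • ((-T1) • eN)) 1 = 0 := by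
        simp [yI, tN, eN, LCtx.ρ, nL]
      rw [this]
    · refine (norm_add_le _ _).trans ?_
      rw [norm_smul, Real.norm_of_nonneg (hpos n).le]
      have := norm_nonneg ((-T1) • eN)
      nlinarith
  obtain ⟨J1, hJ1, hc1, hg1⟩ := popular_seq J fI g hN1
  have hne1 : ∀ᶠ n in (U : Filter ℕ), (J1 n).Nonempty := by
    filter_upwards [ZI.ne, hc1] with n h1 h2
    rw [nonempty_iff_ne_empty]
    rintro h3
    rw [h3, card_empty, Nat.cast_zero, mul_zero] at h2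
    have := card_pos.2 h1
    have : (0 : ℝ) < (J n).card := by exact_mod_cast this
    linarith
  have ZI1 := ZI.refine (J' := J1) (Eventually.of_forall hJ1) hne1 (S := fun _ => N)
    (Base.Sub.const (by linarith)) hc1
  have ZI2 : ZWin c.D.B B2 c.D.I J1 (fun n i j => coQ (c.F n i) (c.F n j)) monQ 2 Y v coneN
      (fun n => TI n * B2.d n ^ (-lamI ((-T1) • eN))) lamI :=
    zwin_light_shift ZI1 LF (τ := -T1) fun c' hc' => coneN_add (eN_mem _) hc'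
  -- exponents
  have hX0 : ∀ n, c.X (ξ n) 0 = c.w0 + ξ n := fun n => X_zero c (ξ n)
  have hX3 : ∀ n, c.X (ξ n) 3 = c.w0 + ξ n := fun n => X_three ok (ξ n)
  have hB0 : ∀ n, XB n 0 = c.w0 + (ξ n + w n * z.2) := fun n => Xb_zero c z T1 ξ w h n
  have hB3 : ∀ n, XB n 3 = c.w0 + (ξ n + w n * z.2) := fun n => Xb_three ok z T1 ξ w h n
  have hYX : ∀ n k, Y n k = XB n k + (w n * z.1) * tN k := fun n k => by
    have := congrFun (Yb_eq c z T1 ξ w h n) k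
    simpa only [Pi.add_apply, Pi.smul_apply, smul_eq_mul] using this
  have hY0 : ∀ n, Y n 0 = c.w0 + (ξ n + w n * z.2) + w n * z.1 := fun n => by
    rw [hYX, hB0]; simp [tN]
  have hY3 : ∀ n, Y n 3 = c.w0 + (ξ n + w n * z.2) + w n * z.1 := fun n => by
    rw [hYX, hB3]; simp [tN]
  have hY2 : ∀ n, Y n 2 = XB n 2 := fun n => by rw [hYX]; simp [tN]
  have hY5 : ∀ n, Y n 5 = XB n 5 := fun n => by rw [hYX]; simp [tN]
  have hY6 : ∀ n, Y n 6 = XB n 6 := fun n => by rw [hYX]; simp [tN]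
  have hdw : ∀ n, ∀ s : ℝ, c.D.B.d n ^ (c.w0 + ξ n + w n * s) =
      c.D.B.d n ^ (c.X (ξ n) 3) * B1.d n ^ s := fun n s => by
    rw [hX3, hd1, ← Real.rpow_mul (c.D.B.pos n).le, ← Real.rpow_add (c.D.B.pos n)]
  -- slopes at a level
  have hmu' : ∀ ε : ℝ, 0 < ε → ∀ᶠ n in (U : Filter ℕ), ∀ i ∈ J n,
      B2.d n ^ ε ≤ |mu n (g n i)| ∧ |mu n (g n i)| ≤ B2.d n ^ (-ε) := by
    intro ε hε
    filter_upwards [hmu ε hε] with n hn i hi
    obtain ⟨a1, a2⟩ := hn i hi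
    rw [hX0, hX3] at a1 a2
    exact ⟨le_of_mul_le_mul_right a1 (hdd n _), le_of_mul_le_mul_right a2 (hdd n _)⟩
  -- step 2 : rigid relations
  obtain ⟨J3, hJ3, hD3, s0, e0, q0, hrel⟩ := rig_classes (x := x) (R' := x) (Mw := monL)
    (fun _ => ((0 : ℕ), (0 : ℝ))) ZI2 (fun n i => F_y2 c n i)
    (Eventually.of_forall fun n => Yb_tight c z T1 ξ w h n) LF hx le_rfl monL_sub monL_one
    monQ_zero (leg_monL x) g mu be hg1
    (fun ε hε => by
      filter_upwards [hmu' ε hε] with n hn i hi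
      obtain ⟨a1, a2⟩ := hn i (hJ1 n hi)
      rw [hY0, hY3]
      exact ⟨mul_le_mul_of_nonneg_right a1 (hdd n _).le,
        mul_le_mul_of_nonneg_right a2 (hdd n _).le⟩)
    (fun ε hε => by
      filter_upwards [aff (x + |z.2 + z.1|), hh1] with n hn h1 i hi
      refine (hn i (hJ1 n hi)).trans ?_
      have e1 : c.D.B.d n ^ Y n 3 = c.D.B.d n ^ (c.X (ξ n) 3) * B1.d n ^ (z.2 + z.1) := by
        rw [← hdw, hY3]; congr 1; ring
      rw [e1, hd2]
      have h2 := pow_le_of (b := B1.d n) (h := h n) (x := x) (s := z.2 + z.1) (B1.pos n)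
        (B1.lt n) (hpos n).le h1 hx.le le_rfl hε.le
      have h3 := mul_le_mul_of_nonneg_right h2 (hdd n (c.X (ξ n) 3)).le
      linarith)
  -- step 3 : one interior label on every record class
  have hlegR := (W2.win_shift T1).legal 0
  have hlegI := ZI2.legal 0
  have hz0 : (0 : Fin 11 → ℝ) ∈ {a | bT T1 + a ∈ coneN} := (W2.win_shift T1).zero
  obtain ⟨J4, hJ4, hc4, hg4⟩ := popular_seq J3 fR fI (N := cN monQ 2 (cK0 monQ 2)) (by
    filter_upwards [hlegR, hlegI, ZI.sub] with n a1 a2 a3 s hs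
    exact few_labels (fun n => chartQ (c.D.I n) fun x => c.F n x)
      (a2 0 coneN_zero (by rw [norm_zero])) (a1 0 hz0 (by rw [norm_zero]))
      (by
        have := Yb_le c hz T1 (ξ := ξ) (h := h) (hw0 n).le
        intro k
        have := this k
        simp only [smul_zero, add_zero]
        exact this)
      (fun i hi => a3 (hJ1 n (hJ3 n hi))) hs)
  -- step 4 : the class
  obtain ⟨S3, hS3, hc3⟩ := dense_sub hD3
  have hK1 : (0 : ℝ) < cN monQ 2 (cK0 monQ 2) := cN_pos monQ (by norm_num) (cK0_one (by norm_num))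
  have hcard : ∀ᶠ n in (U : Filter ℕ), ((J n).card : ℝ) ≤
      (N * (S3 n * cN monQ 2 (cK0 monQ 2))) * ((J4 n).card : ℝ) := by
    filter_upwards [hc1, hc3, hc4, (Base.Sub.iff.1 hS3).1] with n a1 a2 a3 a4
    calc ((J n).card : ℝ) ≤ N * ((J1 n).card : ℝ) := a1
      _ ≤ N * (S3 n * ((J3 n).card : ℝ)) := mul_le_mul_of_nonneg_left a2 (by linarith)
      _ ≤ N * (S3 n * (cN monQ 2 (cK0 monQ 2) * ((J4 n).card : ℝ))) := by
          refine mul_le_mul_of_nonneg_left ?_ (by linarith)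
          exact mul_le_mul_of_nonneg_left a3 a4.le
      _ = _ := by ring
  have hsub4 : ∀ n, J4 n ⊆ J n := fun n => (hJ4 n).trans ((hJ3 n).trans (hJ1 n))
  have hne4 : ∀ᶠ n in (U : Filter ℕ), (J4 n).Nonempty := by
    filter_upwards [ZI.ne, hcard] with n h1 h2
    rw [nonempty_iff_ne_empty]
    rintro h3
    rw [h3, card_empty, Nat.cast_zero, mul_zero] at h2
    have := card_pos.2 h1
    have : (0 : ℝ) < (J n).card := by exact_mod_cast this
    linarith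
  have W4 := W2.refine (J' := J4) (Eventually.of_forall hsub4) hne4
    ((Base.Sub.const (B := B2) (show (0 : ℝ) < N by linarith)).mul
      (hS3.mul (Base.Sub.const hK1))) hcard
  obtain ⟨Cl, s₀, hgg, ηg, hG⟩ := gwin_of_rel (κ' := fun _ => (ℕ × ℝ) × (ℕ × ℝ)) (x := x) ok
    (T1 := T1) W4 (fun n i => (fI n i, g n i)) (fun n p => s0 n p.1) (fun n p => e0 n p.1)
    (fun n p => q0 n p.1) (fun n p => be n p.2) (fun n p => mu n p.2)
    (by
      filter_upwards [hg4, hg1] with n a1 a2 i hi j hj hij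
      have h1 := a1 i hi j hj hij
      exact Prod.ext h1 (a2 i (hJ3 n (hJ4 n hi)) j (hJ3 n (hJ4 n hj)) h1))
    (fun ε hε => by
      filter_upwards [hmu' ε hε] with n hn i hi
      obtain ⟨a1, a2⟩ := hn i (hsub4 n hi)
      show |mu n (g n i)| * c.D.B.d n ^ XB n 0 ≤ B2.d n ^ (-ε) * c.D.B.d n ^ XB n 3
      rw [hB0, hB3]
      exact mul_le_mul_of_nonneg_right a2 (hdd n _).le)
    (fun ε hε => by
      filter_upwards [hrel ε hε] with n hn i hi
      have h1 := (hn i (hJ4 n hi)).1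
      rw [hY5, hY2] at h1
      exact h1)
    (fun ε hε => by
      filter_upwards [hrel ε hε, aff (x + |z.2|), hh1] with n hn ha h1 i hi
      have h2 := (hn i (hJ4 n hi)).2
      rw [hY2, hY6] at h2
      refine ⟨h2.str, h2.hE, h2.hC, ?_⟩
      have h3 := ha i (hsub4 n hi)
      have e1 : c.D.B.d n ^ XB n 3 = c.D.B.d n ^ (c.X (ξ n) 3) * B1.d n ^ z.2 := by
        rw [← hdw, hB3]; congr 1; ring
      show |(c.F n i).fb - (be n (g n i) + mu n (g n i) * (c.F n i).z)| ≤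
        B2.d n ^ (x - ε) * c.D.B.d n ^ XB n 3
      rw [e1, hd2, ← sub_sub]
      refine h3.trans ?_
      have h4 := pow_le_of (b := B1.d n) (h := h n) (x := x) (s := z.2) (B1.pos n)
        (B1.lt n) (hpos n).le h1 hx.le le_rfl hε.le
      have h5 := mul_le_mul_of_nonneg_right h4 (hdd n (c.X (ξ n) 3)).le
      linarith)
  exact ⟨J4, Cl, s₀, hgg, ηg, hsub4, hG⟩

end Crest.Agent.R136.WkM626
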