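import Crest.Agent.R136.GauD_66
import Crest.Agent.R136.Gau1_66
import Crest.Agent.R136.Gau2_66
import Crest.Agent.R136.Wk11_323

/-!
# R136 (helper626): T.L, part (C), the rigid leaf

`rig_classes` : interior window of the lightlike surface at the class base, `F_b` affine on every
class with slope of natural size; then on a dense part EVERY class satisfies 66's relations `GRel`
(absolute coordinates), one choice of the parameters for all `ε`.
-/

set_option autoImplicit false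
set_option linter.unusedSectionVars false
set_option linter.unusedVariables false

open Filter Topology

namespace Crest.Agent.R136.WkM626

open Finset
open Crest.Agent.R136.Sh605
open Crest.Agent.R136.NetQ186
open Crest.Agent.R136.Qg926
open Crest.Agent.R136.Net191
open Crest.Agent.R136.Wk323 hiding cls mem_cls
open Crest.Agent.R136.WkL626
open Crest.Agent.R136.Gau66
open Crest.Agent.R138.Ex926
open Crest.Agent.R138.Dp76 (Dense)

/-- **change of frame** : the relations in the frame of `s` give the absolute relations -/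
theorem grel_frame {i s : Fq4} {u2 u5 s0 c0 C0 E0 D dF be mu : ℝ} (hu2 : 0 < u2) (hu5 : 0 < u5)
    (str : i.y2 = 0)
    (hE : |coQ s i 2 / u2 - (E0 - s0 * (coQ s i 5 / u5 - c0))| ≤ D)
    (hC : |coQ s i 6 / (u2 * u5) - (C0 + E0 * (coQ s i 5 / u5 - c0) -
      s0 * (coQ s i 5 / u5 - c0) ^ 2 / 2)| ≤ D)
    (hF : |i.fb - (be + mu * i.z)| ≤ dF) :
    GRel (s0 * u2 / u5) (s.e + u2 * (E0 + s0 * c0) + s0 * u2 / u5 * s.ca)
      (s.cb - s.e * s.ca + u2 * u5 * (C0 + E0 * (-s.ca / u5 - c0) -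
        s0 * (-s.ca / u5 - c0) ^ 2 / 2)) be mu (D * u2) (D * (u2 * u5)) dF i where
  str := str
  hE := by
    have e : i.e - (s.e + u2 * (E0 + s0 * c0) + s0 * u2 / u5 * s.ca - s0 * u2 / u5 * i.ca) =
        (coQ s i 2 / u2 - (E0 - s0 * (coQ s i 5 / u5 - c0))) * u2 := by
      have h2 : coQ s i 2 = i.e - s.e := rfl
      have h5 : coQ s i 5 = i.ca - s.ca := rfl
      rw [h2, h5]
      field_simp
      ring
    rw [e, abs_mul, abs_of_pos hu2]
    exact mul_le_mul_of_nonneg_right hE hu2.le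
  hC := by
    have e : i.cb - (s.cb - s.e * s.ca + u2 * u5 * (C0 + E0 * (-s.ca / u5 - c0) -
          s0 * (-s.ca / u5 - c0) ^ 2 / 2) +
          (s.e + u2 * (E0 + s0 * c0) + s0 * u2 / u5 * s.ca) * i.ca -
          s0 * u2 / u5 * i.ca ^ 2 / 2) =
        (coQ s i 6 / (u2 * u5) - (C0 + E0 * (coQ s i 5 / u5 - c0) -
          s0 * (coQ s i 5 / u5 - c0) ^ 2 / 2)) * (u2 * u5) := by
      have h6 : coQ s i 6 = (i.cb - s.cb) - s.e * (i.ca - s.ca) := rfl
      have h5 : coQ s i 5 = i.ca - s.ca := rfl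
      rw [h6, h5]
      field_simp
      ring
    rw [e, abs_mul, abs_of_pos (mul_pos hu2 hu5)]
    exact mul_le_mul_of_nonneg_right hC (mul_pos hu2 hu5).le
  hF := hF

variable {ι κ' : ℕ → Type*} [∀ n, DecidableEq (ι n)] {B B' : Base} {I J : ∀ n, Finset (ι n)}
  {F : ∀ n, ι n → Fq4} {M : Mons 11} {C : ℝ} {Y : ℕ → Fin 11 → ℝ} {w : ℕ → ℝ}
  {D : Set (Fin 11 → ℝ)} {T : ℕ → ℝ} {lam : (Fin 11 → ℝ) → ℝ} {x R' a m : ℝ} {Mw : Mons 11}

/-- the relation of one class at tolerance `ε` -/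
def QR (B B' : Base) (F : ∀ n, ι n → Fq4) (Y : ℕ → Fin 11 → ℝ) (x : ℝ) (g : ∀ n, ι n → κ' n)
    (mu be : ∀ n, κ' n → ℝ) (n : ℕ) (s0 e0 q0 ε : ℝ) (G : Finset (ι n)) : Prop :=
  |s0| * B.d n ^ Y n 5 ≤ B'.d n ^ (-ε) * B.d n ^ Y n 2 ∧ ∀ i ∈ G,
    GRel s0 e0 q0 (be n (g n i)) (mu n (g n i)) (B'.d n ^ (x - ε) * B.d n ^ Y n 2)
      (B'.d n ^ (x - ε) * B.d n ^ Y n 6) (B'.d n ^ (x - ε) * B.d n ^ Y n 3) (F n i)

theorem QR.mono {g : ∀ n, ι n → κ' n} {mu be : ∀ n, κ' n → ℝ} {n : ℕ} {s0 e0 q0 ε : ℝ}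
    {G G' : Finset (ι n)} (h : G' ⊆ G) (hG : QR B B' F Y x g mu be n s0 e0 q0 ε G) :
    QR B B' F Y x g mu be n s0 e0 q0 ε G' := ⟨hG.1, fun i hi => hG.2 i (h hi)⟩

theorem QR.mono_eps {g : ∀ n, ι n → κ' n} {mu be : ∀ n, κ' n → ℝ} {n : ℕ} {s0 e0 q0 ε ε' : ℝ}
    {G : Finset (ι n)} (h : ε ≤ ε') (hG : QR B B' F Y x g mu be n s0 e0 q0 ε G) :
    QR B B' F Y x g mu be n s0 e0 q0 ε' G := by
  have e1 : B'.d n ^ (x - ε) ≤ B'.d n ^ (x - ε') :=
    Real.rpow_le_rpow_of_exponent_ge (B'.pos n) (B'.lt n).le (by linarith)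
  have e2 : B'.d n ^ (-ε) ≤ B'.d n ^ (-ε') :=
    Real.rpow_le_rpow_of_exponent_ge (B'.pos n) (B'.lt n).le (by linarith)
  have hB : ∀ t : ℝ, 0 ≤ B.d n ^ t := fun t => Real.rpow_nonneg (B.pos n).le t
  exact ⟨hG.1.trans (mul_le_mul_of_nonneg_right e2 (hB _)), fun i hi =>
    (hG.2 i hi).mono (mul_le_mul_of_nonneg_right e1 (hB _))
      (mul_le_mul_of_nonneg_right e1 (hB _)) (mul_le_mul_of_nonneg_right e1 (hB _))⟩

/-- **one class**: a window of a dense union -/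
theorem rig_local (i₀ : ∀ n, ι n)
    (hZ : ZWin B B' I J (fun n i j => coQ (F n i) (F n j)) M C Y w D T lam)
    (hstr : ∀ n i, (F n i).y2 = 0) (htX : ∀ᶠ n in (U : Filter ℕ), TightX (Y n))
    (hL : LightF D lam a m) (hx : 0 < x) (hxR : x ≤ R') (hMw : ∀ k, Mw.mon k ⊆ mfQ k)
    (hMw1 : ∀ k, ∀ e ∈ Mw.mon k, e 1 = 0) (hM0 : M.mon 0 = ∅) (hD : Leg Mw R' ⊆ D)
    (g : ∀ n, ι n → κ' n) (mu be : ∀ n, κ' n → ℝ)
    (hg : ∀ᶠ n in (U : Filter ℕ), ∀ i ∈ J n, ∀ j ∈ J n,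
      zlab B I (fun n i j => coQ (F n i) (F n j)) M C Y w n 0 i =
        zlab B I (fun n i j => coQ (F n i) (F n j)) M C Y w n 0 j → g n i = g n j)
    (hmu : ∀ ε : ℝ, 0 < ε → ∀ᶠ n in (U : Filter ℕ), ∀ i ∈ J n,
      B'.d n ^ ε * B.d n ^ Y n 3 ≤ |mu n (g n i)| * B.d n ^ Y n 0 ∧
      |mu n (g n i)| * B.d n ^ Y n 0 ≤ B'.d n ^ (-ε) * B.d n ^ Y n 3)
    (haff : ∀ ε : ℝ, 0 < ε → ∀ᶠ n in (U : Filter ℕ), ∀ i ∈ J n,
      |(F n i).fb - be n (g n i) - mu n (g n i) * (F n i).z| ≤ B'.d n ^ (x - ε) * B.d n ^ Y n 3)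
    (Gd : ∀ n, Finset (ι n)) (hGd : ∀ n, Gd n ⊆ J n)
    (hhalf : ∀ᶠ n in (U : Filter ℕ), ((J n).card : ℝ) ≤ 2 * ((Gd n).card : ℝ)) :
    ∀ ε : ℝ, 0 < ε → ∀ᶠ n in (U : Filter ℕ), ∃ s : ι n, ∃ G' ⊆
      cls (Gd n) (zlab B I (fun n i j => coQ (F n i) (F n j)) M C Y w n 0) s,
      T n * B'.d n ^ ε ≤ (G'.card : ℝ) ∧
        ∃ s0 e0 q0 : ℝ, QR B B' F Y x g mu be n s0 e0 q0 ε G' := by
  classical
  set co : ∀ n, ι n → ι n → Fin 11 → ℝ := fun n i j => coQ (F n i) (F n j) with hco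
  set κ : ℝ := 2 * cK0 M C with hκd
  have hC0 : 0 ≤ C := (hZ.chart 0).C0
  have hκ1 : 1 ≤ κ := by have := cK0_one (M := M) hC0; linarith
  have hκ0 : 0 < κ := by linarith
  have hst : (stL κ x R' Mw).Ok M D := stL_ok hκ0 hx.le hxR hMw hMw1 hM0 hD
  obtain ⟨s₀, hs₀, hok⟩ := hZ.exists_wnd hst i₀ (Gd := Gd) (E := Gd)
    (Eventually.of_forall hGd) (Eventually.of_forall fun n => Subset.refl _)
    (Sd := fun _ => 2) (Base.Sub.const two_pos) hhalf
  have H := lwinL_of_ok (F := F) hok (fun _ _ _ => rfl) hstr hκ1 le_rfl hx.le htX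
  set W := (stL κ x R' Mw).wnd B B' I J co M C Y w D T lam
    (fun n => cls (Gd n) (zlab B I co M C Y w n 0) (s₀ n)) s₀ with hW
  have hB : ∀ n, ∀ t : ℝ, 0 < B.d n ^ t := fun n t => Real.rpow_pos_of_pos (B.pos n) t
  have hd : ∀ n, ∀ t : ℝ, 0 < B'.d n ^ t := fun n t => Real.rpow_pos_of_pos (B'.pos n) t
  -- coordinates in the frame of `s₀`
  have hcrd : ∀ n (y : ι n) (s : Fin 11), W.crd n (W.s₀ n) y s =
      coQ (F n (s₀ n)) (F n y) s / (κ ^ wtR s * B.d n ^ Y n s) := fun n y s => rfl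
  have hCl : ∀ n, W.Cl n = cls (Gd n) (zlab B I co M C Y w n 0) (s₀ n) := fun n => rfl
  -- slope and constant in the frame of `s₀`
  set mu' : ℕ → ℝ := fun n => mu n (g n (s₀ n)) * B.d n ^ Y n 0 / B.d n ^ Y n 3 with hmu'
  set be' : ℕ → ℝ := fun n => (be n (g n (s₀ n)) + mu n (g n (s₀ n)) * (F n (s₀ n)).z -
    (F n (s₀ n)).fb) / (κ * B.d n ^ Y n 3) with hbe'
  have hmu1 : ∀ ε : ℝ, 0 < ε → ∀ᶠ n in (U : Filter ℕ),
      B'.d n ^ ε ≤ |mu' n| ∧ |mu' n| ≤ B'.d n ^ (-ε) := by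
    intro ε hε
    filter_upwards [hmu ε hε, hs₀] with n h1 h2
    obtain ⟨h3, h4⟩ := h1 _ (hGd n h2)
    have e : |mu' n| = |mu n (g n (s₀ n))| * B.d n ^ Y n 0 / B.d n ^ Y n 3 := by
      rw [hmu']
      simp only
      rw [abs_div, abs_mul, abs_of_pos (hB n _), abs_of_pos (hB n _)]
    rw [e]
    exact ⟨(le_div_iff₀ (hB n _)).2 h3, (div_le_iff₀ (hB n _)).2 h4⟩
  have hgs : ∀ᶠ n in (U : Filter ℕ), ∀ y ∈ W.Cl n, y ∈ J n ∧ g n y = g n (s₀ n) := by
    filter_upwards [hg, hs₀] with n h1 h2 y hy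
    rw [hCl, mem_cls] at hy
    exact ⟨hGd n hy.1, h1 y (hGd n hy.1) _ (hGd n h2) hy.2⟩
  have haff1 : ∀ ε : ℝ, 0 < ε → ∀ᶠ n in (U : Filter ℕ), ∀ y ∈ W.Cl n,
      |W.crd n (W.s₀ n) y 3 - be' n - mu' n * W.crd n (W.s₀ n) y 0| ≤ W.B'.d n ^ (x - ε) := by
    intro ε hε
    filter_upwards [haff ε hε, hgs] with n h1 h2 y hy
    obtain ⟨hyJ, hyg⟩ := h2 y hy
    have h3 := h1 y hyJ
    rw [hyg] at h3
    rw [hcrd, hcrd]
    have c3 : coQ (F n (s₀ n)) (F n y) 3 = (F n y).fb - (F n (s₀ n)).fb := rfl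
    have c0 : coQ (F n (s₀ n)) (F n y) 0 = (F n y).z - (F n (s₀ n)).z := rfl
    have w3 : κ ^ wtR 3 = κ := by simp [wtR]
    have w0 : κ ^ wtR 0 = κ := by simp [wtR]
    rw [c3, c0, w3, w0]
    have p3 := hB n (Y n 3)
    have p0 := hB n (Y n 0)
    have e : ((F n y).fb - (F n (s₀ n)).fb) / (κ * B.d n ^ Y n 3) - be' n -
        mu' n * (((F n y).z - (F n (s₀ n)).z) / (κ * B.d n ^ Y n 0)) =
        ((F n y).fb - be n (g n (s₀ n)) - mu n (g n (s₀ n)) * (F n y).z) /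
          (κ * B.d n ^ Y n 3) := by
      rw [hmu', hbe']
      simp only
      field_simp
      ring
    rw [e, abs_div, abs_of_pos (mul_pos hκ0 p3), div_le_iff₀ (mul_pos hκ0 p3)]
    refine h3.trans ?_
    have h4 : B'.d n ^ (x - ε) * B.d n ^ Y n 3 ≤ κ * (B'.d n ^ (x - ε) * B.d n ^ Y n 3) :=
      le_mul_of_one_le_left (mul_pos (hd n _) p3).le hκ1
    calc B'.d n ^ (x - ε) * B.d n ^ Y n 3 ≤ κ * (B'.d n ^ (x - ε) * B.d n ^ Y n 3) := h4
      _ = _ := by show _ = B'.d n ^ (x - ε) * (κ * B.d n ^ Y n 3); ring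
  have hnu : ∀ p, W.nu p = lam (cu x p) - lam (topL x) := fun p => rfl
  have key := H.rig_inc rigWin hMw hx hL.a0 hL.a1 hL.m0
    (by rw [hnu, hnu, hnu, hnu]; have := hL.dec x hx.le; linarith)
    (fun y hy hyx => by rw [hnu, hnu]; have := hL.fib x y hy hyx; linarith)
    (fun y hy hyx => by rw [hnu, hnu]; have := hL.conc x y hy hyx; linarith)
    (hL.dens x hx.le) (fun y hy _ => hL.frost y hy) hok.eok_class mu' be' hmu1 haff1
  intro ε hε
  have hε2 : 0 < ε / 2 := by positivity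
  filter_upwards [key _ hε2, hok.cls.big _ hε2, hgs, htX, haff ε hε,
    ev_const_le B' (c := κ) hκ0 hε2, ev_const_le B' (c := κ ^ 2) (by positivity) hε2] with
    n ⟨G', hG', hcard, s0, c0, C0, E0, hs0, hc0, hC0', hE0, hrel⟩ hbig h2 htn h3 k1 k2
  refine ⟨s₀ n, G', hG', ?_, ?_⟩
  · have e1 : T n * B'.d n ^ ε = B'.d n ^ (ε / 2) * (T n * B'.d n ^ (ε / 2)) := by
      have : B'.d n ^ ε = B'.d n ^ (ε / 2) * B'.d n ^ (ε / 2) := by
        rw [← Real.rpow_add (B'.pos n)]; congr 1; ring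
      rw [this]; ring
    rw [e1]
    exact (mul_le_mul_of_nonneg_left hbig (hd n _).le).trans hcard
  · have p2 : 0 < κ * B.d n ^ Y n 2 := mul_pos hκ0 (hB n _)
    have p5 : 0 < κ * B.d n ^ Y n 5 := mul_pos hκ0 (hB n _)
    set sA : Fq4 := F n (s₀ n) with hsA
    refine ⟨s0 * (κ * B.d n ^ Y n 2) / (κ * B.d n ^ Y n 5),
      sA.e + (κ * B.d n ^ Y n 2) * (E0 + s0 * c0) +
        s0 * (κ * B.d n ^ Y n 2) / (κ * B.d n ^ Y n 5) * sA.ca,
      sA.cb - sA.e * sA.ca + (κ * B.d n ^ Y n 2) * (κ * B.d n ^ Y n 5) *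
        (C0 + E0 * (-sA.ca / (κ * B.d n ^ Y n 5) - c0) -
        s0 * (-sA.ca / (κ * B.d n ^ Y n 5) - c0) ^ 2 / 2), ?_, fun i hi => ?_⟩
    rotate_left
    · obtain ⟨hiJ, hig⟩ := h2 i (hG' hi)
      obtain ⟨r1, r2⟩ := hrel i hi
      rw [hcrd, hcrd] at r1 r2
      have w2 : κ ^ wtR 2 = κ := by simp [wtR]
      have w5 : κ ^ wtR 5 = κ := by simp [wtR]
      have w6 : κ ^ wtR 6 * B.d n ^ Y n 6 = (κ * B.d n ^ Y n 2) * (κ * B.d n ^ Y n 5) := by
        have : κ ^ wtR 6 = κ ^ 2 := by simp [wtR]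
        rw [this, htn.w6, Real.rpow_add (B.pos n)]; ring
      rw [w2, w5] at r1
      rw [w6, w5] at r2
      have h5 := h3 i hiJ
      have h6 : |(F n i).fb - (be n (g n i) + mu n (g n i) * (F n i).z)| ≤
          B'.d n ^ (x - ε) * B.d n ^ Y n 3 := by
        rw [← sub_sub]; exact h5
      have h7 := grel_frame (s := F n (s₀ n)) p2 p5 (hstr n i) r1 r2 h6
      have e2 : B'.d n ^ (x - ε) = B'.d n ^ (-(ε / 2)) * B'.d n ^ (x - ε / 2) := by
        rw [← Real.rpow_add (B'.pos n)]; congr 1; ring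
      refine h7.mono ?_ ?_ le_rfl
      · show B'.d n ^ (x - ε / 2) * (κ * B.d n ^ Y n 2) ≤ B'.d n ^ (x - ε) * B.d n ^ Y n 2
        rw [e2]
        have := mul_le_mul_of_nonneg_right k1 (mul_pos (hd n (x - ε / 2)) (hB n (Y n 2))).le
        calc B'.d n ^ (x - ε / 2) * (κ * B.d n ^ Y n 2)
            = κ * (B'.d n ^ (x - ε / 2) * B.d n ^ Y n 2) := by ring
          _ ≤ _ := this
          _ = _ := by ring
      · show B'.d n ^ (x - ε / 2) * ((κ * B.d n ^ Y n 2) * (κ * B.d n ^ Y n 5)) ≤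
          B'.d n ^ (x - ε) * B.d n ^ Y n 6
        rw [e2, htn.w6, Real.rpow_add (B.pos n)]
        have := mul_le_mul_of_nonneg_right k2 (mul_pos (hd n (x - ε / 2))
          (mul_pos (hB n (Y n 2)) (hB n (Y n 5)))).le
        calc B'.d n ^ (x - ε / 2) * ((κ * B.d n ^ Y n 2) * (κ * B.d n ^ Y n 5))
            = κ ^ 2 * (B'.d n ^ (x - ε / 2) * (B.d n ^ Y n 2 * B.d n ^ Y n 5)) := by ring
          _ ≤ _ := this
          _ = _ := by ring
    · have e3 : s0 * (κ * B.d n ^ Y n 2) / (κ * B.d n ^ Y n 5) =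
          s0 * (B.d n ^ Y n 2 / B.d n ^ Y n 5) := by
        have := (hB n (Y n 5)).ne'
        field_simp
      rw [e3, abs_mul, abs_of_pos (div_pos (hB n _) (hB n _))]
      have e4 : |s0| * (B.d n ^ Y n 2 / B.d n ^ Y n 5) * B.d n ^ Y n 5 =
          |s0| * B.d n ^ Y n 2 := by
        have := (hB n (Y n 5)).ne'
        field_simp
      rw [e4]
      refine mul_le_mul_of_nonneg_right (hs0.trans ?_) (hB n _).le
      exact Real.rpow_le_rpow_of_exponent_ge (B'.pos n) (B'.lt n).le (by linarith)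

/-- **the rigid leaf of (C)** : on a dense part of an interior window every class satisfies the
relations of a rigid lightlike class (absolute coordinates), with parameters which depend on the
class only -/
theorem rig_classes (i₀ : ∀ n, ι n)
    (hZ : ZWin B B' I J (fun n i j => coQ (F n i) (F n j)) M C Y w D T lam)
    (hstr : ∀ n i, (F n i).y2 = 0) (htX : ∀ᶠ n in (U : Filter ℕ), TightX (Y n))
    (hL : LightF D lam a m) (hx : 0 < x) (hxR : x ≤ R') (hMw : ∀ k, Mw.mon k ⊆ mfQ k)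
    (hMw1 : ∀ k, ∀ e ∈ Mw.mon k, e 1 = 0) (hM0 : M.mon 0 = ∅) (hD : Leg Mw R' ⊆ D)
    (g : ∀ n, ι n → κ' n) (mu be : ∀ n, κ' n → ℝ)
    (hg : ∀ᶠ n in (U : Filter ℕ), ∀ i ∈ J n, ∀ j ∈ J n,
      zlab B I (fun n i j => coQ (F n i) (F n j)) M C Y w n 0 i =
        zlab B I (fun n i j => coQ (F n i) (F n j)) M C Y w n 0 j → g n i = g n j)
    (hmu : ∀ ε : ℝ, 0 < ε → ∀ᶠ n in (U : Filter ℕ), ∀ i ∈ J n,
      B'.d n ^ ε * B.d n ^ Y n 3 ≤ |mu n (g n i)| * B.d n ^ Y n 0 ∧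
      |mu n (g n i)| * B.d n ^ Y n 0 ≤ B'.d n ^ (-ε) * B.d n ^ Y n 3)
    (haff : ∀ ε : ℝ, 0 < ε → ∀ᶠ n in (U : Filter ℕ), ∀ i ∈ J n,
      |(F n i).fb - be n (g n i) - mu n (g n i) * (F n i).z| ≤
        B'.d n ^ (x - ε) * B.d n ^ Y n 3) :
    ∃ J1 : ∀ n, Finset (ι n), (∀ n, J1 n ⊆ J n) ∧ Dense B' J1 J ∧
      ∃ s0 e0 q0 : ∀ n, ι n → ℝ, ∀ ε : ℝ, 0 < ε → ∀ᶠ n in (U : Filter ℕ), ∀ i ∈ J1 n,
        |s0 n (zlab B I (fun n i j => coQ (F n i) (F n j)) M C Y w n 0 i)| * B.d n ^ Y n 5 ≤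
          B'.d n ^ (-ε) * B.d n ^ Y n 2 ∧
        GRel (s0 n (zlab B I (fun n i j => coQ (F n i) (F n j)) M C Y w n 0 i))
          (e0 n (zlab B I (fun n i j => coQ (F n i) (F n j)) M C Y w n 0 i))
          (q0 n (zlab B I (fun n i j => coQ (F n i) (F n j)) M C Y w n 0 i))
          (be n (g n i)) (mu n (g n i)) (B'.d n ^ (x - ε) * B.d n ^ Y n 2)
          (B'.d n ^ (x - ε) * B.d n ^ Y n 6) (B'.d n ^ (x - ε) * B.d n ^ Y n 3) (F n i) := by
  classical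
  set lab : ∀ n, ι n → ι n :=
    fun n => zlab B I (fun n i j => coQ (F n i) (F n j)) M C Y w n 0 with hlab
  obtain ⟨J1, h1, h2, h3⟩ := local_to_global (B := B') (J := J) lab hZ.T0
    (fun ε hε => by
      filter_upwards [hZ.prof.up 0 ε hε] with n hn s hs
      have := hn 0 hZ.zero (by rw [norm_zero]) s hs
      rwa [hZ.lam0, zero_add] at this)
    (fun n ε G => ∃ s0 e0 q0 : ℝ, QR B B' F Y x g mu be n s0 e0 q0 ε G)
    (fun n ε G G' h ⟨s0, e0, q0, hq⟩ => ⟨s0, e0, q0, hq.mono h⟩)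
    (fun n ε ε' G h ⟨s0, e0, q0, hq⟩ => ⟨s0, e0, q0, hq.mono_eps h⟩)
    (fun Gd hGd _ hhalf => rig_local i₀ hZ hstr htX hL hx hxR hMw hMw1 hM0 hD g mu be hg hmu haff
      Gd hGd hhalf)
  -- one choice for all `ε`
  obtain ⟨k, hk, hk2⟩ := exists_diag (fun j n => ∀ s ∈ J1 n, ∃ s0 e0 q0 : ℝ,
      QR B B' F Y x g mu be n s0 e0 q0 (1 / ((j : ℝ) + 1)) (cls (J1 n) (lab n) s))
    (fun j => h3 (1 / ((j : ℝ) + 1)) (by positivity))
  set P : ∀ n, ι n → ℝ × ℝ × ℝ → Prop := fun n l p =>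
    QR B B' F Y x g mu be n p.1 p.2.1 p.2.2 (1 / ((k n : ℝ) + 1))
      ((J1 n).filter fun y => lab n y = l) with hP
  set ch : ∀ n, ι n → ℝ × ℝ × ℝ := fun n l => if h : ∃ p, P n l p then h.choose else 0 with hch
  refine ⟨J1, h1, h2, fun n l => (ch n l).1, fun n l => (ch n l).2.1, fun n l => (ch n l).2.2,
    fun ε hε => ?_⟩
  have hks : ∀ᶠ n in (U : Filter ℕ), 1 / ((k n : ℝ) + 1) ≤ ε := by
    have h4 : Tendsto (fun n => 1 / ((k n : ℝ) + 1)) U (𝓝 0) :=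
      tendsto_one_div_add_atTop_nhds_zero_nat.comp hk
    exact h4.eventually (ge_mem_nhds hε)
  filter_upwards [hk2, hks] with n h4 h5 i hi
  obtain ⟨s0, e0, q0, h6⟩ := h4 (k n) le_rfl i hi
  have h7 : ∃ p, P n (lab n i) p := ⟨(s0, e0, q0), h6⟩
  have e1 : ch n (lab n i) = h7.choose := dif_pos h7
  have h8 : P n (lab n i) (ch n (lab n i)) := by rw [e1]; exact h7.choose_spec
  have h9 := QR.mono_eps h5 h8
  exact ⟨h9.1, h9.2 i (mem_filter.2 ⟨hi, rfl⟩)⟩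

section Shift

variable {mm : ℕ} {I' J' : ∀ n, Finset (ι n)} {co : ∀ n, ι n → ι n → Fin mm → ℝ} {M' : Mons mm}
  {X' : ℕ → Fin mm → ℝ} {D₁ D₂ : Set (Fin mm → ℝ)} {lam₁ lam₂ : (Fin mm → ℝ) → ℝ}

/-- smaller set of directions, equal profile on it -/
theorem zwin_congr (h : ZWin B B' I' J' co M' C X' w D₁ T lam₁) (hD : D₂ ⊆ D₁)
    (h0 : (0 : Fin mm → ℝ) ∈ D₂) (he : ∀ c ∈ D₂, lam₂ c = lam₁ c) :
    ZWin B B' I' J' co M' C X' w D₂ T lam₂ where
  chart := h.chart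
  sub := h.sub
  ne := h.ne
  w0 := h.w0
  base := h.base
  zero := h0
  legal := fun K => (h.legal K).mono fun n hn c hc hcK => hn c (hD hc) hcK
  prof :=
    { up := fun K ε hε => (h.prof.up K ε hε).mono fun n hn c hc hcK i hi => by
        rw [he c hc]; exact hn c (hD hc) hcK i hi
      num := fun K ε hε => (h.prof.num K ε hε).mono fun n hn c hc hcK c' hc' hcK' hcc i hi => by
        rw [he c hc, he c' hc']; exact hn c (hD hc) hcK c' (hD hc') hcK' hcc i hi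
      root := fun K ε hε => (h.prof.root K ε hε).mono fun n hn c hc hcK => by
        rw [he c hc]; exact hn c (hD hc) hcK }
  lam0 := by rw [he 0 h0]; exact h.lam0
  T0 := h.T0
  lip := fun c hc c' hc' => by rw [he c hc, he c' hc']; exact h.lip c (hD hc) c' (hD hc')
  anti := fun c hc c' hc' hcc => by
    rw [he c hc, he c' hc']; exact h.anti c (hD hc) c' (hD hc') hcc
  sharp := fun c hc c' hc' hcc => by
    rw [he c hc, he c' hc']; exact h.sharp c (hD hc) c' (hD hc') hcc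
  submod := fun c hc c' hc' hi hs => by
    rw [he c hc, he c' hc', he _ hs, he _ hi]
    exact h.submod c (hD hc) c' (hD hc') (hD hi) (hD hs)

end Shift

/-- **the class base `τ • eN`** of an interior window: same directions, same profile -/
theorem zwin_light_shift {co : ∀ n, ι n → ι n → Fin 11 → ℝ}
    (hZ : ZWin B B' I J co M C Y w D T lam) (hL : LightF D lam a m) {τ : ℝ}
    (hD : ∀ c ∈ D, τ • eN + c ∈ D) :
    ZWin B B' I J co M C (fun n => Y n + w n • (τ • eN)) w D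
      (fun n => T n * B'.d n ^ (-lam (τ • eN))) lam := by
  have h0 : τ • eN ∈ D := by
    have := hD 0 hZ.zero
    rwa [add_zero] at this
  exact zwin_congr (hZ.shift h0) (fun c hc => hD c hc) hZ.zero fun c hc => by
    have := hL.add τ c hc
    linarith

/-- the class base has tight exponents -/
theorem tight_shift {Y : Fin 11 → ℝ} (h : TightX Y) (t : ℝ) : TightX (Y + t • eN) where
  w4 := by
    have := h.w4
    simp only [Pi.add_apply, Pi.smul_apply, smul_eq_mul, eN, Matrix.cons_val]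
    linarith
  w6 := by
    have := h.w6
    simp only [Pi.add_apply, Pi.smul_apply, smul_eq_mul, eN, Matrix.cons_val]
    linarith
  w7 := by
    have := h.w7
    simp only [Pi.add_apply, Pi.smul_apply, smul_eq_mul, eN, Matrix.cons_val]
    linarith
  w8 := by
    have := h.w8
    simp only [Pi.add_apply, Pi.smul_apply, smul_eq_mul, eN, Matrix.cons_val]
    linarith
  w9 := by
    have := h.w9
    simp only [Pi.add_apply, Pi.smul_apply, smul_eq_mul, eN, Matrix.cons_val]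
    linarith
  w10 := by
    have := h.w10
    simp only [Pi.add_apply, Pi.smul_apply, smul_eq_mul, eN, Matrix.cons_val]
    linarith

end Crest.Agent.R136.WkM626
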