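import Crest.Agent.R136.Xd9_272

/-!
# R136: the three cases of the crossed window (helper272)
-/

set_option autoImplicit false
set_option linter.unusedVariables false
set_option linter.unusedSectionVars false

open Finset Filter Topology

namespace Crest.Agent.R136.Xd272

open Crest.Agent.R138.Ex926 (Base U)
open Crest.Agent.R138.TwA501 (ev_const_mul)
open Crest.Agent.R136.Gf356
open Crest.Agent.R136.Prn779 (OneBox)

/-- remainder, `C_b` free -/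
theorem rem_A {u δ b a E v5 v6 v7 v8 v9 w7 w9 μ K X Y Z M : ℝ}
    (hμ : |μ| ≤ M) (hu : |u| ≤ 2 * K) (hδ : |δ| ≤ Y) (hδ2 : |δ| ≤ 2 * K)
    (ha : |a| ≤ 4 * K ^ 2) (hE : E ≤ X) (h5 : |v5| ≤ X) (h7 : |v7| ≤ X) (h9 : |v9| ≤ X)
    (h8 : |v8| ≤ Z) (r7 : |w7 - (v7 - a * v5 - b * v6)| ≤ E)
    (r9 : |w9 - (v9 + u * v6 - δ * (v8 + u * v5))| ≤ E) :
    |w7 - μ * w9 - (-(b + μ * u)) * v6| ≤
      (2 + 4 * K ^ 2) * X + M * ((2 + 4 * K ^ 2) * X + Y * Z) := by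
  have r7' := r7.trans hE
  have r9' := r9.trans hE
  have q1 := bm ha h5
  have q2 : |w9 - (v9 + u * v6 - δ * (v8 + u * v5)) + v9 - δ * v8 - δ * (u * v5)| ≤
      X + X + Y * Z + 2 * K * (2 * K * X) := by
    have a1 := bm hδ h8
    have a2 := bm hδ2 (bm hu h5)
    generalize w9 - (v9 + u * v6 - δ * (v8 + u * v5)) = E9 at *
    rw [abs_le] at a1 a2 r9' h9 ⊢
    constructor <;> linarith [a1.1, a1.2, a2.1, a2.2, r9'.1, r9'.2, h9.1, h9.2]
  have q3 := bm hμ q2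
  have e1 : w7 - μ * w9 - (-(b + μ * u)) * v6 = (w7 - (v7 - a * v5 - b * v6)) + v7 - a * v5 -
      μ * (w9 - (v9 + u * v6 - δ * (v8 + u * v5)) + v9 - δ * v8 - δ * (u * v5)) := by ring
  rw [e1]
  have e2 : M * (X + X + Y * Z + 2 * K * (2 * K * X)) =
      M * ((2 + 4 * K ^ 2) * X + Y * Z) := by ring
  rw [e2] at q3
  have e3 : (2 + 4 * K ^ 2) * X = X + X + 4 * K ^ 2 * X := by ring
  generalize M * ((2 + 4 * K ^ 2) * X + Y * Z) = Q at *
  generalize μ * (w9 - (v9 + u * v6 - δ * (v8 + u * v5)) + v9 - δ * v8 - δ * (u * v5)) = q at *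
  generalize w7 - (v7 - a * v5 - b * v6) = E7 at *
  rw [e3]
  rw [abs_le] at q1 q3 r7' h7 ⊢
  constructor <;> linarith [q1.1, q1.2, q3.1, q3.2, r7'.1, r7'.2, h7.1, h7.2]

/-- remainder, `C_a` free -/
theorem rem_B {u δ b a E v5 v6 v7 v8 v9 w7 w9 μ K X M : ℝ}
    (hμ : |μ| ≤ M) (hu : |u| ≤ 2 * K) (hδ : |δ| ≤ 2 * K) (hb : |b| ≤ 2 * K)
    (hE : E ≤ X) (h6 : |v6| ≤ X) (h7 : |v7| ≤ X) (h9 : |v9| ≤ X)
    (h8 : |v8| ≤ X) (r7 : |w7 - (v7 - a * v5 - b * v6)| ≤ E)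
    (r9 : |w9 - (v9 + u * v6 - δ * (v8 + u * v5))| ≤ E) :
    |w7 - μ * w9 - (μ * δ * u - a) * v5| ≤
      (2 + 2 * K) * X + M * ((2 + 4 * K) * X) := by
  have r7' := r7.trans hE
  have r9' := r9.trans hE
  have q1 := bm hb h6
  have q2 : |w9 - (v9 + u * v6 - δ * (v8 + u * v5)) + v9 + u * v6 - δ * v8| ≤
      X + X + 2 * K * X + 2 * K * X := by
    have a1 := bm hδ h8
    have a2 := bm hu h6
    generalize w9 - (v9 + u * v6 - δ * (v8 + u * v5)) = E9 at *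
    rw [abs_le] at a1 a2 r9' h9 ⊢
    constructor <;> linarith [a1.1, a1.2, a2.1, a2.2, r9'.1, r9'.2, h9.1, h9.2]
  have q3 := bm hμ q2
  have e1 : w7 - μ * w9 - (μ * δ * u - a) * v5 = (w7 - (v7 - a * v5 - b * v6)) + v7 - b * v6 -
      μ * (w9 - (v9 + u * v6 - δ * (v8 + u * v5)) + v9 + u * v6 - δ * v8) := by ring
  rw [e1]
  have e2 : M * (X + X + 2 * K * X + 2 * K * X) = M * ((2 + 4 * K) * X) := by ring
  rw [e2] at q3
  have e3 : (2 + 2 * K) * X = X + X + 2 * K * X := by ring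
  generalize M * ((2 + 4 * K) * X) = Q at *
  generalize μ * (w9 - (v9 + u * v6 - δ * (v8 + u * v5)) + v9 + u * v6 - δ * v8) = q at *
  generalize w7 - (v7 - a * v5 - b * v6) = E7 at *
  rw [e3]
  rw [abs_le] at q1 q3 r7' h7 ⊢
  constructor <;> linarith [q1.1, q1.2, q3.1, q3.2, r7'.1, r7'.2, h7.1, h7.2]

/-- the coefficient of `C_b` is large -/
theorem lam_A {u b μ X t : ℝ} (hb : |b - μ * u| ≤ X) (ht : t ≤ |μ| * |u|) (hX : X ≤ t) :
    t ≤ |(-(b + μ * u))| := by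
  rw [abs_neg]
  have h1 : |μ * u| = |μ| * |u| := abs_mul _ _
  have h2 : b + μ * u = (b - μ * u) + 2 * (μ * u) := by ring
  have h3 : |2 * (μ * u)| ≤ |b + μ * u| + |b - μ * u| := by
    have h4 : 2 * (μ * u) = (b + μ * u) - (b - μ * u) := by ring
    rw [h4]
    exact abs_sub _ _
  rw [abs_mul, abs_two, h1] at h3
  linarith

/-- one of the two coefficients of `C_a` is large -/
theorem lam_B {u δ b μ a a' X K t : ℝ} (hb : |b - μ * u| ≤ X) (hδ : |δ| ≤ 2 * K)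
    (haa : a + a' = -(δ * b)) (ht : t ≤ |μ| * |u| * |δ|) (hX : 2 * K * X ≤ t) :
    t ≤ |μ * δ * u - a| ∨ t ≤ |μ * δ * u - a'| := by
  by_contra hcon
  push Not at hcon
  obtain ⟨h1, h2⟩ := hcon
  have h3 : 3 * (μ * δ * u) = (μ * δ * u - a) + (μ * δ * u - a') - δ * (b - μ * u) := by
    have : a = -(δ * b) - a' := by linarith
    rw [this]; ring
  have h4 : |3 * (μ * δ * u)| ≤ |μ * δ * u - a| + |μ * δ * u - a'| + |δ * (b - μ * u)| := by
    rw [h3]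
    exact (abs_sub _ _).trans (add_le_add_left (abs_add_le _ _) _)
  have h5 := bm hδ hb
  have h6 : |3 * (μ * δ * u)| = 3 * (|μ| * |u| * |δ|) := by
    rw [abs_mul, abs_mul, abs_mul]
    have : |(3 : ℝ)| = 3 := abs_of_pos (by norm_num)
    rw [this]; ring
  rw [h6] at h4
  linarith

variable {B : Base} {G : ℕ → RCfg (Fin 11)} {Leg : Set (Fin 11 → ℝ)} {ν : (Fin 11 → ℝ) → ℝ}
  {σ R D x K : ℝ} {pb : Fin 11 → ℝ} {e fa fb : ℕ → ℕ → ℝ}

/-- additivity of the functional -/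
theorem dnL_add (H : RUnif B G Leg ν D) (hW : LinWin B G x K pb e fa fb) {μ : ℕ → ℝ} {y c δ : ℝ}
    (hμ : ∀ᶠ n in (U : Filter ℕ), |μ n| ≤ B.d n ^ (-(c * y))) (hy : 0 < y) (hyx : y ≤ x)
    (hc0 : 0 ≤ c) (hc : c < δ) :
    ∀ᶠ n in (U : Filter ℕ), ∀ k i j l, (i, k) ∈ (G n).I → (j, k) ∈ (G n).I →
      (l, k) ∈ (G n).I → |dnL G μ n k i l - dnL G μ n k i j - dnL G μ n k j l| ≤
        B.d n ^ ((1 - δ) * y) := by
  have hε : 0 < (δ - c) * y / 2 := by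
    have := mul_pos (sub_pos.2 hc) hy
    linarith
  filter_upwards [hW.add ((δ - c) * y / 2) hε, hμ, ev_const_mul B 2 (show (1 - δ) * y <
    -(c * y) + (y - (δ - c) * y / 2) by linarith)] with n hadd hμ hc k i j l h1 h2 h3
  have a7 := hadd i j l k h1 h2 h3 7 (by decide)
  have a9 := hadd i j l k h1 h2 h3 9 (by decide)
  unfold dnL
  have hX : B.d n ^ (x - (δ - c) * y / 2) ≤ B.d n ^ (y - (δ - c) * y / 2) :=
    rpow_anti B n (by linarith)
  have a7' := a7.trans hX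
  have q := bm hμ (a9.trans hX)
  rw [← rpow_add'] at q
  have hX2 : B.d n ^ (y - (δ - c) * y / 2) ≤ B.d n ^ (-(c * y) + (y - (δ - c) * y / 2)) := by
    refine rpow_anti B n ?_
    have : 0 ≤ c * y := by positivity
    linarith
  have e1 : (G n).rel k i l 7 - μ n * (G n).rel k i l 9 -
      ((G n).rel k i j 7 - μ n * (G n).rel k i j 9) -
      ((G n).rel k j l 7 - μ n * (G n).rel k j l 9) =
      ((G n).rel k i l 7 - (G n).rel k i j 7 - (G n).rel k j l 7) -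
      μ n * ((G n).rel k i l 9 - (G n).rel k i j 9 - (G n).rel k j l 9) := by ring
  rw [e1]
  refine (abs_sub _ _).trans ?_
  linarith

/-- smallness of the functional in small boxes -/
theorem dnL_sm (H : RUnif B G Leg ν D) {μ : ℕ → ℝ} {y c δ t : ℝ}
    (hμ : ∀ᶠ n in (U : Filter ℕ), |μ n| ≤ B.d n ^ (-(c * y))) (hy : 0 < y)
    (hc0 : 0 ≤ c) (hc : c * y + t < δ * y) :
    ∀ᶠ n in (U : Filter ℕ), ∀ k i l, (i, k) ∈ (G n).I → (l, k) ∈ (G n).I →
      (G n).loose (bxD pb 0 0 y 0 y 0) t k i l → |dnL G μ n k i l| ≤ B.d n ^ ((1 - δ) * y) := by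
  filter_upwards [hμ, ev_const_mul B 2 (show (1 - δ) * y < -(c * y) + (y - t) by linarith)]
    with n hμ hc k i l h1 h2 hl
  obtain ⟨_, _, _, l7, _, l9, _⟩ := loose_bxD.1 hl
  rw [H.base n] at l7 l9
  unfold dnL
  have q := bm hμ l9
  rw [← rpow_add'] at q
  have hX2 : B.d n ^ (y - t) ≤ B.d n ^ (-(c * y) + (y - t)) := by
    refine rpow_anti B n ?_
    have : 0 ≤ c * y := by positivity
    linarith
  refine (abs_sub _ _).trans ?_
  linarith

end Crest.Agent.R136.Xd272
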