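import Crest.Agent.R136.Xd10_272

/-!
# R136: the crossed window (helper272)
-/

set_option autoImplicit false
set_option linter.unusedVariables false
set_option linter.unusedSectionVars false

open Finset Filter Topology

namespace Crest.Agent.R136.Xd272

open Crest.Agent.R138.Ex926 (Base U)
open Crest.Agent.R138.TwA501 (ev_const_mul)
open Crest.Agent.R136.Gf356
open Crest.Agent.R136.Prn779 (OneBox)

/-- the set-up of the three cases -/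
structure Cr (B : Base) (G : ℕ → RCfg (Fin 11)) (Leg : Set (Fin 11 → ℝ)) (ν : (Fin 11 → ℝ) → ℝ)
    (σ R D x K : ℝ) (pb : Fin 11 → ℝ) (e fa fb : ℕ → ℕ → ℝ) (R0 a m : ℝ) (α β : ℝ → ℝ → ℝ)
    (Zs : ℕ → Finset ℕ) (μ : ℕ → ℝ) (y c δ g εH ε : ℝ) : Prop where
  hH : RModel B G σ R Leg ν D
  hW : LinWin B G x K pb e fa fb
  hV : SplitD Leg ν pb R0 a m α β
  sub : ∀ n, Zs n ⊆ (G n).Z
  mu : ∀ᶠ n in (U : Filter ℕ), |μ n| ≤ B.d n ^ (-(c * y))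
  aff : ∀ ε : ℝ, 0 < ε → ∀ᶠ n in (U : Filter ℕ), ∀ k ∈ Zs n, ∀ k' ∈ Zs n,
    |fb n k' - fb n k - μ n * ((G n).z k' - (G n).z k)| ≤ B.d n ^ (y - ε)
  y0 : 0 < y
  yx : y ≤ x
  yR0 : y ≤ R0
  c0 : 0 ≤ c
  cδ : c ≤ δ / 4
  δ0 : 0 < δ
  δ1 : δ ≤ 1 / 2048
  g0 : 0 < g
  εH0 : 0 < εH
  εH1 : (D ^ 6 + D ^ 2 + 1) * εH ≤ δ * y / 4
  ε0 : 0 < ε
  ε1 : (D ^ 6 + 3) * ε ≤ δ * y / 8

/-- a heavy incidence -/
def Hv (B : Base) (G : ℕ → RCfg (Fin 11)) (ν : (Fin 11 → ℝ) → ℝ) (pb : Fin 11 → ℝ) (μ : ℕ → ℝ)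
    (y δ g εH : ℝ) (n i k : ℕ) : Prop :=
  B.d n ^ (-ν (bxD pb y y 0 y 0 ((1 - δ) * y)) + g * y) ≤
    lev (G n) (bxD pb y y 0 y 0 ((1 - δ) * y)) εH (B.d n ^ ((1 - δ) * y)) (dnL G μ n) i k

theorem bxD_max {pb : Fin 11 → ℝ} {y t : ℝ} (hy : 0 ≤ y) :
    ∀ j, bxD pb y y y y y t j ≤ max (bxD pb y y 0 y 0 t j) (bxD pb 0 0 y 0 y 0 j) := by
  intro j
  fin_cases j
  · show pb 0 ≤ max (pb 0) (pb 0)
    exact le_max_left _ _
  · show pb 1 ≤ max (pb 1) (pb 1)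
    exact le_max_left _ _
  · show pb 2 ≤ max (pb 2) (pb 2)
    exact le_max_left _ _
  · show pb 3 ≤ max (pb 3) (pb 3)
    exact le_max_left _ _
  · show pb 4 ≤ max (pb 4) (pb 4)
    exact le_max_left _ _
  · show y ≤ max y 0
    exact le_max_left _ _
  · show y ≤ max y 0
    exact le_max_left _ _
  · show y ≤ max 0 y
    exact le_max_right _ _
  · show y ≤ max y 0
    exact le_max_left _ _
  · show y ≤ max 0 y
    exact le_max_right _ _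
  · show t ≤ max t 0
    exact le_max_left _ _

section

variable {B : Base} {G : ℕ → RCfg (Fin 11)} {Leg : Set (Fin 11 → ℝ)} {ν : (Fin 11 → ℝ) → ℝ}
  {σ R D x K : ℝ} {pb : Fin 11 → ℝ} {e fa fb : ℕ → ℕ → ℝ} {R0 a m : ℝ} {α β : ℝ → ℝ → ℝ}
  {Zs : ℕ → Finset ℕ} {μ : ℕ → ℝ} {y c δ g εH ε : ℝ}

theorem Cr.small (C : Cr B G Leg ν σ R D x K pb e fa fb R0 a m α β Zs μ y c δ g εH ε) :
    1 ≤ D ∧ 0 < δ * y ∧ D ^ 5 * εH ≤ δ * y / 4 ∧ D * εH ≤ δ * y / 4 ∧ D ^ 5 * ε ≤ δ * y / 8 ∧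
      ε ≤ δ * y / 8 ∧ 0 < D ^ 5 * ε ∧ 0 < D ^ 5 * εH ∧ δ * y ≤ y / 2048 ∧ c * y ≤ δ * y / 4 ∧
      0 ≤ c * y := by
  have hD := C.hH.D1
  have hy := C.y0
  have hδ := C.δ0
  have h1 := C.εH1
  have h2 := C.ε1
  have h3 := C.εH0
  have h4 := C.ε0
  have e1 : D ^ 5 ≤ D ^ 6 := pow_le_pow_right₀ hD (by norm_num)
  have e2 : D ≤ D ^ 6 := by
    calc D = D ^ 1 := (pow_one D).symm
      _ ≤ _ := pow_le_pow_right₀ hD (by norm_num)
  have e3 : 0 ≤ D ^ 2 := by positivity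
  have e4 : 0 ≤ D ^ 6 := by positivity
  refine ⟨hD, mul_pos hδ hy, ?_, ?_, ?_, ?_, by positivity, by positivity, ?_, ?_,
    mul_nonneg C.c0 hy.le⟩
  · refine le_trans (mul_le_mul_of_nonneg_right ?_ h3.le) h1
    linarith
  · refine le_trans (mul_le_mul_of_nonneg_right ?_ h3.le) h1
    linarith
  · refine le_trans (mul_le_mul_of_nonneg_right ?_ h4.le) h2
    linarith
  · refine le_trans ?_ h2
    exact le_mul_of_one_le_left h4.le (by linarith)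
  · have := mul_le_mul_of_nonneg_right C.δ1 hy.le
    linarith
  · have := mul_le_mul_of_nonneg_right C.cδ hy.le
    linarith

/-- transport in the linear window -/
theorem Cr.transport (C : Cr B G Leg ν σ R D x K pb e fa fb R0 a m α β Zs μ y c δ g εH ε)
    {p0 p4 : Fin 11 → ℝ} (hp0 : p0 ∈ Leg) (hp4 : p4 ∈ Leg) {sF : Fin 11} {t4 cl cc : ℝ}
    (hp4F : p4 sF ≤ t4) (hp4o : ∀ j, j ≠ sF → p4 j ≤ p0 j) (ht4 : t4 < cc - cl)
    (hcc : cc < (1 - δ) * y)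
    (hloss : g * y + δ * y / 4 + δ * y / 8 < ν p0 - ν p4) :
    ∀ᶠ n in (U : Filter ℕ), ∀ k k', ∀ W ⊆ (G n).slice k, W ⊆ (G n).slice k' → W.Nonempty →
      (∀ i ∈ W, Hv B G ν pb μ y δ g εH n i k') →
      B.d n ^ ε * (((G n).slice k).card : ℝ) ≤ (W.card : ℝ) → ∀ lam : ℝ, B.d n ^ cl ≤ |lam| →
      ¬ (∀ i ∈ W, ∀ l ∈ W, (G n).loose p0 (D ^ 5 * ε) k i l →
        |dnL G μ n k' i l - lam * (G n).rel k i l sF| ≤ B.d n ^ cc) := by
  obtain ⟨hD, hδy, s1, s2, s3, s4, s5, s6, s7, s8, s9⟩ := C.small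
  have hy := C.y0
  have hR0 : 0 ≤ R0 := hy.le.trans C.yR0
  have hyI : y ∈ Set.Icc 0 R0 := ⟨hy.le, C.yR0⟩
  have h0I : (0 : ℝ) ∈ Set.Icc 0 R0 := ⟨le_rfl, hR0⟩
  have hδI : (1 - δ) * y ∈ Set.Icc 0 R0 := by
    have := C.δ1
    have h1 : 0 ≤ (1 - δ) * y := mul_nonneg (by linarith) hy.le
    exact ⟨h1, by linarith [C.yR0]⟩
  have hε1 := C.ε1
  have hεH1 := C.εH1
  have hT := Xd272.transport C.hH.toRUnif (hV1 C hyI h0I hδI) (C.hV.leg 0 0 y 0 y 0 h0I h0I hyI h0I hyI h0I)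
    (C.hV.leg y y y y y ((1 - δ) * y) hyI hyI hyI hyI hyI hδI)
    (C.hV.leg 0 0 0 0 0 0 h0I h0I h0I h0I h0I h0I)
    (bxD_le le_rfl le_rfl hy.le le_rfl hy.le le_rfl) (bxD_max hy.le) C.hW.one (by
      rw [C.hV.eq _ _ _ _ _ _ h0I h0I hyI h0I hyI h0I,
        C.hV.eq _ _ _ _ _ _ hyI hyI h0I hyI h0I hδI,
        C.hV.eq _ _ _ _ _ _ hyI hyI hyI hyI hyI hδI, C.hV.α0, C.hV.β0]
      linarith) (dnL G μ) C.εH0 hcc
    (dnL_add C.hH.toRUnif C.hW C.mu hy C.yx C.c0 (by linarith [C.cδ, C.δ0]))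
    (dnL_sm C.hH.toRUnif C.mu hy C.c0 (by linarith)) hp0 hp4 hp4F hp4o ht4 C.ε0
    (w := g * y) (by linarith)
  exact hT
where
  hV1 (C : Cr B G Leg ν σ R D x K pb e fa fb R0 a m α β Zs μ y c δ g εH ε)
    (hyI : y ∈ Set.Icc 0 R0) (h0I : (0 : ℝ) ∈ Set.Icc 0 R0) (hδI : (1 - δ) * y ∈ Set.Icc 0 R0) :
    bxD pb y y 0 y 0 ((1 - δ) * y) ∈ Leg :=
    C.hV.leg y y 0 y 0 ((1 - δ) * y) hyI hyI h0I hyI h0I hδI

/-- case A -/
theorem Cr.case_A (C : Cr B G Leg ν σ R D x K pb e fa fb R0 a m α β Zs μ y c δ g εH ε)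
    (hα : g * y + δ * y / 4 + δ * y / 8 < α 0 (y / 64)) :
    ∀ᶠ n in (U : Filter ℕ), B.d n ^ (y / 64) ≤ |μ n| → ∀ k ∈ Zs n, ∀ k' ∈ Zs n,
      B.d n ^ (y / 64) ≤ |(G n).z k' - (G n).z k| → |e n k' - e n k| ≤ B.d n ^ (y / 8) →
      ∀ W ⊆ (G n).slice k, W ⊆ (G n).slice k' → W.Nonempty →
      (∀ i ∈ W, Hv B G ν pb μ y δ g εH n i k') →
      ¬ B.d n ^ ε * (((G n).slice k).card : ℝ) ≤ (W.card : ℝ) := by
  obtain ⟨hD, hδy, s1, s2, s3, s4, s5, s6, s7, s8, s9⟩ := C.small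
  have hy := C.y0
  have hK := C.hW.K1
  have hR0 : 0 ≤ R0 := hy.le.trans C.yR0
  have hyI : y ∈ Set.Icc 0 R0 := ⟨hy.le, C.yR0⟩
  have h0I : (0 : ℝ) ∈ Set.Icc 0 R0 := ⟨le_rfl, hR0⟩
  have h64 : y / 64 ∈ Set.Icc 0 R0 := ⟨by linarith, by linarith [C.yR0]⟩
  have hp0 := C.hV.leg y 0 y 0 y y hyI h0I hyI h0I hyI hyI
  have hp4 := C.hV.leg y (y / 64) y 0 y y hyI h64 hyI h0I hyI hyI
  have hT := C.transport hp0 hp4 (sF := 6) (t4 := y / 64) (cl := y / 32) (cc := y / 16)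
    (show bxD pb y (y / 64) y 0 y y 6 ≤ y / 64 from le_refl (y / 64)) (by
      intro j hj
      fin_cases j
      · exact le_refl (pb 0)
      · exact le_refl (pb 1)
      · exact le_refl (pb 2)
      · exact le_refl (pb 3)
      · exact le_refl (pb 4)
      · exact le_refl y
      · exact absurd rfl hj
      · exact le_refl y
      · exact le_refl (0 : ℝ)
      · exact le_refl y
      · exact le_refl y) (by linarith) (by linarith) (by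
      rw [C.hV.eq _ _ _ _ _ _ hyI h0I hyI h0I hyI hyI,
        C.hV.eq _ _ _ _ _ _ hyI h64 hyI h0I hyI hyI, C.hV.α0]
      linarith)
  filter_upwards [hT, C.hW.mot, C.hW.mv (D ^ 5 * ε) s5, C.aff (D ^ 5 * ε) s5, C.mu,
    ev_const_mul B (3 * (2 + 4 * K ^ 2)) (show y / 16 < y / 8 + (-(c * y) + (-(D ^ 5 * ε))) by
      linarith)] with n hT hmot hmv haff hmu hc3 hμ k hk k' hk' hu hδe W hW hW' hWne hheavy hdens
  have hpow : ∀ t : ℝ, 0 < B.d n ^ t := fun t => rpos B n t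
  have hkZ := C.sub n hk
  have hkZ' := C.sub n hk'
  obtain ⟨m1, m2, m3, m4⟩ := hmot k hkZ k' hkZ'
  have hb := haff k hk k' hk'
  have hlam : B.d n ^ (y / 32) ≤ |(-(fb n k' - fb n k + μ n * ((G n).z k' - (G n).z k)))| := by
    refine lam_A hb ?_ (rpow_anti B n (by linarith))
    have e1 : B.d n ^ (y / 32) = B.d n ^ (y / 64) * B.d n ^ (y / 64) := by
      rw [← rpow_add']; congr 1; ring
    rw [e1]
    exact mul_le_mul hμ hu (hpow _).le (abs_nonneg _)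
  refine hT k k' W hW hW' hWne hheavy hdens _ hlam ?_
  intro i hi l hl hil
  have h1 := C.hH.toRUnif.memSlice.1 (hW hi)
  have h2 := C.hH.toRUnif.memSlice.1 (hW hl)
  have h3 := C.hH.toRUnif.memSlice.1 (hW' hi)
  have h4 := C.hH.toRUnif.memSlice.1 (hW' hl)
  obtain ⟨e5, e6, e7, e8, e9, e10⟩ := hmv i l k k' h1 h2 h3 h4
  obtain ⟨l0, l5, l6, l7, l8, l9, l10⟩ := loose_bxD.1 hil
  rw [C.hH.base n] at l5 l7 l8 l9
  have hr := rem_A hmu m1 hδe m2 m4 (show B.d n ^ (x - D ^ 5 * ε) ≤ B.d n ^ (y - D ^ 5 * ε) from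
    rpow_anti B n (by linarith [C.yx])) l5 l7 l9 l8 e7 e9
  unfold dnL
  refine hr.trans (le_trans ?_ hc3)
  have f1 : B.d n ^ (y - D ^ 5 * ε) ≤ B.d n ^ (y / 8 + (-(c * y) + (-(D ^ 5 * ε)))) :=
    rpow_anti B n (by linarith)
  have f2 : B.d n ^ (-(c * y)) * B.d n ^ (y - D ^ 5 * ε) ≤
      B.d n ^ (y / 8 + (-(c * y) + (-(D ^ 5 * ε)))) := by
    rw [← rpow_add']
    exact rpow_anti B n (by linarith)
  have f3 : B.d n ^ (-(c * y)) * (B.d n ^ (y / 8) * B.d n ^ (0 - D ^ 5 * ε)) =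
      B.d n ^ (y / 8 + (-(c * y) + (-(D ^ 5 * ε)))) := by
    rw [← rpow_add', ← rpow_add']
    congr 1
    ring
  have hQ := hpow (y / 8 + (-(c * y) + (-(D ^ 5 * ε))))
  have e1 : (2 + 4 * K ^ 2) * B.d n ^ (y - D ^ 5 * ε) + B.d n ^ (-(c * y)) *
      ((2 + 4 * K ^ 2) * B.d n ^ (y - D ^ 5 * ε) + B.d n ^ (y / 8) * B.d n ^ (0 - D ^ 5 * ε)) =
      (2 + 4 * K ^ 2) * B.d n ^ (y - D ^ 5 * ε) + (2 + 4 * K ^ 2) *
        (B.d n ^ (-(c * y)) * B.d n ^ (y - D ^ 5 * ε)) +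
        B.d n ^ (-(c * y)) * (B.d n ^ (y / 8) * B.d n ^ (0 - D ^ 5 * ε)) := by ring
  rw [e1, f3]
  have g1 : (0 : ℝ) ≤ 2 + 4 * K ^ 2 := by positivity
  have g2 := mul_le_mul_of_nonneg_left f1 g1
  have g3 := mul_le_mul_of_nonneg_left f2 g1
  have g4 : 0 ≤ K ^ 2 * B.d n ^ (y / 8 + (-(c * y) + (-(D ^ 5 * ε)))) := by positivity
  linarith

/-- case B, one orientation -/
theorem Cr.case_B1 (C : Cr B G Leg ν σ R D x K pb e fa fb R0 a m α β Zs μ y c δ g εH ε)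
    (hm : g * y + δ * y / 4 + δ * y / 8 < m * (y / 4)) :
    ∀ᶠ n in (U : Filter ℕ), ∀ k ∈ Zs n, ∀ k' ∈ Zs n,
      B.d n ^ (5 / 32 * y) ≤ |μ n * (e n k' - e n k) * ((G n).z k' - (G n).z k) -
        (fa n k' - fa n k + e n k * (fb n k' - fb n k))| →
      ∀ W ⊆ (G n).slice k, W ⊆ (G n).slice k' → W.Nonempty →
      (∀ i ∈ W, Hv B G ν pb μ y δ g εH n i k') →
      ¬ B.d n ^ ε * (((G n).slice k).card : ℝ) ≤ (W.card : ℝ) := by
  obtain ⟨hD, hδy, s1, s2, s3, s4, s5, s6, s7, s8, s9⟩ := C.small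
  have hy := C.y0
  have hK := C.hW.K1
  have hR0 : 0 ≤ R0 := hy.le.trans C.yR0
  have hyI : y ∈ Set.Icc 0 R0 := ⟨hy.le, C.yR0⟩
  have h0I : (0 : ℝ) ∈ Set.Icc 0 R0 := ⟨le_rfl, hR0⟩
  have h4I : y / 4 ∈ Set.Icc 0 R0 := ⟨by linarith, by linarith [C.yR0]⟩
  have hp0 := C.hV.leg 0 y y y y y h0I hyI hyI hyI hyI hyI
  have hp4 := C.hV.leg (y / 4) y y y y y h4I hyI hyI hyI hyI hyI
  have hT := C.transport hp0 hp4 (sF := 5) (t4 := y / 4) (cl := 5 / 32 * y) (cc := y / 2)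
    (show bxD pb (y / 4) y y y y y 5 ≤ y / 4 from le_refl (y / 4)) (by
      intro j hj
      fin_cases j
      · exact le_refl (pb 0)
      · exact le_refl (pb 1)
      · exact le_refl (pb 2)
      · exact le_refl (pb 3)
      · exact le_refl (pb 4)
      · exact absurd rfl hj
      · exact le_refl y
      · exact le_refl y
      · exact le_refl y
      · exact le_refl y
      · exact le_refl y) (by linarith) (by linarith) (by
      rw [C.hV.eq _ _ _ _ _ _ h0I hyI hyI hyI hyI hyI,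
        C.hV.eq _ _ _ _ _ _ h4I hyI hyI hyI hyI hyI]
      linarith)
  filter_upwards [hT, C.hW.mot, C.hW.mv (D ^ 5 * ε) s5, C.mu,
    ev_const_mul B (2 * (2 + 4 * K)) (show y / 2 < -(c * y) + (y - D ^ 5 * ε) by
      linarith)] with n hT hmot hmv hmu hc3 k hk k' hk' hlam W hW hW' hWne hheavy hdens
  have hpow : ∀ t : ℝ, 0 < B.d n ^ t := fun t => rpos B n t
  have hkZ := C.sub n hk
  have hkZ' := C.sub n hk'
  obtain ⟨m1, m2, m3, m4⟩ := hmot k hkZ k' hkZ'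
  refine hT k k' W hW hW' hWne hheavy hdens _ hlam ?_
  intro i hi l hl hil
  have h1 := C.hH.toRUnif.memSlice.1 (hW hi)
  have h2 := C.hH.toRUnif.memSlice.1 (hW hl)
  have h3 := C.hH.toRUnif.memSlice.1 (hW' hi)
  have h4 := C.hH.toRUnif.memSlice.1 (hW' hl)
  obtain ⟨e5, e6, e7, e8, e9, e10⟩ := hmv i l k k' h1 h2 h3 h4
  obtain ⟨l0, l5, l6, l7, l8, l9, l10⟩ := loose_bxD.1 hil
  rw [C.hH.base n] at l6 l7 l8 l9
  have hr := rem_B hmu m1 m2 m3 (show B.d n ^ (x - D ^ 5 * ε) ≤ B.d n ^ (y - D ^ 5 * ε) from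
    rpow_anti B n (by linarith [C.yx])) l6 l7 l9 l8 e7 e9
  unfold dnL
  refine hr.trans (le_trans ?_ hc3)
  have f1 : B.d n ^ (y - D ^ 5 * ε) ≤ B.d n ^ (-(c * y) + (y - D ^ 5 * ε)) :=
    rpow_anti B n (by linarith)
  have f2 : B.d n ^ (-(c * y)) * B.d n ^ (y - D ^ 5 * ε) =
      B.d n ^ (-(c * y) + (y - D ^ 5 * ε)) := by
    rw [← rpow_add']
  have e1 : B.d n ^ (-(c * y)) * ((2 + 4 * K) * B.d n ^ (y - D ^ 5 * ε)) =
      (2 + 4 * K) * (B.d n ^ (-(c * y)) * B.d n ^ (y - D ^ 5 * ε)) := by ring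
  rw [e1, f2]
  have g1 : (0 : ℝ) ≤ 2 + 2 * K := by linarith
  have g2 := mul_le_mul_of_nonneg_left f1 g1
  have g4 : 0 ≤ K * B.d n ^ (-(c * y) + (y - D ^ 5 * ε)) :=
    mul_nonneg (by linarith) (hpow _).le
  linarith

/-- case C -/
theorem Cr.case_C (C : Cr B G Leg ν σ R D x K pb e fa fb R0 a m α β Zs μ y c δ g εH ε)
    (hβ : g * y + 2 * (δ * y / 4) < β 0 (y / 64)) :
    ∀ᶠ n in (U : Filter ℕ), |μ n| ≤ B.d n ^ (y / 64) → ∀ i k, (i, k) ∈ (G n).I →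
      ¬ Hv B G ν pb μ y δ g εH n i k := by
  obtain ⟨hD, hδy, s1, s2, s3, s4, s5, s6, s7, s8, s9⟩ := C.small
  have hy := C.y0
  have hεH := C.εH0
  have hR0 : 0 ≤ R0 := hy.le.trans C.yR0
  have hyI : y ∈ Set.Icc 0 R0 := ⟨hy.le, C.yR0⟩
  have h0I : (0 : ℝ) ∈ Set.Icc 0 R0 := ⟨le_rfl, hR0⟩
  have h64 : y / 64 ∈ Set.Icc 0 R0 := ⟨by linarith, by linarith [C.yR0]⟩
  have hδI : (1 - δ) * y ∈ Set.Icc 0 R0 := by
    have := C.δ1
    have h1 : 0 ≤ (1 - δ) * y := mul_nonneg (by linarith) hy.le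
    exact ⟨h1, by linarith [C.yR0]⟩
  have hεD : εH ≤ D * εH := le_mul_of_one_le_left hεH.le hD
  have hq := C.hV.leg y y (y / 64) y 0 ((1 - δ) * y) hyI hyI h64 hyI h0I hδI
  filter_upwards [C.hH.up _ hq (2 * εH) (by positivity), ev_const_le B hεH 2]
    with n hup h2 hμ i k hI hv
  have hpow : ∀ t : ℝ, 0 < B.d n ^ t := fun t => rpos B n t
  unfold Hv lev at hv
  have h5 := hup i k hI
  have h6 : B.d n ^ (-ν (bxD pb y y 0 y 0 ((1 - δ) * y)) + g * y) ≤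
      B.d n ^ (-ν (bxD pb y y (y / 64) y 0 ((1 - δ) * y)) - D * (2 * εH)) := by
    refine hv.trans (le_trans ?_ h5)
    refine mod_cast card_le_card fun l hl => ?_
    obtain ⟨hl1, hl2⟩ := mem_filter.1 hl
    obtain ⟨hl3, hl4⟩ := RCfg.mem_box.1 hl1
    obtain ⟨l0, l5, l6, l7, l8, l9, l10⟩ := loose_bxD.1 hl4
    have hle : ∀ t : ℝ, (G n).ρ ^ (t - εH) ≤ (G n).ρ ^ (t - 2 * εH) := by
      intro t
      rw [C.hH.base n]
      exact rpow_anti B n (by linarith)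
    refine RCfg.mem_box.2 ⟨hl3, loose_bxD.2 ⟨fun j hj => (l0 j hj).trans (hle _),
      l5.trans (hle _), l6.trans (hle _), ?_, l8.trans (hle _), l9.trans (hle _),
      l10.trans (hle _)⟩⟩
    rw [C.hH.base n] at l9 ⊢
    unfold dnL at hl2
    have q := bm hμ l9
    rw [← rpow_add'] at q
    have q2 : B.d n ^ ((1 - δ) * y) ≤ B.d n ^ (y / 64 + (0 - εH)) :=
      rpow_anti B n (by linarith)
    have e1 : B.d n ^ (y / 64 - 2 * εH) = B.d n ^ (-εH) * B.d n ^ (y / 64 + (0 - εH)) := by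
      rw [← rpow_add']; congr 1; ring
    rw [e1]
    have e2 : (G n).rel k i l 7 = ((G n).rel k i l 7 - μ n * (G n).rel k i l 9) +
        μ n * (G n).rel k i l 9 := by ring
    rw [e2]
    refine (abs_add_le _ _).trans (le_trans ?_ (mul_le_mul_of_nonneg_right h2 (hpow _).le))
    linarith
  have h7 := (Real.rpow_le_rpow_left_iff_of_base_lt_one (B.pos n) (B.lt n)).1 h6
  rw [C.hV.eq _ _ _ _ _ _ hyI hyI h0I hyI h0I hδI, C.hV.eq _ _ _ _ _ _ hyI hyI h64 hyI h0I hδI,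
    C.hV.β0] at h7
  linarith

end

end Crest.Agent.R136.Xd272
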