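import Crest.Agent.R136.Xd11_272

/-!
# R136: **the crossed window, case (D)** (helper272)
-/

set_option autoImplicit false
set_option linter.unusedVariables false
set_option linter.unusedSectionVars false

open Finset Filter Topology

namespace Crest.Agent.R136.Xd272

open Crest.Agent.R138.Ex926 (Base U)
open Crest.Agent.R138.TwA501 (ev_const_mul)
open Crest.Agent.R136.Gf356
open Crest.Agent.R136.Prn779 (OneBox)

open Classical in
/-- the incidences over `Zs`, counted by slices -/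
theorem sum_slice_le (G : RCfg (Fin 11)) (Zs : Finset ℕ) :
    ∑ k ∈ Zs, (G.slice k).card ≤ (G.I.filter fun q => q.2 ∈ Zs).card := by
  have h1 := card_eq_sum_card_fiberwise (s := G.I.filter fun q => q.2 ∈ Zs) (t := Zs)
    (f := Prod.snd) (fun q hq => (mem_filter.1 hq).2)
  rw [h1]
  refine sum_le_sum fun k hk => ?_
  refine card_le_card_of_injOn (fun i => (i, k)) ?_ ?_
  · intro i hi
    have := (RCfg.mem_slice.1 hi).2
    exact mem_filter.2 ⟨mem_filter.2 ⟨this, hk⟩, rfl⟩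
  · intro i _ i' _ h
    exact congrArg Prod.fst h

variable {B : Base} {G : ℕ → RCfg (Fin 11)} {Leg : Set (Fin 11 → ℝ)} {ν : (Fin 11 → ℝ) → ℝ}
  {σ R D x K : ℝ} {pb : Fin 11 → ℝ} {e fa fb : ℕ → ℕ → ℝ} {R0 a m : ℝ} {α β : ℝ → ℝ → ℝ}
  {Zs : ℕ → Finset ℕ} {μ : ℕ → ℝ} {y c δ g εH ε : ℝ}

open Classical in
set_option maxHeartbeats 1000000 in
/-- the contradiction from the set-up -/
theorem Cr.false (C : Cr B G Leg ν σ R D x K pb e fa fb R0 a m α β Zs μ y c δ g εH ε)
    (hyR : y ≤ R) {h : ℝ}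
    (hdens : ∀ ε : ℝ, 0 < ε → ∀ᶠ n in (U : Filter ℕ),
      B.d n ^ (h + ε) * ((G n).Z.card : ℝ) ≤ ((Zs n).card : ℝ))
    (hfr : h + ε < σ * (y / 64))
    (hα : g * y + δ * y / 4 + δ * y / 8 < α 0 (y / 64))
    (hm : g * y + δ * y / 4 + δ * y / 8 < m * (y / 4))
    (hβ : g * y + 2 * (δ * y / 4) < β 0 (y / 64))
    (hheavy : ∀ᶠ n in (U : Filter ℕ), 2 * ((((G n).I.filter fun q => q.2 ∈ Zs n).filter fun q =>
        ¬ B.d n ^ (-ν (bxD pb y y 0 y 0 ((1 - δ) * y)) + g * y) ≤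
          lev (G n) (bxD pb y y 0 y 0 ((1 - δ) * y)) εH (B.d n ^ ((1 - δ) * y)) (dnL G μ n)
            q.1 q.2).card : ℝ) ≤ (((G n).I.filter fun q => q.2 ∈ Zs n).card : ℝ)) : False := by
  obtain ⟨hD, hδy, s1, s2, s3, s4, s5, s6, s7, s8, s9⟩ := C.small
  have hy := C.y0
  have hK := C.hW.K1
  have hε := C.ε0
  have hε1 : 0 < ε / 8 := by positivity
  have key : ∀ᶠ n in (U : Filter ℕ), False := by
    filter_upwards [hheavy, C.hH.slice (ε / 8) hε1, hdens (ε / 8) hε1,
      frostT C.hH (K := 1) (y := y / 64) (by linarith) (by linarith) hε1,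
      C.case_A hα, C.case_B1 hm, C.case_C hβ, C.aff (D ^ 5 * ε) s5, C.hW.mot,
      ev_const_mul B 16 (show 2 * (ε / 8) < σ * (y / 64) - ε / 8 - (h + ε / 8) by linarith),
      ev_const_mul B 8 (show 2 * (ε / 8) < ε by linarith),
      ev_const_mul B (2 * K) (show 5 / 32 * y < y - D ^ 5 * ε by linarith)]
      with n hhv hsl hdens hfrn hA hB hC haff hmot h16 h8 h2K
    have hpow : ∀ t : ℝ, 0 < B.d n ^ t := fun t => rpos B n t
    obtain ⟨⟨i1, k1⟩, hI1⟩ := C.hH.nonempty n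
    have hLne : (G n).L.Nonempty := ⟨i1, C.hH.memL hI1⟩
    have hZne : (G n).Z.Nonempty := ⟨k1, C.hH.memZ hI1⟩
    have hZc : (0 : ℝ) < (G n).Z.card := by exact_mod_cast hZne.card_pos
    have hLc : (0 : ℝ) < (G n).L.card := by exact_mod_cast hLne.card_pos
    have hZsc : (0 : ℝ) < (Zs n).card := (mul_pos (hpow _) hZc).trans_le hdens
    have hZsne : (Zs n).Nonempty := by
      rw [← Finset.card_pos]
      exact_mod_cast hZsc
    have e2 : B.d n ^ (2 * (ε / 8)) = B.d n ^ (ε / 8) * B.d n ^ (ε / 8) := by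
      rw [← rpow_add']; congr 1; ring
    -- heavy incidences
    have hJc : B.d n ^ (ε / 8) / 2 * (((G n).L.card : ℝ) * (Zs n).card) ≤
        ((((G n).I.filter fun q => q.2 ∈ Zs n).filter fun q =>
          Hv B G ν pb μ y δ g εH n q.1 q.2).card : ℝ) := by
      have a1 : ((((G n).I.filter fun q => q.2 ∈ Zs n).filter fun q =>
          Hv B G ν pb μ y δ g εH n q.1 q.2).card : ℝ) +
          ((((G n).I.filter fun q => q.2 ∈ Zs n).filter fun q =>
          ¬ Hv B G ν pb μ y δ g εH n q.1 q.2).card : ℝ) =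
          (((G n).I.filter fun q => q.2 ∈ Zs n).card : ℝ) := by
        have := card_filter_add_card_filter_not (s := (G n).I.filter fun q => q.2 ∈ Zs n)
          (fun q => Hv B G ν pb μ y δ g εH n q.1 q.2)
        exact_mod_cast this
      have a2 : 2 * ((((G n).I.filter fun q => q.2 ∈ Zs n).filter fun q =>
          ¬ Hv B G ν pb μ y δ g εH n q.1 q.2).card : ℝ) ≤
          (((G n).I.filter fun q => q.2 ∈ Zs n).card : ℝ) := hhv
      have a3 : B.d n ^ (ε / 8) * ((G n).L.card : ℝ) * (Zs n).card ≤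
          (((G n).I.filter fun q => q.2 ∈ Zs n).card : ℝ) := by
        have b1 : ((∑ k ∈ Zs n, ((G n).slice k).card : ℕ) : ℝ) ≤
            (((G n).I.filter fun q => q.2 ∈ Zs n).card : ℝ) := by
          exact_mod_cast sum_slice_le (G n) (Zs n)
        refine le_trans ?_ b1
        push_cast
        calc B.d n ^ (ε / 8) * ((G n).L.card : ℝ) * (Zs n).card =
            ∑ k ∈ Zs n, B.d n ^ (ε / 8) * ((G n).L.card : ℝ) := by
              rw [sum_const, nsmul_eq_mul]; ring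
          _ ≤ _ := sum_le_sum fun k hk => hsl k (C.sub n hk)
      linarith
    have hfar := far_pair (G n).L (Zs n) (((G n).I.filter fun q => q.2 ∈ Zs n).filter fun q =>
          Hv B G ν pb μ y δ g εH n q.1 q.2) (G n).z (θ := B.d n ^ (ε / 8) / 2)
      (s := B.d n ^ (y / 64)) (by have := hpow (ε / 8); positivity) hLne hZsne (by
        intro q hq
        obtain ⟨b1, b2⟩ := mem_filter.1 (mem_filter.1 hq).1
        exact mem_product.2 ⟨C.hH.memL b1, b2⟩) hJc (by
        intro k hk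
        have b1 := hfrn k (C.sub n hk) ((Zs n).filter fun k' =>
          |(G n).z k' - (G n).z k| ≤ B.d n ^ (y / 64))
          (fun k' hk' => C.sub n (mem_filter.1 hk').1)
          (fun k' hk' => by rw [one_mul]; exact (mem_filter.1 hk').2)
        refine b1.trans ?_
        have b2 : ((G n).Z.card : ℝ) ≤ B.d n ^ (-(h + ε / 8)) * (Zs n).card := by
          have h6 : B.d n ^ (-(h + ε / 8)) * B.d n ^ (h + ε / 8) = 1 := by
            rw [← rpow_add']; simp
          calc ((G n).Z.card : ℝ) =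
              B.d n ^ (-(h + ε / 8)) * (B.d n ^ (h + ε / 8) * (G n).Z.card) := by
                rw [← mul_assoc, h6, one_mul]
            _ ≤ _ := mul_le_mul_of_nonneg_left hdens (hpow _).le
        calc B.d n ^ (σ * (y / 64) - ε / 8) * ((G n).Z.card : ℝ)
            ≤ B.d n ^ (σ * (y / 64) - ε / 8) * (B.d n ^ (-(h + ε / 8)) * (Zs n).card) :=
              mul_le_mul_of_nonneg_left b2 (hpow _).le
          _ = B.d n ^ (σ * (y / 64) - ε / 8 - (h + ε / 8)) * (Zs n).card := by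
              rw [← mul_assoc, ← rpow_add']; congr 2
          _ ≤ _ := by
              refine mul_le_mul_of_nonneg_right ?_ (Nat.cast_nonneg _)
              have e3 : (B.d n ^ (ε / 8) / 2) ^ 2 / 4 = B.d n ^ (2 * (ε / 8)) / 16 := by
                rw [e2]; ring
              rw [e3]
              linarith)
    obtain ⟨k, hk, k', hk', hu, hWc⟩ := hfar
    set W := (G n).L.filter fun i => (i, k) ∈ (((G n).I.filter fun q => q.2 ∈ Zs n).filter
      fun q => Hv B G ν pb μ y δ g εH n q.1 q.2) ∧ (i, k') ∈ (((G n).I.filter fun q =>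
        q.2 ∈ Zs n).filter fun q => Hv B G ν pb μ y δ g εH n q.1 q.2) with hWdef
    have hWk : ∀ i ∈ W, (i, k) ∈ (G n).I ∧ Hv B G ν pb μ y δ g εH n i k := fun i hi => by
      have b1 := (mem_filter.1 hi).2.1
      exact ⟨(mem_filter.1 (mem_filter.1 b1).1).1, (mem_filter.1 b1).2⟩
    have hWk' : ∀ i ∈ W, (i, k') ∈ (G n).I ∧ Hv B G ν pb μ y δ g εH n i k' := fun i hi => by
      have b1 := (mem_filter.1 hi).2.2
      exact ⟨(mem_filter.1 (mem_filter.1 b1).1).1, (mem_filter.1 b1).2⟩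
    have hWs : W ⊆ (G n).slice k := fun i hi => C.hH.toRUnif.memSlice.2 (hWk i hi).1
    have hWs' : W ⊆ (G n).slice k' := fun i hi => C.hH.toRUnif.memSlice.2 (hWk' i hi).1
    have hWL : B.d n ^ ε * ((G n).L.card : ℝ) ≤ (W.card : ℝ) := by
      refine le_trans ?_ hWc
      refine mul_le_mul_of_nonneg_right ?_ hLc.le
      have e3 : (B.d n ^ (ε / 8) / 2) ^ 2 / 2 = B.d n ^ (2 * (ε / 8)) / 8 := by
        rw [e2]; ring
      rw [e3]
      linarith
    have hWne : W.Nonempty := by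
      rw [← Finset.card_pos]
      have : (0 : ℝ) < (W.card : ℝ) := (mul_pos (hpow _) hLc).trans_le hWL
      exact_mod_cast this
    have hdk : ∀ k0, B.d n ^ ε * (((G n).slice k0).card : ℝ) ≤ (W.card : ℝ) := by
      intro k0
      refine le_trans (mul_le_mul_of_nonneg_left ?_ (hpow _).le) hWL
      exact_mod_cast card_le_card (filter_subset _ _)
    rcases le_total (|μ n|) (B.d n ^ (y / 64)) with hμ | hμ
    · obtain ⟨i, hi⟩ := hWne
      exact hC hμ i k (hWk i hi).1 (hWk i hi).2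
    rcases le_total (|e n k' - e n k|) (B.d n ^ (y / 8)) with hδe | hδe
    · exact hA hμ k hk k' hk' hu.le hδe W hWs hWs' hWne (fun i hi => (hWk' i hi).2) (hdk k)
    obtain ⟨m1, m2, m3, m4⟩ := hmot k (C.sub n hk) k' (C.sub n hk')
    have hor := lam_B (u := (G n).z k' - (G n).z k) (δ := e n k' - e n k)
      (b := fb n k' - fb n k) (μ := μ n) (a := fa n k' - fa n k + e n k * (fb n k' - fb n k))
      (a' := fa n k - fa n k' + e n k' * (fb n k - fb n k')) (t := B.d n ^ (5 / 32 * y))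
      (haff k hk k' hk') m2 (by ring) (by
        have e3 : B.d n ^ (5 / 32 * y) = B.d n ^ (y / 64) * B.d n ^ (y / 64) * B.d n ^ (y / 8) := by
          rw [← rpow_add', ← rpow_add']; congr 1; ring
        rw [e3]
        refine mul_le_mul (mul_le_mul hμ hu.le (hpow _).le (abs_nonneg _)) hδe (hpow _).le
          (by positivity)) h2K
    rcases hor with h3 | h3
    · exact hB k hk k' hk' h3 W hWs hWs' hWne (fun i hi => (hWk' i hi).2) (hdk k)
    · refine hB k' hk' k hk ?_ W hWs' hWs hWne (fun i hi => (hWk i hi).2) (hdk k')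
      have e3 : μ n * (e n k - e n k') * ((G n).z k - (G n).z k') -
          (fa n k - fa n k' + e n k' * (fb n k - fb n k')) =
          μ n * (e n k' - e n k) * ((G n).z k' - (G n).z k) -
          (fa n k - fa n k' + e n k' * (fb n k - fb n k')) := by ring
      rw [e3]
      exact h3
  obtain ⟨n, hn⟩ := key.exists
  exact hn

/-- **the crossed window (κ₃₂ = 1)** -/
theorem crossed (H : RModel B G σ R Leg ν D) (hW : LinWin B G x K pb e fa fb)
    (hν : SplitD Leg ν pb R0 a m α β) (hx : 0 < x) (hxR : x ≤ R) (hxR0 : x ≤ R0) {γ s : ℝ}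
    (hγ : 0 < γ) (hγm : γ ≤ m) (hα : ∀ t, 0 ≤ t → t ≤ R0 → γ * t ≤ α 0 t)
    (hβ : ∀ t, 0 ≤ t → t ≤ R0 → γ * t ≤ β 0 t) (ha : 0 ≤ a) (has : a < s)
    (hs : ∀ t, 0 ≤ t → t ≤ R0 → s * t ≤ β t t) : σ ≤ a := by
  by_contra hcon
  rw [not_le] at hcon
  have hσ1 := H.σ_le
  have hσ0 : 0 < σ := ha.trans_lt hcon
  have hD := H.D1
  have hD0 : 0 < D := by linarith
  obtain ⟨γ', hγ'0, hγ'1, hγ'γ⟩ : ∃ γ' : ℝ, 0 < γ' ∧ γ' ≤ 1 ∧ γ' ≤ γ :=
    ⟨min γ 1, lt_min hγ one_pos, min_le_right _ _, min_le_left _ _⟩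
  obtain ⟨δ, hδ⟩ : ∃ δ : ℝ, δ = γ' / 2048 := ⟨_, rfl⟩
  have hδ0 : 0 < δ := by rw [hδ]; positivity
  have hδ1 : δ ≤ 1 / 2048 := by rw [hδ]; linarith
  have hsa : 0 < σ - a := sub_pos.2 hcon
  have hsa1 : σ - a ≤ 1 := by linarith
  obtain ⟨η, hη⟩ : ∃ η : ℝ, η = (σ - a) * (σ * δ) / 16 := ⟨_, rfl⟩
  have hσδ : 0 < σ * δ := mul_pos hσ0 hδ0
  have hη0 : 0 < η := by
    rw [hη]
    have := mul_pos hsa hσδ
    linarith
  have hσδ1 : σ * δ ≤ δ := mul_le_of_le_one_left hδ0.le hσ1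
  have hη1 : η ≤ σ * δ / 16 := by
    rw [hη]
    have := mul_le_of_le_one_left hσδ.le hsa1
    linarith
  have hη2 : η < (σ - a) * δ / 8 := by
    rw [hη]
    have h1 : (σ - a) * (σ * δ) ≤ (σ - a) * δ := mul_le_mul_of_nonneg_left hσδ1 hsa.le
    have h2 : 0 < (σ - a) * δ := mul_pos hsa hδ0
    linarith
  have hησ : 2 * η ≤ σ := by
    have : σ * δ ≤ σ * (1 / 2048) := mul_le_mul_of_nonneg_left hδ1 hσ0.le
    linarith
  obtain ⟨y, μ, Zs, hy, hyx, S⟩ := strip_L H hW hν hx hxR hxR0 ha hcon has hs hη0 hησ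
  have hyR : y ≤ R := hyx.trans hxR
  have hyR0 : y ≤ R0 := hyx.trans hxR0
  have hδy : 0 < δ * y := mul_pos hδ0 hy
  have hA0 : 0 < D ^ 6 + D ^ 2 + 1 := by positivity
  have hA1 : 0 < D ^ 6 + 3 := by positivity
  have hA2 : 1 ≤ D ^ 6 := one_le_pow₀ hD
  obtain ⟨εH, hεH⟩ : ∃ εH : ℝ, εH = δ * y / 4 / (D ^ 6 + D ^ 2 + 1) := ⟨_, rfl⟩
  obtain ⟨ε, hε⟩ : ∃ ε : ℝ, ε = σ * δ * y / 256 / (D ^ 6 + 3) := ⟨_, rfl⟩
  have hεH0 : 0 < εH := by rw [hεH]; positivity
  have hε0 : 0 < ε := by rw [hε]; positivity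
  have hε1 : (D ^ 6 + 3) * ε = σ * δ * y / 256 := by rw [hε]; field_simp
  have hσδy : σ * δ * y ≤ δ * y := mul_le_mul_of_nonneg_right hσδ1 hy.le
  have hc : 3 * η / σ ≤ δ / 4 := by
    rw [div_le_iff₀ hσ0]
    linarith
  have C : Cr B G Leg ν σ R D x K pb e fa fb R0 a m α β Zs μ y (3 * η / σ) δ (2 * δ) εH ε :=
    { hH := H
      hW := hW
      hV := hν
      sub := S.sub
      mu := S.mu
      aff := S.aff
      y0 := hy
      yx := hyx
      yR0 := hyR0
      c0 := by positivity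
      cδ := hc
      δ0 := hδ0
      δ1 := hδ1
      g0 := by linarith
      εH0 := hεH0
      εH1 := by
        rw [hεH]
        refine le_of_eq ?_
        field_simp
      ε0 := hε0
      ε1 := by rw [hε1]; linarith }
  have h64 : 0 ≤ y / 64 := by linarith
  have h64R : y / 64 ≤ R0 := by linarith
  have hγy : δ * y = γ' * y / 2048 := by rw [hδ]; ring
  have hγ'y : γ' * (y / 64) ≤ γ * (y / 64) := mul_le_mul_of_nonneg_right hγ'γ h64
  refine C.false hyR (h := η * y) S.dens ?_ ?_ ?_ ?_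
    (heavy_L H hW hν S hy hyx hyR hyR0 (by positivity) ha hcon hδ0 (by linarith) ?_ ?_ hεH0)
  · -- Frostman
    have h1 : η * y ≤ σ * δ / 16 * y := mul_le_mul_of_nonneg_right hη1 hy.le
    have h2 : ε ≤ (D ^ 6 + 3) * ε := le_mul_of_one_le_left hε0.le (by linarith)
    rw [hε1] at h2
    have h3 : σ * y * δ ≤ σ * y * (1 / 2048) :=
      mul_le_mul_of_nonneg_left hδ1 (mul_pos hσ0 hy).le
    have h4 : 0 < σ * y := mul_pos hσ0 hy
    have e1 : σ * δ / 16 * y = σ * y * δ / 16 := by ring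
    have e2 : σ * δ * y / 256 = σ * y * δ / 256 := by ring
    have e3 : σ * (y / 64) = σ * y / 64 := by ring
    rw [e1] at h1
    rw [e2] at h2
    rw [e3]
    linarith
  · have h1 := hα _ h64 h64R
    have h2 : 0 < γ' * y := mul_pos hγ'0 hy
    have e1 : 2 * δ * y = 2 * (δ * y) := by ring
    rw [e1, hγy]
    linarith
  · have h1 : γ' * (y / 4) ≤ m * (y / 4) :=
      mul_le_mul_of_nonneg_right (hγ'γ.trans hγm) (by linarith)
    have h2 : 0 < γ' * y := mul_pos hγ'0 hy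
    have e1 : 2 * δ * y = 2 * (δ * y) := by ring
    rw [e1, hγy]
    linarith
  · have h1 := hβ _ h64 h64R
    have h2 : 0 < γ' * y := mul_pos hγ'0 hy
    have e1 : 2 * δ * y = 2 * (δ * y) := by ring
    rw [e1, hγy]
    linarith
  · have h1 : η * y < (σ - a) * δ / 8 * y := mul_lt_mul_of_pos_right hη2 hy
    have e1 : (σ - a) * δ / 8 * y = (σ - a) * δ * y / 8 := by ring
    rwa [e1] at h1
  · refine mul_lt_mul_of_pos_right ?_ hy
    have h1 : a * δ ≤ 1 * δ := mul_le_mul_of_nonneg_right (by linarith) hδ0.le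
    linarith

end Crest.Agent.R136.Xd272
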