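import Crest.Agent.R136.Xd7_272

/-!
# R136: the strip of the linear window (helper272)
-/

set_option autoImplicit false
set_option linter.unusedVariables false
set_option linter.unusedSectionVars false

open Finset Filter Topology

namespace Crest.Agent.R136.Xd272

open Crest.Agent.R138.Ex926 (Base U)
open Crest.Agent.R138.TwA501 (ev_const_mul)
open Crest.Agent.R136.Gf356
open Crest.Agent.R136.Prn779 (OneBox)
open Crest.Agent.R136.Rg6_501

theorem bxD_le {pb : Fin 11 → ℝ} {ca cb p xa xb n ca' cb' p' xa' xb' n' : ℝ} (h5 : ca ≤ ca')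
    (h6 : cb ≤ cb') (h7 : p ≤ p') (h8 : xa ≤ xa') (h9 : xb ≤ xb') (h10 : n ≤ n') :
    ∀ j, bxD pb ca cb p xa xb n j ≤ bxD pb ca' cb' p' xa' xb' n' j := by
  intro j
  fin_cases j
  · show pb 0 ≤ pb 0
    exact le_rfl
  · show pb 1 ≤ pb 1
    exact le_rfl
  · show pb 2 ≤ pb 2
    exact le_rfl
  · show pb 3 ≤ pb 3
    exact le_rfl
  · show pb 4 ≤ pb 4
    exact le_rfl
  · show ca ≤ ca'
    exact h5
  · show cb ≤ cb'
    exact h6
  · show p ≤ p'
    exact h7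
  · show xa ≤ xa'
    exact h8
  · show xb ≤ xb'
    exact h9
  · show n ≤ n'
    exact h10

variable {B : Base} {G : ℕ → RCfg (Fin 11)} {Leg : Set (Fin 11 → ℝ)} {ν : (Fin 11 → ℝ) → ℝ}
  {σ R D x K : ℝ} {pb : Fin 11 → ℝ} {e fa fb : ℕ → ℕ → ℝ}

/-- Frostman bound with a constant -/
theorem frostT {κ : Type} {G : ℕ → RCfg κ} {Leg : Set (κ → ℝ)} {ν : (κ → ℝ) → ℝ}
    (H : RModel B G σ R Leg ν D) {y : ℝ} (hy0 : 0 ≤ y) (hyR : y ≤ R)
    {ε : ℝ} (hε : 0 < ε) :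
    ∀ᶠ n in (U : Filter ℕ), ∀ k ∈ (G n).Z, ∀ T ⊆ (G n).Z,
      (∀ k' ∈ T, |(G n).z k' - (G n).z k| ≤ K * B.d n ^ y) →
      (T.card : ℝ) ≤ B.d n ^ (σ * y - ε) * ((G n).Z.card : ℝ) := by
  have hσ0 := H.σ_nonneg
  have hσ1 := H.σ_le
  rcases le_or_gt y ε with h | h
  · filter_upwards with n k hk T hT _
    have h1 : (T.card : ℝ) ≤ (G n).Z.card := by exact_mod_cast card_le_card hT
    refine h1.trans (le_mul_of_one_le_left (Nat.cast_nonneg _) ?_)
    apply Real.one_le_rpow_of_pos_of_le_one_of_nonpos (B.pos n) (B.lt n).le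
    have : σ * y ≤ 1 * y := mul_le_mul_of_nonneg_right hσ1 hy0
    linarith
  · filter_upwards [H.frost (y - ε / 2) (by linarith) (by linarith) (ε / 2) (by positivity),
      ev_const_le B (t := ε / 2) (by positivity) K] with n h1 h2 k hk T hT hTk
    refine le_trans ?_ ((h1 k hk).trans (mul_le_mul_of_nonneg_right
      (rpow_anti B n ?_) (Nat.cast_nonneg _)))
    · refine mod_cast card_le_card fun k' hk' => ?_
      unfold RCfg.hbox
      rw [mem_filter, H.base n]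
      refine ⟨hT hk', (hTk k' hk').trans ?_⟩
      have e1 : B.d n ^ (y - ε / 2) = B.d n ^ (-(ε / 2)) * B.d n ^ y := by
        rw [← rpow_add']; congr 1; ring
      rw [e1]
      exact mul_le_mul_of_nonneg_right h2 (rpos B n _).le
    · nlinarith

/-- the normal motion of frozen pairs -/
theorem rig_mv (H : RUnif B G Leg ν D) (hW : LinWin B G x K pb e fa fb) {ε ε' : ℝ}
    (hε : 0 < ε) (hεε : ε ≤ ε') :
    ∀ᶠ n in (U : Filter ℕ), ∀ k k' i l, (i, k) ∈ (G n).I → (l, k) ∈ (G n).I →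
      (i, k') ∈ (G n).I → (l, k') ∈ (G n).I → (G n).loose (bxD pb x x 0 x 0 x) ε' k i l →
      |(G n).rel k' i l 10| ≤ B.d n ^ (x - ε) →
      |((G n).z k' - (G n).z k) * (G n).rel k i l 7 -
        (fb n k' - fb n k) * (G n).rel k i l 9| ≤ B.d n ^ (x - (ε' + ε)) := by
  have hK := hW.K1
  filter_upwards [hW.mot, hW.mv ε hε, ev_const_le B hε (3 + 4 * K ^ 2 + 8 * K ^ 3 + 4 * K ^ 2)]
    with n hmot hmv hc k k' i l h1 h2 h3 h4 hl hN
  have hk : k ∈ (G n).Z := H.memZ h1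
  have hk' : k' ∈ (G n).Z := H.memZ h3
  obtain ⟨m1, m2, m3, m4⟩ := hmot k hk k' hk'
  obtain ⟨e5, e6, e7, e8, e9, e10⟩ := hmv i l k k' h1 h2 h3 h4
  obtain ⟨l0, l5, l6, l7, l8, l9, l10⟩ := loose_bxD.1 hl
  rw [H.base n] at l5 l6 l8 l10
  have hp : 0 < B.d n ^ (x - ε') := rpos B n _
  have hxe : B.d n ^ (x - ε) ≤ B.d n ^ (x - ε') := rpow_anti B n (by linarith)
  have hfin : (3 + 4 * K ^ 2 + 8 * K ^ 3 + 4 * K ^ 2) * B.d n ^ (x - ε') ≤
      B.d n ^ (x - (ε' + ε)) := by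
    have e1 : B.d n ^ (x - (ε' + ε)) = B.d n ^ (-ε) * B.d n ^ (x - ε') := by
      rw [← rpow_add']; congr 1; ring
    rw [e1]
    exact mul_le_mul_of_nonneg_right hc hp.le
  refine le_trans ?_ hfin
  generalize (G n).z k' - (G n).z k = u at *
  generalize fb n k' - fb n k = b at *
  generalize fa n k' - fa n k + e n k * b = a at *
  generalize B.d n ^ (x - ε') = X at *
  generalize B.d n ^ (x - ε) = X' at *
  have q1 := bm m4 l8
  have q2 := bm m4 (bm m1 l5)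
  have q3 := bm m3 (bm m1 l6)
  have e1 : u * (G n).rel k i l 7 - b * (G n).rel k i l 9 =
      (G n).rel k' i l 10 - (G n).rel k i l 10 + a * (G n).rel k i l 8 +
      a * (u * (G n).rel k i l 5) + b * (u * (G n).rel k i l 6) -
      ((G n).rel k' i l 10 - ((G n).rel k i l 10 + u * (G n).rel k i l 7 -
        a * ((G n).rel k i l 8 + u * (G n).rel k i l 5) -
        b * ((G n).rel k i l 9 + u * (G n).rel k i l 6))) := by ring
  rw [e1]
  generalize (G n).rel k' i l 10 - ((G n).rel k i l 10 + u * (G n).rel k i l 7 -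
        a * ((G n).rel k i l 8 + u * (G n).rel k i l 5) -
        b * ((G n).rel k i l 9 + u * (G n).rel k i l 6)) = Er at *
  have e2 : 4 * K ^ 2 * (2 * K * X) = 8 * K ^ 3 * X := by ring
  have e3 : 2 * K * (2 * K * X) = 4 * K ^ 2 * X := by ring
  rw [e2] at q2
  rw [e3] at q3
  have e4 : (3 + 4 * K ^ 2 + 8 * K ^ 3 + 4 * K ^ 2) * X =
      3 * X + 4 * K ^ 2 * X + 8 * K ^ 3 * X + 4 * K ^ 2 * X := by ring
  rw [e4]
  rw [abs_le] at *
  constructor <;> linarith [q1.1, q1.2, q2.1, q2.2, q3.1, q3.2, hN.1, hN.2, l10.1, l10.2,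
    e10.1, e10.2]

/-- the data of [RIG-0] -/
theorem rdataL (H : RModel B G σ R Leg ν D) (hW : LinWin B G x K pb e fa fb) {R0 a m : ℝ}
    {α β : ℝ → ℝ → ℝ} (hν : SplitD Leg ν pb R0 a m α β) (hx : 0 < x) (hxR : x ≤ R)
    (hxR0 : x ≤ R0) {s : ℝ} (hs : ∀ t, 0 ≤ t → t ≤ R0 → s * t ≤ β t t) (i0 : ℕ → ℕ)
    (hi0 : ∀ n, i0 n ∈ (G n).L) :
    RDataL B G Leg ν i0 (fun n => (G n).Z) (fun n => (G n).hts (i0 n))
      (fun n k => (G n).z k / K) (fun n k => fb n k / K)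
      (fun n k i i' => (G n).rel k i i' 7) (fun n k i i' => (G n).rel k i i' 9)
      (bxD pb x x 0 x 0 x) (bxD pb x x 0 x 0 0) (bxD pb x x 0 x 0 x) (fun t => bxD pb x x t x t x)
      σ x s a (2 * D ^ 2 + 3) (D ^ 2) := by
  have hK := hW.K1
  have hK0 : 0 < K := by linarith
  have hD := H.D1
  have hD2 : 1 ≤ D ^ 2 := one_le_pow₀ hD
  have hR0 : 0 ≤ R0 := hx.le.trans hxR0
  have hxI : x ∈ Set.Icc 0 R0 := ⟨hx.le, hxR0⟩
  have h0I : (0 : ℝ) ∈ Set.Icc 0 R0 := ⟨le_rfl, hR0⟩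
  have hpS : bxD pb x x 0 x 0 x ∈ Leg := hν.leg _ _ _ _ _ _ hxI hxI h0I hxI h0I hxI
  have hpT : bxD pb x x 0 x 0 0 ∈ Leg := hν.leg _ _ _ _ _ _ hxI hxI h0I hxI h0I h0I
  refine ⟨hx, by positivity, by positivity, ?_, ?_, ?_, ?_, hpS, hpT, hpS, ?_, ?_, ?_, ?_, ?_,
    ?_, ?_, ?_, ?_⟩
  · -- bd
    filter_upwards [hW.bd] with n hn
    obtain ⟨⟨i, k⟩, hI⟩ := H.nonempty n
    refine ⟨⟨k, H.memZ hI⟩, fun k hk => ?_⟩
    obtain ⟨a1, _, _, a4⟩ := hn k hk
    rw [abs_div, abs_div, abs_of_pos hK0, div_le_one hK0, div_le_one hK0]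
    exact ⟨a1, a4⟩
  · -- frost
    intro y hy0 hyx ε hε
    filter_upwards [frostT H (K := K) hy0 (hyx.trans hxR) hε] with n hn k hk T hT hTk
    refine hn k hk T hT fun k' hk' => ?_
    have := hTk k' hk'
    rw [← sub_div, abs_div, abs_of_pos hK0, div_le_iff₀ hK0] at this
    linarith
  · -- pins
    intro ε hε
    filter_upwards [H.line ε hε] with n hn
    refine ⟨filter_subset _ _, le_trans (mul_le_mul_of_nonneg_right (rpow_anti B n ?_)
      (Nat.cast_nonneg _)) (hn (i0 n) (hi0 n))⟩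
    nlinarith
  · -- pinI
    filter_upwards with n k hk
    exact (RCfg.mem_hts.1 hk).2
  · -- Tr
    exact bxD_le le_rfl le_rfl le_rfl le_rfl le_rfl hx.le
  · -- legQ
    intro t ht0 htx
    have htI : t ∈ Set.Icc 0 R0 := ⟨ht0, htx.trans hxR0⟩
    exact hν.leg _ _ _ _ _ _ hxI hxI htI hxI htI hxI
  · -- one
    intro ε hε
    filter_upwards [hW.one ε hε] with n hn k hk i hi i' hi'
    have h1 := H.memSlice.1 (RCfg.box_subset_slice hi)
    have h2 := H.memSlice.1 (RCfg.box_subset_slice hi')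
    obtain ⟨_, _, _, o7, _, o9, _⟩ := loose_bxD.1 (hn i i' k h1 h2)
    rw [H.base n] at o7 o9
    have : 0 ≤ D ^ 2 * ε := by positivity
    exact ⟨o7.trans (rpow_anti B n (by linarith)), o9.trans (rpow_anti B n (by linarith))⟩
  · -- alive
    intro ε hε
    filter_upwards [H.line ε hε] with n hn k hk i hi T hT hTk
    have h1 := (RCfg.mem_slice.1 (RCfg.box_subset_slice hi)).1
    refine le_trans (mul_le_mul_of_nonneg_right (rpow_anti B n ?_) (Nat.cast_nonneg _))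
      ((hn i h1).trans ?_)
    · nlinarith
    · refine mod_cast card_le_card fun k hk => ?_
      obtain ⟨a1, a2⟩ := RCfg.mem_hts.1 hk
      exact hTk k a1 a2
  · -- mv
    intro ε hε
    have h1e : ε ≤ D ^ 2 * ε := le_mul_of_one_le_left hε.le hD2
    filter_upwards [rig_mv H.toRUnif hW hε h1e, pair_box H.toRUnif hpS hε] with n hn hp k0 hk0 k
      hk i hi i' hi' hI hI' hl
    have h1 := H.memSlice.1 (RCfg.box_subset_slice hi)
    have h2 := H.memSlice.1 (RCfg.box_subset_slice hi')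
    have h3 := hp (i0 n) k0 (RCfg.mem_hts.1 hk0).2 i hi i' hi'
    obtain ⟨_, _, _, _, _, _, l10⟩ := loose_bxD.1 hl
    rw [H.base n] at l10
    have h4 := hn k0 k i i' h1 h2 hI hI' h3 l10
    have e1 : ((G n).z k / K - (G n).z k0 / K) * (G n).rel k0 i i' 7 -
        (fb n k / K - fb n k0 / K) * (G n).rel k0 i i' 9 =
        (((G n).z k - (G n).z k0) * (G n).rel k0 i i' 7 -
        (fb n k - fb n k0) * (G n).rel k0 i i' 9) / K := by
      field_simp
    rw [e1, abs_div, abs_of_pos hK0, div_le_iff₀ hK0]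
    have h5 : B.d n ^ (x - (D ^ 2 * ε + ε)) ≤ B.d n ^ (x - (2 * D ^ 2 + 3) * ε) := by
      refine rpow_anti B n ?_
      have : 0 ≤ D ^ 2 * ε := by positivity
      linarith
    have h6 : 0 < B.d n ^ (x - (2 * D ^ 2 + 3) * ε) := rpos B n _
    nlinarith
  · -- inT
    intro ε hε
    filter_upwards [frozen_inT H.toRUnif hW (le_refl x) (ε := D ^ 2 * ε) (by positivity),
      pair_box H.toRUnif hpS hε] with n hn hp k0 hk0 k hk i hi i' hi' hI hI'
    have h1 := H.memSlice.1 (RCfg.box_subset_slice hi)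
    have h2 := H.memSlice.1 (RCfg.box_subset_slice hi')
    have h3 := hp (i0 n) k0 (RCfg.mem_hts.1 hk0).2 i hi i' hi'
    have h4 : (G n).loose (bxD pb x x 0 x 0 0) (D ^ 2 * ε) k0 i i' :=
      H.loose_mono (bxD_le le_rfl le_rfl le_rfl le_rfl le_rfl hx.le) le_rfl h3
    exact H.loose_mono (fun _ => le_rfl) (by nlinarith) (hn k0 k i i' h1 h2 hI hI' h4)
  · -- inQ
    intro t ht0 htx ε hε
    have h1e : ε ≤ D ^ 2 * ε := le_mul_of_one_le_left hε.le hD2
    filter_upwards [pair_box H.toRUnif hpS hε] with n hp k0 hk0 i hi i' hi' h7 h9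
    have h3 := hp (i0 n) k0 (RCfg.mem_hts.1 hk0).2 i hi i' hi'
    obtain ⟨l0, l5, l6, l7, l8, l9, l10⟩ := loose_bxD.1 h3
    refine loose_bxD.2 ⟨l0, l5, l6, ?_, l8, ?_, l10⟩
    · rw [H.base n]
      exact h7.trans (rpow_anti B n (by linarith))
    · rw [H.base n]
      exact h9.trans (rpow_anti B n (by linarith))
  · -- lossQ
    intro t ht0 htx
    have htI : t ∈ Set.Icc 0 R0 := ⟨ht0, htx.trans hxR0⟩
    rw [hν.eq _ _ _ _ _ _ hxI hxI h0I hxI h0I hxI, hν.eq _ _ _ _ _ _ hxI hxI htI hxI htI hxI,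
      hν.β0]
    have := hs t ht0 (htx.trans hxR0)
    linarith
  · -- lossF
    rw [hν.eq _ _ _ _ _ _ hxI hxI h0I hxI h0I h0I, hν.eq _ _ _ _ _ _ hxI hxI h0I hxI h0I hxI]
    linarith

open Classical in
/-- **the strip of the linear window** -/
theorem strip_L (H : RModel B G σ R Leg ν D) (hW : LinWin B G x K pb e fa fb) {R0 a m : ℝ}
    {α β : ℝ → ℝ → ℝ} (hν : SplitD Leg ν pb R0 a m α β) (hx : 0 < x) (hxR : x ≤ R)
    (hxR0 : x ≤ R0) (ha : 0 ≤ a) (haσ : a < σ) {s : ℝ} (has : a < s)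
    (hs : ∀ t, 0 ≤ t → t ≤ R0 → s * t ≤ β t t) {η : ℝ} (hη : 0 < η) (hησ : 2 * η ≤ σ) :
    ∃ (y : ℝ) (μ : ℕ → ℝ) (Zs : ℕ → Finset ℕ), 0 < y ∧ y ≤ x ∧
      Strip B (fun n => (G n).Z) Zs (fun n => (G n).z) fb μ y (η * y) (3 * η / σ) := by
  have hK := hW.K1
  have hK0 : 0 < K := by linarith
  obtain ⟨s', hs1, hs2, hs3⟩ : ∃ s', a < s' ∧ s' < σ ∧ s' ≤ s := by
    refine ⟨(a + min s σ) / 2, ?_, ?_, ?_⟩
    · have : a < min s σ := lt_min has haσ
      linarith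
    · have : min s σ ≤ σ := min_le_right _ _
      linarith
    · have : min s σ ≤ s := min_le_left _ _
      linarith
  obtain ⟨θ, hθ, hθ1, HE⟩ := rig0_RL ha hs1 hs2 H.σ_le hη
  have hne : ∀ n, ∃ i, i ∈ (G n).L := by
    intro n
    obtain ⟨⟨i, k⟩, hI⟩ := H.nonempty n
    exact ⟨i, H.memL hI⟩
  choose i0 hi0 using hne
  have A := rdataL H hW hν hx hxR hxR0 (s := s')
    (fun t h0 h1 => (mul_le_mul_of_nonneg_right hs3 h0).trans (hs t h0 h1)) i0 hi0
  have hc := HE H.toRUnif i0 _ _ _ _ _ _ _ _ _ _ x _ _ A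
  obtain ⟨y, μ, Zs, hy1, hy2, S⟩ := exists_strip (B := B) (Z := fun n => (G n).Z)
    (z := fun n k => (G n).z k / K) (f := fun n k => fb n k / K) (θ := θ) (x := x) (η := η)
    (σ := σ) hθ hx hη (ha.trans_lt haσ) hησ A.bd A.frost (by
      filter_upwards [hc] with n hn
      obtain ⟨w, μ, h1, h2, h3, k1, hk1, h4⟩ := hn
      exact ⟨w, μ, h1, h2, k1, hk1, _, filter_subset _ _, fun k hk => (mem_filter.1 hk).2, h4⟩)
  refine ⟨y, μ, Zs, (mul_pos hθ hx).trans_le hy1, hy2, S.sub, S.dens, ?_, S.mu⟩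
  intro ε hε
  filter_upwards [S.aff (ε / 2) (by positivity), ev_const_le B (t := ε / 2) (by positivity) K]
    with n h1 h2 k hk k' hk'
  have h3 := h1 k hk k' hk'
  have e1 : fb n k' / K - fb n k / K - μ n * ((G n).z k' / K - (G n).z k / K) =
      (fb n k' - fb n k - μ n * ((G n).z k' - (G n).z k)) / K := by
    field_simp
  rw [e1, abs_div, abs_of_pos hK0, div_le_iff₀ hK0] at h3
  have e2 : B.d n ^ (y - ε) = B.d n ^ (-(ε / 2)) * B.d n ^ (y - ε / 2) := by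
    rw [← rpow_add']; congr 1; ring
  rw [e2]
  refine h3.trans ?_
  rw [mul_comm]
  exact mul_le_mul_of_nonneg_right h2 (rpos B n _).le

end Crest.Agent.R136.Xd272
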