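import Crest.Agent.R136.Xd8_272

/-!
# R136: transport of heavy level sets (helper272)
-/

set_option autoImplicit false
set_option linter.unusedVariables false
set_option linter.unusedSectionVars false

open Finset Filter Topology

namespace Crest.Agent.R136.Xd272

open Crest.Agent.R138.Ex926 (Base U)
open Crest.Agent.R138.TwA501 (ev_const_mul)
open Crest.Agent.R136.Gf356
open Crest.Agent.R136.Prn779 (OneBox)

open Classical in
/-- **transport**: heavy lines take few values; a family with one free slot takes many -/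
theorem transport {κ : Type} {B : Base} {G : ℕ → RCfg κ} {Leg : Set (κ → ℝ)} {ν : (κ → ℝ) → ℝ}
    {D : ℝ} (H : RUnif B G Leg ν D) {qH r2 qr p00 : κ → ℝ} (hqH : qH ∈ Leg) (hr2 : r2 ∈ Leg)
    (hqr : qr ∈ Leg) (hp00 : p00 ∈ Leg) (h0r : ∀ j, p00 j ≤ r2 j)
    (hmax : ∀ j, qr j ≤ max (qH j) (r2 j)) (hone : OneBox G p00)
    (hsplit : ν p00 - ν r2 ≤ ν qH - ν qr) (dn : ℕ → ℕ → ℕ → ℕ → ℝ) {c c' w εH : ℝ}
    (hεH : 0 < εH) (hcc : c < c')
    (hadd : ∀ᶠ n in (U : Filter ℕ), ∀ k i j l, (i, k) ∈ (G n).I → (j, k) ∈ (G n).I →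
      (l, k) ∈ (G n).I → |dn n k i l - dn n k i j - dn n k j l| ≤ B.d n ^ c')
    (hsm : ∀ᶠ n in (U : Filter ℕ), ∀ k i l, (i, k) ∈ (G n).I → (l, k) ∈ (G n).I →
      (G n).loose r2 (D ^ 5 * εH) k i l → |dn n k i l| ≤ B.d n ^ c')
    {p0 p4 : κ → ℝ} (hp0 : p0 ∈ Leg) (hp4 : p4 ∈ Leg) {sF : κ} {t4 cl : ℝ}
    (hp4F : p4 sF ≤ t4) (hp4o : ∀ j, j ≠ sF → p4 j ≤ p0 j) (ht4 : t4 < c - cl)
    {ε : ℝ} (hε : 0 < ε)
    (hloss : w + (D ^ 6 + D ^ 2 + 1) * εH + (D ^ 6 + 3) * ε < ν p0 - ν p4) :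
    ∀ᶠ n in (U : Filter ℕ), ∀ k k', ∀ W ⊆ (G n).slice k, W ⊆ (G n).slice k' → W.Nonempty →
      (∀ e ∈ W, B.d n ^ (-ν qH + w) ≤
        ((((G n).box qH εH e k').filter fun l => |dn n k' e l| ≤ B.d n ^ c').card : ℝ)) →
      B.d n ^ ε * (((G n).slice k).card : ℝ) ≤ (W.card : ℝ) → ∀ lam : ℝ, B.d n ^ cl ≤ |lam| →
      ¬ (∀ i ∈ W, ∀ l ∈ W, (G n).loose p0 (D ^ 5 * ε) k i l →
        |dn n k' i l - lam * (G n).rel k i l sF| ≤ B.d n ^ c) := by
  have hD := H.D1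
  have hD0 : 0 < D := by linarith
  filter_upwards [few_vals H hqH hr2 hqr hp00 h0r hmax hone hsplit dn (w := w) hεH hcc hadd hsm,
    dense_fibre H hp0 hε, hadd, H.up p4 hp4 (D ^ 5 * ε) (by positivity),
    ev_const_mul B 3 hcc, ev_const_mul B 3 ht4]
    with n hfew hfib hadd hup h3 h3' k k' W hW hW' hWne hheavy hdens lam hlam hval
  have hpow : ∀ t : ℝ, 0 < B.d n ^ t := fun t => rpos B n t
  obtain ⟨T, hTW, hTne, hTl, hTc⟩ := hfib k W hW hWne (B.d n ^ ε) (hpow _) hdens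
  have hI : ∀ i ∈ W, (i, k) ∈ (G n).I := fun i hi => H.memSlice.1 (hW hi)
  have hI' : ∀ i ∈ W, (i, k') ∈ (G n).I := fun i hi => H.memSlice.1 (hW' hi)
  have hself : ∀ t ∈ T, |dn n k' t t| ≤ B.d n ^ c' := by
    intro t ht
    have := hadd k' t t t (hI' t (hTW ht)) (hI' t (hTW ht)) (hI' t (hTW ht))
    have e1 : dn n k' t t - dn n k' t t - dn n k' t t = - dn n k' t t := by ring
    rwa [e1, abs_neg] at this
  obtain ⟨E, hET, hEsep, hEc⟩ := sep_card T (fun t t' => dn n k' t t') (s := B.d n ^ c)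
    (M := B.d n ^ (-ν p4 - D * (D ^ 5 * ε))) (by
      intro t ht
      refine le_trans ?_ (hup t k (hI t (hTW ht)))
      refine mod_cast card_le_card fun t' ht' => ?_
      obtain ⟨ht1, ht2⟩ := mem_filter.1 ht'
      have hl := hTl t ht t' ht1
      refine RCfg.mem_box.2 ⟨hW (hTW ht1), fun j => ?_⟩
      by_cases hj : j = sF
      · subst hj
        have h5 : |dn n k' t t'| ≤ 2 * B.d n ^ c := by
          rcases ht2 with h | h
          · linarith [hpow c]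
          · have a1 := hadd k' t t' t (hI' t (hTW ht)) (hI' t' (hTW ht1)) (hI' t (hTW ht))
            have a2 := hself t ht
            rw [abs_le] at a1 a2 h ⊢
            constructor <;> linarith [a1.1, a1.2, a2.1, a2.2, h.1, h.2]
        have h6 := hval t (hTW ht) t' (hTW ht1) hl
        have h7 : |lam * (G n).rel k t t' j| ≤ 3 * B.d n ^ c := by
          rw [abs_le] at h5 h6 ⊢
          constructor <;> linarith [h5.1, h5.2, h6.1, h6.2]
        rw [abs_mul] at h7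
        have h8 : B.d n ^ cl * |(G n).rel k t t' j| ≤ 3 * B.d n ^ c :=
          (mul_le_mul_of_nonneg_right hlam (abs_nonneg _)).trans h7
        have h9 : |(G n).rel k t t' j| ≤ 3 * B.d n ^ (c - cl) := by
          have e1 : B.d n ^ (c - cl) = B.d n ^ c * B.d n ^ (-cl) := by
            rw [← rpow_add']; congr 1
          have e2 : B.d n ^ (-cl) * B.d n ^ cl = 1 := by rw [← rpow_add']; simp
          calc |(G n).rel k t t' j| = B.d n ^ (-cl) * (B.d n ^ cl * |(G n).rel k t t' j|) := by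
                rw [← mul_assoc, e2, one_mul]
            _ ≤ B.d n ^ (-cl) * (3 * B.d n ^ c) := mul_le_mul_of_nonneg_left h8 (hpow _).le
            _ = _ := by rw [e1]; ring
        rw [H.base n]
        refine h9.trans (h3'.trans (rpow_anti B n ?_))
        have h13 : 0 ≤ D ^ 5 * ε := by positivity
        linarith
      · have := hl j
        rw [H.base n] at this ⊢
        exact this.trans (rpow_anti B n (by linarith [hp4o j hj]))) (by
      intro t ht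
      exact (hself t ht).trans (by linarith [hpow c, hpow c']))
  have h10 := hfew k' E (hET.trans (hTW.trans hW')) (fun e he => hheavy e (hTW (hET he))) hEsep
  have h11 : B.d n ^ (-ν p0 + 2 * ε) ≤
      B.d n ^ (-(w + (D ^ 6 + D ^ 2 + 1) * εH) + (-ν p4 - D * (D ^ 5 * ε))) := by
    rw [rpow_add' B n (-(w + (D ^ 6 + D ^ 2 + 1) * εH))]
    refine le_trans ?_ ((hTc.trans hEc).trans (mul_le_mul_of_nonneg_right h10 (hpow _).le))
    rw [← rpow_add']
    refine le_of_eq ?_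
    congr 1
    ring
  have h12 := (Real.rpow_le_rpow_left_iff_of_base_lt_one (B.pos n) (B.lt n)).1 h11
  have e6 : D * (D ^ 5 * ε) = D ^ 6 * ε := by ring
  rw [e6] at h12
  linarith

variable {B : Base} {G : ℕ → RCfg (Fin 11)} {Leg : Set (Fin 11 → ℝ)} {ν : (Fin 11 → ℝ) → ℝ}
  {σ R D x K : ℝ} {pb : Fin 11 → ℝ} {e fa fb : ℕ → ℕ → ℝ}

/-- the velocity functional -/
def dnL (G : ℕ → RCfg (Fin 11)) (μ : ℕ → ℝ) (n k i l : ℕ) : ℝ :=
  (G n).rel k i l 7 - μ n * (G n).rel k i l 9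

/-- the motion of `N` on the strip -/
theorem mv_L (H : RUnif B G Leg ν D) (hW : LinWin B G x K pb e fa fb) {Zs : ℕ → Finset ℕ}
    {μ : ℕ → ℝ} {y h c : ℝ}
    (S : Strip B (fun n => (G n).Z) Zs (fun n => (G n).z) fb μ y h c) (hyx : y ≤ x) :
    Mv B G Zs 10 (dnL G μ) (bxD pb y y 0 y 0 0) (bxD pb y y 0 y 0 0) y 3 := by
  have hK := hW.K1
  refine ⟨by norm_num, ?_, ?_⟩
  · intro ε hε
    filter_upwards [hW.mot, hW.mv ε hε, S.aff ε hε, ev_const_le B hε (2 + 8 * K ^ 2 + 8 * K ^ 3)]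
      with n hmot hmv haff hc k0 hk0 k hk i l h1 h2 h3 h4 hl
    have hk0Z : k0 ∈ (G n).Z := H.memZ h1
    have hkZ : k ∈ (G n).Z := H.memZ h3
    obtain ⟨m1, m2, m3, m4⟩ := hmot k0 hk0Z k hkZ
    obtain ⟨e5, e6, e7, e8, e9, e10⟩ := hmv i l k0 k h1 h2 h3 h4
    obtain ⟨l0, l5, l6, l7, l8, l9, l10⟩ := loose_bxD.1 hl
    have hb := haff k0 hk0 k hk
    rw [H.base n] at l5 l6 l8 l9
    unfold dnL
    have hp : 0 < B.d n ^ (y - 2 * ε) := rpos B n _
    have hX : B.d n ^ (y - ε) ≤ B.d n ^ (y - 2 * ε) := rpow_anti B n (by linarith)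
    have hE : B.d n ^ (x - ε) ≤ B.d n ^ (y - 2 * ε) := rpow_anti B n (by linarith)
    have hbX : B.d n ^ (y - ε) * B.d n ^ (0 - ε) = B.d n ^ (y - 2 * ε) := by
      rw [← rpow_add']; congr 1; ring
    have hfin : (2 + 8 * K ^ 2 + 8 * K ^ 3) * B.d n ^ (y - 2 * ε) ≤ B.d n ^ (y - 3 * ε) := by
      have e1 : B.d n ^ (y - 3 * ε) = B.d n ^ (-ε) * B.d n ^ (y - 2 * ε) := by
        rw [← rpow_add']; congr 1; ring
      rw [e1]
      exact mul_le_mul_of_nonneg_right hc hp.le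
    refine le_trans ?_ hfin
    have q4 := bm hb l9
    rw [hbX] at q4
    have l5' := l5.trans hX
    have l6' := l6.trans hX
    have l8' := l8.trans hX
    have e10' := e10.trans hE
    generalize B.d n ^ (y - 2 * ε) = X at *
    generalize (G n).z k - (G n).z k0 = u at *
    generalize fb n k - fb n k0 = b at *
    generalize fa n k - fa n k0 + e n k0 * b = a at *
    have q1 := bm m4 l8'
    have q2 := bm m4 (bm m1 l5')
    have q3 := bm m3 (bm m1 l6')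
    have e2 : 4 * K ^ 2 * (2 * K * X) = 8 * K ^ 3 * X := by ring
    have e3 : 2 * K * (2 * K * X) = 4 * K ^ 2 * X := by ring
    rw [e2] at q2
    rw [e3] at q3
    have e1 : (G n).rel k i l 10 - ((G n).rel k0 i l 10 +
        u * ((G n).rel k0 i l 7 - μ n * (G n).rel k0 i l 9)) =
        ((G n).rel k i l 10 - ((G n).rel k0 i l 10 + u * (G n).rel k0 i l 7 -
        a * ((G n).rel k0 i l 8 + u * (G n).rel k0 i l 5) -
        b * ((G n).rel k0 i l 9 + u * (G n).rel k0 i l 6))) - a * (G n).rel k0 i l 8 -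
        a * (u * (G n).rel k0 i l 5) - b * (u * (G n).rel k0 i l 6) -
        (b - μ n * u) * (G n).rel k0 i l 9 := by ring
    rw [e1]
    generalize (G n).rel k i l 10 - ((G n).rel k0 i l 10 + u * (G n).rel k0 i l 7 -
        a * ((G n).rel k0 i l 8 + u * (G n).rel k0 i l 5) -
        b * ((G n).rel k0 i l 9 + u * (G n).rel k0 i l 6)) = Er at *
    have e4 : (2 + 8 * K ^ 2 + 8 * K ^ 3) * X =
        X + X + 4 * K ^ 2 * X + 8 * K ^ 3 * X + 4 * K ^ 2 * X := by ring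
    rw [e4]
    rw [abs_le] at q1 q2 q3 q4 e10' ⊢
    constructor <;> linarith [q1.1, q1.2, q2.1, q2.2, q3.1, q3.2, q4.1, q4.2, e10'.1, e10'.2]
  · intro ε hε
    filter_upwards [frozen_inT H hW hyx hε] with n hn k0 hk0 k hk i l h1 h2 h3 h4 hl
    exact H.loose_mono (fun _ => le_rfl) (by linarith) (hn k0 k i l h1 h2 h3 h4 hl)

theorem update_bxD (pb : Fin 11 → ℝ) (ca cb p xa xb n t : ℝ) :
    Function.update (bxD pb ca cb p xa xb n) 10 t = bxD pb ca cb p xa xb t := by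
  funext j
  fin_cases j <;> rfl

open Classical in
/-- heavy level sets on the strip -/
theorem heavy_L (H : RModel B G σ R Leg ν D) (hW : LinWin B G x K pb e fa fb) {R0 a m : ℝ}
    {α β : ℝ → ℝ → ℝ} (hν : SplitD Leg ν pb R0 a m α β) {Zs : ℕ → Finset ℕ}
    {μ : ℕ → ℝ} {y h c : ℝ}
    (S : Strip B (fun n => (G n).Z) Zs (fun n => (G n).z) fb μ y h c) (hy : 0 < y) (hyx : y ≤ x)
    (hyR : y ≤ R) (hyR0 : y ≤ R0) (hh : 0 ≤ h) (ha : 0 ≤ a) (haσ : a < σ) {δ g : ℝ} (hδ : 0 < δ)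
    (hδ1 : δ < 1) (hh1 : h < (σ - a) * δ * y / 8) (hh2 : h < (g - a * δ) * y) {εH : ℝ}
    (hεH : 0 < εH) :
    ∀ᶠ n in (U : Filter ℕ), 2 * ((((G n).I.filter fun q => q.2 ∈ Zs n).filter fun q =>
        ¬ B.d n ^ (-ν (bxD pb y y 0 y 0 ((1 - δ) * y)) + g * y) ≤
          lev (G n) (bxD pb y y 0 y 0 ((1 - δ) * y)) εH (B.d n ^ ((1 - δ) * y)) (dnL G μ n)
            q.1 q.2).card : ℝ) ≤ (((G n).I.filter fun q => q.2 ∈ Zs n).card : ℝ) := by
  have hR0 : 0 ≤ R0 := hy.le.trans hyR0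
  have hyI : y ∈ Set.Icc 0 R0 := ⟨hy.le, hyR0⟩
  have h0I : (0 : ℝ) ∈ Set.Icc 0 R0 := ⟨le_rfl, hR0⟩
  have hz : ∀ᶠ n in (U : Filter ℕ), ∀ k ∈ (G n).Z, |(G n).z k| ≤ K := by
    filter_upwards [hW.bd] with n hn k hk using (hn k hk).1
  have h1 := heavy_R H S.sub hh S.dens (sN := 10) (dn := dnL G μ) hW.K1 hz hy hyR
    (mv_L H.toRUnif hW S hyx) (show bxD pb y y 0 y 0 0 10 = 0 from rfl)
    (hν.leg _ _ _ _ _ _ hyI hyI h0I hyI h0I h0I) (hν.leg _ _ _ _ _ _ hyI hyI h0I hyI h0I hyI)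
    (bxD_le le_rfl le_rfl le_rfl le_rfl le_rfl hy.le)
    (show y ≤ bxD pb y y 0 y 0 y 10 from le_refl y)
    (fun t h0 h1 => by
      rw [update_bxD]
      exact hν.leg _ _ _ _ _ _ hyI hyI h0I hyI h0I ⟨h0, h1.trans hyR0⟩)
    (a := a) (fun t h0 h1 => by
      have htI : t ∈ Set.Icc 0 R0 := ⟨h0, h1.trans hyR0⟩
      rw [update_bxD, hν.eq _ _ _ _ _ _ hyI hyI h0I hyI h0I h0I,
        hν.eq _ _ _ _ _ _ hyI hyI h0I hyI h0I htI]
      linarith)
    (by
      rw [hν.eq _ _ _ _ _ _ hyI hyI h0I hyI h0I h0I, hν.eq _ _ _ _ _ _ hyI hyI h0I hyI h0I hyI]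
      linarith) ha haσ hδ hδ1 hh1 hh2 hεH
  rw [update_bxD] at h1
  exact h1

end Crest.Agent.R136.Xd272
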