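import Crest.Agent.R136.Z2j_403
import Crest.Agent.R136.LabW10_926
import Crest.Agent.R136.TopB_550
import Crest.Agent.R138.KMs_630

/-!
# R136, case Z2: the row of the thick table, from the ambient data `LabH` (helper403)
-/

set_option autoImplicit false
set_option linter.unusedVariables false

open Finset Filter Topology

namespace Crest.Agent.R136.Z2e403

open Crest.Agent.R138.Ex926 (Base U)
open Crest.Agent.R136.Net191
open Crest.Agent.R136.NetQ186
open Crest.Agent.R136.Sh605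
open Crest.Agent.R136.MkA627
open Crest.Agent.R136.Wq638
open Crest.Agent.R136.NatT550
open Crest.Agent.R136.Top484
open Crest.Agent.R136.LdF3511
open Crest.Agent.R136.Lab926 (LabH Rg)

/-- **Z2 from the ambient data** -/
theorem z2_H {η : ℝ} {p : Par4} {D : Dat4} {I1 : ℕ → Finset (ℕ × ℝ)} {π : Equiv.Perm (Fin 3)}
    {eE fA fB : ℕ → ℕ × ℝ → ℝ} {V T : Fin 11 → Prop} {w0 R T0 : ℝ} {PD : Set (Fin 11 → ℝ)}
    {ν own : (Fin 11 → ℝ) → ℝ} {c₀ : ℝ} {σ' : Type*} {G : Geo σ' (Fin 3)}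
    {b : ℕ → ℚ → ℕ → σ'} {τ : Fin 3 → ℝ → ℝ} {DD : (Fin 11 → ℝ) → ℝ} {rp : ℝ → Fin 11 → ℝ}
    {EE : ℝ → ℝ} {rg : Rg} (hη : η ≤ 1 / 8)
    (h : Thick η p D I1 π eE fA fB V T w0 R T0 PD ν own c₀) (hp : TopB550.pZ2 p V)
    (H : LabH D.B D.I I1 G D.L π eE fA fB D.lev D.A p.g τ D.f b D.vm D.w p.q p.θ w0 R T0 V T PD
      DD rp EE ν own c₀ rg) : False := by
  have hθ := h.tp.ok.θ1
  have hv1 : (1 + (1 / 2 : ℝ)) / 2 < 1 := by norm_num
  have hγ : 0 < gZ (p.θ 1) (1 / 2) := by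
    unfold gZ
    exact lt_min (mul_pos hθ (by norm_num)) (by norm_num)
  exact z2_win Crest.Agent.R138.KMs630.km32 h hp hη (v := 1 / 2) (by norm_num) (by norm_num)
    (H.window Crest.Agent.R138.KMs630.km32 hv1 hγ)

end Crest.Agent.R136.Z2e403
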