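import Crest.Agent.R136.Z2e_403
import Crest.Agent.R136.LdF7_511

/-!
# R136, case Z2: from the record stage to the contradiction (helper403)

`x l → r0` = base points of the stage (`JT` with `RecX`), `w l = hh l`, `X l = x l + hh l • cX κ`.

* `z2_par` : `κ = θ 1 - θ 2 > 0`, `θ 0 ≠ θ 2`, `q 2 κ < g`
* **`FinH`**, **`fin_hyp`** : position of `X l` (input of END-LAB)
* **`z2_false`** : END-LAB at `X (k' n)` is contradictory
-/

set_option autoImplicit false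
set_option linter.unusedVariables false

open Finset Filter Topology

namespace Crest.Agent.R136.Z2e403

open Crest.Agent.R138.Ex926 (Base U)
open Crest.Agent.R136.Net191
open Crest.Agent.R136.NetQ186
open Crest.Agent.R136.Wq638
open Crest.Agent.R136.NatT550
open Crest.Agent.R136.NatR550 (nL DN rec_eq)
open Crest.Agent.R136.Top484
open Crest.Agent.R136.LdF511
open Crest.Agent.R136.LdF3511
open Dg219 (mw)
open K2S774 (cn Prf Stage JT RecX)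

variable {η : ℝ} {p : Par4} {D : Dat4} {I1 : ℕ → Finset (ℕ × ℝ)} {π : Equiv.Perm (Fin 3)}
  {eE fA fB : ℕ → ℕ × ℝ → ℝ} {V T : Fin 11 → Prop} {w0 R T0 : ℝ} {PD : Set (Fin 11 → ℝ)}
  {ν own : (Fin 11 → ℝ) → ℝ} {c₀ : ℝ}

/-- **parameters of Z2** -/
theorem z2_par (h : Thick η p D I1 π eE fA fB V T w0 R T0 PD ν own c₀) (hp : V 2 ∧ ¬ V 3 ∧ ¬ V 4 ∧ p.θ 0 = p.θ 1)
    (hη : η ≤ 1 / 8) : 0 < p.θ 1 - p.θ 2 ∧ p.θ 0 ≠ p.θ 2 ∧
      0 < p.g - p.q 2 * (p.θ 1 - p.θ 2) := by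
  obtain ⟨v2, v3, v4, h01⟩ := hp
  have hκ : 0 < p.θ 1 - p.θ 2 := by
    have := (h.tp.slots.vis 2 v2).2
    simpa [btQ] using this
  have g0 := h.tp.ok.g0.1
  refine ⟨hκ, fun h02 => by rw [h01] at h02; linarith, ?_⟩
  have c1 := LdF7511.slack_q2 h.tp.ok
  have c3 : η * p.g ≤ 1 / 8 * p.g := mul_le_mul_of_nonneg_right hη g0.le
  linarith

/-- **position of the class `X` of the final step**, `w` = scale, `σ` = shift of the record -/
structure FinH (θ : Fin 3 → ℝ) (w0 R v : ℝ) (V : Fin 11 → Prop) (x : Fin 11 → ℝ) (σ w : ℝ) :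
    Prop where
  nat : ∀ i, i ≠ 3 → (x + w • cX (θ 1 - θ 2)) i = nat4 w0 (R - 1) (v + σ - w) (-(θ 1 * (v + σ)))
      (-(θ 2 * (v + σ)) - (θ 1 - θ 2) * w) (-(θ 0 * (v + σ))) i
  nat3 : nat4 w0 (R - 1) (v + σ - w) (-(θ 1 * (v + σ)))
      (-(θ 2 * (v + σ)) - (θ 1 - θ 2) * w) (-(θ 0 * (v + σ))) 3 ≤
      (x + w • cX (θ 1 - θ 2)) 3
  leg : x + w • cX (θ 1 - θ 2) ∈ Leg monQ R
  v0 : 0 ≤ v + σ - w
  v1 : v + σ - w ≤ (1 + v) / 2
  γ : θ 1 * ((1 - v) / 2) ≤ -(θ 1 * (v + σ)) + θ 1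
  h12 : min 0 (θ 1 - θ 2) ≤ -(θ 2 * (v + σ)) - (θ 1 - θ 2) * w - -(θ 1 * (v + σ))
  h20 : min 0 (θ 2 - θ 0) ≤ -(θ 0 * (v + σ)) + w * 1 -
      (-(θ 2 * (v + σ)) - (θ 1 - θ 2) * w + w * (1 + (θ 1 - θ 2)))
  h0 : v + σ - w + -(θ 0 * (v + σ)) + w * 1 ≤ max 0 (1 - θ 0)
  tR : v + σ - w + -(θ 0 * (v + σ)) + (1 - v) / 2 ≤ 1
  own : x + w • cX (θ 1 - θ 2) ≤ ownQ θ w0 R V (v + σ - w)
  own' : x + w • cX (θ 1 - θ 2) + w • pdZ (θ 1 - θ 2) ≤
      ownQ θ w0 R V (v + σ - w + w * (1 + (θ 1 - θ 2)))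

/-- **the position of `X l`** -/
theorem fin_hyp (h : Thick η p D I1 π eE fA fB V T w0 R T0 PD ν own c₀) (hp : V 2 ∧ ¬ V 3 ∧ ¬ V 4 ∧ p.θ 0 = p.θ 1)
    {v : ℝ} (h0 : 0 < v) (h1 : v < 1) (hκ : 0 < p.θ 1 - p.θ 2) {x : ℕ → Fin 11 → ℝ} {hh : ℕ → ℝ}
    {lam lo : (Fin 11 → ℝ) → ℝ}
    (J : JT (mw monQ) (AF {3}) (Leg monQ R) ν own (recF p.θ w0 (R - 1) v) x hh lam lo)
    {σ : ℕ → ℝ} (hx : ∀ l i, i ≠ 3 → x l i = recF p.θ w0 (R - 1) v i + σ l * rhoF p.θ i) :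
    ∀ᶠ l in atTop, FinH p.θ w0 R v V (x l) (σ l) (hh l) := by
  obtain ⟨v2, v3, v4, h01⟩ := hp
  have hθ := h.tp.ok.θ1
  -- `σ → 0`
  have hσ : Tendsto σ atTop (𝓝 0) := by
    have e1 : (fun l => x l 0 - recF p.θ w0 (R - 1) v 0) = σ := by
      funext l
      rw [hx l 0 (by decide)]
      simp [rhoF, nL]
    rw [← e1]
    have h2 : Tendsto (fun l => x l 0) atTop (𝓝 (recF p.θ w0 (R - 1) v 0)) :=
      (tendsto_pi_nhds.1 J.base) 0
    have := h2.sub_const (recF p.θ w0 (R - 1) v 0)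
    rwa [sub_self] at this
  set e : ℝ := min v (1 - v) / 4 with he
  have he0 : 0 < e := by
    have : 0 < min v (1 - v) := lt_min h0 (by linarith)
    positivity
  have hev : e ≤ v / 4 := by
    have := min_le_left v (1 - v); rw [he]; linarith
  have he1 : e ≤ (1 - v) / 4 := by
    have := min_le_right v (1 - v); rw [he]; linarith
  have s1 : ∀ᶠ l in atTop, |σ l| < e := by
    have := hσ.abs
    rw [abs_zero] at this
    exact this.eventually_lt_const he0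
  have s2 : ∀ᶠ l in atTop, hh l < e := J.zero.eventually_lt_const he0
  -- the raised slot
  have hg := J.gap ⟨4, ![0, 0, 1, 1, 0, 0, 0, 0, 0, 0, 0], by simp [monQ, mfQ]⟩ (fun hA => by
    have := hA.2.2 3 (by decide)
    exact absurd this (by decide)) (p.θ 1 - p.θ 2)
  have t1 := J.tan ‖cX (p.θ 1 - p.θ 2)‖ 1 one_pos
  have t2 := J.tan ‖cX (p.θ 1 - p.θ 2) + pdZ (p.θ 1 - p.θ 2)‖ 1 one_pos
  filter_upwards [s1, s2, hg, t1, t2] with l a1 a2 a3 a4 a5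
  have b1 := a4 _ (cX_mem hκ.le) le_rfl
  have b2 := a5 _ (pd_mem hκ.le) le_rfl
  have hw := J.pos l
  have c1 := abs_lt.1 a1
  have u0 : 0 < v + σ l := by linarith
  have u1 : v + σ l < 1 := by linarith
  have eX : x l + hh l • cX (p.θ 1 - p.θ 2) + hh l • pdZ (p.θ 1 - p.θ 2) =
      x l + hh l • (cX (p.θ 1 - p.θ 2) + pdZ (p.θ 1 - p.θ 2)) := by
    rw [smul_add, add_assoc]
  have hnat : ∀ i, i ≠ 3 → (x l + hh l • cX (p.θ 1 - p.θ 2)) i =
      nat4 w0 (R - 1) (v + σ l - hh l) (-(p.θ 1 * (v + σ l)))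
      (-(p.θ 2 * (v + σ l)) - (p.θ 1 - p.θ 2) * hh l) (-(p.θ 0 * (v + σ l))) i := fun i hi =>
    X_nat p.θ w0 (R - 1) v (σ l) (hh l) (hx l) hi
  have own_k : ∀ k : Fin 11, k ≠ 0 → V k → k = 2 := fun k _ hk => own_path h.tp.slots v3 v4 hk
  refine ⟨hnat, ?_, b1.1, by linarith, by linarith, ?_, ?_, ?_, ?_, ?_, fun k => ?_,
    fun k => ?_⟩
  · -- slot 3
    rw [nat_3]
    have e3 : (x l + hh l • cX (p.θ 1 - p.θ 2)) 3 = x l 3 := by
      simp [cX]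
    rw [e3]
    have x4 := hx l 4 (by decide)
    have x2 := hx l 2 (by decide)
    have e4 : (mw monQ).rhs ⟨4, ![0, 0, 1, 1, 0, 0, 0, 0, 0, 0, 0], by simp [monQ, mfQ]⟩ (x l) =
        x l 2 + x l 3 := by
      show ∑ s, ((![0, 0, 1, 1, 0, 0, 0, 0, 0, 0, 0] : Fin 11 → ℕ) s : ℝ) * x l s = _
      simp [Fin.sum_univ_succ]
    rw [e4] at a3
    change x l 4 + (p.θ 1 - p.θ 2) * hh l ≤ x l 2 + x l 3 + 0 at a3
    rw [x4, x2] at a3
    simp only [recF, nat4, rhoF, nL, Matrix.cons_val] at a3 ⊢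
    linarith
  · nlinarith
  · rw [min_eq_left hκ.le]
    nlinarith
  · rw [h01, min_eq_right (by linarith)]
    nlinarith
  · rw [h01]
    rcases le_total (1 - p.θ 1) 0 with hc | hc
    · rw [max_eq_left hc]; nlinarith
    · rw [max_eq_right hc]; nlinarith
  · rw [h01]
    have := mul_pos hθ u0
    linarith
  · unfold ownQ
    by_cases hk0 : k = 0
    · subst hk0
      rw [if_pos rfl, hnat 0 (by decide)]
      simp only [nat4, Matrix.cons_val]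
      exact le_rfl
    · rw [if_neg hk0]
      split_ifs with hk
      · have := own_k k hk0 hk
        subst this
        rw [hnat 2 (by decide)]
        simp only [nat4, pathQ, Matrix.cons_val]
        linarith
      · exact b1.1.2 k
  · unfold ownQ
    by_cases hk0 : k = 0
    · subst hk0
      rw [if_pos rfl, Pi.add_apply, hnat 0 (by decide)]
      simp only [nat4, pdZ, Pi.smul_apply, smul_eq_mul, Matrix.cons_val]
      linarith
    · rw [if_neg hk0]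
      split_ifs with hk
      · have := own_k k hk0 hk
        subst this
        rw [Pi.add_apply, hnat 2 (by decide)]
        simp only [nat4, pathQ, pdZ, Pi.smul_apply, smul_eq_mul, Matrix.cons_val]
        nlinarith [mul_nonneg hκ.le (mul_nonneg hw.le hκ.le)]
      · rw [eX]; exact b2.1.2 k

/-- **END-LAB at the classes `X (k' n)` is contradictory** -/
theorem z2_false (h : Thick η p D I1 π eE fA fB V T w0 R T0 PD ν own c₀)
    {v : ℝ} (h0 : 0 < v) (h1 : v < 1) (hκ : 0 < p.θ 1 - p.θ 2)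
    (hg : 0 < p.g - p.q 2 * (p.θ 1 - p.θ 2)) {x : ℕ → Fin 11 → ℝ} {hh : ℕ → ℝ}
    {lam lo : (Fin 11 → ℝ) → ℝ} {K : ℝ}
    (J : JT (mw monQ) (AF {3}) (Leg monQ R) ν own (recF p.θ w0 (R - 1) v) x hh lam lo)
    (Pf : Prf (cn (mw monQ) (AF {3})) lam lo K) (l0 : lam 0 = 0)
    {σ : ℕ → ℝ} (hσ : Tendsto (fun l => (ν (x l) - ν (recF p.θ w0 (R - 1) v) -
      σ l * DlFL p (rhoF p.θ)) / hh l) atTop (𝓝 0))
    {k' : ℕ → ℕ} (hk : Tendsto k' U atTop)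
    (Lab : ∀ ε : ℝ, 0 < ε → ∀ᶠ n in (U : Filter ℕ),
      ν (x (k' n) + hh (k' n) • cX (p.θ 1 - p.θ 2)) + hh (k' n) *
        ((lam (cX (p.θ 1 - p.θ 2) + pdZ (p.θ 1 - p.θ 2)) - lam (cX (p.θ 1 - p.θ 2))) +
          3 * (1 + (p.θ 1 - p.θ 2)) + 1 - ε) ≤
        c₀ + DN p (v + σ (k' n) - hh (k' n)) (-(p.θ 1 * (v + σ (k' n))))
        (-(p.θ 2 * (v + σ (k' n))) - (p.θ 1 - p.θ 2) * hh (k' n)) (-(p.θ 0 * (v + σ (k' n))))) :
    False := by
  obtain ⟨r1, r2, r3⟩ := R1_room h.tp.big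
  set ε : ℝ := (p.g - p.q 2 * (p.θ 1 - p.θ 2)) / 4 with hε
  have hε0 : 0 < ε := by positivity
  have t1 := hk.eventually (J.tan ‖cX (p.θ 1 - p.θ 2)‖ ε hε0)
  have t2 := hk.eventually (hσ.eventually (lt_mem_nhds (show -ε < 0 by linarith)))
  obtain ⟨n, a1, a2, a3⟩ := ((Lab ε hε0).and (t1.and t2)).exists
  have hw := J.pos (k' n)
  have b1 := (a2 _ (cX_mem hκ.le) le_rfl).2
  have hr0 : ν (recF p.θ w0 (R - 1) v) = c₀ + DN p v (-(p.θ 1 * v)) (-(p.θ 2 * v))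
      (-(p.θ 0 * v)) := rec_eq h r2.le r1.le h0.le h1
  rw [lt_div_iff₀ hw] at a3
  have hD : DlFL p (rhoF p.θ) = DlF p (rhoF p.θ) := rfl
  rw [hr0, hD] at a3
  have := z2_arith (p := p) (v := v) (c₀ := c₀) (σ := σ (k' n)) (w := hh (k' n)) (ε := ε)
    (νr := ν (x (k' n))) hw (by
      have := (abs_le.1 b1).1
      nlinarith) (by linarith) (lam_pd Pf l0 hκ.le) a1
  linarith

end Crest.Agent.R136.Z2e403
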