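import Crest.Agent.R136.Z2end_403
import Crest.Agent.R136.LabH_371

/-!
# R136, case Z2: the row of the thick table (helper403)
-/

set_option autoImplicit false
set_option linter.unusedVariables false

namespace Crest.Agent.R136.Z2e403

open Crest.Agent.R136.LabT371 (labH_of_thick)

/-- **row Z2 of the thick table** -/
theorem caseZ2 {η : ℝ} (hη : η ≤ 1 / 8) : TopB550.Dead η TopB550.pZ2 :=
  fun _ _ _ _ _ _ _ _ _ _ _ _ _ _ _ _ h hp => z2_H hη h hp (labH_of_thick h)

end Crest.Agent.R136.Z2e403
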