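import Crest.Agent.R136.Z2n_403
import Crest.Agent.R136.Z2f_403
import Crest.Agent.R136.Z2t_683
import Crest.Agent.R136.Aw1_413

/-!
# R136, case Z2: assembly (helper403)

* `F1Z`   : F-lemma of the rung `F_b` (860)
* `BaseZ` : rates of `z` and `X_b` on the plane `s = 1` (511)
* `LabZ`  : END-LAB in a window at the classes `X n` (926)
* **`z2_of`** : `F1Z`, `BaseZ`, `LabZ` are contradictory
-/

set_option autoImplicit false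
set_option linter.unusedVariables false

open Finset Filter Topology

namespace Crest.Agent.R136.Z2e403

open Crest.Agent.R138.Ex926 (Base U)
open Crest.Agent.R136.Net191
open Crest.Agent.R136.NetQ186
open Crest.Agent.R136.Qg926
open Crest.Agent.R136.Gf356
open Crest.Agent.R136.Wq638
open Crest.Agent.R136.GeoQ186 (scl)
open Crest.Agent.R136.NatT550
open Crest.Agent.R136.NatR550 (nL DN rec_eq)
open Crest.Agent.R136.Top484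
open Crest.Agent.R136.LdF511
open Crest.Agent.R136.LdF3511
open Dg219 (mw OutS gC dhC nC)
open Rc146 (OutA)
open Dg262 (X)
open K2S774 (cn Prf Stage JT RecX BaseOk ind1 A2)
open Tw683 (Twin)
open Z2683 (SplZ bx z2_twin splZ_gC)

variable {η : ℝ} {p : Par4} {D : Dat4} {I1 : ℕ → Finset (ℕ × ℝ)} {π : Equiv.Perm (Fin 3)}
  {eE fA fB : ℕ → ℕ × ℝ → ℝ} {V T : Fin 11 → Prop} {w0 R T0 : ℝ} {PD : Set (Fin 11 → ℝ)}
  {ν own : (Fin 11 → ℝ) → ℝ} {c₀ : ℝ}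

/-- F-lemma of the rung `F_b` -/
def F1Z (p : Par4) (ν own : (Fin 11 → ℝ) → ℝ) (w0 R v : ℝ) : Prop :=
  ∃ g1 : ℝ, 0 < g1 ∧ ∀ lam lo, StF p ν own w0 R v ∅ lam lo →
    FlF p ν own w0 R v ∅ (1 + (p.θ 1 - p.θ 2)) 0 (rhoF p.θ) lam lo
      (fun lam' => lam' (ind1 {3}) < 0) g1

/-- rates of `z` and `X_b` on the plane `s = 1` -/
def BaseZ (p : Par4) (ν own : (Fin 11 → ℝ) → ℝ) (w0 R v : ℝ) (x b : Fin 11 → ℝ) : Prop :=
  ∀ lam lo, StF p ν own w0 R v {3} lam lo → ∀ z : ℝ × ℝ, z.1 < 0 →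
    ∀ (k : ℕ → ℝ) (lam' lo' : (Fin 11 → ℝ) → ℝ), (∀ l, 0 < k l) → Tendsto k atTop (𝓝 0) →
    Crest.Agent.R138.Ex926.IsTan (cn (mw monQ) (AF {3})) (cn (mw monQ) (AF {3})) lam
      (fun _ => X 0 (TF {3} (p.θ 1 - p.θ 2) 1 x) b z) k lam' →
    Crest.Agent.R138.Ex926.IsTan (cn (mw monQ) (AF {3})) (cn (mw monQ) (AF {3})) lo
      (fun _ => X 0 (TF {3} (p.θ 1 - p.θ 2) 1 x) b z) k lo' →
    ∀ (x' : ℕ → Fin 11 → ℝ) (h' : ℕ → ℝ),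
      JT (mw monQ) (AF {3}) (Leg monQ R) ν own (recF p.θ w0 (R - 1) v) x' h' lam' lo' →
      BaseOk {2} 0 (oF p.θ) (TF {3} (p.θ 1 - p.θ 2) 1 x) (recF p.θ w0 (R - 1) v) x' h' →
    ∀ (AA : ℝ × ℝ) (φ : ℕ → (Fin 11 → ℝ) → ℝ) (rt : ℕ → ℝ),
      OutA (gC (TF {3} (p.θ 1 - p.θ 2) 1 x) b) (cn (mw monQ) (AF {3}))
        (TF {3} (p.θ 1 - p.θ 2) 1 x) b (dhC (TF {3} (p.θ 1 - p.θ 2) 1 x) b)
        (nC (TF {3} (p.θ 1 - p.θ 2) 1 x) b) lam' AA φ rt →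
    1 ≤ rt (gC (TF {3} (p.θ 1 - p.θ 2) 1 x) b 0) ∧
      1 + (p.θ 1 - p.θ 2) ≤ rt (gC (TF {3} (p.θ 1 - p.θ 2) 1 x) b 9)

/-- END-LAB in a window at the classes `X n = x n + w n • cX κ` -/
def LabZ (p : Par4) (D : Dat4) (I1 : ℕ → Finset (ℕ × ℝ))
    (co : ∀ n : ℕ, ℕ × ℝ → ℕ × ℝ → Fin 11 → ℝ) (V : Fin 11 → Prop) (w0 R : ℝ)
    (ν : (Fin 11 → ℝ) → ℝ) (c₀ v : ℝ) : Prop :=
  ∃ S : ℕ → ℝ, D.B.Sub S ∧ ∀ (B' : Base) (J : ℕ → Finset (ℕ × ℝ)) (x : ℕ → Fin 11 → ℝ)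
    (σ w : ℕ → ℝ) (DD : Set (Fin 11 → ℝ)) (TT : ℕ → ℝ) (lamX : (Fin 11 → ℝ) → ℝ), B'.Sub S →
    ZWin D.B B' D.I J co monQ 2 (fun n => x n + w n • cX (p.θ 1 - p.θ 2)) w DD TT lamX →
    (∀ n, J n ⊆ I1 n) → (∃ SJ : ℕ → ℝ, B'.Sub SJ ∧
      ∀ᶠ n in (U : Filter ℕ), ((I1 n).card : ℝ) ≤ SJ n * (J n).card) →
    Tendsto w U (𝓝 0) → (∀ᶠ n in (U : Filter ℕ), FinH p.θ w0 R v V (x n) (σ n) (w n)) →
    pdZ (p.θ 1 - p.θ 2) ∈ DD →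
    (∀ ε : ℝ, 0 < ε → ∀ᶠ n in (U : Filter ℕ), ∀ i ∈ J n, ∃ μ : ℝ, |μ| ≤ B'.d n ^ (-ε) ∧
      ∀ y ∈ J n, zlab D.B D.I co monQ 2 (fun n => x n + w n • cX (p.θ 1 - p.θ 2)) w n 0 y =
        zlab D.B D.I co monQ 2 (fun n => x n + w n • cX (p.θ 1 - p.θ 2)) w n 0 i →
        |co n i y 7 / D.B.d n ^ (x n + w n • cX (p.θ 1 - p.θ 2)) 7 -
          μ * (co n i y 5 / D.B.d n ^ (x n + w n • cX (p.θ 1 - p.θ 2)) 5)| ≤
          B'.d n ^ (1 - ε)) →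
    ∀ ε : ℝ, 0 < ε → ∀ᶠ n in (U : Filter ℕ),
      ν (x n + w n • cX (p.θ 1 - p.θ 2)) + w n *
        (lamX (pdZ (p.θ 1 - p.θ 2)) + 3 * (1 + (p.θ 1 - p.θ 2)) + 1 - ε) ≤
        c₀ + DN p (v + σ n - w n) (-(p.θ 1 * (v + σ n)))
        (-(p.θ 2 * (v + σ n)) - (p.θ 1 - p.θ 2) * w n) (-(p.θ 0 * (v + σ n)))

/-- **assembly of Z2**, from the stage after the rung `F_b` -/
theorem z2_core (hKM : ∀ V : ℝ, Crest.Agent.R138.Tub70.KM32 V)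
    (h : Thick η p D I1 π eE fA fB V T w0 R T0 PD ν own c₀)
    (hp : V 2 ∧ ¬ V 3 ∧ ¬ V 4 ∧ p.θ 0 = p.θ 1) (hη : η ≤ 1 / 8) {v : ℝ} (h0 : 0 < v)
    (h1 : v < 1) {lam2 lo2 : (Fin 11 → ℝ) → ℝ} (H2' : StF p ν own w0 R v {3} lam2 lo2)
    (base : BaseZ p ν own w0 R v (fun _ => 1) (rhoF p.θ))
    (lab : LabZ p D I1 (couQ D.B D.lev D.w w0 (incQ π D.L eE fA fB)) V w0 R ν c₀ v) : False := by
  obtain ⟨hκ, h02, hg⟩ := z2_par h hp hη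
  obtain ⟨v2, v3, v4, h01⟩ := hp
  have hθ := h.tp.ok.θ1
  have hq1 := h.tp.ok.g0.2
  have hR0 : 0 ≤ R := by
    obtain ⟨r1, r2, r3⟩ := R1_room h.tp.big
    linarith
  set κ : ℝ := p.θ 1 - p.θ 2 with hκd
  -- the twin points
  set x3 : Fin 11 → ℝ := fun _ => 1 with hx3
  have hb : ∀ i, i ∉ ({3} : Finset (Fin 11)) → rhoF p.θ i = rhoF p.θ i := fun _ _ => rfl
  have hg2 : 0 < (p.g - p.q 2 * κ) / 2 := by linarith
  obtain ⟨z, hz, E, hE, hsl, k, lam', lo', lam1, lo1, kpos, k0, t1, t2, t3, t4, ⟨φ, rt, hO⟩, hPf,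
    S1, x', x1, h', TW⟩ := Tw683.alive H2' (recD_F p.θ {3})
    (rungD_ii hκ (x := x3) one_pos hb) hg2
  obtain ⟨rz, rb⟩ := base lam2 lo2 H2' z hz k lam' lo' kpos k0 t1 t2 x' h' TW.jt' TW.base _ φ rt hO
  -- numbers
  set c : ℝ := min 2 ((p.g - p.q 2 * κ) / 2) with hc
  have c2 : c ≤ 2 := min_le_left _ _
  have c0 : 0 < c := lt_min two_pos hg2
  have hA : -(E (1, 0)) ≤ 4 + κ - c := by
    have h3 : c ≤ (p.g - p.q 2 * κ) / 2 := min_le_right _ _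
    have h4 : DlFL p (TpF κ 1) = p.g - 1 - 1 - (1 + κ) - 1 - p.q 0 * (1 - 1) - p.q 2 * κ :=
      DlF_ray p κ 1
    rw [h4] at hsl
    linarith
  have hL : W7 ⊆ cn (mw monQ) (AF {3}) := fun c hc => Z2n403.mem_W7 hc
  have P : Z2n403.PlZ p.θ κ x3 (rhoF p.θ) := ⟨rfl, hκ, hθ, h01, one_pos, fun _ _ => rfl⟩
  have hTv := Z2n403.T_val κ x3
  obtain ⟨S, hS, hlab⟩ := lab
  obtain ⟨kk, hkk, hk2⟩ := z2_twin hKM (Aw413.nprof_of_ext h.ext hR0)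
    (f := fun n i => scl (uH D.B D.lev w0 n) (uA D.B D.lev D.w w0 n) (uB D.B D.lev D.w w0 n)
      (uY D.B D.lev D.w w0 n) (incQ π D.L eE fA fB n i)) (fun n i _ j _ => rfl) TW hz
    (Z2n403.T_nonneg P) (by rw [hTv]; simp) (by rw [hTv]; simp)
    (splZ_gC h01 hθ.ne' hb hO.toOutS) c0 c2
    (fun y hy => Z2n403.z2_nf P hO.toOutS hL rz rb hA hy)
    (fun y hy => Z2n403.z2_ca H2' hκ one_pos hb hz kpos k0 t1 hq1 hy)
    (fun y hy => Z2n403.z2_fr H2' hb hz kpos k0 t1 t2 hy)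
    (cf := cX κ) (cX_mem hκ.le) (by simp [cX]) (by simp [cX]) (fun i => by
      rw [hTv]
      fin_cases i <;> simp [cX] <;> intro h5 <;> linarith) one_pos (fun _ => S) (fun _ => hS)
    (fun _ => ((0 : ℕ), (0 : ℝ)))
  obtain ⟨B', b1, b2, b3, hW, J2, S2, hJ2, hS2, hd2, hrel⟩ := hk2 kk hkk
    (Eventually.of_forall fun _ => le_rfl)
  obtain ⟨σ, hσ, hσ0⟩ := TW.recx
  have hσ' : ∀ l i, i ≠ 3 → x1 l i = recF p.θ w0 (R - 1) v i + σ l * rhoF p.θ i :=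
    fun l i hi => hσ l i (by simpa using hi)
  have hfin := hkk.eventually (fin_hyp h ⟨v2, v3, v4, h01⟩ h0 h1 hκ TW.jt1 hσ')
  have l0 : lam1 0 = 0 := by
    have := S1.rcd 0
    rwa [zero_smul, zero_mul] at this
  -- the window at the classes of the final step
  have hWr := hW.refine (J' := J2) (Eventually.of_forall hJ2) (hd2.mono fun n h => h.1) hS2
    (hd2.mono fun n h => h.2.1)
  have hWs := hWr.shift (cX_mem hκ.le)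
  refine z2_false h h0 h1 hκ hg TW.jt1 S1.prf l0 hσ0 hkk fun ε hε => ?_
  refine hlab B' J2 (fun n => x1 (kk n)) (fun n => σ (kk n)) (fun n => h' (kk n)) _ _ _ (b3 0)
    hWs hJ2 ⟨S2, hS2, hd2.mono fun n h => h.2.1⟩ (TW.jt1.zero.comp hkk) hfin ?_ ?_ ε hε
  · exact pd_mem hκ.le
  · intro ε' hε'
    filter_upwards [hrel ε' hε'] with n hn i hi
    obtain ⟨μ, hμ, hμ2⟩ := hn i hi
    refine ⟨μ, hμ, fun y hy hl => hμ2 y hy ?_⟩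
    simpa [zlab] using hl

/-- **assembly of Z2** -/
theorem z2_of (hKM : ∀ V : ℝ, Crest.Agent.R138.Tub70.KM32 V)
    (h : Thick η p D I1 π eE fA fB V T w0 R T0 PD ν own c₀)
    (hp : V 2 ∧ ¬ V 3 ∧ ¬ V 4 ∧ p.θ 0 = p.θ 1) (hη : η ≤ 1 / 8) {v : ℝ} (h0 : 0 < v)
    (h1 : v < 1) (F1 : F1Z p ν own w0 R v) (base : BaseZ p ν own w0 R v (fun _ => 1) (rhoF p.θ))
    (lab : LabZ p D I1 (couQ D.B D.lev D.w w0 (incQ π D.L eE fA fB)) V w0 R ν c₀ v) : False := by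
  obtain ⟨hκ, h02, hg⟩ := z2_par h hp hη
  obtain ⟨lam, lo, H⟩ := stage_F h h0 h1 hκ h02 hp.2.1 hp.2.2.1
  obtain ⟨g1, hg1, F1⟩ := F1
  obtain ⟨lam2, lo2, H2⟩ := H.rung (recD_F p.θ ∅) (rungD_i hκ fun _ _ => rfl) hg1
    (F1 lam lo H)
  have H2' : StF p ν own w0 R v {3} lam2 lo2 := by
    have e1 := A2_AF ∅ {3}
    rw [Finset.empty_union] at e1
    rw [e1, ← Finset.coe_union, Finset.empty_union] at H2
    exact H2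
  exact z2_core hKM h hp hη h0 h1 H2' base lab

end Crest.Agent.R136.Z2e403
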