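import Crest.Agent.R136.Z2g_403
import Crest.Agent.R136.LdF7_511

/-!
# R136, case Z2: `BaseZ` from the base row (helper403)
-/

set_option autoImplicit false
set_option linter.unusedVariables false

open Finset Filter Topology

namespace Crest.Agent.R136.Z2e403

open Crest.Agent.R138.Ex926 (Base U)
open Crest.Agent.R136.Net191
open Crest.Agent.R136.NetQ186
open Crest.Agent.R136.NatT550
open Crest.Agent.R136.Top484
open Crest.Agent.R136.LdF3511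

/-- **the rates of `z` and `X_b` on the plane `s = 1`** -/
theorem baseZ {η : ℝ} {p : Par4} {D : Dat4} {I1 : ℕ → Finset (ℕ × ℝ)} {π : Equiv.Perm (Fin 3)}
    {eE fA fB : ℕ → ℕ × ℝ → ℝ} {V T : Fin 11 → Prop} {w0 R T0 : ℝ} {PD : Set (Fin 11 → ℝ)}
    {ν own : (Fin 11 → ℝ) → ℝ} {c₀ : ℝ}
    (h : Thick η p D I1 π eE fA fB V T w0 R T0 PD ν own c₀)
    (hp : V 2 ∧ ¬ V 3 ∧ ¬ V 4 ∧ p.θ 0 = p.θ 1) (hη : η ≤ 1 / 8) {v : ℝ} (h0 : 0 < v)
    (h1 : v < 1) : BaseZ p ν own w0 R v (fun _ => 1) (rhoF p.θ) := by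
  intro lam lo H z hz k lam' lo' kpos k0 H1 H2 x' h' hJT hB AA φ rt hO
  obtain ⟨hκ, -, -⟩ := z2_par h hp hη
  obtain ⟨v2, v3, v4, -⟩ := hp
  obtain ⟨g0, -, g9⟩ := LdF7511.base_F h h0 h1 hκ v2 v3 v4 (by decide)
    (TF_ii hκ (x := fun _ => 1) one_pos).1 (fun _ _ => rfl) H hz kpos k0 H1 H2 hJT hB hO
  exact ⟨g0, g9⟩

end Crest.Agent.R136.Z2e403
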