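import Crest.Agent.R136.Z2h_403
import Crest.Agent.R136.LdF5_683

/-!
# R136, case Z2: only END-LAB is left (helper403)
-/

set_option autoImplicit false
set_option linter.unusedVariables false

open Finset Filter Topology

namespace Crest.Agent.R136.Z2e403

open Crest.Agent.R138.Ex926 (Base U)
open Crest.Agent.R136.Net191
open Crest.Agent.R136.NetQ186
open Crest.Agent.R136.Wq638
open Crest.Agent.R136.NatT550
open Crest.Agent.R136.Top484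
open Crest.Agent.R136.LdF3511

/-- **Z2 from END-LAB** -/
theorem z2_lab (hKM : ∀ V : ℝ, Crest.Agent.R138.Tub70.KM32 V)
    {η : ℝ} {p : Par4} {D : Dat4} {I1 : ℕ → Finset (ℕ × ℝ)} {π : Equiv.Perm (Fin 3)}
    {eE fA fB : ℕ → ℕ × ℝ → ℝ} {V T : Fin 11 → Prop} {w0 R T0 : ℝ} {PD : Set (Fin 11 → ℝ)}
    {ν own : (Fin 11 → ℝ) → ℝ} {c₀ : ℝ}
    (h : Thick η p D I1 π eE fA fB V T w0 R T0 PD ν own c₀)
    (hp : V 2 ∧ ¬ V 3 ∧ ¬ V 4 ∧ p.θ 0 = p.θ 1) (hη : η ≤ 1 / 8) {v : ℝ} (h0 : 0 < v)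
    (h1 : v < 1)
    (lab : LabZ p D I1 (couQ D.B D.lev D.w w0 (incQ π D.L eE fA fB)) V w0 R ν c₀ v) : False := by
  obtain ⟨hκ, h02, -⟩ := z2_par h hp hη
  obtain ⟨lam2, lo2, H2⟩ := LdF5683.stage2_F h hη h0 h1 hκ h02 hp.1 hp.2.1 hp.2.2.1
  exact z2_core hKM h hp hη h0 h1 H2 (baseZ h hp hη h0 h1) lab

end Crest.Agent.R136.Z2e403
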